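import Vale.Agent.P356.PH.Defs
import Vale.Agent.P356.PH.Mat749
import Vale.Agent.P356.PH.Ev
import Mathlib.Analysis.SpecialFunctions.ContinuousFunctionalCalculus.Abs
import Mathlib.Analysis.SpecialFunctions.ContinuousFunctionalCalculus.Rpow.Order
import Mathlib.Analysis.Matrix.Order

/-!
Absolute value of Hermitian matrices: positivity, kernel, locality and Hoelder continuity.
-/

set_option linter.all false

namespace Vale.Agent.P356.GA

open Matrix Finset Vale.Agent.P356 Vale.Agent.P356.SV Vale.Agent.P356.Path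
open scoped BigOperators ComplexOrder Kronecker Matrix.Norms.L2Operator MatrixOrder

section cstar
variable {A : Type*} [CStarAlgebra A] [PartialOrder A] [StarOrderedRing A]

theorem sqrt_le_add (a b : A) (ha : 0 ≤ a) (hb : 0 ≤ b) :
    CFC.sqrt a ≤ CFC.sqrt b + algebraMap ℝ A (Real.sqrt ‖a - b‖) := by
  set e := Real.sqrt ‖a - b‖ with he
  have he0 : 0 ≤ e := Real.sqrt_nonneg _
  have h1 : (0 : A) ≤ algebraMap ℝ A e := by
    rw [Algebra.algebraMap_eq_smul_one]
    exact smul_nonneg he0 zero_le_one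
  have hs : 0 ≤ CFC.sqrt b + algebraMap ℝ A e := add_nonneg (CFC.sqrt_nonneg b) h1
  have hsa : IsSelfAdjoint (a - b) :=
    (IsSelfAdjoint.of_nonneg ha).sub (IsSelfAdjoint.of_nonneg hb)
  have h2 : a - b ≤ algebraMap ℝ A ‖a - b‖ := hsa.le_algebraMap_norm_self
  have h3 : (CFC.sqrt b + algebraMap ℝ A e) * (CFC.sqrt b + algebraMap ℝ A e) =
      b + algebraMap ℝ A ‖a - b‖ + (2 * e) • CFC.sqrt b := by
    have h4 : algebraMap ℝ A e * algebraMap ℝ A e = algebraMap ℝ A ‖a - b‖ := by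
      rw [← map_mul, he, Real.mul_self_sqrt (norm_nonneg _)]
    have h5 : CFC.sqrt b * algebraMap ℝ A e = e • CFC.sqrt b := by
      rw [← Algebra.commutes, Algebra.smul_def]
    have h6 : algebraMap ℝ A e * CFC.sqrt b = e • CFC.sqrt b := by
      rw [Algebra.smul_def]
    rw [add_mul, mul_add, mul_add, CFC.sqrt_mul_sqrt_self b hb, h4, h5, h6, two_mul, add_smul]
    abel
  have h4 : a ≤ (CFC.sqrt b + algebraMap ℝ A e) * (CFC.sqrt b + algebraMap ℝ A e) := by
    rw [h3]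
    have h5 : a ≤ b + algebraMap ℝ A ‖a - b‖ := by
      rw [add_comm]
      exact sub_le_iff_le_add.1 h2
    exact h5.trans (le_add_of_nonneg_right (smul_nonneg (by positivity) (CFC.sqrt_nonneg b)))
  have h5 := CFC.sqrt_le_sqrt _ _ h4
  rwa [CFC.sqrt_mul_self _ hs] at h5

theorem norm_sqrt_sub_le (a b : A) (ha : 0 ≤ a) (hb : 0 ≤ b) :
    ‖CFC.sqrt a - CFC.sqrt b‖ ≤ Real.sqrt ‖a - b‖ := by
  have h1 := sqrt_le_add a b ha hb
  have h2 := sqrt_le_add b a hb ha
  have hsa : IsSelfAdjoint (CFC.sqrt a - CFC.sqrt b) :=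
    (IsSelfAdjoint.of_nonneg (CFC.sqrt_nonneg a)).sub
      (IsSelfAdjoint.of_nonneg (CFC.sqrt_nonneg b))
  rw [norm_sub_rev b a] at h2
  rcases subsingleton_or_nontrivial A with hA | hA
  · rw [Subsingleton.elim (CFC.sqrt a - CFC.sqrt b) 0, norm_zero]
    exact Real.sqrt_nonneg _
  have h3 : CFC.sqrt a - CFC.sqrt b ≤ algebraMap ℝ A (Real.sqrt ‖a - b‖) := by
    rw [sub_le_iff_le_add, add_comm]
    exact h1
  have h4 : algebraMap ℝ A (-Real.sqrt ‖a - b‖) ≤ CFC.sqrt a - CFC.sqrt b := by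
    rw [map_neg, neg_le_sub_iff_le_add]
    exact h2
  rcases CStarAlgebra.norm_or_neg_norm_mem_spectrum hsa with h | h
  · exact (le_algebraMap_iff_spectrum_le hsa).1 h3 _ h
  · have := (algebraMap_le_iff_le_spectrum hsa).1 h4 _ h
    linarith

end cstar

section mat
variable {N : Type*} [Fintype N] [DecidableEq N]

/-- the absolute value of a matrix -/
noncomputable def absM (A : Matrix N N ℂ) : Matrix N N ℂ := CFC.abs A

theorem absM_psd (A : Matrix N N ℂ) : (absM A).PosSemidef :=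
  Matrix.nonneg_iff_posSemidef.1 (CFC.abs_nonneg A)

theorem absM_herm (A : Matrix N N ℂ) : (absM A).IsHermitian := (absM_psd A).isHermitian

theorem absM_mul_self (A : Matrix N N ℂ) : absM A * absM A = Aᴴ * A := CFC.abs_mul_abs A

theorem absM_norm (A : Matrix N N ℂ) : ‖absM A‖ = ‖A‖ := CFC.norm_abs

theorem absM_zero : absM (0 : Matrix N N ℂ) = 0 := CFC.abs_zero

theorem absM_sub_le (A B : Matrix N N ℂ) :
    ‖absM A - absM B‖ ≤ Real.sqrt ‖Aᴴ * A - Bᴴ * B‖ :=
  norm_sqrt_sub_le _ _ (star_mul_self_nonneg A) (star_mul_self_nonneg B)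

theorem absM_sub_le' {A B : Matrix N N ℂ} {c e : ℝ} (hA : ‖A‖ ≤ c) (hB : ‖B‖ ≤ c)
    (he : ‖A - B‖ ≤ e) : ‖absM A - absM B‖ ≤ Real.sqrt (2 * c * e) := by
  refine (absM_sub_le A B).trans (Real.sqrt_le_sqrt ?_)
  have hc : 0 ≤ c := (norm_nonneg A).trans hA
  have he0 : 0 ≤ e := (norm_nonneg _).trans he
  have h1 : Aᴴ * A - Bᴴ * B = Aᴴ * (A - B) + (A - B)ᴴ * B := by
    rw [conjTranspose_sub]
    noncomm_ring
  rw [h1]
  have h2 : ‖Aᴴ * (A - B)‖ ≤ c * e := by
    refine (norm_mul_le _ _).trans ?_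
    rw [Matrix.l2_opNorm_conjTranspose]
    exact mul_le_mul hA he (norm_nonneg _) hc
  have h3 : ‖(A - B)ᴴ * B‖ ≤ e * c := by
    refine (norm_mul_le _ _).trans ?_
    rw [Matrix.l2_opNorm_conjTranspose]
    exact mul_le_mul he hB (norm_nonneg _) he0
  refine (norm_add_le _ _).trans ?_
  linarith

theorem absM_mulVec_eq_zero {A : Matrix N N ℂ} {Ω : N → ℂ} (h : A *ᵥ Ω = 0) :
    absM A *ᵥ Ω = 0 := by
  have h1 : star (absM A *ᵥ Ω) ⬝ᵥ (absM A *ᵥ Ω) = 0 := by
    rw [star_mulVec, (absM_herm A).eq, ← dotProduct_mulVec, mulVec_mulVec, absM_mul_self,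
      ← mulVec_mulVec, h, mulVec_zero, dotProduct_zero]
  exact dotProduct_star_self_eq_zero.1 h1

theorem absM_norm_mulVec_sq (A : Matrix N N ℂ) (u : N → ℂ) :
    star (absM A *ᵥ u) ⬝ᵥ (absM A *ᵥ u) = star (A *ᵥ u) ⬝ᵥ (A *ᵥ u) := by
  rw [star_mulVec, (absM_herm A).eq, ← dotProduct_mulVec, mulVec_mulVec, absM_mul_self,
    star_mulVec, ← dotProduct_mulVec, mulVec_mulVec]

theorem le_absM {A : Matrix N N ℂ} (hA : A.IsHermitian) : (absM A - A).PosSemidef := by
  have hsa : IsSelfAdjoint A := hA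
  have h : CFC.abs A - A = (2 : ℕ) • A⁻ := CFC.abs_sub_self A hsa
  show (CFC.abs A - A).PosSemidef
  rw [h]
  exact Matrix.nonneg_iff_posSemidef.1 (nsmul_nonneg (CFC.negPart_nonneg A) 2)

theorem neg_le_absM {A : Matrix N N ℂ} (hA : A.IsHermitian) : (absM A + A).PosSemidef := by
  have hsa : IsSelfAdjoint A := hA
  have h : CFC.abs A + A = (2 : ℕ) • A⁺ := CFC.abs_add_self A hsa
  show (CFC.abs A + A).PosSemidef
  rw [h]
  exact Matrix.nonneg_iff_posSemidef.1 (nsmul_nonneg (CFC.posPart_nonneg A) 2)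

theorem abs_re_le_absM {A : Matrix N N ℂ} (hA : A.IsHermitian) (u : N → ℂ) :
    |(star u ⬝ᵥ (A *ᵥ u)).re| ≤ (star u ⬝ᵥ (absM A *ᵥ u)).re := by
  have h1 := (le_absM hA).re_dotProduct_nonneg u
  have h2 := (neg_le_absM hA).re_dotProduct_nonneg u
  rw [sub_mulVec, dotProduct_sub] at h1
  rw [add_mulVec, dotProduct_add] at h2
  simp only [map_sub, map_add, RCLike.re_eq_complex_re] at h1 h2
  rw [abs_le]
  constructor <;> linarith

end mat

section acts
variable {V : Type*} [Fintype V] [DecidableEq V] {q : ℕ}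

theorem absM_opOn (S : Finset V) (k : Op {x // x ∈ S} q) :
    absM (opOn S k) = opOn S (absM k) := by
  show CFC.sqrt (star (opOn S k) * opOn S k) = _
  refine CFC.sqrt_unique ?_ ?_
  · rw [← opOn_mul, absM_mul_self, opOn_mul]
    rw [← opOn_conjTranspose]
    rfl
  · rw [Matrix.nonneg_iff_posSemidef]
    have h0 : (0 : Op {x // x ∈ S} q) ≤ absM k := CFC.abs_nonneg k
    have h1 := CFC.sqrt_mul_sqrt_self (absM k) h0
    have h2 : (CFC.sqrt (absM k)).IsHermitian :=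
      (Matrix.nonneg_iff_posSemidef.1 (CFC.sqrt_nonneg (absM k))).isHermitian
    rw [← h1, opOn_mul]
    have h3 : opOn S (CFC.sqrt (absM k)) = (opOn S (CFC.sqrt (absM k)))ᴴ := by
      rw [opOn_conjTranspose, h2.eq]
    nth_rw 1 [h3]
    exact Matrix.posSemidef_conjTranspose_mul_self _

theorem absM_actsOn {S : Finset V} {A : Op V q} (hA : ActsOn S A) : ActsOn S (absM A) := by
  obtain ⟨k, rfl⟩ := PH.ph_acts_iff.1 hA
  rw [absM_opOn]
  exact PH.ph_acts_opOn S _

end acts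

end Vale.Agent.P356.GA
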