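import Vale.Agent.P356.SA.Defs

/-!
# P356, GA: conditional entropies of single sites (step 5, deterministic part)

For an entropy function of a pure state: `ce S x C = S(x | C)`; the conditional mutual information
`I(a : F | N)` is at most the sum over the sites `x` of `a` of `S(x | C_x) + S(x | C'_x)`, where
`C_x`, `C'_x` are the predecessors and the successors of `x` in a neighbourhood; the sum of all these
terms is at most twice the sum of the entropies of the tiles.
-/

namespace Vale.Agent.P356.GA

open Finset Vale.Agent.P356 Vale.Agent.P356.SA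
open scoped BigOperators

variable {V : Type*} [DecidableEq V]

/-- conditional entropy of the site `x` given `C` -/
def ce (S : Finset V → ℝ) (x : V) (C : Finset V) : ℝ := S (insert x C) - S C

/-- conditional mutual information `I(A : F | N)` -/
def cmiE (S : Finset V → ℝ) (A F N : Finset V) : ℝ :=
  (S (A ∪ N) - S N) - (S (A ∪ (N ∪ F)) - S (N ∪ F))

variable [Fintype V] {S : Finset V → ℝ}

theorem ce_anti (hS : EntLike S) {x : V} {C C' : Finset V} (h : C ⊆ C') (hx : x ∉ C') :
    ce S x C' ≤ ce S x C := by
  have h1 := hS.ssa {x} C (C' \ C) (by simpa using fun h' => hx (h h'))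
    (by simp [hx]) disjoint_sdiff
  have e1 : ({x} : Finset V) ∪ C ∪ (C' \ C) = insert x C' := by
    rw [Finset.union_assoc, union_sdiff_of_subset h]
    rfl
  have e2 : ({x} : Finset V) ∪ C = insert x C := rfl
  rw [e1, e2, union_sdiff_of_subset h] at h1
  unfold ce
  linarith

theorem ce_dual (hS : EntLike S) {x : V} {C : Finset V} (hx : x ∉ C) :
    ce S x (insert x C)ᶜ = - ce S x C := by
  have e : insert x (insert x C)ᶜ = Cᶜ := by
    ext y
    simp only [mem_insert, mem_compl, not_or]
    constructor
    · rintro (rfl | h)
      · exact hx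
      · exact h.2
    · intro h
      by_cases hy : y = x
      · exact Or.inl hy
      · exact Or.inr ⟨hy, h⟩
  unfold ce
  rw [e, hS.compl, hS.compl]
  ring

/-- one site: `I(x : F | N) ≤ S(x | C) + S(x | C')` -/
theorem ce_sub_le (hS : EntLike S) {x : V} {N F C C' : Finset V} (hN : x ∉ N ∪ F) (hC : C ⊆ N)
    (hC' : Disjoint C' (insert x (N ∪ F))) :
    ce S x N - ce S x (N ∪ F) ≤ ce S x C + ce S x C' := by
  have h1 := ce_anti hS hC (fun h => hN (mem_union_left _ h))
  have h2 := ce_dual hS hN
  have hsub : C' ⊆ (insert x (N ∪ F))ᶜ := fun y hy => by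
    rw [mem_compl]
    exact fun h => Finset.disjoint_left.1 hC' hy h
  have h3 := ce_anti hS hsub (x := x) (by
    rw [mem_compl, not_not]
    exact mem_insert_self x _)
  linarith

/-- non-negativity of the sum of the two conditional entropies -/
theorem ce_add_nonneg (hS : EntLike S) {x : V} {C C' : Finset V} (hx : x ∉ C)
    (hC' : Disjoint C' (insert x C)) : 0 ≤ ce S x C + ce S x C' := by
  have h := ce_sub_le hS (x := x) (N := C) (F := ∅) (C := C) (C' := C') (by simpa using hx)
    subset_rfl (by simpa using hC')
  simpa using h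

section order

variable {ι : Type*} [LinearOrder ι] (T : V → ι)

/-- the sites of `A` below `x` -/
def below (A : Finset V) (x : V) : Finset V := A.filter fun y => T y < T x

/-- the sites of `A` above `x` -/
def above (A : Finset V) (x : V) : Finset V := A.filter fun y => T x < T y

omit [Fintype V] [DecidableEq V] in
theorem notMem_below (A : Finset V) (x : V) : x ∉ below T A x := by
  simp [below]

omit [Fintype V] [DecidableEq V] in
theorem notMem_above (A : Finset V) (x : V) : x ∉ above T A x := by
  simp [above]

omit [Fintype V] in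
theorem disjoint_below_above (A B : Finset V) (x : V) : Disjoint (above T B x)
    (insert x (below T A x)) := by
  rw [Finset.disjoint_left]
  intro y hy hy'
  simp only [above, mem_filter] at hy
  rw [mem_insert] at hy'
  rcases hy' with rfl | hy'
  · exact lt_irrefl _ hy.2
  · simp only [below, mem_filter] at hy'
    exact lt_asymm hy.2 hy'.2

variable {T}

omit [Fintype V] in
/-- chain rule, from below -/
theorem chain_below (hT : Function.Injective T) (S : Finset V → ℝ) (A N : Finset V) :
    S (A ∪ N) - S N = ∑ x ∈ A, ce S x (below T A x ∪ N) := by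
  induction A using Finset.induction_on_max_value T with
  | empty => simp
  | insert a s ha hmax ih =>
    rw [Finset.sum_insert ha]
    have hlt : ∀ x ∈ s, T x < T a := fun x hx =>
      lt_of_le_of_ne (hmax x hx) fun h => ha (hT h ▸ hx)
    have e1 : below T (insert a s) a = s := by
      ext y
      simp only [below, mem_filter, mem_insert]
      constructor
      · rintro ⟨rfl | h, h2⟩
        · exact absurd h2 (lt_irrefl _)
        · exact h
      · exact fun h => ⟨Or.inr h, hlt y h⟩
    have e2 : ∀ x ∈ s, below T (insert a s) x = below T s x := by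
      intro x hx
      ext y
      simp only [below, mem_filter, mem_insert]
      constructor
      · rintro ⟨rfl | h, h2⟩
        · exact absurd h2 (not_lt.2 (hlt x hx).le)
        · exact ⟨h, h2⟩
      · exact fun h => ⟨Or.inr h.1, h.2⟩
    rw [e1, Finset.sum_congr rfl fun x hx => by rw [e2 x hx], ← ih]
    unfold ce
    rw [insert_union]
    ring

omit [Fintype V] in
/-- chain rule, from above -/
theorem chain_above (hT : Function.Injective T) (S : Finset V → ℝ) (A N : Finset V) :
    S (A ∪ N) - S N = ∑ x ∈ A, ce S x (above T A x ∪ N) :=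
  chain_below (T := fun x => OrderDual.toDual (T x)) (fun _ _ h => hT h) S A N

/-- **conditional mutual information of a patch**: for every order of the sites, if the
neighbourhoods `C x`, `C' x` of `x` are on the right side, then
`I(A : F | N) ≤ ∑ S(x | C x) + S(x | C' x)` -/
theorem cmi_le (hT : Function.Injective T) (hS : EntLike S) {A N F : Finset V}
    (hAN : Disjoint A (N ∪ F)) {C C' : V → Finset V}
    (hC : ∀ x ∈ A, C x ⊆ below T A x ∪ N)
    (hC' : ∀ x ∈ A, Disjoint (C' x) (insert x (below T A x ∪ (N ∪ F)))) :
    cmiE S A F N ≤ ∑ x ∈ A, (ce S x (C x) + ce S x (C' x)) := by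
  unfold cmiE
  rw [chain_below hT S A N, chain_below hT S A (N ∪ F), ← Finset.sum_sub_distrib]
  refine Finset.sum_le_sum fun x hx => ?_
  rw [← Finset.union_assoc]
  refine ce_sub_le hS ?_ (hC x hx) (by rw [Finset.union_assoc]; exact hC' x hx)
  rw [Finset.union_assoc, mem_union, not_or]
  exact ⟨notMem_below T A x, fun h => Finset.disjoint_left.1 hAN hx h⟩

/-- the form for a level set `out`, a core `c` and a window `W` (with neighbourhoods `Nb`):
`C_i = N₂ ∪ earlier`, `C'_i = (W \ out) ∪ later` -/
theorem cmi_le_window (hT : Function.Injective T) (hS : EntLike S) {out W c : Finset V}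
    (hc : c ⊆ W) (Nb : V → Finset V) :
    cmiE S (out ∩ c) (out \ W) (out ∩ (W \ c)) ≤ ∑ i ∈ out ∩ c,
      (ce S i ((below T (out ∩ c) i ∪ out ∩ (W \ c)) ∩ Nb i) +
        ce S i ((above T (out ∩ c) i ∪ W \ out) ∩ Nb i)) := by
  refine cmi_le hT hS ?_ (fun x _ => inter_subset_left) fun x hx => ?_
  · rw [Finset.disjoint_left]
    intro y h1 h2
    rw [mem_inter] at h1
    rcases mem_union.1 h2 with h2 | h2
    · exact (mem_sdiff.1 (mem_inter.1 h2).2).2 h1.2
    · exact (mem_sdiff.1 h2).2 (hc h1.2)
  · rw [Finset.disjoint_left]
    intro y h1 h2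
    have h1' := (mem_inter.1 h1).1
    have hxo := (mem_inter.1 hx).1
    rcases mem_insert.1 h2 with rfl | h2
    · rcases mem_union.1 h1' with h | h
      · exact notMem_above T _ _ h
      · exact (mem_sdiff.1 h).2 hxo
    · rcases mem_union.1 h2 with h2 | h2
      · rcases mem_union.1 h1' with h | h
        · exact Finset.disjoint_left.1 (disjoint_below_above T (out ∩ c) (out ∩ c) x) h
            (mem_insert_of_mem h2)
        · exact (mem_sdiff.1 h).2 (mem_inter.1 (mem_filter.1 h2).1).1
      · have hyo : y ∈ out := by
          rcases mem_union.1 h2 with h2 | h2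
          · exact (mem_inter.1 h2).1
          · exact (mem_sdiff.1 h2).1
        rcases mem_union.1 h1' with h | h
        · have hyc := (mem_inter.1 (mem_filter.1 h).1).2
          rcases mem_union.1 h2 with h2 | h2
          · exact (mem_sdiff.1 (mem_inter.1 h2).2).2 hyc
          · exact (mem_sdiff.1 h2).2 (hc hyc)
        · exact (mem_sdiff.1 h).2 hyo

/-- the terms of a tile -/
theorem tile_le (hT : Function.Injective T) (hS : EntLike S) (t : Finset V) {B : V → Finset V}
    (hB : ∀ x ∈ t, t ⊆ B x) :
    ∑ x ∈ t, (ce S x (below T (B x) x) + ce S x (above T (B x) x)) ≤ 2 * S t := by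
  have h1 := chain_below hT S t ∅
  have h2 := chain_above hT S t ∅
  simp only [union_empty, hS.empty, sub_zero] at h1 h2
  have h3 : ∑ x ∈ t, (ce S x (below T (B x) x) + ce S x (above T (B x) x)) ≤
      ∑ x ∈ t, (ce S x (below T t x) + ce S x (above T t x)) := by
    refine Finset.sum_le_sum fun x hx => add_le_add ?_ ?_
    · exact ce_anti hS (filter_subset_filter _ (hB x hx)) (notMem_below T _ x)
    · exact ce_anti hS (filter_subset_filter _ (hB x hx)) (notMem_above T _ x)
  have h4 : ∑ x ∈ t, (ce S x (below T t x) + ce S x (above T t x)) = S t + S t := by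
    rw [Finset.sum_add_distrib, ← h1, ← h2]
  linarith

/-- all the tiles -/
theorem tiles_le (hT : Function.Injective T) (hS : EntLike S) {J : Type*} (s : Finset J)
    (t : J → Finset V) (hd : ∀ i ∈ s, ∀ j ∈ s, i ≠ j → Disjoint (t i) (t j)) {B : V → Finset V}
    (hB : ∀ i ∈ s, ∀ x ∈ t i, t i ⊆ B x) :
    ∑ x ∈ s.biUnion t, (ce S x (below T (B x) x) + ce S x (above T (B x) x)) ≤
      2 * ∑ i ∈ s, S (t i) := by
  rw [Finset.sum_biUnion fun i hi j hj hij => hd i hi j hj hij, Finset.mul_sum]
  exact Finset.sum_le_sum fun i hi => tile_le hT hS (t i) (hB i hi)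

end order

/-! ### blocks instead of sites -/

section blocks

variable {I : Type*} [Fintype I] [DecidableEq I]

/-- the union of the blocks with index in `C` -/
def blk (β : V → I) (C : Finset I) : Finset V := univ.filter fun x => β x ∈ C

omit [DecidableEq V] [Fintype I] in
theorem mem_blk {β : V → I} {C : Finset I} {x : V} : x ∈ blk β C ↔ β x ∈ C := by
  simp [blk]

omit [Fintype I] in
theorem blk_union (β : V → I) (C D : Finset I) : blk β (C ∪ D) = blk β C ∪ blk β D := by
  ext x
  simp [mem_blk]

/-- the entropy as a function of the set of blocks -/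
theorem entLike_blk (hS : EntLike S) (β : V → I) : EntLike fun C : Finset I => S (blk β C) where
  empty := by
    have : blk β ∅ = ∅ := by ext x; simp [mem_blk]
    rw [this, hS.empty]
  nonneg C := hS.nonneg _
  compl C := by
    have : blk β Cᶜ = (blk β C)ᶜ := by ext x; simp [mem_blk]
    rw [this, hS.compl]
  ssa A B D hAB hAD hBD := by
    simp only [blk_union]
    refine hS.ssa _ _ _ ?_ ?_ ?_
    all_goals
      rw [Finset.disjoint_left]
      intro x h1 h2
      rw [mem_blk] at h1 h2
    · exact Finset.disjoint_left.1 hAB h1 h2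
    · exact Finset.disjoint_left.1 hAD h1 h2
    · exact Finset.disjoint_left.1 hBD h1 h2

omit [Fintype I] in
/-- the conditional mutual information of unions of blocks -/
theorem cmi_blk (β : V → I) (A F N : Finset I) :
    cmiE (fun C => S (blk β C)) A F N = cmiE S (blk β A) (blk β F) (blk β N) := by
  unfold cmiE
  simp only [blk_union]

end blocks

end Vale.Agent.P356.GA
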