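import Vale.Agent.P356.GA.Cuts103
import Vale.Agent.P356.GA.Markov795

/-!
GA, block CUTS, part 2: the average over the labels of the Markov errors at all levels.
The blocks `i : I` have heights `T i = K * row i + ξ i`; the level sets are `{i | s < T i}`.
For a core `c` and a window `W` the error `cutErr` dominates every conditional mutual information
of a region which agrees with the level set (or with its complement) on `W \ c`.
-/

set_option linter.all false

namespace Vale.Agent.P356.GA.Cut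

open Finset Vale.Agent.P356 Vale.Agent.P356.SA Vale.Agent.P356.GA
open scoped BigOperators

section defs

variable {I : Type*} [Fintype I] [DecidableEq I]

/-- the height of the block `i` -/
def ht (K : ℤ) (row ξ : I → ℤ) (i : I) : ℤ := K * row i + ξ i

/-- blocks above level `s` -/
def up (T : I → ℤ) (s : ℤ) : Finset I := univ.filter fun i => s < T i

/-- no block of `W` outside `c` has height `s` -/
def Off (T : I → ℤ) (s : ℤ) (W c : Finset I) : Prop := ∀ j ∈ W \ c, T j ≠ s

instance (T : I → ℤ) (s : ℤ) (W c : Finset I) : Decidable (Off T s W c) := by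
  unfold Off; infer_instance

/-- the error at the block `i` if `A` is the set of blocks of the core above the level -/
noncomputable def dpat (S : Finset I → ℝ) (Nb : I → Finset I) (out W c : Finset I) (i : I)
    (A : Finset I) : ℝ :=
  ce S i ((A ∪ (out ∩ (W \ c))) ∩ Nb i) +
    ce S i (((c.erase i \ A) ∪ ((W \ c) \ out)) ∩ Nb i)

/-- the error of the core `c` in the window `W` at the level set `out` -/
noncomputable def cutErr (S : Finset I → ℝ) (Nb : I → Finset I) (out W c : Finset I) : ℝ :=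
  ∑ i ∈ c, ∑ A ∈ (c.erase i).powerset, dpat S Nb out W c i A

/-- total order of the blocks -/
def lx (e : I → ℕ) (T : I → ℤ) (i : I) : ℤ ×ₗ ℕ := toLex (T i, e i)

/-- the error at the block `i` -/
noncomputable def dlt (S : Finset I → ℝ) (Nb : I → Finset I) (e : I → ℕ) (T : I → ℤ) (i : I) : ℝ :=
  ce S i (below (lx e T) (Nb i) i) + ce S i (above (lx e T) (Nb i) i)

/-- the core has the pattern `A` at the block `i` and the level `s` -/
def patt (T : I → ℤ) (s : ℤ) (c : Finset I) (i : I) (A : Finset I) : Prop :=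
  T i = s ∧ (∀ j ∈ A, s < T j) ∧ ∀ j ∈ c.erase i \ A, T j < s

instance (T : I → ℤ) (s : ℤ) (c : Finset I) (i : I) (A : Finset I) :
    Decidable (patt T s c i A) := by
  unfold patt; infer_instance

end defs

variable {I : Type*} [Fintype I] [DecidableEq I]
variable {lv : Finset ℤ} {p : ℤ → ℝ}

theorem lx_injective {e : I → ℕ} (he : Function.Injective e) (T : I → ℤ) :
    Function.Injective (lx e T) := by
  intro i j h
  have : (T i, e i) = (T j, e j) := toLex.injective h
  exact he (Prod.ext_iff.1 this).2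

theorem lx_lt {e : I → ℕ} {T : I → ℤ} {i j : I} :
    lx e T i < lx e T j ↔ T i < T j ∨ (T i = T j ∧ e i < e j) := by
  unfold lx
  rw [Prod.Lex.toLex_lt_toLex]

/-- one pattern against no pattern -/
theorem pat_avg (hp : ∀ j, 0 ≤ p j) (h1 : ∑ j ∈ lv, p j = 1) {K : ℤ} {row : I → ℤ} {s : ℤ}
    {c : Finset I} {κ₁ κ₂ : ℝ} (hκ1 : ∀ j ∈ c, 1 ≤ κ₁ * Pr lv p (fun v => K * row j + v = s))
    (hκ2 : ∀ j ∈ c, 1 ≤ κ₂ * Pr lv p (fun v => s < K * row j + v))
    (hκ3 : ∀ j ∈ c, 1 ≤ κ₂ * Pr lv p (fun v => K * row j + v < s))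
    {i : I} (hi : i ∈ c) {A : Finset I} (hA : A ⊆ c.erase i) (g : (I → ℤ) → ℝ)
    (hg0 : ∀ ξ, 0 ≤ g ξ) (hg : ∀ j ∈ c, ∀ ξ v, g (Function.update ξ j v) = g ξ) :
    Ex lv p g ≤ κ₁ * κ₂ ^ (c.card - 1) *
      Ex lv p (fun ξ => (if patt (ht K row ξ) s c i A then (1 : ℝ) else 0) * g ξ) := by
  set ev : I → ℤ → Prop := fun j v =>
    if j = i then K * row j + v = s else if j ∈ A then s < K * row j + v
      else K * row j + v < s with hev
  haveI : ∀ j, DecidablePred (ev j) := fun j v => by
    simp only [hev]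
    infer_instance
  have hprod : ∀ ξ : I → ℤ, (∏ j ∈ c, (if ev j (ξ j) then (1 : ℝ) else 0)) =
      if patt (ht K row ξ) s c i A then 1 else 0 := by
    intro ξ
    have hiff : (∀ j ∈ c, ev j (ξ j)) ↔ patt (ht K row ξ) s c i A := by
      unfold patt ht
      constructor
      · intro h
        refine ⟨?_, ?_, ?_⟩
        · have := h i hi
          simp only [hev, if_pos rfl] at this
          exact this
        · intro j hj
          have hj' := hA hj
          have := h j (Finset.mem_of_mem_erase hj')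
          simp only [hev, if_neg (Finset.ne_of_mem_erase hj'), if_pos hj] at this
          exact this
        · intro j hj
          rw [mem_sdiff] at hj
          have := h j (Finset.mem_of_mem_erase hj.1)
          simp only [hev, if_neg (Finset.ne_of_mem_erase hj.1), if_neg hj.2] at this
          exact this
      · rintro ⟨h1, h2, h3⟩ j hj
        simp only [hev]
        by_cases hji : j = i
        · rw [if_pos hji]; subst hji; exact h1
        · rw [if_neg hji]
          by_cases hjA : j ∈ A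
          · rw [if_pos hjA]; exact h2 j hjA
          · rw [if_neg hjA]
            exact h3 j (mem_sdiff.2 ⟨Finset.mem_erase.2 ⟨hji, hj⟩, hjA⟩)
    by_cases h : patt (ht K row ξ) s c i A
    · rw [if_pos h]
      refine Finset.prod_eq_one fun j hj => ?_
      rw [if_pos (hiff.2 h j hj)]
    · rw [if_neg h]
      have : ∃ j ∈ c, ¬ ev j (ξ j) := by
        by_contra hc
        push Not at hc
        exact h (hiff.1 hc)
      obtain ⟨j, hj, hne⟩ := this
      exact Finset.prod_eq_zero hj (if_neg hne)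
  have hind := Ex_ind h1 c ev g hg
  simp only [hprod] at hind
  rw [hind]
  have hE : 0 ≤ Ex lv p g := Ex_nonneg hp fun ξ _ => hg0 ξ
  have hone : 1 ≤ κ₁ * κ₂ ^ (c.card - 1) * ∏ j ∈ c, Pr lv p (ev j) := by
    have e1 : ∏ j ∈ c, Pr lv p (ev j) = Pr lv p (ev i) * ∏ j ∈ c.erase i, Pr lv p (ev j) :=
      (Finset.mul_prod_erase _ _ hi).symm
    have e2 : κ₂ ^ (c.card - 1) * ∏ j ∈ c.erase i, Pr lv p (ev j) =
        ∏ j ∈ c.erase i, (κ₂ * Pr lv p (ev j)) := by
      rw [Finset.prod_mul_distrib, Finset.prod_const, Finset.card_erase_of_mem hi]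
    have e3 : 1 ≤ κ₁ * Pr lv p (ev i) := by
      have : Pr lv p (ev i) = Pr lv p (fun v => K * row i + v = s) := by
        unfold Pr
        congr 1
        refine Finset.filter_congr fun v _ => ?_
        simp only [hev, if_pos rfl]
      rw [this]
      exact hκ1 i hi
    have e4 : (1 : ℝ) ≤ ∏ j ∈ c.erase i, (κ₂ * Pr lv p (ev j)) := by
      have : ∏ j ∈ c.erase i, (1 : ℝ) ≤ ∏ j ∈ c.erase i, (κ₂ * Pr lv p (ev j)) := by
        refine Finset.prod_le_prod (fun j _ => zero_le_one) fun j hj => ?_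
        have hji := Finset.ne_of_mem_erase hj
        have hjc := Finset.mem_of_mem_erase hj
        by_cases hjA : j ∈ A
        · have : Pr lv p (ev j) = Pr lv p (fun v => s < K * row j + v) := by
            unfold Pr
            congr 1
            refine Finset.filter_congr fun v _ => ?_
            simp only [hev, if_neg hji, if_pos hjA]
          rw [this]
          exact hκ2 j hjc
        · have : Pr lv p (ev j) = Pr lv p (fun v => K * row j + v < s) := by
            unfold Pr
            congr 1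
            refine Finset.filter_congr fun v _ => ?_
            simp only [hev, if_neg hji, if_neg hjA]
          rw [this]
          exact hκ3 j hjc
      rwa [Finset.prod_const_one] at this
    calc (1 : ℝ) = 1 * 1 := (one_mul 1).symm
      _ ≤ (κ₁ * Pr lv p (ev i)) * ∏ j ∈ c.erase i, (κ₂ * Pr lv p (ev j)) :=
          mul_le_mul e3 e4 zero_le_one (le_trans zero_le_one e3)
      _ = κ₁ * κ₂ ^ (c.card - 1) * ∏ j ∈ c, Pr lv p (ev j) := by
          rw [e1, ← e2]; ring
  calc Ex lv p g = 1 * Ex lv p g := (one_mul _).symm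
    _ ≤ (κ₁ * κ₂ ^ (c.card - 1) * ∏ j ∈ c, Pr lv p (ev j)) * Ex lv p g :=
        mul_le_mul_of_nonneg_right hone hE
    _ = _ := by ring

/-- two different patterns exclude each other -/
theorem patt_unique {T : I → ℤ} {s : ℤ} {c : Finset I} {i : I} {A B : Finset I}
    (hA : A ⊆ c.erase i) (hB : B ⊆ c.erase i) (h : patt T s c i A) (h' : patt T s c i B) :
    A = B := by
  have key : ∀ {A B : Finset I}, A ⊆ c.erase i → patt T s c i A → patt T s c i B → A ⊆ B := by
    intro A B hA h h' j hj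
    by_contra hn
    have h1 := h.2.1 j hj
    have h2 := h'.2.2 j (mem_sdiff.2 ⟨hA hj, hn⟩)
    exact lt_asymm h1 h2
  exact Subset.antisymm (key hA h h') (key hB h' h)

/-- at most one pattern -/
theorem sum_patt_le {T : I → ℤ} {s : ℤ} {c : Finset I} {i : I} {x : ℝ} (hx : 0 ≤ x) :
    ∑ A ∈ (c.erase i).powerset, (if patt T s c i A then (1 : ℝ) else 0) * x ≤
      (if T i = s then 1 else 0) * x := by
  by_cases h : ∃ A ∈ (c.erase i).powerset, patt T s c i A
  · obtain ⟨A, hA, hpA⟩ := h
    rw [Finset.sum_eq_single A]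
    · rw [if_pos hpA, if_pos hpA.1]
    · intro B hB hBA
      rw [if_neg, zero_mul]
      exact fun h => hBA (patt_unique (mem_powerset.1 hB) (mem_powerset.1 hA) h hpA)
    · exact fun h => absurd hA h
  · push Not at h
    rw [Finset.sum_eq_zero]
    · split_ifs <;> simp [hx]
    · intro A hA
      rw [if_neg (h A hA), zero_mul]

variable {S : Finset I → ℝ}

/-- on the pattern, off level, the errors agree -/
theorem dpat_eq {Nb : I → Finset I} {e : I → ℕ} {T : I → ℤ} {s : ℤ} {W c : Finset I} {i : I}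
    (hi : i ∈ c) (hc : c ⊆ W) (hNb : Nb i ⊆ W) {A : Finset I} (hA : A ⊆ c.erase i)
    (hoff : Off T s W c) (h : patt T s c i A) :
    dpat S Nb (up T s) W c i A = dlt S Nb e T i := by
  have ea : above (lx e T) (Nb i) i = (A ∪ (up T s ∩ (W \ c))) ∩ Nb i := by
    ext j
    simp only [above, mem_filter, mem_inter, mem_union, up, mem_univ, true_and, lx_lt, h.1]
    constructor
    · rintro ⟨hj, hlt⟩
      refine ⟨?_, hj⟩
      by_cases hjc : j ∈ c
      · left
        by_contra hn
        rcases hlt with hlt | ⟨heq, hlt⟩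
        · have hji : j ≠ i := fun hji => by subst hji; rw [h.1] at hlt; exact lt_irrefl _ hlt
          exact lt_asymm hlt (h.2.2 j (mem_sdiff.2 ⟨mem_erase.2 ⟨hji, hjc⟩, hn⟩))
        · have hji : j ≠ i := fun hji => by subst hji; exact lt_irrefl _ hlt
          have := h.2.2 j (mem_sdiff.2 ⟨mem_erase.2 ⟨hji, hjc⟩, hn⟩)
          rw [← heq] at this
          exact lt_irrefl _ this
      · right
        have hjW : j ∈ W \ c := mem_sdiff.2 ⟨hNb hj, hjc⟩
        refine ⟨?_, hjW⟩
        rcases hlt with hlt | ⟨heq, hlt⟩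
        · exact hlt
        · exact absurd heq.symm (hoff j hjW)
    · rintro ⟨h1 | h1, hj⟩
      · exact ⟨hj, Or.inl (h.2.1 j h1)⟩
      · exact ⟨hj, Or.inl h1.1⟩
  have eb : below (lx e T) (Nb i) i = ((c.erase i \ A) ∪ ((W \ c) \ up T s)) ∩ Nb i := by
    ext j
    simp only [below, mem_filter, mem_inter, mem_union, up, mem_univ, true_and, lx_lt, h.1,
      mem_sdiff (t := A), mem_sdiff (s := W \ c), not_lt]
    constructor
    · rintro ⟨hj, hlt⟩
      refine ⟨?_, hj⟩
      by_cases hjc : j ∈ c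
      · left
        have hji : j ≠ i := by
          rintro rfl
          rcases hlt with hlt | ⟨heq, hlt⟩
          · rw [h.1] at hlt; exact lt_irrefl _ hlt
          · exact lt_irrefl _ hlt
        refine ⟨mem_erase.2 ⟨hji, hjc⟩, ?_⟩
        intro hn
        have := h.2.1 j hn
        rcases hlt with hlt | ⟨heq, hlt⟩
        · exact lt_asymm this hlt
        · rw [heq] at this; exact lt_irrefl _ this
      · right
        have hjW : j ∈ W \ c := mem_sdiff.2 ⟨hNb hj, hjc⟩
        refine ⟨hjW, ?_⟩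
        rcases hlt with hlt | ⟨heq, hlt⟩
        · exact hlt.le
        · exact heq.le
    · rintro ⟨h1 | h1, hj⟩
      · exact ⟨hj, Or.inl (h.2.2 j (mem_sdiff.2 h1))⟩
      · exact ⟨hj, Or.inl (lt_of_le_of_ne h1.2 (hoff j h1.1))⟩
  unfold dpat dlt
  rw [ea, eb, add_comm]


theorem dpat_nonneg (hS : EntLike S) {Nb : I → Finset I} {out W c : Finset I} {i : I}
    (hi : i ∈ c) {A : Finset I} (hA : A ⊆ c.erase i) : 0 ≤ dpat S Nb out W c i A := by
  unfold dpat
  refine ce_add_nonneg hS ?_ ?_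
  · rw [mem_inter, mem_union, mem_inter, mem_sdiff]
    rintro ⟨h | h, -⟩
    · exact (mem_erase.1 (hA h)).1 rfl
    · exact h.2.2 hi
  · rw [Finset.disjoint_left]
    intro j hj hj'
    rw [mem_inter, mem_union, mem_sdiff, mem_sdiff, mem_sdiff] at hj
    rw [mem_insert, mem_inter, mem_union, mem_inter, mem_sdiff] at hj'
    rcases hj' with rfl | ⟨h | h, -⟩
    · rcases hj.1 with h | h
      · exact (mem_erase.1 h.1).1 rfl
      · exact h.1.2 hi
    · rcases hj.1 with h' | h'
      · exact h'.2 h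
      · exact h'.1.2 (mem_of_mem_erase (hA h))
    · rcases hj.1 with h' | h'
      · exact h.2.2 (mem_of_mem_erase h'.1)
      · exact h'.2 h.1

theorem cutErr_nonneg (hS : EntLike S) (Nb : I → Finset I) (out W c : Finset I) :
    0 ≤ cutErr S Nb out W c :=
  Finset.sum_nonneg fun i hi => Finset.sum_nonneg fun A hA =>
    dpat_nonneg hS hi (mem_powerset.1 hA)

theorem dlt_nonneg (hS : EntLike S) (Nb : I → Finset I) (e : I → ℕ) (T : I → ℤ) (i : I) :
    0 ≤ dlt S Nb e T i :=
  ce_add_nonneg hS (notMem_below (lx e T) (Nb i) i)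
    (disjoint_below_above (lx e T) (Nb i) (Nb i) i)

omit [Fintype I] in
theorem ht_update_of_ne {K : ℤ} {row ξ : I → ℤ} {i j : I} (h : j ≠ i) (v : ℤ) :
    ht K row (Function.update ξ i v) j = ht K row ξ j := by
  unfold ht
  rw [Function.update_of_ne h]

/-- **the average of the error of one core at one level** -/
theorem cutErr_avg (hS : EntLike S) (hp : ∀ j, 0 ≤ p j) (h1 : ∑ j ∈ lv, p j = 1) {K : ℤ}
    {row : I → ℤ} {s : ℤ} {W c : Finset I} {κ₁ κ₂ : ℝ} (hκ₁ : 0 ≤ κ₁) (hκ₂ : 0 ≤ κ₂)
    (hκ1 : ∀ j ∈ c, 1 ≤ κ₁ * Pr lv p (fun v => K * row j + v = s))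
    (hκ2 : ∀ j ∈ c, 1 ≤ κ₂ * Pr lv p (fun v => s < K * row j + v))
    (hκ3 : ∀ j ∈ c, 1 ≤ κ₂ * Pr lv p (fun v => K * row j + v < s))
    {Nb : I → Finset I} (e : I → ℕ) (hc : c ⊆ W) (hNb : ∀ i ∈ c, Nb i ⊆ W) :
    Ex lv p (fun ξ => (if Off (ht K row ξ) s W c then (1 : ℝ) else 0) *
      cutErr S Nb (up (ht K row ξ) s) W c) ≤ κ₁ * κ₂ ^ (c.card - 1) *
      ∑ i ∈ c, Ex lv p (fun ξ => (if ht K row ξ i = s then (1 : ℝ) else 0) *
        dlt S Nb e (ht K row ξ) i) := by
  have hoffu : ∀ j ∈ c, ∀ (ξ : I → ℤ) (v : ℤ),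
      Off (ht K row (Function.update ξ j v)) s W c ↔ Off (ht K row ξ) s W c := by
    intro j hj ξ v
    unfold Off
    refine forall_congr' fun k => ?_
    refine forall_congr' fun hk => ?_
    rw [ht_update_of_ne]
    rintro rfl
    exact (mem_sdiff.1 hk).2 hj
  have hupu : ∀ j ∈ c, ∀ (ξ : I → ℤ) (v : ℤ),
      up (ht K row (Function.update ξ j v)) s ∩ (W \ c) = up (ht K row ξ) s ∩ (W \ c) := by
    intro j hj ξ v
    ext k
    simp only [up, mem_inter, mem_filter, mem_univ, true_and]
    refine and_congr_left fun hk => ?_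
    rw [ht_update_of_ne]
    rintro rfl
    exact (mem_sdiff.1 hk).2 hj
  have hupu' : ∀ j ∈ c, ∀ (ξ : I → ℤ) (v : ℤ),
      (W \ c) \ up (ht K row (Function.update ξ j v)) s = (W \ c) \ up (ht K row ξ) s := by
    intro j hj ξ v
    ext k
    simp only [up, mem_sdiff (s := W \ c), mem_filter, mem_univ, true_and]
    refine and_congr_right fun hk => ?_
    rw [ht_update_of_ne]
    rintro rfl
    exact (mem_sdiff.1 hk).2 hj
  -- the integrand for a pattern
  set g : I → Finset I → (I → ℤ) → ℝ := fun i A ξ =>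
    (if Off (ht K row ξ) s W c then (1 : ℝ) else 0) *
      dpat S Nb (up (ht K row ξ) s) W c i A with hg
  have hg0 : ∀ i ∈ c, ∀ A ∈ (c.erase i).powerset, ∀ ξ, 0 ≤ g i A ξ := by
    intro i hi A hA ξ
    simp only [hg]
    refine mul_nonneg (by split_ifs <;> norm_num) (dpat_nonneg hS hi (mem_powerset.1 hA))
  have hgu : ∀ i A, ∀ j ∈ c, ∀ ξ v, g i A (Function.update ξ j v) = g i A ξ := by
    intro i A j hj ξ v
    simp only [hg, hoffu j hj ξ v, dpat, hupu j hj ξ v, hupu' j hj ξ v]
  have e1 : (fun ξ => (if Off (ht K row ξ) s W c then (1 : ℝ) else 0) *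
      cutErr S Nb (up (ht K row ξ) s) W c) =
      fun ξ => ∑ i ∈ c, ∑ A ∈ (c.erase i).powerset, g i A ξ := by
    funext ξ
    simp only [hg, cutErr, Finset.mul_sum]
  rw [e1, Ex_sum, Finset.mul_sum]
  refine Finset.sum_le_sum fun i hi => ?_
  rw [Ex_sum]
  calc ∑ A ∈ (c.erase i).powerset, Ex lv p (g i A)
      ≤ ∑ A ∈ (c.erase i).powerset, κ₁ * κ₂ ^ (c.card - 1) *
          Ex lv p (fun ξ => (if patt (ht K row ξ) s c i A then (1 : ℝ) else 0) * g i A ξ) := by
        refine Finset.sum_le_sum fun A hA => ?_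
        exact pat_avg hp h1 hκ1 hκ2 hκ3 hi (mem_powerset.1 hA) _ (hg0 i hi A hA) (hgu i A)
    _ = κ₁ * κ₂ ^ (c.card - 1) * Ex lv p (fun ξ => ∑ A ∈ (c.erase i).powerset,
          (if patt (ht K row ξ) s c i A then (1 : ℝ) else 0) * g i A ξ) := by
        rw [← Finset.mul_sum, Ex_sum]
    _ ≤ κ₁ * κ₂ ^ (c.card - 1) * Ex lv p (fun ξ => (if ht K row ξ i = s then (1 : ℝ) else 0) *
          dlt S Nb e (ht K row ξ) i) := by
        refine mul_le_mul_of_nonneg_left ?_ (by positivity)
        refine Ex_mono hp fun ξ _ => ?_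
        refine le_trans ?_ (sum_patt_le (c := c) (dlt_nonneg hS Nb e (ht K row ξ) i))
        refine Finset.sum_le_sum fun A hA => ?_
        by_cases hpA : patt (ht K row ξ) s c i A
        · rw [if_pos hpA, one_mul, one_mul]
          simp only [hg]
          by_cases hoff : Off (ht K row ξ) s W c
          · rw [if_pos hoff, one_mul,
              dpat_eq hi hc (hNb i hi) (mem_powerset.1 hA) hoff hpA (e := e)]
          · rw [if_neg hoff, zero_mul]
            exact dlt_nonneg hS Nb e (ht K row ξ) i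
        · rw [if_neg hpA, zero_mul, zero_mul]

/-- **the average of the error of one core at all good levels** -/
theorem cutErr_avg_sum (hS : EntLike S) (hp : ∀ j, 0 ≤ p j) (h1 : ∑ j ∈ lv, p j = 1) {K : ℤ}
    {row : I → ℤ} {W c : Finset I} {κ₁ κ₂ : ℝ} (hκ₁ : 0 ≤ κ₁) (hκ₂ : 0 ≤ κ₂) (good : Finset ℤ)
    (hκ1 : ∀ s ∈ good, ∀ j ∈ c, 1 ≤ κ₁ * Pr lv p (fun v => K * row j + v = s))
    (hκ2 : ∀ s ∈ good, ∀ j ∈ c, 1 ≤ κ₂ * Pr lv p (fun v => s < K * row j + v))
    (hκ3 : ∀ s ∈ good, ∀ j ∈ c, 1 ≤ κ₂ * Pr lv p (fun v => K * row j + v < s))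
    {Nb : I → Finset I} (e : I → ℕ) (hc : c ⊆ W) (hNb : ∀ i ∈ c, Nb i ⊆ W) :
    Ex lv p (fun ξ => ∑ s ∈ good, (if Off (ht K row ξ) s W c then (1 : ℝ) else 0) *
      cutErr S Nb (up (ht K row ξ) s) W c) ≤ κ₁ * κ₂ ^ (c.card - 1) *
      ∑ i ∈ c, Ex lv p (fun ξ => dlt S Nb e (ht K row ξ) i) := by
  rw [Ex_sum]
  calc ∑ s ∈ good, Ex lv p (fun ξ => (if Off (ht K row ξ) s W c then (1 : ℝ) else 0) *
        cutErr S Nb (up (ht K row ξ) s) W c)
      ≤ ∑ s ∈ good, κ₁ * κ₂ ^ (c.card - 1) *
        ∑ i ∈ c, Ex lv p (fun ξ => (if ht K row ξ i = s then (1 : ℝ) else 0) *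
          dlt S Nb e (ht K row ξ) i) := by
        refine Finset.sum_le_sum fun s hs => ?_
        exact cutErr_avg hS hp h1 hκ₁ hκ₂ (hκ1 s hs) (hκ2 s hs) (hκ3 s hs) e hc hNb
    _ = κ₁ * κ₂ ^ (c.card - 1) * ∑ i ∈ c, Ex lv p (fun ξ => ∑ s ∈ good,
          (if ht K row ξ i = s then (1 : ℝ) else 0) * dlt S Nb e (ht K row ξ) i) := by
        rw [← Finset.mul_sum, Finset.sum_comm]
        congr 1
        refine Finset.sum_congr rfl fun i _ => ?_
        rw [Ex_sum]
    _ ≤ _ := by
        refine mul_le_mul_of_nonneg_left ?_ (by positivity)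
        refine Finset.sum_le_sum fun i _ => ?_
        refine Ex_mono hp fun ξ _ => ?_
        rw [← Finset.sum_mul]
        have h0 := dlt_nonneg hS Nb e (ht K row ξ) i
        have : ∑ s ∈ good, (if ht K row ξ i = s then (1 : ℝ) else 0) ≤ 1 := by
          rw [Finset.sum_ite_eq]
          split_ifs <;> norm_num
        calc (∑ s ∈ good, (if ht K row ξ i = s then (1 : ℝ) else 0)) * dlt S Nb e (ht K row ξ) i
            ≤ 1 * dlt S Nb e (ht K row ξ) i := mul_le_mul_of_nonneg_right this h0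
          _ = _ := one_mul _

end Vale.Agent.P356.GA.Cut
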