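import Vale.Agent.P356.GA.Low125d

/-!
# GA, block LOWB (helper125), part e: Step B (doubling), the final lower bounds
-/

set_option linter.all false

namespace Vale.Agent.P356.GA

open Matrix Finset Vale.Agent.P356 Vale.Agent.P356.SV Vale.Agent.P356.Path Vale.Agent.P356.SA
open scoped BigOperators ComplexOrder Kronecker Matrix.Norms.L2Operator

section stepB
variable {V : Type} [Fintype V] [DecidableEq V] {q : ℕ}

theorem ent_cut125 (A : Finset V) (ψ : Conf V q → ℂ) : ent (cut A q) ψ = entropyOf A ψ :=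
  (entropyOf_eq_sum A ψ).symm

/-- the flow of the matrix element -/
theorem stepB_flow (X : Finset V) (E : ℕ → Finset (V ⊕ V)) (n : ℕ) (θ : ℕ → ℝ)
    (hθ : ∀ k, 0 ≤ θ k) {M : ℝ} (hM : 0 ≤ M) {Γ : Op V q} (hΓ : Γ.IsHermitian) {B : ℝ}
    (hB : ‖Γ‖ ≤ B) {Ω : Conf V q → ℂ} (hΩ : nsq Ω = 1) :
    Flow (fun z => prR (fun k => trialY (cut (Wr X (E k)) q) Ω M (θ k) z) n *
      NormedSpace.exp (z • Γ) * opL (cut X q) (cOp (Ω ∘ (cut X q).symm)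
        (fun i => Complex.exp (z * (Real.log (eigp (Ω ∘ (cut X q).symm) i) : ℝ)))))
      ((∑ k ∈ range n, trialG (cut (Wr X (E k)) q) Ω M (θ k)) + Γ +
        opL (cut X q) (cOp (Ω ∘ (cut X q).symm)
          (fun i => ((Real.log (eigp (Ω ∘ (cut X q).symm) i) : ℝ) : ℂ)))) B := by
  have h := (trial_prod_flow (fun k => cut (Wr X (E k)) q) hΩ hM θ hθ n hΓ hB).mul
    (Flow.diag (cut X q) (eigU_mul (Ω ∘ (cut X q).symm))
      (fun i => Real.log (eigp (Ω ∘ (cut X q).symm) i)) fun i =>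
        Real.log_nonpos (eigp_nonneg _ i) (eigp_le_one' _ (sum_comp_one _ hΩ) i))
  rw [add_zero] at h
  exact h

theorem stepB_expect (X : Finset V) (E : ℕ → Finset (V ⊕ V)) (n : ℕ) (θ : ℕ → ℝ)
    (M : ℝ) {Γ : Op V q} (hΓ : Γ.IsHermitian) (Ω : Conf V q → ℂ) :
    star Ω ⬝ᵥ (((∑ k ∈ range n, trialG (cut (Wr X (E k)) q) Ω M (θ k)) + Γ +
        opL (cut X q) (cOp (Ω ∘ (cut X q).symm)
          (fun i => ((Real.log (eigp (Ω ∘ (cut X q).symm) i) : ℝ) : ℂ)))) *ᵥ Ω) =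
      ((-((∑ k ∈ range n, θ k * ∑ i, -(eigp (Ω ∘ (cut (Wr X (E k)) q).symm) i *
        lgm M (eigp (Ω ∘ (cut (Wr X (E k)) q).symm) i))) - (star Ω ⬝ᵥ (Γ *ᵥ Ω)).re +
        entropyOf X Ω) : ℝ) : ℂ) := by
  rw [add_mulVec, dotProduct_add, trial_prod_expect (fun k => cut (Wr X (E k)) q) Ω M θ n hΓ,
    cOp_expect, entropyOf_eq_sum]
  have h1 : ∑ i, (eigp (Ω ∘ (cut X q).symm) i : ℂ) *
      ((Real.log (eigp (Ω ∘ (cut X q).symm) i) : ℝ) : ℂ) =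
      ((-∑ i, Real.negMulLog (eigp (Ω ∘ (cut X q).symm) i) : ℝ) : ℂ) := by
    push_cast
    rw [← Finset.sum_neg_distrib]
    refine Finset.sum_congr rfl fun i _ => ?_
    rw [Real.negMulLog]
    push_cast
    ring
  rw [h1]
  push_cast
  ring

/-- **Step B**: for every unit vector `Ω`, region `X` and outer regions `E k` of the doubled
lattice containing the second crosswise factor. -/
theorem low_stepB (X : Finset V) (E : ℕ → Finset (V ⊕ V)) (n : ℕ) (hE : ∀ k < n, Ful X (E k))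
    (θ : ℕ → ℝ) (hθ : ∀ k, 0 ≤ θ k) {M : ℝ} (hM : 0 ≤ M) {Γ : Op V q} (hΓ : Γ.IsHermitian)
    {B : ℝ} (hB : ‖Γ‖ ≤ B) {Ω : Conf V q → ℂ} (hΩ : nsq Ω = 1)
    {ε T : ℝ} (hε : 0 < ε) (hε1 : ε ≤ 1) (hT : 1 + 2 / ε ≤ Real.cosh T) (hT0 : 0 ≤ T) :
    ∃ τ : ℝ, |τ| ≤ T ∧
      ∃ (U : ∀ k, Op {y // y ∈ E k} q) (g : ∀ k, ({y // y ∈ E k} → Fin q) → ℝ),
        (∀ k, U k * (U k)ᴴ = 1) ∧ (∀ k a, -M ≤ g k a ∧ g k a ≤ 0) ∧
        (∀ k, ∑ a, Real.exp (g k a) ≤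
          1 + Fintype.card ({y // y ∈ E k} → Fin q) * Real.exp (-M)) ∧
        -(2 * ((1 + ε) * ((∑ k ∈ range n, θ k * entropyOf (Wr X (E k)) Ω) + entropyOf X Ω -
          (star Ω ⬝ᵥ (Γ *ᵥ Ω)).re) + ε * B)) ≤
        Real.log (nsq ((prR (fun k => opL (cut (E k) q) (U k * diagonal (fun a =>
          Complex.exp ((1 + τ * Complex.I) * ((θ k * g k a : ℝ) : ℂ))) * (U k)ᴴ)) n *
          NormedSpace.exp ((1 + τ * Complex.I : ℂ) • opL (mixE X q) Γ)) *ᵥ dbl Ω Ω)) := by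
  obtain ⟨_, τ, hτ, hg⟩ := (stepB_flow X E n θ hθ hM hΓ hB hΩ).low hΩ
    (stepB_expect X E n θ M hΓ Ω) hε hε1 hT hT0
  refine ⟨τ, hτ, ?_⟩
  set x := Ω ∘ (cut X q).symm with hx
  set z : ℂ := 1 + τ * Complex.I with hz
  set f : ({y // y ∈ X} → Fin q) → ℂ :=
    fun i => Complex.exp (-(τ * Complex.I) * (Real.log (eigp x i) : ℝ)) with hf
  have hf1 : ∀ i, ‖f i‖ = 1 := by
    intro i
    rw [hf]
    beta_reduce
    rw [Complex.norm_exp]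
    have : (-(τ * Complex.I) * ((Real.log (eigp x i) : ℝ) : ℂ)).re = 0 := by simp
    rw [this, Real.exp_zero]
  set φ := rotv X Ω f with hφd
  have hφ : nsq φ = 1 := nsq_rotv X hΩ hf1
  choose U g hU hg1 hg2 hadj using fun k => trial_param (X := X) (E k) hφ hΩ hM (θ k)
  refine ⟨U, g, hU, hg1, hg2, ?_⟩
  set Y : ℕ → Op (V ⊕ V) q := fun k => opL (cut (E k) q) (U k * diagonal (fun a =>
          Complex.exp (z * ((θ k * g k a : ℝ) : ℂ))) * (U k)ᴴ) with hY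
  set Y' : ℕ → Op V q := fun k => trialY (cut (Wr X (E k)) q) Ω M (θ k) z with hY'
  have h1 : (prR Y n)ᴴ *ᵥ cvec X Ω φ = cvec X ((prR Y' n)ᴴ *ᵥ Ω) φ :=
    prR_adj n (fun k hk u => hadj k (hE k hk) z u) Ω
  set O' : Op V q := NormedSpace.exp (z • Γ) with hO'
  have hO : NormedSpace.exp (z • opL (mixE X q) Γ) = crs X O' 1 := by
    rw [← opL_smul, exp_opL, crs_one]
  set a : Conf V q → ℂ := (prR Y' n * O')ᴴ *ᵥ Ω with ha
  have h2 : (prR Y n * NormedSpace.exp (z • opL (mixE X q) Γ))ᴴ *ᵥ cvec X Ω φ = cvec X a φ := by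
    rw [conjTranspose_mul, ← mulVec_mulVec, h1, hO, crs_conjTranspose, crs_mulVec,
      conjTranspose_one, one_mulVec, ha, conjTranspose_mul, ← mulVec_mulVec]
  set v := (prR Y n * NormedSpace.exp (z • opL (mixE X q) Γ)) *ᵥ dbl Ω Ω with hv
  have h3 : star (cvec X Ω φ) ⬝ᵥ v = star Ω ⬝ᵥ ((prR Y' n * O' * opL (cut X q) (cOp x
      (fun i => Complex.exp (z * (Real.log (eigp x i) : ℝ))))) *ᵥ Ω) := by
    have h4 := ip_mulVec ((prR Y n * NormedSpace.exp (z • opL (mixE X q) Γ))ᴴ) (cvec X Ω φ)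
      (dbl Ω Ω)
    rw [conjTranspose_conjTranspose, h2, hφd, overlap] at h4
    have h5 : opL (cut X q) (cOp (Ω ∘ (cut X q).symm)
        (fun i => (eigp (Ω ∘ (cut X q).symm) i : ℂ) * star (f i))) *ᵥ Ω =
        opL (cut X q) (cOp (Ω ∘ (cut X q).symm)
          (fun i => Complex.exp (z * (Real.log (eigp x i) : ℝ)))) *ᵥ Ω := by
      refine opL_cOp_congr (cut X q) Ω fun i hi => ?_
      rw [← hx] at hi ⊢
      have hpos : 0 < eigp x i := lt_of_le_of_ne (eigp_nonneg _ i) (Ne.symm hi)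
      rw [hf]
      beta_reduce
      rw [RCLike.star_def, ← Complex.exp_conj, map_mul, Complex.conj_ofReal, map_neg, map_mul,
        Complex.conj_I, Complex.conj_ofReal]
      nth_rw 1 [← Real.exp_log hpos]
      rw [Complex.ofReal_exp, ← Complex.exp_add]
      congr 1
      rw [hz]
      ring
    rw [hv, hφd, ← h4, h5, ha, ip_mulVec, conjTranspose_conjTranspose, mulVec_mulVec]
  have h5 : Real.exp (-((∑ k ∈ range n, θ k * ∑ i, -(eigp (Ω ∘ (cut (Wr X (E k)) q).symm) i *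
        lgm M (eigp (Ω ∘ (cut (Wr X (E k)) q).symm) i))) - (star Ω ⬝ᵥ (Γ *ᵥ Ω)).re +
        entropyOf X Ω + ε * ((∑ k ∈ range n, θ k * ∑ i,
          -(eigp (Ω ∘ (cut (Wr X (E k)) q).symm) i *
        lgm M (eigp (Ω ∘ (cut (Wr X (E k)) q).symm) i))) - (star Ω ⬝ᵥ (Γ *ᵥ Ω)).re +
        entropyOf X Ω + B))) ≤ nrm v := by
    refine hg.trans ?_
    rw [← h3]
    refine (nrm_ip_le _ _).trans ?_
    have : nrm (cvec X Ω φ) = 1 := by rw [nrm, nsq_cvec, hΩ, hφ, one_mul, Real.sqrt_one]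
    rw [this, one_mul]
  have h6 : ∑ k ∈ range n, θ k * ∑ i, -(eigp (Ω ∘ (cut (Wr X (E k)) q).symm) i *
      lgm M (eigp (Ω ∘ (cut (Wr X (E k)) q).symm) i)) ≤
      ∑ k ∈ range n, θ k * entropyOf (Wr X (E k)) Ω := by
    refine Finset.sum_le_sum fun k _ => mul_le_mul_of_nonneg_left ?_ (hθ k)
    rw [← ent_cut125]
    exact trial_ent_le (cut (Wr X (E k)) q) Ω M
  have h7 := Real.log_le_log (Real.exp_pos _) h5
  rw [Real.log_exp] at h7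
  have h8 : Real.log (nsq v) = 2 * Real.log (nrm v) := by
    rw [← nrm_sq, Real.log_pow]
    norm_num
  rw [h8]
  set S1 := ∑ k ∈ range n, θ k * ∑ i, -(eigp (Ω ∘ (cut (Wr X (E k)) q).symm) i *
      lgm M (eigp (Ω ∘ (cut (Wr X (E k)) q).symm) i))
  set S2 := ∑ k ∈ range n, θ k * entropyOf (Wr X (E k)) Ω
  nlinarith

/-- **Step B** with the healing generator `Γ₁ ⊗ 1 + 1 ⊗ Γ₂`, `Γ₁` on `X`, `Γ₂` on `Xᶜ`. -/
theorem low_stepB' (X : Finset V) (E : ℕ → Finset (V ⊕ V)) (n : ℕ) (hE : ∀ k < n, Ful X (E k))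
    (θ : ℕ → ℝ) (hθ : ∀ k, 0 ≤ θ k) {M : ℝ} (hM : 0 ≤ M) {Γ₁ Γ₂ : Op V q}
    (h1 : ActsOn X Γ₁) (h2 : ActsOn Xᶜ Γ₂) (hΓ : (Γ₁ + Γ₂).IsHermitian)
    {B : ℝ} (hB : ‖Γ₁ + Γ₂‖ ≤ B) {Ω : Conf V q → ℂ} (hΩ : nsq Ω = 1)
    {ε T : ℝ} (hε : 0 < ε) (hε1 : ε ≤ 1) (hT : 1 + 2 / ε ≤ Real.cosh T) (hT0 : 0 ≤ T) :
    ∃ τ : ℝ, |τ| ≤ T ∧
      ∃ (U : ∀ k, Op {y // y ∈ E k} q) (g : ∀ k, ({y // y ∈ E k} → Fin q) → ℝ),
        (∀ k, U k * (U k)ᴴ = 1) ∧ (∀ k a, -M ≤ g k a ∧ g k a ≤ 0) ∧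
        (∀ k, ∑ a, Real.exp (g k a) ≤
          1 + Fintype.card ({y // y ∈ E k} → Fin q) * Real.exp (-M)) ∧
        -(2 * ((1 + ε) * ((∑ k ∈ range n, θ k * entropyOf (Wr X (E k)) Ω) + entropyOf X Ω -
          (star Ω ⬝ᵥ ((Γ₁ + Γ₂) *ᵥ Ω)).re) + ε * B)) ≤
        Real.log (nsq ((prR (fun k => opL (cut (E k) q) (U k * diagonal (fun a =>
          Complex.exp ((1 + τ * Complex.I) * ((θ k * g k a : ℝ) : ℂ))) * (U k)ᴴ)) n *
          NormedSpace.exp ((1 + τ * Complex.I : ℂ) • (cp1 Γ₁ + cp2 Γ₂ : Op (V ⊕ V) q))) *ᵥ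
            dbl Ω Ω)) := by
  rw [cp1_eq_mix h1, cp2_eq_mix h2, ← opL_add]
  exact low_stepB X E n hE θ hθ hM hΓ hB hΩ hε hε1 hT hT0

/-- **Step A** on the lattice, through entropies of regions. -/
theorem low_stepA' (E : ℕ → Finset V) (n : ℕ) (θ : ℕ → ℝ) (hθ : ∀ k, 0 ≤ θ k) {M : ℝ}
    (hM : 0 ≤ M) {Γ : Op V q} (hΓ : Γ.IsHermitian) {B : ℝ} (hB : ‖Γ‖ ≤ B)
    {A : Op V q} (hA : ‖A‖ ≤ 1) (hAe : ∀ k < n, ∀ Y, A * opL (cut (E k) q) Y =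
      opL (cut (E k) q) Y * A) (hAΓ : A * Γ = Γ * A)
    {Ω φ : Conf V q → ℂ} {p : ℝ} (hp : 0 < p) (hφ : nsq φ = 1)
    (hAΩ : A *ᵥ Ω = ((Real.sqrt p : ℝ) : ℂ) • φ)
    {ε T : ℝ} (hε : 0 < ε) (hε1 : ε ≤ 1) (hT : 1 + 2 / ε ≤ Real.cosh T) (hT0 : 0 ≤ T) :
    ∃ τ : ℝ, |τ| ≤ T ∧
      ∃ (U : ∀ k, Op {y // y ∈ E k} q) (g : ∀ k, ({y // y ∈ E k} → Fin q) → ℝ),
        (∀ k, U k * (U k)ᴴ = 1) ∧ (∀ k a, -M ≤ g k a ∧ g k a ≤ 0) ∧
        (∀ k, ∑ a, Real.exp (g k a) ≤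
          1 + Fintype.card ({y // y ∈ E k} → Fin q) * Real.exp (-M)) ∧
        Real.log p - 2 * ((1 + ε) * ((∑ k ∈ range n, θ k * entropyOf (E k) φ) -
          (star φ ⬝ᵥ (Γ *ᵥ φ)).re) + ε * B) ≤
        Real.log (nsq ((prR (fun k => opL (cut (E k) q) (U k * diagonal (fun a =>
          Complex.exp ((1 + τ * Complex.I) * ((θ k * g k a : ℝ) : ℂ))) * (U k)ᴴ)) n *
          NormedSpace.exp ((1 + τ * Complex.I : ℂ) • Γ)) *ᵥ Ω)) := by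
  obtain ⟨τ, hτ, h⟩ := low_stepA (fun k => cut (E k) q) n θ hθ hM hΓ hB hA hAe hAΓ hp hφ hAΩ hε
    hε1 hT hT0
  refine ⟨τ, hτ, fun k => eigU (φ ∘ (cut (E k) q).symm), fun k a =>
    lgm M (eigp (φ ∘ (cut (E k) q).symm) a), fun k => eigU_mul _, fun k a => ⟨lgm_ge _ _,
      lgm_nonpos hM (eigp_le_one' _ (sum_comp_one _ hφ) a)⟩, fun k => trial_pen _ hφ M, ?_⟩
  simp only [ent_cut125] at h
  exact h

end stepB

end Vale.Agent.P356.GA
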