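import Vale.Agent.P356.GA.Tc412
import Vale.Agent.P356.GA.Low125e
import Vale.Agent.P356.SV.Lattice

/-!
# GA, block TILTUP (helper412): upper bound for the tilt functional

* `TState` : the self-consistent tilted states.
* `tilt_upper` : a bound for `-∑ θ S(ψ_k) + Re (c ⟨ψ|Y Γ Y⁻¹|ψ⟩)` over all tilted states bounds
  `log ‖∏ Y_k(c) exp(c Γ) Ω‖²` for all admissible tilts.
* `tilt_stepA` : combination with the lower bound `low_stepA` of helper125.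
-/

set_option linter.all false

namespace Vale.Agent.P356.GA

open Matrix Finset Vale.Agent.P356 Vale.Agent.P356.SV Vale.Agent.P356.Path
open scoped BigOperators ComplexOrder Kronecker Matrix.Norms.L2Operator

theorem lgM_eq_lgm {M p : ℝ} (hp : p ≤ 1) : lgM M p = lgm M p := by
  rw [lgm]
  rcases le_total p (Real.exp (-M)) with h | h
  · rw [lgM_of_le h, max_eq_right h, Real.log_exp]
  · rw [lgM_of_gt h hp, max_eq_left h]

theorem mul_lgm_sub_exp {M p : ℝ} (hp : 0 ≤ p) :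
    p * lgm M p - Real.exp (lgm M p) ≤ -Real.negMulLog p - p := by
  rw [exp_lgm, Real.negMulLog]
  rcases le_total p (Real.exp (-M)) with h | h
  · rw [max_eq_right h, lgm, max_eq_right h, Real.log_exp]
    rcases hp.eq_or_lt with h0 | h0
    · rw [← h0]
      simp
      exact (Real.exp_pos _).le
    · have h1 := Real.log_le_sub_one_of_pos (x := Real.exp (-M) / p) (by positivity)
      rw [Real.log_div (Real.exp_pos _).ne' h0.ne', Real.log_exp] at h1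
      have h2 : p * (-M - Real.log p) ≤ p * (Real.exp (-M) / p - 1) :=
        mul_le_mul_of_nonneg_left h1 hp
      have h3 : p * (Real.exp (-M) / p - 1) = Real.exp (-M) - p := by
        field_simp
      rw [h3] at h2
      nlinarith
  · rw [max_eq_left h, lgm, max_eq_left h]
    linarith

section start
variable {N : Type*} [Fintype N] [DecidableEq N]

theorem MD_expm (Γ : Matrix N N ℂ) (c : ℂ) (t : ℝ) :
    MD (fun s => NormedSpace.exp (((s : ℂ) * c) • Γ))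
      (c • (Γ * NormedSpace.exp (((t : ℂ) * c) • Γ))) t := by
  letI : NormedAlgebra ℚ (Matrix N N ℂ) := NormedAlgebra.restrictScalars ℚ ℝ (Matrix N N ℂ)
  have h1 : HasDerivAt (fun z : ℂ => NormedSpace.exp (z • Γ))
      (Γ * NormedSpace.exp (((t : ℂ) * c) • Γ)) ((t : ℂ) * c) :=
    hasDerivAt_exp_smul_const' Γ ((t : ℂ) * c)
  have h2 : HasDerivAt (fun z : ℂ => z * c) c ((t : ℝ) : ℂ) := by
    simpa using (hasDerivAt_id ((t : ℝ) : ℂ)).mul_const c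
  have h3 : HasDerivAt (fun z : ℂ => NormedSpace.exp ((z * c) • Γ))
      (c • (Γ * NormedSpace.exp (((t : ℂ) * c) • Γ))) ((t : ℝ) : ℂ) :=
    HasDerivAt.scomp (h := fun z : ℂ => z * c) (g₁ := fun z : ℂ => NormedSpace.exp (z • Γ))
      ((t : ℝ) : ℂ) h1 h2
  intro i j
  set L : Matrix N N ℂ →ₗ[ℂ] ℂ :=
    { toFun := fun M => M i j
      map_add' := fun A A' => rfl
      map_smul' := fun c A => rfl } with hL
  set L' := LinearMap.toContinuousLinearMap L with hL'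
  have h5 : HasDerivAt (fun z : ℂ => NormedSpace.exp ((z * c) • Γ) i j)
      ((c • (Γ * NormedSpace.exp (((t : ℂ) * c) • Γ))) i j) ((t : ℝ) : ℂ) :=
    L'.hasFDerivAt.comp_hasDerivAt ((t : ℝ) : ℂ) h3
  exact h5.comp_ofReal

theorem expm_inv (Γ : Matrix N N ℂ) (z : ℂ) :
    NormedSpace.exp ((-z) • Γ) * NormedSpace.exp (z • Γ) = 1 := by
  letI : NormedAlgebra ℚ (Matrix N N ℂ) := NormedAlgebra.restrictScalars ℚ ℝ (Matrix N N ℂ)
  rw [← NormedSpace.exp_add_of_commute (((Commute.refl Γ).smul_right z).smul_left (-z)),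
    ← add_smul, neg_add_cancel, zero_smul, NormedSpace.exp_zero]

theorem nsq_pos_of_ne {v : N → ℂ} (h : v ≠ 0) : 0 < nsq v := by
  rcases (nsq_nonneg' v).lt_or_eq with h1 | h1
  · exact h1
  · exfalso
    apply h
    funext s
    have h2 : ∀ s ∈ (Finset.univ : Finset N), ‖v s‖ ^ 2 = 0 :=
      (Finset.sum_eq_zero_iff_of_nonneg (fun i _ => sq_nonneg _)).mp h1.symm
    have h3 := h2 s (Finset.mem_univ s)
    simpa using h3

theorem nsq_pos_of_inv {A B : Matrix N N ℂ} (hAB : B * A = 1) {v : N → ℂ} (hv : 0 < nsq v) :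
    0 < nsq (A *ᵥ v) := by
  refine nsq_pos_of_ne fun h => ?_
  have h1 : B *ᵥ (A *ᵥ v) = v := by rw [mulVec_mulVec, hAB, one_mulVec]
  rw [h, mulVec_zero] at h1
  rw [← h1] at hv
  simp [nsq] at hv

/-- the start vector `exp (t c Γ) Ω` -/
noncomputable def stV (Γ : Matrix N N ℂ) (Ω : N → ℂ) (c : ℂ) (t : ℝ) : N → ℂ :=
  NormedSpace.exp (((t : ℂ) * c) • Γ) *ᵥ Ω

theorem stV_pos (Γ : Matrix N N ℂ) {Ω : N → ℂ} (hΩ : 0 < nsq Ω) (c : ℂ) (t : ℝ) :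
    0 < nsq (stV Γ Ω c t) := nsq_pos_of_inv (expm_inv Γ _) hΩ

theorem stV_deriv (Γ : Matrix N N ℂ) (Ω : N → ℂ) (c : ℂ) (t : ℝ) :
    VD (stV Γ Ω c) (c • (Γ *ᵥ stV Γ Ω c t)) t :=
  VD_start (MD_expm Γ c t) Ω

theorem stV_cont (Γ : Matrix N N ℂ) (Ω : N → ℂ) (c : ℂ) : Continuous (stV Γ Ω c) := by
  refine continuous_pi fun i => ?_
  exact continuous_iff_continuousAt.mpr fun t => (stV_deriv Γ Ω c t i).continuousAt

theorem stV_zero (Γ : Matrix N N ℂ) (Ω : N → ℂ) (c : ℂ) : stV Γ Ω c 0 = Ω := by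
  rw [stV, Complex.ofReal_zero, zero_mul, zero_smul, NormedSpace.exp_zero, one_mulVec]

end start

section var
variable {N : Type} [Fintype N] [DecidableEq N] {α β : ℕ → Type}
  [∀ k, Fintype (α k)] [∀ k, DecidableEq (α k)] [∀ k, Fintype (β k)] [∀ k, DecidableEq (β k)]

/-- the exponents of the self-consistent tilts -/
noncomputable def gL (e : ∀ k, N ≃ α k × β k) (ψ : N → ℂ) (θ : ℕ → ℝ) (M : ℝ) (k : ℕ)
    (i : α k) : ℝ := θ k * lgm M (eigp (ψ ∘ (e k).symm) i)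

/-- Self-consistent tilted states: `ψ` is a unit vector proportional to
`Y_0(ζ) ⋯ Y_{n-1}(ζ) exp (ζ Γ) Ω`, `ζ = t c`, with `Y_k(ζ) = exp (ζ θ_k max(log ψ_k, -M))`. -/
def TState (e : ∀ k, N ≃ α k × β k) (θ : ℕ → ℝ) (M : ℝ) (Γ : Matrix N N ℂ) (Ω : N → ℂ) (c : ℂ)
    (n : ℕ) (t : ℝ) (ψ : N → ℂ) : Prop :=
  nsq ψ = 1 ∧ ∃ r : ℝ, 0 < r ∧
    prR (fun k => sg e ψ (gL e ψ θ M) k ((t : ℂ) * c)) n *ᵥ stV Γ Ω c t = (r : ℂ) • ψ

theorem prL_prR_sg (e : ∀ k, N ≃ α k × β k) (ψ : N → ℂ) (g : ∀ k, α k → ℝ) (z : ℂ) (n : ℕ) :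
    prL (fun k => sg e ψ g k (-z)) n * prR (fun k => sg e ψ g k z) n = 1 :=
  prL_mul_prR fun j _ => by
    have := sg_inv e ψ g j (-z)
    rwa [neg_neg] at this

/-- **Energy identity** for the tilted states. -/
theorem TState.eig {e : ∀ k, N ≃ α k × β k} {θ : ℕ → ℝ} {M : ℝ} {Γ : Matrix N N ℂ} {Ω : N → ℂ}
    {c : ℂ} {n : ℕ} {t : ℝ} {ψ : N → ℂ} (h : TState e θ M Γ Ω c n t ψ) {X : Matrix N N ℂ} {E : ℂ}
    (hX : X *ᵥ stV Γ Ω c t = E • stV Γ Ω c t) :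
    FT e ψ (gL e ψ θ M) n X (fun _ => (t : ℂ) * c) = E := by
  obtain ⟨hψ, r, hr, hY⟩ := h
  set ζ : ℂ := (t : ℂ) * c with hζ
  have hr0 : (r : ℂ) ≠ 0 := by exact_mod_cast hr.ne'
  have hQP := prL_prR_sg e ψ (gL e ψ θ M) ζ n
  rw [FT]
  generalize prR (fun k => sg e ψ (gL e ψ θ M) k ζ) n = P at hQP hY ⊢
  generalize prL (fun k => sg e ψ (gL e ψ θ M) k (-ζ)) n = Q at hQP ⊢
  generalize stV Γ Ω c t = φ at hX hY
  have h1 : Q *ᵥ ψ = ((r : ℂ)⁻¹) • φ := by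
    have h2 : ψ = ((r : ℂ)⁻¹) • (P *ᵥ φ) := by
      rw [hY, smul_smul, inv_mul_cancel₀ hr0, one_smul]
    rw [h2, mulVec_smul, mulVec_mulVec, hQP, one_mulVec]
  rw [← mulVec_mulVec, ← mulVec_mulVec, h1, mulVec_smul, hX, mulVec_smul, mulVec_smul, hY,
    dotProduct_smul, dotProduct_smul, dotProduct_smul, ip_self, hψ, smul_eq_mul, smul_eq_mul,
    smul_eq_mul, Complex.ofReal_one, mul_one]
  field_simp

/-- energy identity for `O X O⁻¹`, `X Ω = E Ω` -/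
theorem TState.eig' {e : ∀ k, N ≃ α k × β k} {θ : ℕ → ℝ} {M : ℝ} {Γ : Matrix N N ℂ} {Ω : N → ℂ}
    {c : ℂ} {n : ℕ} {t : ℝ} {ψ : N → ℂ} (h : TState e θ M Γ Ω c n t ψ) {X : Matrix N N ℂ} {E : ℂ}
    (hX : X *ᵥ Ω = E • Ω) :
    FT e ψ (gL e ψ θ M) n (NormedSpace.exp (((t : ℂ) * c) • Γ) * X *
      NormedSpace.exp ((-((t : ℂ) * c)) • Γ)) (fun _ => (t : ℂ) * c) = E := by
  refine h.eig ?_
  rw [stV, mulVec_mulVec, Matrix.mul_assoc, expm_inv, Matrix.mul_one, ← mulVec_mulVec, hX,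
    mulVec_smul]

/-- trivial instance: `⟨ψ|Y X Y⁻¹|ψ⟩` for `X = 1` -/
theorem TState.one {e : ∀ k, N ≃ α k × β k} {θ : ℕ → ℝ} {M : ℝ} {Γ : Matrix N N ℂ} {Ω : N → ℂ}
    {c : ℂ} {n : ℕ} {t : ℝ} {ψ : N → ℂ} (h : TState e θ M Γ Ω c n t ψ) :
    FT e ψ (gL e ψ θ M) n 1 (fun _ => (t : ℂ) * c) = 1 :=
  h.eig (by rw [one_mulVec, one_smul])

theorem gL_eq (e : ∀ k, N ≃ α k × β k) {ψ : N → ℂ} (hψ : nsq ψ = 1) (θ : ℕ → ℝ) (M : ℝ) :
    (gL e ψ θ M : ∀ k, α k → ℝ) = fun k i => θ k * clipC 1 (-M) 0 (eigp (ψ ∘ (e k).symm) i) := by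
  funext k i
  have h3 : eigp (ψ ∘ (e k).symm) i ≤ 1 := eigp_le_one' _ (sum_comp_one (e k) hψ) i
  rw [gL, ← lgM_eq_lgm h3, lgM]

/-- maximisers give tilted states -/
theorem tstate_of_form (e : ∀ k, N ≃ α k × β k) (θ : ℕ → ℝ) (M : ℝ) (c : ℂ) (φ v : N → ℂ)
    (n : ℕ) (t : ℝ) (π : ∀ k, Par α k) (hv : 0 < nsq v)
    (hvv : prR (YC e θ π ((t : ℂ) * c)) n *ᵥ φ = v)
    (hf : ∀ k < n, HasFormC e (fun _ => 1) (fun _ => -M) (fun _ => 0) (nzv v) π k) :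
    prR (fun k => sg e (nzv v) (gL e (nzv v) θ M) k ((t : ℂ) * c)) n *ᵥ φ =
      ((Real.sqrt (nsq v) : ℝ) : ℂ) • nzv v := by
  rw [← nzv_eq hv, gL_eq e (nsq_nzv hv)]
  conv_rhs => rw [← hvv]
  congr 1
  refine prR_congr fun j hj => ?_
  exact (tc_sg e θ (fun _ => 1) (fun _ => -M) (fun _ => 0) _ (nzv v) π j (hf j hj)).symm

/-- maximisers give tilted states -/
theorem tstate_of_max (e : ∀ k, N ≃ α k × β k) (θ : ℕ → ℝ) (M : ℝ)
    (c : ℂ) (Γ : Matrix N N ℂ) (Ω : N → ℂ) (n : ℕ) (t : ℝ)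
    (π : ∀ k, Par α k) (v : N → ℂ) (hv : 0 < nsq v)
    (hvv : prR (YC e θ π ((t : ℂ) * c)) n *ᵥ stV Γ Ω c t = v)
    (hf : ∀ k < n, HasFormC e (fun _ => 1) (fun _ => -M) (fun _ => 0) (nzv v) π k) :
    TState e θ M Γ Ω c n t (nzv v) :=
  ⟨nsq_nzv hv, Real.sqrt (nsq v), Real.sqrt_pos.mpr hv, tstate_of_form e θ M c _ v n t π hv hvv hf⟩

/-- **Upper bound.** -/
theorem tilt_upper (e : ∀ k, N ≃ α k × β k)
    (hcomm : ∀ j k, j ≤ k → ∀ (Y : Matrix (α k) (α k) ℂ) (S : Matrix (β j) (β j) ℂ),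
      opL (e k) Y * opR (e j) S = opR (e j) S * opL (e k) Y)
    {θ : ℕ → ℝ} (hθ : ∀ k, 0 < θ k) {M : ℝ} (hM : 0 ≤ M) {c : ℂ} (hc : c.re = 1)
    (Γ : Matrix N N ℂ) {Ω : N → ℂ} (hΩ : nsq Ω = 1) (n : ℕ) (C : ℝ)
    (hC : ∀ t, 0 < t → t ≤ 1 → ∀ ψ, TState e θ M Γ Ω c n t ψ →
      -(∑ k ∈ range n, θ k * ent (e k) ψ) +
        (c * FT e ψ (gL e ψ θ M) n Γ (fun _ => (t : ℂ) * c)).re ≤ C)
    {π : ∀ k, Par α k} (hπ : π ∈ FeasC α (fun _ => -M) (fun _ => 0)) :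
    Real.log (nsq (prR (YC e θ π c) n *ᵥ (NormedSpace.exp (c • Γ) *ᵥ Ω))) ≤
      2 * C + 2 * ∑ k ∈ range n, θ k * (∑ i, Real.exp ((π k).2 i) - 1) := by
  have hΩ0 : 0 < nsq Ω := by rw [hΩ]; exact one_pos
  have hmain := tc_max e hcomm (θ := θ) (κ := fun _ => 1) (a := fun _ => -M) (b := fun _ => 0) hθ
    (fun _ => one_pos) (fun _ => by linarith) hc (φ := stV Γ Ω c) (stV_cont Γ Ω c)
    (stV_pos Γ hΩ0 c) (fun t => c • (Γ *ᵥ stV Γ Ω c t)) (fun t _ _ => stV_deriv Γ Ω c t) n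
    (2 * C - 2 * ∑ k ∈ range n, θ k) ?_ π hπ
  · rw [stV_zero, hΩ, Real.log_one, zero_add, FC, one_mul, penC] at hmain
    have e1 : vC e θ c (stV Γ Ω c) n 1 π =
        prR (YC e θ π c) n *ᵥ (NormedSpace.exp (c • Γ) *ᵥ Ω) := by
      rw [vC, stV, Complex.ofReal_one, one_mul]
    rw [e1] at hmain
    have e2 : ∑ k ∈ range n, 2 * θ k * 1 * ∑ i, Real.exp ((π k).2 i) =
        2 * ∑ k ∈ range n, θ k * ∑ i, Real.exp ((π k).2 i) := by
      rw [Finset.mul_sum]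
      refine Finset.sum_congr rfl fun k _ => ?_
      ring
    rw [e2] at hmain
    have e3 : ∑ k ∈ range n, θ k * (∑ i, Real.exp ((π k).2 i) - 1) =
        ∑ k ∈ range n, θ k * ∑ i, Real.exp ((π k).2 i) - ∑ k ∈ range n, θ k := by
      rw [← Finset.sum_sub_distrib]
      refine Finset.sum_congr rfl fun k _ => ?_
      ring
    rw [e3]
    linarith
  · intro t ht0 ht1 π' hπ' hmax' hform
    have hv := vC_pos e θ c n (stV_pos Γ hΩ0 c t) hπ'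
    have hT := tstate_of_max e θ M c Γ Ω n t π' _ hv rfl hform
    have hCt := hC t ht0 ht1 _ hT
    set v := vC e θ c (stV Γ Ω c) n t π' with hvdef
    set ψ := nzv v with hψ
    have hψ1 : nsq ψ = 1 := nsq_nzv hv
    -- the start term
    have h1 := tc_start_term e θ c n (stV_pos Γ hΩ0 c t) hπ' Γ c
    rw [← hvdef, ← hψ] at h1
    have h2 : 2 * (star v ⬝ᵥ (prR (YC e θ π' ((t : ℂ) * c)) n *ᵥ (c • (Γ *ᵥ stV Γ Ω c t)))).re /
        nsq v = 2 * (c * FT e ψ (gL e ψ θ M) n Γ (fun _ => (t : ℂ) * c)).re := by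
      have h3 := tc_FT e θ (fun _ => 1) (fun _ => -M) (fun _ => 0) c n (stV_pos Γ hΩ0 c t) hπ'
        hform Γ
      rw [← hvdef, ← hψ] at h3
      rw [gL_eq e hψ1, h3, ← mul_div_assoc]
      have h6 : c * (star v ⬝ᵥ (prR (YC e θ π' ((t : ℂ) * c)) n *ᵥ (Γ *ᵥ stV Γ Ω c t))) =
          star v ⬝ᵥ (prR (YC e θ π' ((t : ℂ) * c)) n *ᵥ (c • (Γ *ᵥ stV Γ Ω c t))) := by
        rw [mulVec_smul, dotProduct_smul, smul_eq_mul]
      rw [h6, Complex.div_ofReal_re, mul_div_assoc]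
    rw [h2]
    -- the penalty at the maximiser
    have h3 : penC θ (fun _ => 1) n π' = 2 * ∑ k ∈ range n, θ k *
        ∑ i, Real.exp (lgm M (eigp (ψ ∘ (e k).symm) i)) := by
      rw [penC, Finset.mul_sum]
      refine Finset.sum_congr rfl fun k hk => ?_
      have h4 := congrArg Matrix.trace (hform k (Finset.mem_range.mp hk)
        (fun r => ((Real.exp r : ℝ) : ℂ)))
      rw [cD_trace (hπ' k).1, cOp_eq_cD, cD_trace (eigU_mul _)] at h4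
      have h5 : ∑ i, Real.exp ((π' k).2 i) =
          ∑ i, Real.exp (clipC 1 (-M) 0 (eigp (ψ ∘ (e k).symm) i)) := by
        exact_mod_cast h4
      rw [h5]
      have h6 : ∑ i, Real.exp (clipC 1 (-M) 0 (eigp (ψ ∘ (e k).symm) i)) =
          ∑ i, Real.exp (lgm M (eigp (ψ ∘ (e k).symm) i)) := by
        refine Finset.sum_congr rfl fun i _ => ?_
        have h7 : eigp (ψ ∘ (e k).symm) i ≤ 1 := eigp_le_one' _ (sum_comp_one (e k) hψ1) i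
        rw [← lgM_eq_lgm h7, lgM]
      rw [h6]
      ring
    rw [h3]
    have h4 : ∑ k ∈ range n, θ k * ∑ i, eigp (ψ ∘ (e k).symm) i *
        clipC 1 (-M) 0 (eigp (ψ ∘ (e k).symm) i) =
        ∑ k ∈ range n, θ k * ∑ i, eigp (ψ ∘ (e k).symm) i * lgm M (eigp (ψ ∘ (e k).symm) i) := by
      refine Finset.sum_congr rfl fun k _ => ?_
      congr 1
      refine Finset.sum_congr rfl fun i _ => ?_
      have h7 : eigp (ψ ∘ (e k).symm) i ≤ 1 := eigp_le_one' _ (sum_comp_one (e k) hψ1) i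
      rw [← lgM_eq_lgm h7, lgM]
    rw [h4]
    have h5 : ∀ k ∈ range n, θ k * (∑ i, eigp (ψ ∘ (e k).symm) i *
        lgm M (eigp (ψ ∘ (e k).symm) i) - ∑ i, Real.exp (lgm M (eigp (ψ ∘ (e k).symm) i))) ≤
        θ k * (-ent (e k) ψ - 1) := by
      intro k _
      refine mul_le_mul_of_nonneg_left ?_ (hθ k).le
      rw [← Finset.sum_sub_distrib, ent]
      have h6 : ∑ i, (eigp (ψ ∘ (e k).symm) i * lgm M (eigp (ψ ∘ (e k).symm) i) -
          Real.exp (lgm M (eigp (ψ ∘ (e k).symm) i))) ≤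
          ∑ i, (-Real.negMulLog (eigp (ψ ∘ (e k).symm) i) - eigp (ψ ∘ (e k).symm) i) :=
        Finset.sum_le_sum fun i _ => mul_lgm_sub_exp (eigp_nonneg _ i)
      rw [Finset.sum_sub_distrib (f := fun i => -Real.negMulLog (eigp (ψ ∘ (e k).symm) i)),
        Finset.sum_neg_distrib, eigp_sum _ (sum_comp_one (e k) hψ1)] at h6
      exact h6
    have h6 := Finset.sum_le_sum h5
    have e1 : ∑ k ∈ range n, θ k * (∑ i, eigp (ψ ∘ (e k).symm) i *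
        lgm M (eigp (ψ ∘ (e k).symm) i) - ∑ i, Real.exp (lgm M (eigp (ψ ∘ (e k).symm) i))) =
        ∑ k ∈ range n, θ k * ∑ i, eigp (ψ ∘ (e k).symm) i * lgm M (eigp (ψ ∘ (e k).symm) i) -
        ∑ k ∈ range n, θ k * ∑ i, Real.exp (lgm M (eigp (ψ ∘ (e k).symm) i)) := by
      rw [← Finset.sum_sub_distrib]
      refine Finset.sum_congr rfl fun k _ => ?_
      ring
    have e2 : ∑ k ∈ range n, θ k * (-ent (e k) ψ - 1) =
        -(∑ k ∈ range n, θ k * ent (e k) ψ) - ∑ k ∈ range n, θ k := by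
      rw [← Finset.sum_neg_distrib, ← Finset.sum_sub_distrib]
      refine Finset.sum_congr rfl fun k _ => ?_
      ring
    rw [e1, e2] at h6
    linarith

/-- trial parameters: clipped logarithms of the reduced states of `φ` -/
noncomputable def trialP (e : ∀ k, N ≃ α k × β k) (φ : N → ℂ) (M : ℝ) : ∀ k, Par α k :=
  fun k => (eigU (φ ∘ (e k).symm), fun i => lgm M (eigp (φ ∘ (e k).symm) i))

theorem trialP_mem (e : ∀ k, N ≃ α k × β k) {φ : N → ℂ} (hφ : nsq φ = 1) {M : ℝ} (hM : 0 ≤ M) :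
    trialP e φ M ∈ FeasC α (fun _ => -M) (fun _ => 0) := fun k =>
  ⟨eigU_mul _, fun i => ⟨lgm_ge _ _, lgm_nonpos hM (eigp_le_one' _ (sum_comp_one (e k) hφ) i)⟩⟩

theorem trialP_YC (e : ∀ k, N ≃ α k × β k) (φ : N → ℂ) (M : ℝ) (θ : ℕ → ℝ) (z : ℂ) (k : ℕ) :
    YC e θ (trialP e φ M) z k = trialY (e k) φ M (θ k) z := rfl

/-- **Step A, assembled.** -/
theorem tilt_stepA (e : ∀ k, N ≃ α k × β k)
    (hcomm : ∀ j k, j ≤ k → ∀ (Y : Matrix (α k) (α k) ℂ) (S : Matrix (β j) (β j) ℂ),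
      opL (e k) Y * opR (e j) S = opR (e j) S * opL (e k) Y)
    {θ : ℕ → ℝ} (hθ : ∀ k, 0 < θ k) {M : ℝ} (hM : 0 ≤ M)
    {Γ : Matrix N N ℂ} (hΓ : Γ.IsHermitian) {B : ℝ} (hB : ‖Γ‖ ≤ B) {Ω : N → ℂ} (hΩ : nsq Ω = 1)
    (n : ℕ) {ε T : ℝ} (hε : 0 < ε) (hε1 : ε ≤ 1) (hT : 1 + 2 / ε ≤ Real.cosh T) (hT0 : 0 ≤ T)
    (C : ℝ)
    (hC : ∀ τ : ℝ, |τ| ≤ T → ∀ t, 0 < t → t ≤ 1 → ∀ ψ,
      TState e θ M Γ Ω (1 + τ * Complex.I) n t ψ →
      -(∑ k ∈ range n, θ k * ent (e k) ψ) +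
        ((1 + τ * Complex.I) * FT e ψ (gL e ψ θ M) n Γ
          (fun _ => (t : ℂ) * (1 + τ * Complex.I))).re ≤ C)
    {A : Matrix N N ℂ} (hA : ‖A‖ ≤ 1)
    (hAe : ∀ k < n, ∀ Y, A * opL (e k) Y = opL (e k) Y * A) (hAΓ : A * Γ = Γ * A)
    {φ : N → ℂ} {p : ℝ} (hp : 0 < p) (hφ : nsq φ = 1)
    (hAΩ : A *ᵥ Ω = ((Real.sqrt p : ℝ) : ℂ) • φ) :
    Real.log p ≤ 2 * C + 2 * ((1 + ε) * ((∑ k ∈ range n, θ k * ent (e k) φ) -
        (star φ ⬝ᵥ (Γ *ᵥ φ)).re) + ε * B) +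
      2 * ∑ k ∈ range n, θ k * (Fintype.card (α k) * Real.exp (-M)) := by
  obtain ⟨τ, hτ, hlow⟩ := low_stepA e n θ (fun k => (hθ k).le) hM hΓ hB hA hAe hAΓ hp hφ hAΩ hε hε1
    hT hT0
  have hre : (1 + τ * Complex.I : ℂ).re = 1 := by simp
  have hup := tilt_upper e hcomm hθ hM hre Γ hΩ n C (hC τ hτ) (trialP_mem e hφ hM)
  rw [mulVec_mulVec] at hup
  have h1 : prR (YC e θ (trialP e φ M) (1 + τ * Complex.I)) n =
      prR (fun k => trialY (e k) φ M (θ k) (1 + τ * Complex.I)) n :=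
    prR_congr fun j _ => trialP_YC e φ M θ _ j
  rw [h1] at hup
  have h2 : ∑ k ∈ range n, θ k * (∑ i, Real.exp ((trialP e φ M k).2 i) - 1) ≤
      ∑ k ∈ range n, θ k * (Fintype.card (α k) * Real.exp (-M)) := by
    refine Finset.sum_le_sum fun k _ => mul_le_mul_of_nonneg_left ?_ (hθ k).le
    have h3 := trial_pen (e k) hφ M
    show ∑ i, Real.exp (lgm M (eigp (φ ∘ (e k).symm) i)) - 1 ≤ _
    linarith
  linarith

end var

/-! ### region form -/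

section region
variable {V : Type} [Fintype V] [DecidableEq V] {q : ℕ}

theorem cut_hcomm (A : ℕ → Finset V) (hA : ∀ j k, j ≤ k → A k ⊆ A j) (j k : ℕ) (hjk : j ≤ k)
    (Y : Op {x // x ∈ A k} q) (S : Op {x // ¬ x ∈ A j} q) :
    opL (cut (A k) q) Y * opR (cut (A j) q) S = opR (cut (A j) q) S * opL (cut (A k) q) Y := by
  obtain ⟨S', hS'⟩ := b5_opR (A j) S
  rw [hS']
  refine opOn_comm (A k) (A j)ᶜ ?_ Y S'
  rw [Finset.disjoint_left]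
  intro x hx hx'
  exact (Finset.mem_compl.mp hx') (hA j k hjk hx)

/-- **Upper bound, regions**: cuts `A 0 ⊇ A 1 ⊇ ⋯`. -/
theorem tilt_upper_region (A : ℕ → Finset V) (hA : ∀ j k, j ≤ k → A k ⊆ A j)
    {θ : ℕ → ℝ} (hθ : ∀ k, 0 < θ k) {M : ℝ} (hM : 0 ≤ M) {c : ℂ} (hc : c.re = 1)
    (Γ : Op V q) {Ω : Conf V q → ℂ} (hΩ : nsq Ω = 1) (n : ℕ) (C : ℝ)
    (hC : ∀ t, 0 < t → t ≤ 1 → ∀ ψ, TState (fun k => cut (A k) q) θ M Γ Ω c n t ψ →
      -(∑ k ∈ range n, θ k * entropyOf (A k) ψ) +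
        (c * FT (fun k => cut (A k) q) ψ (gL (fun k => cut (A k) q) ψ θ M) n Γ
          (fun _ => (t : ℂ) * c)).re ≤ C)
    {π : ∀ k, Par (fun k => Conf {x // x ∈ A k} q) k}
    (hπ : π ∈ FeasC (fun k => Conf {x // x ∈ A k} q) (fun _ => -M) (fun _ => 0)) :
    Real.log (nsq (prR (YC (fun k => cut (A k) q) θ π c) n *ᵥ (NormedSpace.exp (c • Γ) *ᵥ Ω))) ≤
      2 * C + 2 * ∑ k ∈ range n, θ k * (∑ i, Real.exp ((π k).2 i) - 1) := by
  refine tilt_upper (fun k => cut (A k) q) (cut_hcomm A hA) hθ hM hc Γ hΩ n C ?_ hπ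
  intro t ht0 ht1 ψ hψ
  have h := hC t ht0 ht1 ψ hψ
  simp only [ent_cut125]
  exact h

/-- **Step A, regions.** -/
theorem tilt_stepA_region (A : ℕ → Finset V) (hA : ∀ j k, j ≤ k → A k ⊆ A j)
    {θ : ℕ → ℝ} (hθ : ∀ k, 0 < θ k) {M : ℝ} (hM : 0 ≤ M)
    {Γ : Op V q} (hΓ : Γ.IsHermitian) {B : ℝ} (hB : ‖Γ‖ ≤ B) {Ω : Conf V q → ℂ} (hΩ : nsq Ω = 1)
    (n : ℕ) {ε T : ℝ} (hε : 0 < ε) (hε1 : ε ≤ 1) (hT : 1 + 2 / ε ≤ Real.cosh T) (hT0 : 0 ≤ T)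
    (C : ℝ)
    (hC : ∀ τ : ℝ, |τ| ≤ T → ∀ t, 0 < t → t ≤ 1 → ∀ ψ,
      TState (fun k => cut (A k) q) θ M Γ Ω (1 + τ * Complex.I) n t ψ →
      -(∑ k ∈ range n, θ k * entropyOf (A k) ψ) +
        ((1 + τ * Complex.I) * FT (fun k => cut (A k) q) ψ (gL (fun k => cut (A k) q) ψ θ M) n Γ
          (fun _ => (t : ℂ) * (1 + τ * Complex.I))).re ≤ C)
    {P : Op V q} (hP : ‖P‖ ≤ 1)
    (hPe : ∀ k < n, ∀ Y : Op {x // x ∈ A k} q, P * opOn (A k) Y = opOn (A k) Y * P)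
    (hPΓ : P * Γ = Γ * P)
    {φ : Conf V q → ℂ} {p : ℝ} (hp : 0 < p) (hφ : nsq φ = 1)
    (hPΩ : P *ᵥ Ω = ((Real.sqrt p : ℝ) : ℂ) • φ) :
    Real.log p ≤ 2 * C + 2 * ((1 + ε) * ((∑ k ∈ range n, θ k * entropyOf (A k) φ) -
        (star φ ⬝ᵥ (Γ *ᵥ φ)).re) + ε * B) +
      2 * ∑ k ∈ range n, θ k * ((q : ℝ) ^ (A k).card * Real.exp (-M)) := by
  have h := tilt_stepA (fun k => cut (A k) q) (cut_hcomm A hA) hθ hM hΓ hB hΩ n hε hε1 hT hT0 C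
    (by
      intro τ hτ t ht0 ht1 ψ hψ
      have h := hC τ hτ t ht0 ht1 ψ hψ
      simp only [ent_cut125]
      exact h) hP hPe hPΓ hp hφ hPΩ
  simp only [ent_cut125] at h
  have h2 : ∀ k, (Fintype.card (Conf {x // x ∈ A k} q) : ℝ) = (q : ℝ) ^ (A k).card := by
    intro k
    rw [Fintype.card_fun, Fintype.card_fin, Fintype.card_coe]
    push_cast
    rfl
  simp only [h2] at h
  exact h

end region

end Vale.Agent.P356.GA
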