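import Vale.Agent.P356.GA.TubeR107
import Vale.Agent.P356.GA.TiltUp412

/-!
# GA (helper107): the tube bound for regions with the clipped logarithms of TState (412)
-/

set_option linter.all false

namespace Vale.Agent.P356.GA

open Matrix Finset Vale.Agent.P356 Vale.Agent.P356.SV Vale.Agent.P356.Path
open scoped BigOperators ComplexOrder Kronecker Matrix.Norms.L2Operator

section region
variable {V : Type} [Fintype V] [DecidableEq V] {q : ℕ}

theorem eigp_le_exp_lgm {α β : Type*} [Fintype α] [Fintype β] [DecidableEq α] [DecidableEq β]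
    (x : α × β → ℂ) (M : ℝ) (i : α) : eigp x i ≤ Real.exp (lgm M (eigp x i)) := by
  rw [exp_lgm]
  exact le_max_left _ _

/-- `Σ e^{g} ≤ 2` if the clip is below `-|V| log q` -/
theorem sum_exp_lgm_le {ψ : Conf V q → ℂ} (hψ : nsq ψ = 1) (A : Finset V) {M : ℝ}
    (hq : 1 ≤ q) (hM : Fintype.card V * Real.log q ≤ M) :
    ∑ i, Real.exp (lgm M (eigp (ψ ∘ (cut A q).symm) i)) ≤ 2 := by
  have hp : ∀ i, Real.exp (lgm M (eigp (ψ ∘ (cut A q).symm) i)) ≤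
      eigp (ψ ∘ (cut A q).symm) i + Real.exp (-M) := fun i => exp_lgm_le (eigp_nonneg _ i)
  refine (Finset.sum_le_sum fun i _ => hp i).trans ?_
  rw [Finset.sum_add_distrib]
  have h1 : ∑ i, eigp (ψ ∘ (cut A q).symm) i = 1 := by
    refine eigp_sum _ ?_
    have := nsq_comp (cut A q) ψ
    rw [hψ] at this
    exact this
  have hq0 : (0:ℝ) < q := by exact_mod_cast hq
  have h2 : ∑ _i : Conf {x // x ∈ A} q, Real.exp (-M) ≤ 1 := by
    rw [Finset.sum_const, Finset.card_univ, nsmul_eq_mul]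
    have h3 : (Fintype.card (Conf {x // x ∈ A} q) : ℝ) = (q : ℝ) ^ A.card := by
      have : Fintype.card ({x // x ∈ A} → Fin q) = q ^ A.card := by
        rw [Fintype.card_fun, Fintype.card_fin, Fintype.card_coe]
      rw [show Fintype.card (Conf {x // x ∈ A} q) = q ^ A.card from this]
      push_cast
      rfl
    rw [h3, ← Real.rpow_natCast, Real.rpow_def_of_pos hq0, ← Real.exp_add,
      Real.exp_le_one_iff]
    have h4 : (A.card : ℝ) ≤ Fintype.card V := by exact_mod_cast Finset.card_le_univ A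
    have h5 : 0 ≤ Real.log q := Real.log_nonneg (by exact_mod_cast hq)
    nlinarith
  linarith

/-- the functionals of a tilted state, as `FT` with the bare clipped logarithms -/
theorem FT_gL (R : ℕ → Finset V) (ψ : Conf V q → ℂ) (θ : ℕ → ℝ) (M : ℝ) (n : ℕ) (X : Op V q)
    (ζ : ℂ) : FT (fun k => cut (R k) q) ψ (gL (fun k => cut (R k) q) ψ θ M) n X (fun _ => ζ) =
      FT (fun k => cut (R k) q) ψ (fun k i => lgm M (eigp (ψ ∘ (cut (R k) q).symm) i)) n X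
        (fun k => ζ * θ k) :=
  FT_scale (fun k => cut (R k) q) ψ
    (fun k i => lgm M (eigp (ψ ∘ (cut (R k) q).symm) i)) θ n X (fun _ => ζ)

/-- **Tube bound for 412's functional**: `X(ζ)` acts on `A`, `|X(ζ)| ≤ a` on `|ζ| ≤ r`. -/
theorem gL_bound {R : ℕ → Finset V} (hR : ∀ j k, j ≤ k → R k ⊆ R j) {ψ : Conf V q → ℂ}
    (hψ : nsq ψ = 1) (hq : 1 ≤ q) {M : ℝ} (hM : Fintype.card V * Real.log q ≤ M) (n : ℕ)
    {A : Finset V} {X : ℂ → Op V q} {r a : ℝ} (hr : 0 ≤ r)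
    (hX : ∀ ζ : ℂ, ‖ζ‖ ≤ r → ActsOn A (X ζ)) (hXa : ∀ ζ : ℂ, ‖ζ‖ ≤ r → ‖X ζ‖ ≤ a) (ha : 0 ≤ a)
    (θ : ℕ → ℝ) (h : r * (∑ k ∈ crs107 A R n, |θ k|) * (4 * A.card * Real.log q + 2) ≤ 1)
    {ζ : ℂ} (hζ : ‖ζ‖ ≤ r) :
    ‖FT (fun k => cut (R k) q) ψ (gL (fun k => cut (R k) q) ψ θ M) n (X ζ) (fun _ => ζ)‖ ≤
      Real.exp 1 * a := by
  have hΘ0 : 0 ≤ r * ∑ k ∈ crs107 A R n, |θ k| :=
    mul_nonneg hr (Finset.sum_nonneg fun k _ => abs_nonneg _)
  have hL : 0 ≤ Real.log q := Real.log_nonneg (by exact_mod_cast hq)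
  have h0 : 0 ≤ 4 * (A.card : ℝ) * Real.log q := by positivity
  have hmax : max q 1 = q := max_eq_left hq
  rw [FT_gL]
  refine FT_region_one hR hψ _ n (K := 2) (by norm_num) (fun k _ i => eigp_le_exp_lgm _ M i)
    (fun k _ => sum_exp_lgm_le hψ (R k) hq hM) hX hXa ha θ ?_ ?_ hζ
  · nlinarith
  · rw [hmax]
    have h2 : Real.log 2 ≤ 2 := by
      have := Real.log_two_lt_d9
      linarith
    have h3 : 4 * (A.card : ℝ) * Real.log q + Real.log 2 ≤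
        4 * (A.card : ℝ) * Real.log q + 2 := by linarith
    exact (mul_le_mul_of_nonneg_left h3 hΘ0).trans h

theorem gL_differentiable (R : ℕ → Finset V) (ψ : Conf V q → ℂ) (θ : ℕ → ℝ) (M : ℝ) (n : ℕ)
    {X : ℂ → Op V q} (hX : ∀ i j, Differentiable ℂ (fun ζ => X ζ i j)) :
    Differentiable ℂ (fun ζ : ℂ => FT (fun k => cut (R k) q) ψ
      (gL (fun k => cut (R k) q) ψ θ M) n (X ζ) (fun _ => ζ)) := by
  simp only [FT_gL]
  exact differentiable_FT (fun k => cut (R k) q) ψ _ n hX (fun k => (θ k : ℂ))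

/-- Taylor remainder for 412's functional -/
theorem gL_taylor {R : ℕ → Finset V} (hR : ∀ j k, j ≤ k → R k ⊆ R j) {ψ : Conf V q → ℂ}
    (hψ : nsq ψ = 1) (hq : 1 ≤ q) {M : ℝ} (hM : Fintype.card V * Real.log q ≤ M) (n : ℕ)
    {A : Finset V} {X : ℂ → Op V q} (hXd : ∀ i j, Differentiable ℂ (fun ζ => X ζ i j)) {r a : ℝ}
    (hr : 0 < r) (hX : ∀ ζ : ℂ, ‖ζ‖ ≤ r → ActsOn A (X ζ)) (hXa : ∀ ζ : ℂ, ‖ζ‖ ≤ r → ‖X ζ‖ ≤ a)
    (ha : 0 ≤ a) (θ : ℕ → ℝ)
    (h : r * (∑ k ∈ crs107 A R n, |θ k|) * (4 * A.card * Real.log q + 2) ≤ 1) (p : ℕ)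
    {ζ : ℂ} (hζ : ‖ζ‖ ≤ r / 2) :
    ‖FT (fun k => cut (R k) q) ψ (gL (fun k => cut (R k) q) ψ θ M) n (X ζ) (fun _ => ζ) -
      ∑ m ∈ range p, (m.factorial : ℂ)⁻¹ * iteratedDeriv m (fun ζ : ℂ =>
        FT (fun k => cut (R k) q) ψ (gL (fun k => cut (R k) q) ψ θ M) n (X ζ) (fun _ => ζ)) 0 *
          ζ ^ m‖ ≤ 2 * (Real.exp 1 * a) * (‖ζ‖ / r) ^ p :=
  taylor_rem (gL_differentiable R ψ θ M n hXd) hr
    (fun z hz => gL_bound hR hψ hq hM n hr.le hX hXa ha θ h hz) p hζ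

end region

end Vale.Agent.P356.GA
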