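import Mathlib.Analysis.Complex.Liouville
import Mathlib.Analysis.Complex.TaylorSeries

/-!
# GA, block TUBE (helper107): Taylor remainders from Cauchy estimates
-/

set_option linter.all false

namespace Vale.Agent.P356.GA

open Finset Complex

/-- Cauchy estimate of a Taylor coefficient -/
theorem taylor_coeff {f : ℂ → ℂ} (hf : Differentiable ℂ f) {R M : ℝ} (hR : 0 < R)
    (hM : ∀ z : ℂ, ‖z‖ ≤ R → ‖f z‖ ≤ M) (n : ℕ) :
    ‖(n.factorial : ℂ)⁻¹ * iteratedDeriv n f 0‖ ≤ M / R ^ n := by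
  have h1 := Complex.norm_iteratedDeriv_le_of_forall_mem_sphere_norm_le (c := 0) n hR
    hf.diffContOnCl (fun z hz => hM z (by
      rw [mem_sphere_zero_iff_norm] at hz
      exact hz.le))
  have h2 : (0:ℝ) < n.factorial := by exact_mod_cast Nat.factorial_pos n
  rw [norm_mul, norm_inv, Complex.norm_natCast]
  calc (n.factorial : ℝ)⁻¹ * ‖iteratedDeriv n f 0‖
      ≤ (n.factorial : ℝ)⁻¹ * (n.factorial * M / R ^ n) :=
        mul_le_mul_of_nonneg_left h1 (by positivity)
    _ = M / R ^ n := by field_simp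

/-- Taylor remainder: `|f ζ - ∑_{n<p} f_n ζ^n| ≤ 2 M (|ζ|/R)^p` for `|ζ| ≤ R/2` -/
theorem taylor_rem {f : ℂ → ℂ} (hf : Differentiable ℂ f) {R M : ℝ} (hR : 0 < R)
    (hM : ∀ z : ℂ, ‖z‖ ≤ R → ‖f z‖ ≤ M) (p : ℕ) {ζ : ℂ} (hζ : ‖ζ‖ ≤ R / 2) :
    ‖f ζ - ∑ n ∈ range p, (n.factorial : ℂ)⁻¹ * iteratedDeriv n f 0 * ζ ^ n‖ ≤
      2 * M * (‖ζ‖ / R) ^ p := by
  have hM0 : 0 ≤ M := (norm_nonneg _).trans (hM 0 (by simpa using hR.le))
  have hs := Complex.hasSum_taylorSeries_of_entire (c := 0) (z := ζ) hf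
  simp only [sub_zero, smul_eq_mul] at hs
  have hs' : HasSum (fun n : ℕ => (n.factorial : ℂ)⁻¹ * iteratedDeriv n f 0 * ζ ^ n) (f ζ) := by
    have e : (fun n : ℕ => (n.factorial : ℂ)⁻¹ * iteratedDeriv n f 0 * ζ ^ n) =
        fun n => (n.factorial : ℂ)⁻¹ * (ζ ^ n * iteratedDeriv n f 0) := by
      funext n
      ring
    rw [e]
    exact hs
  have h1 := (hasSum_nat_add_iff' p).2 hs'
  set r := ‖ζ‖ / R with hr
  have hr0 : 0 ≤ r := by positivity
  have hr1 : r ≤ 1 / 2 := by
    rw [hr, div_le_iff₀ hR]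
    linarith
  have hgeo : HasSum (fun n : ℕ => M * r ^ p * r ^ n) (M * r ^ p * (1 - r)⁻¹) :=
    (hasSum_geometric_of_lt_one hr0 (by linarith)).mul_left _
  have h2 : ‖f ζ - ∑ n ∈ range p, (n.factorial : ℂ)⁻¹ * iteratedDeriv n f 0 * ζ ^ n‖ ≤
      M * r ^ p * (1 - r)⁻¹ := by
    rw [← h1.tsum_eq]
    refine tsum_of_norm_bounded hgeo fun n => ?_
    rw [norm_mul, norm_pow]
    calc _ ≤ M / R ^ (n + p) * ‖ζ‖ ^ (n + p) :=
          mul_le_mul_of_nonneg_right (taylor_coeff hf hR hM (n + p)) (by positivity)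
      _ = M * r ^ p * r ^ n := by
          rw [hr, div_pow, div_pow, pow_add, pow_add]
          field_simp
  refine h2.trans ?_
  have h3 : (1 - r)⁻¹ ≤ 2 := by
    rw [inv_le_comm₀ (by linarith) (by norm_num)]
    linarith
  calc M * r ^ p * (1 - r)⁻¹ ≤ M * r ^ p * 2 := mul_le_mul_of_nonneg_left h3 (by positivity)
    _ = 2 * M * r ^ p := by ring

/-- For `f` real on the imaginary axis: `f(0)` real, first coefficient imaginary, second real. -/
theorem coeff_imag {f : ℂ → ℂ} (hf : Differentiable ℂ f) (hre : ∀ y : ℝ, (f (y * I)).im = 0)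
    (n : ℕ) : (I ^ n * iteratedDeriv n f 0).im = 0 := by
  -- `h y = f (y i)` is real valued; its derivatives are `i^n f^{(n)}`
  have h1 : ∀ n : ℕ, ∀ y : ℝ, (I ^ n * iteratedDeriv n f (y * I)).im = 0 := by
    intro n
    induction n with
    | zero =>
      intro y
      simpa using hre y
    | succ n ih =>
      intro y
      have hd : HasDerivAt (fun y : ℝ => I ^ n * iteratedDeriv n f (y * I))
          (I ^ n * (iteratedDeriv (n + 1) f (y * I) * I)) y := by
        have hcd : Differentiable ℂ (iteratedDeriv n f) :=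
          (hf.contDiff (n := ⊤)).differentiable_iteratedDeriv n (by exact_mod_cast WithTop.coe_lt_top _)
        have h2 : HasDerivAt (iteratedDeriv n f) (iteratedDeriv (n + 1) f (y * I)) (y * I) := by
          rw [iteratedDeriv_succ]
          exact (hcd _).hasDerivAt
        have h3 : HasDerivAt (fun y : ℝ => (y : ℂ) * I) I y := by
          simpa using (Complex.ofRealCLM.hasDerivAt (x := y)).mul_const I
        exact (h2.comp y h3).const_mul _
      have h4 : HasDerivAt (fun y : ℝ => (I ^ n * iteratedDeriv n f (y * I)).im)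
          (I ^ n * (iteratedDeriv (n + 1) f (y * I) * I)).im y :=
        Complex.imCLM.hasFDerivAt.comp_hasDerivAt y hd
      have h5 : (fun y : ℝ => (I ^ n * iteratedDeriv n f (y * I)).im) = fun _ => 0 := by
        funext y
        exact ih y
      rw [h5] at h4
      have h6 := h4.unique (hasDerivAt_const y (0:ℝ))
      rw [pow_succ]
      have h7 : I ^ n * I * iteratedDeriv (n + 1) f (y * I) =
          I ^ n * (iteratedDeriv (n + 1) f (y * I) * I) := by ring
      rw [h7]
      exact h6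
  have := h1 n 0
  simpa using this

end Vale.Agent.P356.GA
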