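import Vale.Agent.P356.GA.Tube107
import Vale.Agent.P356.GA.Taylor107
import Mathlib.Analysis.SpecialFunctions.Exponential

/-!
# GA, block ENERGY (helper980): the energy identity for the tilted state

* `energy_scalar`, `even_rem`: the scalar Taylor arguments.
* `cjF G n X ζ = e^{ζ G_0} ⋯ e^{ζ G_{n-1}} X e^{-ζ G_{n-1}} ⋯ e^{-ζ G_0}`, its second order
  expansion `cjF_T2`, reality on the imaginary axis.
* `energy_identity`: `e(ψ) = E - t² (1 + τ²) ∑ a₂ + O(third order)`.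
-/

set_option linter.all false

namespace Vale.Agent.P356.GA

open Matrix Finset Vale.Agent.P356 Vale.Agent.P356.SV Vale.Agent.P356.Path
open scoped BigOperators ComplexOrder Kronecker Matrix.Norms.L2Operator

/-! ## scalar part -/

section scalar
open Complex

/-- the second Taylor coefficient of `f` at zero -/
noncomputable def c2 (f : ℂ → ℂ) : ℂ := ((2:ℕ).factorial : ℂ)⁻¹ * iteratedDeriv 2 f 0

/-- first Taylor coefficient -/
noncomputable def c1 (f : ℂ → ℂ) : ℂ := ((1:ℕ).factorial : ℂ)⁻¹ * iteratedDeriv 1 f 0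

theorem real_zero {f : ℂ → ℂ} (hf : Differentiable ℂ f) (hre : ∀ y : ℝ, (f (y * I)).im = 0) :
    (f 0).im = 0 := by
  have := hre 0
  simpa using this

theorem c1_re {f : ℂ → ℂ} (hf : Differentiable ℂ f) (hre : ∀ y : ℝ, (f (y * I)).im = 0) :
    (c1 f).re = 0 := by
  have := coeff_imag hf hre 1
  rw [pow_one, Complex.mul_im, I_re, I_im] at this
  rw [c1]
  simp only [Nat.factorial_one, Nat.cast_one, inv_one, one_mul]
  linarith

theorem c2_im {f : ℂ → ℂ} (hf : Differentiable ℂ f) (hre : ∀ y : ℝ, (f (y * I)).im = 0) :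
    (c2 f).im = 0 := by
  have := coeff_imag hf hre 2
  rw [I_sq, neg_one_mul, Complex.neg_im] at this
  have h2 : (((2:ℕ).factorial : ℂ)⁻¹) = ((2⁻¹ : ℝ) : ℂ) := by
    rw [Nat.factorial_two]; push_cast; ring
  rw [c2, h2, Complex.im_ofReal_mul]
  have h3 : (iteratedDeriv 2 f 0).im = 0 := by linarith
  rw [h3, mul_zero]

/-- the scalar energy identity -/
theorem energy_scalar {ι : Type*} (s : Finset ι) {f : ι → ℂ → ℂ} {R M : ι → ℝ} {t τ E : ℝ}
    (hf : ∀ i ∈ s, Differentiable ℂ (f i)) (hre : ∀ i ∈ s, ∀ y : ℝ, (f i (y * I)).im = 0)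
    (hR : ∀ i ∈ s, 0 < R i) (hM : ∀ i ∈ s, ∀ z : ℂ, ‖z‖ ≤ R i → ‖f i z‖ ≤ M i)
    (hs : ∀ i ∈ s, ‖(t : ℂ) * (1 + τ * I)‖ ≤ R i / 2)
    (hE : ∑ i ∈ s, f i ((t : ℂ) * (1 + τ * I)) = (E : ℂ)) :
    |∑ i ∈ s, (f i 0).re - E + t ^ 2 * (1 + τ ^ 2) * ∑ i ∈ s, (c2 (f i)).re| ≤
      (1 + |τ|) * ∑ i ∈ s, 2 * M i * (‖(t : ℂ) * (1 + τ * I)‖ / R i) ^ 3 := by
  set z0 : ℂ := (t : ℂ) * (1 + τ * I) with hz0
  -- the remainders
  set r : ι → ℂ := fun i => f i z0 - (f i 0 + c1 (f i) * z0 + c2 (f i) * z0 ^ 2) with hr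
  have hrb : ∀ i ∈ s, ‖r i‖ ≤ 2 * M i * (‖z0‖ / R i) ^ 3 := by
    intro i hi
    have h := taylor_rem (hf i hi) (hR i hi) (hM i hi) 3 (hs i hi)
    rw [Finset.sum_range_succ, Finset.sum_range_succ, Finset.sum_range_one] at h
    have e : (Nat.factorial 0 : ℂ)⁻¹ * iteratedDeriv 0 (f i) 0 * z0 ^ 0 = f i 0 := by
      simp
    rw [e, pow_one] at h
    exact h
  set rr := ∑ i ∈ s, r i with hrr
  have hrr1 : ‖rr‖ ≤ ∑ i ∈ s, 2 * M i * (‖z0‖ / R i) ^ 3 :=
    (norm_sum_le _ _).trans (Finset.sum_le_sum hrb)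
  set a0 := ∑ i ∈ s, f i 0 with ha0
  set a1 := ∑ i ∈ s, c1 (f i) with ha1
  set a2 := ∑ i ∈ s, c2 (f i) with ha2
  have hsum : (E : ℂ) = a0 + a1 * z0 + a2 * z0 ^ 2 + rr := by
    rw [← hE, hrr, ha0, ha1, ha2, Finset.sum_mul, Finset.sum_mul, ← Finset.sum_add_distrib,
      ← Finset.sum_add_distrib, ← Finset.sum_add_distrib]
    refine Finset.sum_congr rfl fun i _ => ?_
    rw [hr]
    ring
  have h0 : a0.im = 0 := by
    rw [ha0, Complex.im_sum]
    exact Finset.sum_eq_zero fun i hi => real_zero (hf i hi) (hre i hi)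
  have h1 : a1.re = 0 := by
    rw [ha1, Complex.re_sum]
    exact Finset.sum_eq_zero fun i hi => c1_re (hf i hi) (hre i hi)
  have h2 : a2.im = 0 := by
    rw [ha2, Complex.im_sum]
    exact Finset.sum_eq_zero fun i hi => c2_im (hf i hi) (hre i hi)
  have hzre : z0.re = t := by
    rw [hz0]; simp
  have hzim : z0.im = t * τ := by
    rw [hz0]; simp
  have hre' := congrArg Complex.re hsum
  have him' := congrArg Complex.im hsum
  rw [Complex.ofReal_re] at hre'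
  rw [Complex.ofReal_im] at him'
  simp only [Complex.add_re, Complex.mul_re, Complex.add_im, Complex.mul_im, sq, h0, h1, h2,
    hzre, hzim] at hre' him'
  have hre0 : (∑ i ∈ s, (f i 0).re) = a0.re := by rw [ha0, Complex.re_sum]
  have hre2 : (∑ i ∈ s, (c2 (f i)).re) = a2.re := by rw [ha2, Complex.re_sum]
  rw [hre0, hre2]
  have hkey : a0.re - E + t ^ 2 * (1 + τ ^ 2) * a2.re = -(τ * rr.im) - rr.re := by
    have e1 : a1.im * t = -(2 * (t ^ 2 * τ * a2.re)) - rr.im := by nlinarith [him']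
    have e2 : E = a0.re - a1.im * t * τ + a2.re * (t ^ 2 - t ^ 2 * τ ^ 2) + rr.re := by
      nlinarith [hre']
    rw [e1] at e2
    rw [e2]
    ring
  rw [hkey]
  have h3 : |-(τ * rr.im) - rr.re| ≤ |τ| * ‖rr‖ + ‖rr‖ := by
    have h4 : |-(τ * rr.im) - rr.re| ≤ |-(τ * rr.im)| + |rr.re| := abs_sub _ _
    rw [abs_neg, abs_mul] at h4
    have h5 := Complex.abs_im_le_norm rr
    have h6 := Complex.abs_re_le_norm rr
    have h7 := mul_le_mul_of_nonneg_left h5 (abs_nonneg τ)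
    linarith
  have h8 : |τ| * ‖rr‖ + ‖rr‖ = (1 + |τ|) * ‖rr‖ := by ring
  rw [h8] at h3
  exact h3.trans (mul_le_mul_of_nonneg_left hrr1 (by positivity))

/-- the even part up to fourth order -/
theorem even_rem {f : ℂ → ℂ} (hf : Differentiable ℂ f) {R M : ℝ} (hR : 0 < R)
    (hM : ∀ z : ℂ, ‖z‖ ≤ R → ‖f z‖ ≤ M) {z : ℂ} (hz : ‖z‖ ≤ R / 2) :
    ‖f z + f (-z) - 2 * f 0 - 2 * c2 f * z ^ 2‖ ≤ 4 * M * (‖z‖ / R) ^ 4 := by
  have h1 := taylor_rem hf hR hM 4 hz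
  have h2 := taylor_rem hf hR hM 4 (ζ := -z) (by rwa [norm_neg])
  rw [norm_neg] at h2
  have e : f z + f (-z) - 2 * f 0 - 2 * c2 f * z ^ 2 =
      (f z - ∑ n ∈ range 4, (n.factorial : ℂ)⁻¹ * iteratedDeriv n f 0 * z ^ n) +
      (f (-z) - ∑ n ∈ range 4, (n.factorial : ℂ)⁻¹ * iteratedDeriv n f 0 * (-z) ^ n) := by
    simp only [Finset.sum_range_succ, Finset.sum_range_zero, c2]
    simp only [Nat.factorial_zero, Nat.cast_one, inv_one, one_mul, iteratedDeriv_zero, pow_zero,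
      mul_one, zero_add]
    ring
  rw [e]
  refine (norm_add_le _ _).trans ?_
  linarith

end scalar

/-! ## second order expansions -/

section T2
variable {E : Type*} [NormedAddCommGroup E] [NormedSpace ℂ E]

/-- `F` is entire, `F ζ = a + b ζ + c ζ² + …` -/
def HasT2 (F : ℂ → E) (a b c : E) : Prop :=
  ∃ F' : ℂ → E, (∀ z, HasDerivAt F (F' z) z) ∧ F 0 = a ∧ F' 0 = b ∧
    HasDerivAt F' ((2:ℂ) • c) 0

theorem HasT2.differentiable {F : ℂ → E} {a b c : E} (h : HasT2 F a b c) : Differentiable ℂ F := by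
  obtain ⟨F', h1, -⟩ := h
  exact fun z => (h1 z).differentiableAt

theorem HasT2.congr {F : ℂ → E} {a b c a' b' c' : E} (h : HasT2 F a b c) (ha : a = a')
    (hb : b = b') (hc : c = c') : HasT2 F a' b' c' := by
  rw [← ha, ← hb, ← hc]; exact h

theorem HasT2.const (a : E) : HasT2 (fun _ => a) a 0 0 :=
  ⟨fun _ => 0, fun z => hasDerivAt_const z a, rfl, rfl, by
    rw [smul_zero]; exact hasDerivAt_const _ _⟩

theorem HasT2.iter2 {F : ℂ → E} {a b c : E} (h : HasT2 F a b c) :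
    iteratedDeriv 2 F 0 = (2:ℂ) • c := by
  obtain ⟨F', h1, h2, h3, h4⟩ := h
  have e1 : iteratedDeriv 1 F = F' := by
    rw [iteratedDeriv_one]
    funext z
    exact (h1 z).deriv
  rw [iteratedDeriv_succ, e1]
  exact h4.deriv

theorem HasT2.clm {E' : Type*} [NormedAddCommGroup E'] [NormedSpace ℂ E'] {F : ℂ → E} {a b c : E}
    (h : HasT2 F a b c) (L : E →L[ℂ] E') : HasT2 (fun z => L (F z)) (L a) (L b) (L c) := by
  obtain ⟨F', h1, h2, h3, h4⟩ := h
  refine ⟨fun z => L (F' z), fun z => L.hasFDerivAt.comp_hasDerivAt z (h1 z),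
    by simp only; rw [h2], by simp only; rw [h3], ?_⟩
  rw [← map_smul]
  exact L.hasFDerivAt.comp_hasDerivAt 0 h4

theorem c2_of_T2 {f : ℂ → ℂ} {a b c : ℂ} (h : HasT2 f a b c) : c2 f = c := by
  rw [c2, h.iter2, Nat.factorial_two, smul_eq_mul]
  push_cast
  ring

end T2

section T2alg
variable {A : Type*} [NormedRing A] [NormedAlgebra ℂ A]

theorem HasT2.mul {F G : ℂ → A} {a b c a' b' c' : A} (hF : HasT2 F a b c)
    (hG : HasT2 G a' b' c') :
    HasT2 (fun z => F z * G z) (a * a') (a * b' + b * a') (a * c' + b * b' + c * a') := by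
  obtain ⟨F', f1, f2, f3, f4⟩ := hF
  obtain ⟨G', g1, g2, g3, g4⟩ := hG
  refine ⟨fun z => F' z * G z + F z * G' z, fun z => (f1 z).mul (g1 z), by simp only; rw [f2, g2],
    ?_, ?_⟩
  · simp only
    rw [f2, g2, f3, g3, add_comm]
  · have h := (f4.mul (g1 0)).add ((f1 0).mul g4)
    rw [f2, g2, f3, g3] at h
    refine h.congr_deriv ?_
    simp only [two_smul, mul_add, add_mul]
    abel

theorem HasT2.exp [CompleteSpace A] (G : A) :
    HasT2 (fun z : ℂ => NormedSpace.exp (z • G)) 1 G ((2:ℂ)⁻¹ • (G * G)) := by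
  refine ⟨fun z => NormedSpace.exp (z • G) * G, fun z => hasDerivAt_exp_smul_const G z, ?_, ?_, ?_⟩
  · simp only
    rw [zero_smul, NormedSpace.exp_zero]
  · simp only
    rw [zero_smul, NormedSpace.exp_zero, one_mul]
  · have h := (hasDerivAt_exp_smul_const (𝕂 := ℂ) G 0).mul_const G
    rw [zero_smul, NormedSpace.exp_zero, one_mul] at h
    rw [smul_smul, mul_inv_cancel₀ (two_ne_zero), one_smul]
    exact h

theorem HasT2.exp_neg [CompleteSpace A] (G : A) :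
    HasT2 (fun z : ℂ => NormedSpace.exp ((-z) • G)) 1 (-G) ((2:ℂ)⁻¹ • (G * G)) := by
  have h := HasT2.exp (-G)
  rw [neg_mul_neg] at h
  have e : (fun z : ℂ => NormedSpace.exp ((-z) • G)) = fun z : ℂ => NormedSpace.exp (z • (-G)) := by
    funext z
    rw [neg_smul, smul_neg]
  rw [e]
  exact h

/-- the commutator -/
def ad (X Y : A) : A := X * Y - Y * X

theorem HasT2.conj [CompleteSpace A] {X : ℂ → A} {a b c : A} (hX : HasT2 X a b c) (G : A) :
    HasT2 (fun z : ℂ => NormedSpace.exp (z • G) * X z * NormedSpace.exp ((-z) • G)) a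
      (b + ad G a) (c + ad G b + (2:ℂ)⁻¹ • ad G (ad G a)) := by
  refine (((HasT2.exp G).mul hX).mul (HasT2.exp_neg G)).congr ?_ ?_ ?_
  · rw [one_mul, mul_one]
  · rw [ad]
    simp only [one_mul, mul_one, mul_neg]
    abel
  · simp only [ad]
    simp only [one_mul, mul_one, mul_neg, smul_mul_assoc, mul_smul_comm, mul_sub, sub_mul,
      add_mul, mul_add, smul_sub, smul_add, ← mul_assoc]
    have h2 : G * a * G = (2:ℂ)⁻¹ • (G * a * G) + (2:ℂ)⁻¹ • (G * a * G) := by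
      rw [← add_smul]
      norm_num
    nth_rw 1 [h2]
    abel

end T2alg

/-! ## the conjugation flow -/

section conj
variable {N : Type*} [Fintype N] [DecidableEq N]

/-- `e^{ζ G_0} ⋯ e^{ζ G_{n-1}} X e^{-ζ G_{n-1}} ⋯ e^{-ζ G_0}` -/
noncomputable def cjF (G : ℕ → Matrix N N ℂ) (n : ℕ) (X : Matrix N N ℂ) (ζ : ℂ) : Matrix N N ℂ :=
  prR (fun k => NormedSpace.exp (ζ • G k)) n * X *
    prL (fun k => NormedSpace.exp ((-ζ) • G k)) n

/-- `S_k = G_0 + ⋯ + G_{k-1} + G_k / 2` -/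
noncomputable def Sg (G : ℕ → Matrix N N ℂ) (k : ℕ) : Matrix N N ℂ :=
  ∑ j ∈ range k, G j + (2:ℂ)⁻¹ • G k

theorem ad_sum (s : Finset ℕ) (G : ℕ → Matrix N N ℂ) (X : Matrix N N ℂ) :
    ad (∑ k ∈ s, G k) X = ∑ k ∈ s, ad (G k) X := by
  simp only [ad, Finset.sum_mul, Finset.mul_sum, Finset.sum_sub_distrib]

theorem ad_add_right (G X Y : Matrix N N ℂ) : ad G (X + Y) = ad G X + ad G Y := by
  simp only [ad, mul_add, add_mul]; abel

theorem ad_add_left (G G' X : Matrix N N ℂ) : ad (G + G') X = ad G X + ad G' X := by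
  simp only [ad, mul_add, add_mul]; abel

theorem ad_smul_left (c : ℂ) (G X : Matrix N N ℂ) : ad (c • G) X = c • ad G X := by
  simp only [ad, smul_mul_assoc, mul_smul_comm, smul_sub]

theorem ad_smul_right (c : ℂ) (G X : Matrix N N ℂ) : ad G (c • X) = c • ad G X := by
  simp only [ad, smul_mul_assoc, mul_smul_comm, smul_sub]

theorem ad_zero_right (G : Matrix N N ℂ) : ad G 0 = 0 := by
  simp only [ad, mul_zero, zero_mul, sub_zero]

theorem cj_T2 (G : ℕ → Matrix N N ℂ) (n : ℕ) : ∀ {X : ℂ → Matrix N N ℂ} {a b c : Matrix N N ℂ},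
    HasT2 X a b c →
    HasT2 (fun ζ => prR (fun k => NormedSpace.exp (ζ • G k)) n * X ζ *
      prL (fun k => NormedSpace.exp ((-ζ) • G k)) n) a
      (b + ∑ k ∈ range n, ad (G k) a)
      (c + ∑ k ∈ range n, ad (G k) b + ∑ k ∈ range n, ad (Sg G k) (ad (G k) a)) := by
  induction n with
  | zero =>
    intro X a b c hX
    simp only [prR, prL, range_zero, sum_empty, add_zero, Matrix.one_mul, Matrix.mul_one]
    exact hX
  | succ n ih =>
    intro X a b c hX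
    have h := ih (hX.conj (G n))
    have e : (fun ζ : ℂ => prR (fun k => NormedSpace.exp (ζ • G k)) (n + 1) * X ζ *
        prL (fun k => NormedSpace.exp ((-ζ) • G k)) (n + 1)) =
        fun ζ => prR (fun k => NormedSpace.exp (ζ • G k)) n *
          (NormedSpace.exp (ζ • G n) * X ζ * NormedSpace.exp ((-ζ) • G n)) *
          prL (fun k => NormedSpace.exp ((-ζ) • G k)) n := by
      funext ζ
      rw [prR, prL]
      simp only [Matrix.mul_assoc]
    rw [e]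
    refine h.congr rfl ?_ ?_
    · rw [sum_range_succ]
      abel
    · simp only [sum_range_succ, ad_add_right, Finset.sum_add_distrib]
      have h1 : ad (Sg G n) (ad (G n) a) = ∑ k ∈ range n, ad (G k) (ad (G n) a) +
          (2:ℂ)⁻¹ • ad (G n) (ad (G n) a) := by
        rw [Sg, ad_add_left, ad_sum, ad_smul_left]
      rw [h1]
      abel

/-- the second order expansion of the conjugation flow -/
theorem cjF_T2 (G : ℕ → Matrix N N ℂ) (n : ℕ) (X : Matrix N N ℂ) :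
    HasT2 (cjF G n X) X (∑ k ∈ range n, ad (G k) X)
      (∑ k ∈ range n, ad (Sg G k) (ad (G k) X)) := by
  refine (cj_T2 G n (HasT2.const X)).congr rfl ?_ ?_
  · rw [zero_add]
  · simp only [ad_zero_right, sum_const_zero, zero_add]

/-- `⟨ψ|X|ψ⟩` as a linear functional of `X` -/
noncomputable def expL (ψ : N → ℂ) : Matrix N N ℂ →L[ℂ] ℂ :=
  LinearMap.toContinuousLinearMap
    { toFun := fun X => star ψ ⬝ᵥ (X *ᵥ ψ)
      map_add' := fun X Y => by rw [add_mulVec, dotProduct_add]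
      map_smul' := fun c X => by rw [smul_mulVec, dotProduct_smul]; rfl }

theorem expL_apply (ψ : N → ℂ) (X : Matrix N N ℂ) : expL ψ X = star ψ ⬝ᵥ (X *ᵥ ψ) := rfl

/-- the scalar flow -/
noncomputable def fE (ψ : N → ℂ) (G : ℕ → Matrix N N ℂ) (n : ℕ) (X : Matrix N N ℂ) (ζ : ℂ) : ℂ :=
  expL ψ (cjF G n X ζ)

theorem fE_T2 (ψ : N → ℂ) (G : ℕ → Matrix N N ℂ) (n : ℕ) (X : Matrix N N ℂ) :
    HasT2 (fE ψ G n X) (expL ψ X) (expL ψ (∑ k ∈ range n, ad (G k) X))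
      (expL ψ (∑ k ∈ range n, ad (Sg G k) (ad (G k) X))) :=
  (cjF_T2 G n X).clm (expL ψ)

theorem fE_diff (ψ : N → ℂ) (G : ℕ → Matrix N N ℂ) (n : ℕ) (X : Matrix N N ℂ) :
    Differentiable ℂ (fE ψ G n X) := (fE_T2 ψ G n X).differentiable

theorem fE_zero (ψ : N → ℂ) (G : ℕ → Matrix N N ℂ) (n : ℕ) (X : Matrix N N ℂ) :
    fE ψ G n X 0 = expL ψ X := by
  obtain ⟨F', h1, h2, -⟩ := fE_T2 ψ G n X
  exact h2

theorem c2_fE (ψ : N → ℂ) (G : ℕ → Matrix N N ℂ) (n : ℕ) (X : Matrix N N ℂ) :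
    c2 (fE ψ G n X) = ∑ k ∈ range n, expL ψ (ad (Sg G k) (ad (G k) X)) := by
  rw [c2_of_T2 (fE_T2 ψ G n X), map_sum]

theorem exp_inv_neg (G : Matrix N N ℂ) (ζ : ℂ) :
    NormedSpace.exp ((-ζ) • G) * NormedSpace.exp (ζ • G) = 1 := by
  letI : NormedAlgebra ℚ (Matrix N N ℂ) := NormedAlgebra.restrictScalars ℚ ℝ (Matrix N N ℂ)
  rw [neg_smul, ← NormedSpace.exp_add_of_commute, neg_add_cancel, NormedSpace.exp_zero]
  exact (Commute.refl _).neg_left

theorem cj_inv (G : ℕ → Matrix N N ℂ) (n : ℕ) (ζ : ℂ) :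
    prR (fun k => NormedSpace.exp (ζ • G k)) n *
      prL (fun k => NormedSpace.exp ((-ζ) • G k)) n = 1 :=
  mul_eq_one_comm.mp (prL_mul_prR fun j _ => exp_inv_neg (G j) ζ)

/-- additivity in the observable -/
theorem fE_sum (ψ : N → ℂ) (G : ℕ → Matrix N N ℂ) (n : ℕ) {ι : Type*} (s : Finset ι)
    (T : ι → Matrix N N ℂ) (ζ : ℂ) : fE ψ G n (∑ i ∈ s, T i) ζ = ∑ i ∈ s, fE ψ G n (T i) ζ := by
  simp only [fE, cjF]
  rw [Finset.mul_sum, Finset.sum_mul, map_sum]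

theorem fE_one {ψ : N → ℂ} (hψ : nsq ψ = 1) (G : ℕ → Matrix N N ℂ) (n : ℕ) (ζ : ℂ) :
    fE ψ G n 1 ζ = 1 := by
  rw [fE, cjF, Matrix.mul_one, cj_inv, expL_apply, one_mulVec, ip_self, hψ, Complex.ofReal_one]

theorem expL_herm {X : Matrix N N ℂ} (hX : X.IsHermitian) (ψ : N → ℂ) : (expL ψ X).im = 0 := by
  rw [expL_apply]
  have h : star (star ψ ⬝ᵥ (X *ᵥ ψ)) = star ψ ⬝ᵥ (X *ᵥ ψ) := by
    rw [← star_dotProduct_star, star_star]
    exact (ip_mulVec X ψ ψ).trans (by rw [hX.eq])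
  have h2 := congrArg Complex.im h
  rw [RCLike.star_def, Complex.conj_im] at h2
  linarith

/-- the unitary on the imaginary axis -/
theorem exp_imag_star {G : Matrix N N ℂ} (hG : G.IsHermitian) (y : ℝ) :
    (NormedSpace.exp (((y : ℂ) * Complex.I) • G))ᴴ =
      NormedSpace.exp ((-((y : ℂ) * Complex.I)) • G) := by
  have h := NormedSpace.star_exp (((y : ℂ) * Complex.I) • G)
  rw [Matrix.star_eq_conjTranspose, Matrix.star_eq_conjTranspose, conjTranspose_smul, hG.eq] at h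
  rw [h]
  congr 2
  simp

theorem prR_star_imag {G : ℕ → Matrix N N ℂ} {n : ℕ} (hG : ∀ k < n, (G k).IsHermitian) (y : ℝ) :
    (prR (fun k => NormedSpace.exp (((y : ℂ) * Complex.I) • G k)) n)ᴴ =
      prL (fun k => NormedSpace.exp ((-((y : ℂ) * Complex.I)) • G k)) n := by
  rw [prR_conjTranspose]
  induction n with
  | zero => rfl
  | succ n ih =>
    rw [prL, prL, ih (fun k hk => hG k (Nat.lt_succ_of_lt hk)),
      exp_imag_star (hG n (Nat.lt_succ_self n))]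

/-- on the imaginary axis the flow is a conjugation by a unitary -/
theorem fE_imag (ψ : N → ℂ) {G : ℕ → Matrix N N ℂ} {n : ℕ} (hG : ∀ k < n, (G k).IsHermitian)
    (X : Matrix N N ℂ) (y : ℝ) :
    fE ψ G n X ((y : ℂ) * Complex.I) =
      expL (prL (fun k => NormedSpace.exp ((-((y : ℂ) * Complex.I)) • G k)) n *ᵥ ψ) X := by
  rw [fE, cjF, expL_apply, expL_apply, ip_mulVec, ← prR_star_imag hG, conjTranspose_conjTranspose,
    mulVec_mulVec, mulVec_mulVec, Matrix.mul_assoc]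

theorem nsq_imag (ψ : N → ℂ) {G : ℕ → Matrix N N ℂ} {n : ℕ} (hG : ∀ k < n, (G k).IsHermitian)
    (y : ℝ) :
    nsq (prL (fun k => NormedSpace.exp ((-((y : ℂ) * Complex.I)) • G k)) n *ᵥ ψ) = nsq ψ := by
  have h := fE_imag ψ hG 1 y
  rw [fE, cjF, Matrix.mul_one, cj_inv, expL_apply, expL_apply, one_mulVec, one_mulVec, ip_self,
    ip_self] at h
  exact_mod_cast h.symm

theorem fE_real (ψ : N → ℂ) {G : ℕ → Matrix N N ℂ} {n : ℕ} (hG : ∀ k < n, (G k).IsHermitian)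
    {X : Matrix N N ℂ} (hX : X.IsHermitian) (y : ℝ) :
    (fE ψ G n X ((y : ℂ) * Complex.I)).im = 0 := by
  rw [fE_imag ψ hG]
  exact expL_herm hX _

/-- **Energy identity.** `ψ` is proportional to `e^{s G_0} ⋯ e^{s G_{n-1}} Ω`, `H Ω = E Ω`,
`H = ∑ T_i`. -/
theorem energy_identity {ψ : N → ℂ} (hψ : nsq ψ = 1) {G : ℕ → Matrix N N ℂ} {n : ℕ}
    (hG : ∀ k < n, (G k).IsHermitian) {ι : Type*} (s : Finset ι) {T : ι → Matrix N N ℂ}
    (hT : ∀ i ∈ s, (T i).IsHermitian) {E t τ : ℝ}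
    (hE : (∑ i ∈ s, T i) *ᵥ (prL (fun k => NormedSpace.exp
        ((-((t : ℂ) * (1 + τ * Complex.I))) • G k)) n *ᵥ ψ) =
      (E : ℂ) • (prL (fun k => NormedSpace.exp ((-((t : ℂ) * (1 + τ * Complex.I))) • G k)) n *ᵥ ψ))
    {R M : ι → ℝ} (hR : ∀ i ∈ s, 0 < R i)
    (hM : ∀ i ∈ s, ∀ z : ℂ, ‖z‖ ≤ R i → ‖fE ψ G n (T i) z‖ ≤ M i)
    (hs : ∀ i ∈ s, ‖(t : ℂ) * (1 + τ * Complex.I)‖ ≤ R i / 2) :
    |(star ψ ⬝ᵥ ((∑ i ∈ s, T i) *ᵥ ψ)).re - E + t ^ 2 * (1 + τ ^ 2) *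
        ∑ i ∈ s, ∑ k ∈ range n, (star ψ ⬝ᵥ (ad (Sg G k) (ad (G k) (T i)) *ᵥ ψ)).re| ≤
      (1 + |τ|) * ∑ i ∈ s, 2 * M i * (‖(t : ℂ) * (1 + τ * Complex.I)‖ / R i) ^ 3 := by
  have hsum : ∑ i ∈ s, fE ψ G n (T i) ((t : ℂ) * (1 + τ * Complex.I)) = (E : ℂ) := by
    rw [← fE_sum, fE, cjF, expL_apply, ← mulVec_mulVec, ← mulVec_mulVec, hE, mulVec_smul,
      mulVec_mulVec, cj_inv, one_mulVec, dotProduct_smul, ip_self, hψ, Complex.ofReal_one,
      smul_eq_mul, mul_one]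
  have h := energy_scalar s (fun i _ => fE_diff ψ G n (T i))
    (fun i hi y => fE_real ψ hG (hT i hi) y) hR hM hs hsum
  have e0 : ∑ i ∈ s, (fE ψ G n (T i) 0).re = (star ψ ⬝ᵥ ((∑ i ∈ s, T i) *ᵥ ψ)).re := by
    rw [← Complex.re_sum, ← fE_sum, fE_zero, expL_apply]
  have e2 : ∑ i ∈ s, (c2 (fE ψ G n (T i))).re =
      ∑ i ∈ s, ∑ k ∈ range n, (star ψ ⬝ᵥ (ad (Sg G k) (ad (G k) (T i)) *ᵥ ψ)).re := by
    refine Finset.sum_congr rfl fun i _ => ?_
    rw [c2_fE, Complex.re_sum]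
    rfl
  rw [e0, e2] at h
  exact h

/-! ## the flows of 107 -/

/-- a one-parameter group is the exponential of its generator -/
theorem eq_exp_of_group {W : ℂ → Matrix N N ℂ} {G : Matrix N N ℂ} (h0 : W 0 = 1)
    (hd : ∀ z, HasDerivAt W (W z * G) z) (z : ℂ) : W z = NormedSpace.exp (z • G) := by
  have h1 : ∀ z : ℂ, HasDerivAt (fun z : ℂ => W z * NormedSpace.exp (z • (-G))) 0 z := by
    intro z
    have h2 := (hd z).mul (hasDerivAt_exp_smul_const' (𝕂 := ℂ) (-G) z)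
    refine h2.congr_deriv ?_
    rw [neg_mul, mul_neg, Matrix.mul_assoc, add_neg_cancel]
  have h3 : ∀ z : ℂ, W z * NormedSpace.exp (z • (-G)) = 1 := by
    intro z
    have h4 := is_const_of_deriv_eq_zero (f := fun z : ℂ => W z * NormedSpace.exp (z • (-G)))
      (fun z => (h1 z).differentiableAt) (fun z => (h1 z).deriv) z 0
    rw [h4, h0, zero_smul, NormedSpace.exp_zero, Matrix.mul_one]
  have h5 := exp_inv_neg G z
  calc W z = W z * (NormedSpace.exp ((-z) • G) * NormedSpace.exp (z • G)) := by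
        rw [h5, Matrix.mul_one]
    _ = W z * NormedSpace.exp (z • (-G)) * NormedSpace.exp (z • G) := by
        rw [neg_smul, smul_neg, Matrix.mul_assoc]
    _ = NormedSpace.exp (z • G) := by rw [h3, Matrix.one_mul]

section sgs
variable {α β : ℕ → Type*} [∀ k, Fintype (α k)]
  [∀ k, DecidableEq (α k)] [∀ k, Fintype (β k)] [∀ k, DecidableEq (β k)]
variable (e : ∀ k, N ≃ α k × β k) (ψ : N → ℂ) (g : ∀ k, α k → ℝ)

/-- the generator of `sg` -/
noncomputable def sgG (k : ℕ) : Matrix N N ℂ :=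
  opL (e k) (cOp (ψ ∘ (e k).symm) (fun i => (g k i : ℂ)))

theorem sgG_herm (k : ℕ) : (sgG e ψ g k).IsHermitian := by
  rw [Matrix.IsHermitian, sgG, opL_conjTranspose, cOp_conjTranspose]
  congr 2
  funext i
  simp

theorem sg_eq_exp (k : ℕ) (z : ℂ) : sg e ψ g k z = NormedSpace.exp (z • sgG e ψ g k) := by
  refine eq_exp_of_group (W := sg e ψ g k) (sg_zero e ψ g k) (fun z => ?_) z
  set L : (α k → ℂ) →L[ℂ] Matrix N N ℂ := LinearMap.toContinuousLinearMap
    { toFun := fun f => opL (e k) (cOp (ψ ∘ (e k).symm) f)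
      map_add' := fun f f' => by
        rw [← opL_add]
        congr 1
        rw [cOp, cOp, cOp, ← add_mul, ← mul_add, diagonal_add]
        rfl
      map_smul' := fun c f => by
        rw [RingHom.id_apply, ← opL_smul]
        congr 1
        rw [cOp, cOp, ← smul_mul_assoc, ← mul_smul_comm, ← diagonal_smul] } with hL
  have hd : HasDerivAt (fun z : ℂ => (fun i => Complex.exp (z * (g k i : ℂ)) : α k → ℂ))
      (fun i => Complex.exp (z * (g k i : ℂ)) * (g k i : ℂ)) z := by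
    rw [hasDerivAt_pi]
    intro i
    have h1 : HasDerivAt (fun z : ℂ => z * (g k i : ℂ)) (g k i : ℂ) z := by
      simpa using (hasDerivAt_id z).mul_const (g k i : ℂ)
    exact h1.cexp
  have h2 := L.hasFDerivAt.comp_hasDerivAt z hd
  refine h2.congr_deriv ?_
  show opL (e k) (cOp (ψ ∘ (e k).symm) (fun i => Complex.exp (z * (g k i : ℂ)) * (g k i : ℂ))) = _
  rw [sg, sgG, ← opL_mul, cOp_mul]

/-- the flow with one more factor inside -/
theorem fE_succ (G : ℕ → Matrix N N ℂ) (n : ℕ) (X : Matrix N N ℂ) (ζ : ℂ) :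
    fE ψ G (n + 1) X ζ =
      fE ψ G n (NormedSpace.exp (ζ • G n) * X * NormedSpace.exp ((-ζ) • G n)) ζ := by
  rw [fE, fE, cjF, cjF, prR, prL]
  simp only [Matrix.mul_assoc]

theorem fE_congr {G G' : ℕ → Matrix N N ℂ} {n : ℕ} (h : ∀ k < n, G k = G' k)
    (X : Matrix N N ℂ) (ζ : ℂ) : fE ψ G n X ζ = fE ψ G' n X ζ := by
  rw [fE, fE, cjF, cjF, prR_congr (fun j hj => by rw [h j hj]),
    prL_congr (Y' := fun k => NormedSpace.exp ((-ζ) • G' k)) (fun j hj => by rw [h j hj])]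

/-- 107's multi-parameter function on a complex line -/
theorem FT_eq_fE (n : ℕ) (X : Matrix N N ℂ) (c : ℕ → ℝ) (ζ : ℂ) :
    FT e ψ g n X (fun k => ζ * (c k : ℂ)) =
      fE ψ (fun k => (c k : ℂ) • sgG e ψ g k) n X ζ := by
  rw [FT, fE, cjF, expL_apply]
  have h1 : (fun k => sg e ψ g k (ζ * (c k : ℂ))) =
      fun k => NormedSpace.exp (ζ • ((c k : ℂ) • sgG e ψ g k)) := by
    funext k
    rw [sg_eq_exp, smul_smul]
  have h2 : (fun k => sg e ψ g k (-(ζ * (c k : ℂ)))) =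
      fun k => NormedSpace.exp ((-ζ) • ((c k : ℂ) • sgG e ψ g k)) := by
    funext k
    rw [sg_eq_exp, smul_smul, neg_mul]
  rw [h1, h2]

/-- the same with `e^{ζ Γ} X e^{-ζ Γ}` inside -/
theorem FT_eq_fE_last (n : ℕ) (X Γ : Matrix N N ℂ) (c : ℕ → ℝ) (ζ : ℂ) :
    FT e ψ g n (NormedSpace.exp (ζ • Γ) * X * NormedSpace.exp ((-ζ) • Γ))
        (fun k => ζ * (c k : ℂ)) =
      fE ψ (fun k => if k < n then (c k : ℂ) • sgG e ψ g k else Γ) (n + 1) X ζ := by
  rw [FT_eq_fE, fE_succ, if_neg (lt_irrefl n)]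
  exact fE_congr ψ (fun k hk => by rw [if_pos hk]) _ ζ

end sgs

end conj

end Vale.Agent.P356.GA
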