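import Vale.Agent.P356.Defs
import Mathlib.Analysis.Complex.Hadamard
import Mathlib.Analysis.Complex.RealDeriv
import Mathlib.Analysis.SpecialFunctions.Trigonometric.Deriv
import Mathlib.Analysis.SpecialFunctions.Trigonometric.DerivHyp
import Mathlib.Analysis.SpecialFunctions.Trigonometric.Bounds

/-!
A lower bound for a bounded analytic function on the line `Re z = 1` of a strip, with an
exponentially small loss: if `φ 0 = 1` and `φ' 0 = -K`, then `‖φ‖` cannot be smaller than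
`exp (-K / (1 - ε/2))` on the whole segment `{1 + iτ, |τ| ≤ T}`, once `cosh T ≥ 1 + 2/ε`.
-/

set_option linter.all false

namespace Vale.Agent.P356.GA

open Set

/-- weight -/
noncomputable def chi48 (ε : ℝ) (z : ℂ) : ℂ :=
  z - ε * (Complex.cos (z - 1 / 2) - Complex.cos (1 / 2))

theorem chi48_re (ε : ℝ) (z : ℂ) : (chi48 ε z).re =
    z.re - ε * (Real.cos (z.re - 1 / 2) * Real.cosh z.im - Real.cos (1 / 2)) := by
  have h1 : z - 1 / 2 = ((z.re - 1 / 2 : ℝ) : ℂ) + (z.im : ℂ) * Complex.I := by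
    apply Complex.ext <;> simp
  have h2 : Complex.cos (z - 1 / 2) =
      ((Real.cos (z.re - 1 / 2) * Real.cosh z.im : ℝ) : ℂ) -
        ((Real.sin (z.re - 1 / 2) * Real.sinh z.im : ℝ) : ℂ) * Complex.I := by
    rw [h1, Complex.cos_add_mul_I]
    push_cast
    ring
  have h3 : Complex.cos (1 / 2) = ((Real.cos (1 / 2) : ℝ) : ℂ) := by push_cast; rfl
  rw [chi48, h2, h3]
  generalize Real.cos (z.re - 1 / 2) * Real.cosh z.im = a
  generalize Real.sin (z.re - 1 / 2) * Real.sinh z.im = b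
  generalize Real.cos (1 / 2) = c
  simp [Complex.sub_re, Complex.mul_re]

theorem chi48_zero (ε : ℝ) : chi48 ε 0 = 0 := by
  have : Complex.cos (0 - 1 / 2) = Complex.cos (1 / 2) := by
    rw [zero_sub, Complex.cos_neg]
  rw [chi48, this]; ring

theorem chi48_deriv (ε : ℝ) :
    HasDerivAt (chi48 ε) (((1 - ε * Real.sin (1 / 2) : ℝ)) : ℂ) 0 := by
  have h1 : HasDerivAt (fun z : ℂ => z - 1 / 2) 1 0 := (hasDerivAt_id (0 : ℂ)).sub_const _
  have h2 := ((h1.ccos.sub_const (Complex.cos (1 / 2))).const_mul (ε : ℂ))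
  have h3 := (hasDerivAt_id (0 : ℂ)).sub h2
  refine (h3.congr_deriv ?_)
  rw [zero_sub, Complex.sin_neg]
  push_cast
  ring

theorem chi48_diff (ε : ℝ) : Differentiable ℂ (chi48 ε) := by
  unfold chi48
  fun_prop

theorem cos_half_pos48 : (1 : ℝ) / 2 ≤ Real.cos (1 / 2) := by
  have := Real.one_sub_sq_div_two_le_cos (x := (1 / 2 : ℝ))
  norm_num at this ⊢
  linarith

theorem sin_half_le48 : Real.sin (1 / 2) ≤ 1 / 2 := Real.sin_le (by norm_num)

theorem cos_ge48 {x : ℝ} (h0 : 0 ≤ x) (h1 : x ≤ 1) : Real.cos (1 / 2) ≤ Real.cos (x - 1 / 2) := by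
  rw [← Real.cos_abs (x - 1 / 2)]
  apply Real.cos_le_cos_of_nonneg_of_le_pi (abs_nonneg _)
  · have := Real.two_le_pi; linarith
  · rw [abs_le]; constructor <;> linarith

/-- The weighted function is bounded by one on the strip, so its derivative at the origin has
nonpositive real part. -/
theorem strip_low_aux {φ : ℂ → ℂ} {K a ε T : ℝ} (hφ : Differentiable ℂ φ)
    (hb : ∀ z : ℂ, 0 ≤ z.re → z.re ≤ 1 → ‖φ z‖ ≤ 1) (h1 : φ 0 = 1)
    (hd : deriv φ 0 = ((-K : ℝ) : ℂ)) (hε : 0 < ε) (hT : 1 + 2 / ε ≤ Real.cosh T)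
    (hT0 : 0 ≤ T) (ha : 0 ≤ a)
    (hlow : ∀ τ : ℝ, |τ| ≤ T → ‖φ (1 + τ * Complex.I)‖ ≤ Real.exp (-a)) :
    a * (1 - ε / 2) ≤ K := by
  set G : ℂ → ℂ := fun z => φ z * Complex.exp (a * chi48 ε z) with hG
  have hc0 := cos_half_pos48
  have hdiff : Differentiable ℂ G := by
    have := chi48_diff ε
    rw [hG]
    fun_prop
  have hnorm : ∀ z, ‖G z‖ = ‖φ z‖ * Real.exp (a * (chi48 ε z).re) := by
    intro z
    rw [hG]
    simp only [norm_mul, Complex.norm_exp]
    congr 2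
    simp
  have hcosh : ∀ y : ℝ, 1 ≤ Real.cosh y := Real.one_le_cosh
  have hbd : BddAbove ((norm ∘ G) '' Complex.HadamardThreeLines.verticalClosedStrip 0 1) := by
    refine ⟨Real.exp (a * (1 + ε)), ?_⟩
    rintro _ ⟨z, hz, rfl⟩
    have hz' : 0 ≤ z.re ∧ z.re ≤ 1 := hz
    simp only [Function.comp]
    rw [hnorm]
    have e1 := hb z hz'.1 hz'.2
    have e2 : (chi48 ε z).re ≤ 1 + ε := by
      rw [chi48_re]
      have e3 := cos_ge48 hz'.1 hz'.2
      have e4 := hcosh z.im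
      have e5 : 0 ≤ Real.cos (z.re - 1 / 2) * Real.cosh z.im := by
        apply mul_nonneg (by linarith) (by linarith)
      have e6 := Real.cos_le_one (1 / 2)
      nlinarith [hz'.2, mul_nonneg hε.le e5]
    calc ‖φ z‖ * Real.exp (a * (chi48 ε z).re) ≤ 1 * Real.exp (a * (1 + ε)) := by
          apply mul_le_mul e1 _ (Real.exp_pos _).le zero_le_one
          apply Real.exp_le_exp.2 (mul_le_mul_of_nonneg_left e2 ha)
      _ = _ := one_mul _
  have hle : ∀ x : ℝ, 0 ≤ x → x ≤ 1 → ‖G x‖ ≤ 1 := by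
    intro x hx0 hx1
    have hz : (x : ℂ) ∈ Complex.HadamardThreeLines.verticalClosedStrip 0 1 := by
      show 0 ≤ (x : ℂ).re ∧ (x : ℂ).re ≤ 1
      simpa using ⟨hx0, hx1⟩
    have := Complex.HadamardThreeLines.norm_le_interp_of_mem_verticalClosedStrip₀₁' (a := 1)
      (b := 1) G hz hdiff.diffContOnCl hbd ?_ ?_
    · simpa using this
    · intro z hz
      have hz0 : z.re = 0 := hz
      rw [hnorm]
      have e1 := hb z hz0.ge (by rw [hz0]; norm_num)
      have e2 : (chi48 ε z).re ≤ 0 := by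
        rw [chi48_re, hz0]
        have e3 : Real.cos (0 - 1 / 2) = Real.cos (1 / 2) := by
          rw [zero_sub, Real.cos_neg]
        rw [e3]
        have e4 := hcosh z.im
        nlinarith [mul_nonneg hε.le (mul_nonneg (by linarith : (0:ℝ) ≤ Real.cos (1/2))
          (by linarith : 0 ≤ Real.cosh z.im - 1))]
      calc ‖φ z‖ * Real.exp (a * (chi48 ε z).re) ≤ 1 * 1 := by
            apply mul_le_mul e1 _ (Real.exp_pos _).le zero_le_one
            rw [← Real.exp_zero]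
            exact Real.exp_le_exp.2 (mul_nonpos_of_nonneg_of_nonpos ha e2)
        _ = 1 := one_mul _
    · intro z hz
      have hz1 : z.re = 1 := hz
      rw [hnorm]
      have e3 : Real.cos ((1 : ℝ) - 1 / 2) = Real.cos (1 / 2) := by norm_num
      have e5 : (chi48 ε z).re = 1 - ε * (Real.cos (1 / 2) * (Real.cosh z.im - 1)) := by
        rw [chi48_re, hz1, e3]; ring
      by_cases hy : |z.im| ≤ T
      · have e1 := hlow z.im hy
        have hz' : (1 : ℂ) + z.im * Complex.I = z := by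
          apply Complex.ext <;> simp [hz1]
        rw [hz'] at e1
        have e2 : (chi48 ε z).re ≤ 1 := by
          rw [e5]
          have := hcosh z.im
          nlinarith [mul_nonneg hε.le (mul_nonneg (by linarith : (0:ℝ) ≤ Real.cos (1/2))
            (by linarith : 0 ≤ Real.cosh z.im - 1))]
        calc ‖φ z‖ * Real.exp (a * (chi48 ε z).re) ≤ Real.exp (-a) * Real.exp a := by
              apply mul_le_mul e1 _ (Real.exp_pos _).le (Real.exp_pos _).le
              apply Real.exp_le_exp.2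
              nlinarith
          _ = 1 := by rw [← Real.exp_add]; simp
      · push Not at hy
        have e1 := hb z (by rw [hz1]; norm_num) hz1.le
        have e6 : Real.cosh T ≤ Real.cosh z.im := by
          rw [Real.cosh_le_cosh, abs_of_nonneg hT0]
          exact hy.le
        have e2 : (chi48 ε z).re ≤ 0 := by
          rw [e5]
          have h7 : 2 / ε ≤ Real.cosh z.im - 1 := by linarith
          have h8 : 1 / 2 * (2 / ε) ≤ Real.cos (1 / 2) * (Real.cosh z.im - 1) := by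
            apply mul_le_mul hc0 h7 (by positivity) (by linarith)
          have h9 : ε * (1 / 2 * (2 / ε)) = 1 := by field_simp
          nlinarith [mul_le_mul_of_nonneg_left h8 hε.le]
        calc ‖φ z‖ * Real.exp (a * (chi48 ε z).re) ≤ 1 * 1 := by
              apply mul_le_mul e1 _ (Real.exp_pos _).le zero_le_one
              rw [← Real.exp_zero]
              exact Real.exp_le_exp.2 (mul_nonpos_of_nonneg_of_nonpos ha e2)
          _ = 1 := one_mul _
  -- derivative at the origin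
  have hG0 : G 0 = 1 := by rw [hG]; simp [h1, chi48_zero]
  have hGd : HasDerivAt G (((-K + a * (1 - ε * Real.sin (1 / 2)) : ℝ)) : ℂ) 0 := by
    have d1 : HasDerivAt φ (((-K : ℝ)) : ℂ) 0 := hd ▸ (hφ 0).hasDerivAt
    have d2 := ((chi48_deriv ε).const_mul (a : ℂ)).cexp
    have d3 := d1.mul d2
    refine d3.congr_deriv ?_
    simp only [chi48_zero, h1, mul_zero, Complex.exp_zero]
    push_cast
    ring
  have hr : HasDerivAt (fun x : ℝ => (G x).re) (-K + a * (1 - ε * Real.sin (1 / 2))) 0 := by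
    have h00 : HasDerivAt G (((-K + a * (1 - ε * Real.sin (1 / 2)) : ℝ)) : ℂ) ((0 : ℝ) : ℂ) := by
      rw [Complex.ofReal_zero]; exact hGd
    have := HasDerivAt.real_of_complex h00
    rw [Complex.ofReal_re] at this
    exact this
  have hslope : -K + a * (1 - ε * Real.sin (1 / 2)) ≤ 0 := by
    by_contra hpos
    push Not at hpos
    have h0 := hr.tendsto_slope_zero_right
    have h1' : ∀ᶠ t : ℝ in nhdsWithin 0 (Ioi 0), 0 < t⁻¹ • ((G ((0 + t : ℝ) : ℂ)).re - (G ((0:ℝ):ℂ)).re) :=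
      h0.eventually (lt_mem_nhds hpos)
    have h2' : ∀ᶠ t : ℝ in nhdsWithin 0 (Ioi 0), t ∈ Ioc (0:ℝ) 1 := by
      apply Filter.mem_of_superset (Ioc_mem_nhdsGT (zero_lt_one' ℝ)) (fun x hx => hx)
    obtain ⟨t, ht1, ht2⟩ := (h1'.and h2').exists
    have h3 : (G ((0 + t : ℝ) : ℂ)).re ≤ 1 := by
      rw [zero_add]
      exact (Complex.re_le_norm _).trans (hle t ht2.1.le ht2.2)
    have h4 : (G ((0:ℝ):ℂ)).re = 1 := by rw [Complex.ofReal_zero, hG0]; simp
    rw [h4] at ht1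
    have h5 : t⁻¹ • ((G ((0 + t : ℝ) : ℂ)).re - 1) ≤ 0 := by
      rw [smul_eq_mul]
      exact mul_nonpos_of_nonneg_of_nonpos (inv_nonneg.2 ht2.1.le) (by linarith)
    linarith
  have := sin_half_le48
  nlinarith [mul_nonneg ha hε.le]

/-- Lower bound on the line `Re z = 1` with an exponentially small loss. -/
theorem strip_low {φ : ℂ → ℂ} {K ε T : ℝ} (hφ : Differentiable ℂ φ)
    (hb : ∀ z : ℂ, 0 ≤ z.re → z.re ≤ 1 → ‖φ z‖ ≤ 1) (h1 : φ 0 = 1)
    (hd : deriv φ 0 = ((-K : ℝ) : ℂ)) (hε : 0 < ε) (hε1 : ε ≤ 1)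
    (hT : 1 + 2 / ε ≤ Real.cosh T) (hT0 : 0 ≤ T) :
    0 ≤ K ∧ ∃ τ : ℝ, |τ| ≤ T ∧ Real.exp (-(K * (1 + ε))) ≤ ‖φ (1 + τ * Complex.I)‖ := by
  have hK : 0 ≤ K := by
    have := strip_low_aux (a := 0) hφ hb h1 hd hε hT hT0 le_rfl
      (fun τ _ => by simpa using hb (1 + τ * Complex.I) (by simp) (by simp))
    linarith
  refine ⟨hK, ?_⟩
  by_contra hne
  push Not at hne
  have hcont : ContinuousOn (fun τ : ℝ => ‖φ (1 + τ * Complex.I)‖) (Icc (-T) T) := by
    have := hφ.continuous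
    fun_prop
  obtain ⟨τ0, hτ0, hmax⟩ := isCompact_Icc.exists_isMaxOn
    (⟨0, by constructor <;> linarith⟩ : (Icc (-T) T).Nonempty) hcont
  have hlt := hne τ0 (abs_le.2 hτ0)
  set M := ‖φ (1 + τ0 * Complex.I)‖ with hM
  -- choose `a` slightly above `K (1 + ε)`
  have hM0 : 0 ≤ M := norm_nonneg _
  obtain ⟨a, ha1, ha2⟩ : ∃ a, K * (1 + ε) < a ∧ M ≤ Real.exp (-a) := by
    rcases hM0.eq_or_lt with h | h
    · exact ⟨K * (1 + ε) + 1, by linarith, by rw [← h]; exact (Real.exp_pos _).le⟩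
    · refine ⟨-Real.log M, ?_, ?_⟩
      · have := (Real.log_lt_iff_lt_exp h).2 hlt
        linarith
      · rw [neg_neg, Real.exp_log h]
  have ha0 : 0 < a := lt_of_le_of_lt (mul_nonneg hK (by linarith)) ha1
  have := strip_low_aux hφ hb h1 hd hε hT hT0 ha0.le (fun τ hτ => (hmax (abs_le.1 hτ)).trans ha2)
  have h3 : K ≤ K * (1 + ε) * (1 - ε / 2) := by
    have : 0 ≤ (1 + ε) * (1 - ε / 2) - 1 := by nlinarith
    nlinarith [mul_nonneg hK this]
  have h4 : K * (1 + ε) * (1 - ε / 2) < a * (1 - ε / 2) :=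
    mul_lt_mul_of_pos_right ha1 (by linarith)
  linarith

/-- The version for functions with `‖φ z‖ ≤ exp (B * Re z)`. -/
theorem strip_low_exp {φ : ℂ → ℂ} {K B ε T : ℝ} (hφ : Differentiable ℂ φ)
    (hb : ∀ z : ℂ, 0 ≤ z.re → z.re ≤ 1 → ‖φ z‖ ≤ Real.exp (B * z.re)) (h1 : φ 0 = 1)
    (hd : deriv φ 0 = ((-K : ℝ) : ℂ)) (hε : 0 < ε) (hε1 : ε ≤ 1)
    (hT : 1 + 2 / ε ≤ Real.cosh T) (hT0 : 0 ≤ T) :
    0 ≤ K + B ∧ ∃ τ : ℝ, |τ| ≤ T ∧
      Real.exp (-(K + ε * (K + B))) ≤ ‖φ (1 + τ * Complex.I)‖ := by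
  set ψ : ℂ → ℂ := fun z => φ z * Complex.exp (-(B * z)) with hψ
  have hn : ∀ z, ‖ψ z‖ = ‖φ z‖ * Real.exp (-(B * z.re)) := by
    intro z
    rw [hψ]
    simp only [norm_mul, Complex.norm_exp]
    congr 2
    simp
  have hder : deriv ψ 0 = ((-(K + B) : ℝ) : ℂ) := by
    have d1 : HasDerivAt φ (((-K : ℝ)) : ℂ) 0 := hd ▸ (hφ 0).hasDerivAt
    have d2 : HasDerivAt (fun z : ℂ => Complex.exp (-((B : ℂ) * z))) (-(B : ℂ)) 0 := by
      have e1 : HasDerivAt (fun z : ℂ => -((B : ℂ) * z)) (-(B : ℂ)) 0 := by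
        have e0 : HasDerivAt (fun z : ℂ => (B : ℂ) * z) (B : ℂ) 0 := by
          simpa using (hasDerivAt_id (0 : ℂ)).const_mul (B : ℂ)
        exact e0.neg
      have e2 := e1.cexp
      simpa using e2
    have d3 : HasDerivAt ψ (((-K : ℝ) : ℂ) * Complex.exp (-((B : ℂ) * 0)) + φ 0 * (-(B : ℂ))) 0 :=
      d1.mul d2
    rw [d3.deriv, h1]
    simp only [mul_zero, neg_zero, Complex.exp_zero]
    push_cast
    ring
  obtain ⟨h0, τ, hτ, hle⟩ := strip_low (φ := ψ) (K := K + B) (by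
      rw [hψ]; have := hφ; fun_prop)
    (by
      intro z hz0 hz1
      rw [hn]
      calc ‖φ z‖ * Real.exp (-(B * z.re)) ≤ Real.exp (B * z.re) * Real.exp (-(B * z.re)) :=
            mul_le_mul_of_nonneg_right (hb z hz0 hz1) (Real.exp_pos _).le
        _ = 1 := by rw [← Real.exp_add]; simp)
    (by rw [hψ]; simp [h1]) hder hε hε1 hT hT0
  refine ⟨h0, τ, hτ, ?_⟩
  rw [hn] at hle
  have hre : ((1 : ℂ) + τ * Complex.I).re = 1 := by simp
  rw [hre, mul_one] at hle
  have : Real.exp (-(K + ε * (K + B))) = Real.exp (-((K + B) * (1 + ε))) * Real.exp B := by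
    rw [← Real.exp_add]; congr 1; ring
  rw [this]
  calc Real.exp (-((K + B) * (1 + ε))) * Real.exp B
      ≤ (‖φ (1 + τ * Complex.I)‖ * Real.exp (-B)) * Real.exp B :=
        mul_le_mul_of_nonneg_right hle (Real.exp_pos _).le
    _ = _ := by rw [mul_assoc, ← Real.exp_add]; simp

end Vale.Agent.P356.GA
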