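import Vale.Agent.P356.GA.Tube107
import Vale.Agent.P356.GA.Low48

/-!
# GA, block LOWB (helper125), part a: entire families of operators and the strip lower bound

`Flow W G b`: an entire family `W z` of operators with `W 0 = 1`, derivative `G` at the origin and
`‖W z‖ ≤ exp (b Re z)` on the right half plane.
-/

set_option linter.all false

namespace Vale.Agent.P356.GA

open Matrix Finset Vale.Agent.P356 Vale.Agent.P356.SV Vale.Agent.P356.Path
open scoped BigOperators ComplexOrder Kronecker Matrix.Norms.L2Operator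

section flow
variable {N α β : Type*} [Fintype N] [DecidableEq N] [Fintype α] [Fintype β] [DecidableEq α]
  [DecidableEq β]

/-- An entire family of operators through the identity. -/
structure Flow (W : ℂ → Matrix N N ℂ) (G : Matrix N N ℂ) (b : ℝ) : Prop where
  diff : Differentiable ℂ W
  zero : W 0 = 1
  der : HasDerivAt W G 0
  bd : ∀ z : ℂ, 0 ≤ z.re → ‖W z‖ ≤ Real.exp (b * z.re)

theorem Flow.one : Flow (fun _ => (1 : Matrix N N ℂ)) 0 0 where
  diff := differentiable_const _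
  zero := rfl
  der := hasDerivAt_const _ _
  bd := fun z _ => by
    rw [zero_mul, Real.exp_zero]
    exact norm_one_le

theorem Flow.mul {W W' : ℂ → Matrix N N ℂ} {G G' : Matrix N N ℂ} {b b' : ℝ} (h : Flow W G b)
    (h' : Flow W' G' b') : Flow (fun z => W z * W' z) (G + G') (b + b') where
  diff := h.diff.mul h'.diff
  zero := by rw [h.zero, h'.zero, Matrix.one_mul]
  der := by
    have h1 := h.der.mul h'.der
    rw [h.zero, h'.zero] at h1
    refine h1.congr_deriv ?_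
    rw [Matrix.mul_one, Matrix.one_mul]
  bd := fun z hz => by
    refine (norm_mul_le _ _).trans ?_
    rw [add_mul, Real.exp_add]
    exact mul_le_mul (h.bd z hz) (h'.bd z hz) (norm_nonneg _) (Real.exp_pos _).le

theorem Flow.prR {W : ℕ → ℂ → Matrix N N ℂ} {G : ℕ → Matrix N N ℂ} {b : ℕ → ℝ} (n : ℕ)
    (h : ∀ k < n, Flow (W k) (G k) (b k)) :
    Flow (fun z => prR (fun k => W k z) n) (∑ k ∈ range n, G k) (∑ k ∈ range n, b k) := by
  induction n with
  | zero =>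
    simp only [Finset.range_zero, Finset.sum_empty]
    exact Flow.one
  | succ n ih =>
    rw [Finset.sum_range_succ, Finset.sum_range_succ]
    exact (ih fun k hk => h k (Nat.lt_succ_of_lt hk)).mul (h n (Nat.lt_succ_self n))

theorem Flow.mono {W : ℂ → Matrix N N ℂ} {G : Matrix N N ℂ} {b b' : ℝ} (h : Flow W G b)
    (hb : b ≤ b') : Flow W G b' where
  diff := h.diff
  zero := h.zero
  der := h.der
  bd := fun z hz => (h.bd z hz).trans (Real.exp_le_exp.2 (mul_le_mul_of_nonneg_right hb hz))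

theorem Flow.congr {W W' : ℂ → Matrix N N ℂ} {G : Matrix N N ℂ} {b : ℝ} (h : Flow W G b)
    (hb : ∀ z, W' z = W z) : Flow W' G b := by
  have : W' = W := funext hb
  rw [this]
  exact h

/-- the linear map `v ↦ opL e (U diag v U^H)` -/
noncomputable def dgL (e : N ≃ α × β) (U : Matrix α α ℂ) : (α → ℂ) →ₗ[ℂ] Matrix N N ℂ where
  toFun v := opL e (U * diagonal v * Uᴴ)
  map_add' v w := by
    rw [← opL_add, ← Matrix.add_mul, ← Matrix.mul_add, diagonal_add]
    rfl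
  map_smul' c v := by
    rw [RingHom.id_apply, ← opL_smul, ← Matrix.smul_mul, ← Matrix.mul_smul, ← diagonal_smul]

theorem dgL_apply (e : N ≃ α × β) (U : Matrix α α ℂ) (v : α → ℂ) :
    dgL e U v = opL e (U * diagonal v * Uᴴ) := rfl

theorem norm_opL_le125 (e : N ≃ α × β) (Y : Matrix α α ℂ) : ‖opL e Y‖ ≤ ‖Y‖ := by
  refine PH.ph_norm_le (norm_nonneg _) fun ψ => ?_
  unfold nsq
  rw [sum_equiv_prod e, sum_equiv_prod e, Finset.sum_comm]
  rw [Finset.sum_comm (f := fun a b => ‖ψ (e.symm (a, b))‖ ^ 2), Finset.mul_sum]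
  refine Finset.sum_le_sum fun b _ => ?_
  have h := PH.ph_nsq_mulVec_le Y (fun a => ψ (e.symm (a, b)))
  unfold nsq at h
  refine le_trans (le_of_eq ?_) h
  refine Finset.sum_congr rfl fun a _ => ?_
  rw [opL_mulVec_apply]
  rfl

theorem norm_conj_diag_le {U : Matrix α α ℂ} (hU : Uᴴ * U = 1) (v : α → ℂ) {c : ℝ} (hc : 0 ≤ c)
    (hv : ∀ i, ‖v i‖ ≤ c) : ‖U * diagonal v * Uᴴ‖ ≤ c := by
  have h1 : ‖U‖ ≤ 1 := norm_le_of_iso hU
  have h2 : ‖Uᴴ‖ ≤ 1 := by rw [norm_conjT]; exact h1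
  have h3 : ‖(diagonal v : Matrix α α ℂ)‖ ≤ c := by
    rw [Matrix.l2_opNorm_diagonal]
    exact (pi_norm_le_iff_of_nonneg hc).2 hv
  calc ‖U * diagonal v * Uᴴ‖ ≤ ‖U * diagonal v‖ * ‖Uᴴ‖ := norm_mul_le _ _
    _ ≤ (‖U‖ * ‖(diagonal v : Matrix α α ℂ)‖) * ‖Uᴴ‖ :=
        mul_le_mul_of_nonneg_right (norm_mul_le _ _) (norm_nonneg _)
    _ ≤ (1 * c) * 1 := by gcongr
    _ = c := by ring

/-- Diagonalised flows: `opL e (U diag(exp (z g)) U^H)` with `g ≤ 0`. -/
theorem Flow.diag (e : N ≃ α × β) {U : Matrix α α ℂ} (hU : U * Uᴴ = 1) (g : α → ℝ)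
    (hg : ∀ i, g i ≤ 0) :
    Flow (fun z => opL e (U * diagonal (fun i => Complex.exp (z * g i)) * Uᴴ))
      (opL e (U * diagonal (fun i => (g i : ℂ)) * Uᴴ)) 0 := by
  have hU' : Uᴴ * U = 1 := mul_eq_one_comm.mp hU
  have hd : ∀ z : ℂ, HasDerivAt (fun z : ℂ => fun i => Complex.exp (z * (g i : ℂ)))
      (fun i => Complex.exp (z * (g i : ℂ)) * (g i : ℂ)) z := by
    intro z
    rw [hasDerivAt_pi]
    intro i
    have h1 : HasDerivAt (fun z : ℂ => z * (g i : ℂ)) (g i : ℂ) z := by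
      simpa using (hasDerivAt_id z).mul_const (g i : ℂ)
    exact h1.cexp
  set L := LinearMap.toContinuousLinearMap (dgL e U) with hL
  have hW : ∀ z : ℂ, HasDerivAt
      (fun z : ℂ => opL e (U * diagonal (fun i => Complex.exp (z * (g i : ℂ))) * Uᴴ))
      (dgL e U (fun i => Complex.exp (z * (g i : ℂ)) * (g i : ℂ))) z := by
    intro z
    have h2 := L.hasFDerivAt.comp_hasDerivAt z (hd z)
    exact h2
  refine ⟨fun z => (hW z).differentiableAt, ?_, ?_, ?_⟩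
  · have : (fun i => Complex.exp ((0 : ℂ) * (g i : ℂ))) = fun _ : α => (1 : ℂ) := by
      funext i
      rw [zero_mul, Complex.exp_zero]
    show opL e (U * diagonal (fun i => Complex.exp ((0 : ℂ) * (g i : ℂ))) * Uᴴ) = 1
    rw [this, diagonal_one, Matrix.mul_one, hU, opL_one]
  · refine (hW 0).congr_deriv ?_
    rw [dgL_apply]
    congr 3
    congr 1
    funext i
    rw [zero_mul, Complex.exp_zero, one_mul]
  · intro z hz
    rw [zero_mul, Real.exp_zero]
    refine (norm_opL_le125 e _).trans (norm_conj_diag_le hU' _ zero_le_one fun i => ?_)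
    rw [Complex.norm_exp]
    refine Real.exp_le_one_iff.2 ?_
    have : (z * (g i : ℂ)).re = z.re * g i := by simp
    rw [this]
    exact mul_nonpos_of_nonneg_of_nonpos hz (hg i)

theorem norm_exp_le125 (x : Matrix N N ℂ) : ‖NormedSpace.exp x‖ ≤ Real.exp ‖x‖ := by
  rw [NormedSpace.exp_eq_tsum ℂ]
  have hs := NormedSpace.norm_expSeries_summable' (𝕂 := ℂ) x
  have hs2 : Summable fun n : ℕ => ‖x‖ ^ n / (n.factorial : ℝ) :=
    Real.summable_pow_div_factorial ‖x‖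
  refine (norm_tsum_le_tsum_norm hs).trans ?_
  rw [Real.exp_eq_exp_ℝ, NormedSpace.exp_eq_tsum_div]
  refine hs.tsum_le_tsum (fun n => ?_) hs2
  rw [norm_smul, norm_inv, Complex.norm_natCast, div_eq_inv_mul]
  refine mul_le_mul_of_nonneg_left ?_ (by positivity)
  rcases Nat.eq_zero_or_pos n with hn | hn
  · rw [hn, pow_zero, pow_zero]
    exact norm_one_le
  · exact norm_pow_le' x hn

/-- The flow `exp (z Γ)` of a Hermitian operator. -/
theorem Flow.expm {Γ : Matrix N N ℂ} (hΓ : Γ.IsHermitian) {b : ℝ} (hb : ‖Γ‖ ≤ b) :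
    Flow (fun z => NormedSpace.exp (z • Γ)) Γ b := by
  letI : NormedAlgebra ℚ (Matrix N N ℂ) := NormedAlgebra.restrictScalars ℚ ℝ (Matrix N N ℂ)
  have hd : ∀ z : ℂ, HasDerivAt (fun z : ℂ => NormedSpace.exp (z • Γ))
      (NormedSpace.exp (z • Γ) * Γ) z := fun z => hasDerivAt_exp_smul_const Γ z
  refine ⟨fun z => (hd z).differentiableAt, ?_, ?_, ?_⟩
  · show NormedSpace.exp ((0 : ℂ) • Γ) = 1
    rw [zero_smul, NormedSpace.exp_zero]
  · refine (hd 0).congr_deriv ?_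
    rw [zero_smul, NormedSpace.exp_zero, Matrix.one_mul]
  · intro z hz
    have h0 : z • Γ = ((z.re : ℝ) : ℂ) • Γ + z.im • (Complex.I • Γ) := by
      rw [← Complex.coe_smul, smul_smul, ← add_smul]
      congr 1
      exact (Complex.re_add_im z).symm
    have h1 : NormedSpace.exp (z • Γ) =
        NormedSpace.exp (((z.re : ℝ) : ℂ) • Γ) * PH.phU Γ z.im := by
      rw [PH.phU, h0, NormedSpace.exp_add_of_commute]
      exact (((Commute.refl Γ).smul_right _).smul_right _).smul_left _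
    have h2 : ‖PH.phU Γ z.im‖ ≤ 1 := by
      refine norm_le_of_iso ?_
      have := PH.phU_star (PH.ph_isSelfAdjoint hΓ) z.im
      rw [Matrix.star_eq_conjTranspose] at this
      rw [this]
      exact PH.phU_neg_mul Γ z.im
    have h3 : ‖NormedSpace.exp (((z.re : ℝ) : ℂ) • Γ)‖ ≤ Real.exp (b * z.re) := by
      refine (norm_exp_le125 _).trans (Real.exp_le_exp.2 ?_)
      rw [norm_smul, Complex.norm_real, Real.norm_eq_abs, abs_of_nonneg hz, mul_comm]
      exact mul_le_mul_of_nonneg_right hb hz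
    rw [h1]
    calc ‖NormedSpace.exp (((z.re : ℝ) : ℂ) • Γ) * PH.phU Γ z.im‖ ≤ _ := norm_mul_le _ _
      _ ≤ Real.exp (b * z.re) * 1 :=
          mul_le_mul h3 h2 (norm_nonneg _) (Real.exp_pos _).le
      _ = _ := mul_one _

/-- **Strip lower bound for flows**: with `K = -⟨ψ|G|ψ⟩`. -/
theorem Flow.low {W : ℂ → Matrix N N ℂ} {G : Matrix N N ℂ} {B : ℝ} (h : Flow W G B)
    {ψ : N → ℂ} (hψ : nsq ψ = 1) {K : ℝ} (hK : star ψ ⬝ᵥ (G *ᵥ ψ) = ((-K : ℝ) : ℂ))
    {ε T : ℝ} (hε : 0 < ε) (hε1 : ε ≤ 1) (hT : 1 + 2 / ε ≤ Real.cosh T) (hT0 : 0 ≤ T) :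
    0 ≤ K + B ∧ ∃ τ : ℝ, |τ| ≤ T ∧ Real.exp (-(K + ε * (K + B))) ≤
      ‖star ψ ⬝ᵥ (W (1 + τ * Complex.I) *ᵥ ψ)‖ := by
  set L : Matrix N N ℂ →ₗ[ℂ] ℂ :=
    { toFun := fun M => star ψ ⬝ᵥ (M *ᵥ ψ)
      map_add' := fun A A' => by rw [add_mulVec, dotProduct_add]
      map_smul' := fun c A => by rw [smul_mulVec, dotProduct_smul, RingHom.id_apply] } with hL
  set L' := LinearMap.toContinuousLinearMap L with hL'
  have hap : ∀ M, L' M = star ψ ⬝ᵥ (M *ᵥ ψ) := fun M => rfl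
  have hn : ∀ M : Matrix N N ℂ, ‖L' M‖ ≤ ‖M‖ := by
    intro M
    rw [hap]
    have h1 : ‖star ψ ⬝ᵥ (M *ᵥ ψ)‖ ≤ nrm ψ * nrm (M *ᵥ ψ) := nrm_ip_le _ _
    have h2 : nrm ψ = 1 := by rw [nrm, hψ, Real.sqrt_one]
    have h3 := nrm_mulVec_le M ψ
    rw [h2, mul_one] at h3
    rw [h2, one_mul] at h1
    exact h1.trans h3
  refine strip_low_exp (φ := fun z => L' (W z)) (L'.differentiable.comp h.diff) ?_ ?_ ?_ hε hε1
    hT hT0
  · intro z hz _
    exact (hn _).trans (h.bd z hz)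
  · show L' (W 0) = 1
    rw [h.zero, hap, one_mulVec, ip_self, hψ, Complex.ofReal_one]
  · have := (L'.hasFDerivAt.comp_hasDerivAt (0 : ℂ) h.der).deriv
    rw [hap, hK] at this
    exact this

/-- Lower bound after a contraction commuting with the flow (Step A). -/
theorem Flow.low_meas {W : ℂ → Matrix N N ℂ} {G : Matrix N N ℂ} {B : ℝ} (h : Flow W G B)
    {A : Matrix N N ℂ} (hA : ‖A‖ ≤ 1) (hc : ∀ z, A * W z = W z * A) {Ω φ : N → ℂ} {p : ℝ}
    (hp : 0 < p) (hφ : nsq φ = 1) (hAΩ : A *ᵥ Ω = ((Real.sqrt p : ℝ) : ℂ) • φ) {K : ℝ}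
    (hK : star φ ⬝ᵥ (G *ᵥ φ) = ((-K : ℝ) : ℂ))
    {ε T : ℝ} (hε : 0 < ε) (hε1 : ε ≤ 1) (hT : 1 + 2 / ε ≤ Real.cosh T) (hT0 : 0 ≤ T) :
    ∃ τ : ℝ, |τ| ≤ T ∧ Real.log p - 2 * (K + ε * (K + B)) ≤
      Real.log (nsq (W (1 + τ * Complex.I) *ᵥ Ω)) := by
  obtain ⟨_, τ, hτ, h1⟩ := h.low hφ hK hε hε1 hT hT0
  refine ⟨τ, hτ, ?_⟩
  set z : ℂ := 1 + τ * Complex.I with hz
  have h2 : nrm (A *ᵥ (W z *ᵥ Ω)) ≤ nrm (W z *ᵥ Ω) := by
    have := nrm_mulVec_le A (W z *ᵥ Ω)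
    have h0 := nrm_nonneg (W z *ᵥ Ω)
    nlinarith
  have h3 : A *ᵥ (W z *ᵥ Ω) = ((Real.sqrt p : ℝ) : ℂ) • (W z *ᵥ φ) := by
    rw [mulVec_mulVec, hc, ← mulVec_mulVec, hAΩ, mulVec_smul]
  rw [h3, nrm_smul, Complex.norm_real, Real.norm_eq_abs, abs_of_nonneg (Real.sqrt_nonneg _)] at h2
  have h4 : Real.exp (-(K + ε * (K + B))) ≤ nrm (W z *ᵥ φ) := by
    refine h1.trans ((nrm_ip_le _ _).trans ?_)
    have : nrm φ = 1 := by rw [nrm, hφ, Real.sqrt_one]
    rw [this, one_mul]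
  have hp1 : 0 < Real.sqrt p := Real.sqrt_pos.2 hp
  have h5 : Real.sqrt p * Real.exp (-(K + ε * (K + B))) ≤ nrm (W z *ᵥ Ω) :=
    (mul_le_mul_of_nonneg_left h4 hp1.le).trans h2
  have h6 : (Real.sqrt p * Real.exp (-(K + ε * (K + B)))) ^ 2 ≤ nsq (W z *ᵥ Ω) := by
    rw [← nrm_sq]
    exact pow_le_pow_left₀ (by positivity) h5 2
  rw [mul_pow, Real.sq_sqrt hp.le] at h6
  have h7 : 0 < p * Real.exp (-(K + ε * (K + B))) ^ 2 := by positivity
  have h8 := Real.log_le_log h7 h6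
  rw [Real.log_mul hp.ne' (by positivity), Real.log_pow, Real.log_exp] at h8
  push_cast at h8
  linarith

end flow

/-- the logarithm clipped from below at `-M` -/
noncomputable def lgm (M p : ℝ) : ℝ := Real.log (max p (Real.exp (-M)))

theorem lgm_ge (M p : ℝ) : -M ≤ lgm M p := by
  rw [lgm]
  calc -M = Real.log (Real.exp (-M)) := (Real.log_exp _).symm
    _ ≤ _ := Real.log_le_log (Real.exp_pos _) (le_max_right _ _)

theorem lgm_nonpos {M p : ℝ} (hM : 0 ≤ M) (hp : p ≤ 1) : lgm M p ≤ 0 := by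
  rw [lgm]
  refine Real.log_nonpos ((Real.exp_pos _).le.trans (le_max_right _ _)) (max_le hp ?_)
  exact Real.exp_le_one_iff.2 (by linarith)

theorem exp_lgm (M p : ℝ) : Real.exp (lgm M p) = max p (Real.exp (-M)) := by
  rw [lgm, Real.exp_log ((Real.exp_pos _).trans_le (le_max_right _ _))]

theorem exp_lgm_le {M p : ℝ} (hp : 0 ≤ p) : Real.exp (lgm M p) ≤ p + Real.exp (-M) := by
  rw [exp_lgm]
  have := (Real.exp_pos (-M)).le
  exact max_le (by linarith) (by linarith)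

theorem mul_lgm_ge {M p : ℝ} (hp : 0 ≤ p) : -(p * lgm M p) ≤ Real.negMulLog p := by
  rcases hp.eq_or_lt with h | h
  · rw [← h]
    simp
  · rw [Real.negMulLog, neg_mul, neg_le_neg_iff]
    refine mul_le_mul_of_nonneg_left ?_ hp
    rw [lgm]
    exact Real.log_le_log h (le_max_left _ _)

end Vale.Agent.P356.GA
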