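import Vale.Agent.P356.GA.K2a228
import Vale.Agent.P356.GA.Energy980
import Vale.Agent.P356.GA.Low125a

/-!
Block KAPPA2: the single line lemma.  The second order coefficient of a positive local operator in
the direction of one modular Hamiltonian minus half of two local operators, one on each side.
-/

set_option linter.all false

namespace Vale.Agent.P356.GA

open Matrix Finset Vale.Agent.P356 Vale.Agent.P356.SV Vale.Agent.P356.Path Vale.Agent.P356.PH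
open scoped BigOperators ComplexOrder Kronecker Matrix.Norms.L2Operator

section line
variable {V : Type*} [Fintype V] [DecidableEq V] {q : ℕ}

/-- the generator of one line: a real function of the reduced state of `R` -/
noncomputable def k2G (R : Finset V) (ψ : Conf V q → ℂ) (g : ℝ → ℝ) : Op V q :=
  fr R ψ (fun p => (g p : ℂ))

/-- its flow -/
noncomputable def k2S (R : Finset V) (ψ : Conf V q → ℂ) (g : ℝ → ℝ) (z : ℂ) : Op V q :=
  fr R ψ (fun p => Complex.exp (z * (g p : ℂ)))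

theorem k2G_herm (R : Finset V) (ψ : Conf V q → ℂ) (g : ℝ → ℝ) : (k2G R ψ g).IsHermitian := by
  rw [Matrix.IsHermitian, k2G, fr_conj]
  congr 1
  funext p
  simp

theorem k2G_acts (R : Finset V) (ψ : Conf V q → ℂ) (g : ℝ → ℝ) : ActsOn R (k2G R ψ g) :=
  fr_acts R ψ _

theorem k2S_acts (R : Finset V) (ψ : Conf V q → ℂ) (g : ℝ → ℝ) (z : ℂ) :
    ActsOn R (k2S R ψ g z) := fr_acts R ψ _

theorem k2S_exp (R : Finset V) (ψ : Conf V q → ℂ) (g : ℝ → ℝ) (z : ℂ) :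
    k2S R ψ g z = NormedSpace.exp (z • k2G R ψ g) :=
  sg_eq_exp (fun _ => cut R q) ψ (fun _ i => g (eigp (ψ ∘ (cut R q).symm) i)) 0 z

theorem k2S_mul (R : Finset V) (ψ : Conf V q → ℂ) (g : ℝ → ℝ) (z w : ℂ) :
    k2S R ψ g z * k2S R ψ g w = k2S R ψ g (z + w) := by
  rw [k2S, k2S, fr_mul, k2S]
  congr 1
  funext p
  rw [← Complex.exp_add, add_mul]

theorem k2S_conj (R : Finset V) (ψ : Conf V q → ℂ) (g : ℝ → ℝ) (z : ℂ) :
    (k2S R ψ g z)ᴴ = k2S R ψ g (star z) := by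
  rw [k2S, fr_conj, k2S]
  congr 1
  funext p
  rw [RCLike.star_def, ← Complex.exp_conj, map_mul, Complex.conj_ofReal]

theorem k2S_zero (R : Finset V) (ψ : Conf V q → ℂ) (g : ℝ → ℝ) : k2S R ψ g 0 = 1 := by
  rw [k2S, ← fr_one R ψ]
  congr 1
  funext p
  rw [zero_mul, Complex.exp_zero]

theorem k2S_norm_im (R : Finset V) (ψ : Conf V q → ℂ) (g : ℝ → ℝ) {z : ℂ} (hz : z.re = 0) :
    ‖k2S R ψ g z‖ ≤ 1 := by
  refine fr_norm R ψ _ zero_le_one fun p => ?_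
  rw [Complex.norm_exp]
  have : (z * (g p : ℂ)).re = z.re * g p := by simp
  rw [this, hz, zero_mul, Real.exp_zero]

/-- the flow of a region acts on the state as the flow of the complement -/
theorem k2S_dual (R : Finset V) (ψ : Conf V q → ℂ) (g : ℝ → ℝ) (z : ℂ) :
    k2S R ψ g z *ᵥ ψ = k2S Rᶜ ψ g z *ᵥ ψ := fr_dual R ψ _

theorem k2_opOn_smul (S : Finset V) (c : ℂ) (k : Op {x // x ∈ S} q) :
    opOn S (c • k) = c • opOn S k := opL_smul _ _ _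

/-- the edge bound for one line, for contractions -/
theorem k2_edge1 (R : Finset V) {ψ : Conf V q → ℂ} (hψ : nsq ψ = 1) (g : ℝ → ℝ) {K : ℝ}
    (hg1 : ∀ i, eigp (ψ ∘ (cut R q).symm) i ≤ Real.exp (g (eigp (ψ ∘ (cut R q).symm) i)))
    (hg2 : ∑ i, Real.exp (g (eigp (ψ ∘ (cut R q).symm) i)) ≤ K) {A B : Op V q}
    (hA : ActsOn R A) (hB : ActsOn Rᶜ B) (hA1 : ‖A‖ ≤ 1) (hB1 : ‖B‖ ≤ 1) {z : ℂ}
    (hz : |z.re| = 1 / 2) :
    ‖star ψ ⬝ᵥ ((k2S R ψ g z * (A * B) * k2S R ψ g (-z)) *ᵥ ψ)‖ ≤ Real.sqrt K := by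
  have hne : Nonempty ({x // x ∉ R} → Fin q) := by
    by_contra h
    rw [not_nonempty_iff] at h
    have h1 : IsEmpty (Conf V q) := ⟨fun s => h.elim (cut R q s).2⟩
    have h2 : nsq ψ = 0 := by
      unfold nsq
      exact Fintype.sum_empty _
    rw [h2] at hψ
    exact zero_ne_one hψ
  set A' : Op V q := k2S R ψ g ((z.im : ℂ) * Complex.I) * A *
    k2S R ψ g (-((z.im : ℂ) * Complex.I)) with hA'
  have hA'act : ActsOn R A' := ph_acts_mul (ph_acts_mul (k2S_acts R ψ g _) hA) (k2S_acts R ψ g _)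
  have hA'1 : ‖A'‖ ≤ 1 := by
    refine (norm_mul_le _ _).trans (mul_le_one₀ ?_ (norm_nonneg _) (k2S_norm_im R ψ g (by simp)))
    exact (norm_mul_le _ _).trans (mul_le_one₀ (k2S_norm_im R ψ g (by simp)) (norm_nonneg _) hA1)
  obtain ⟨P, hP⟩ := ph_acts_iff.1 hA'act
  have hBc : ∀ Y : Matrix ({x // x ∈ R} → Fin q) ({x // x ∈ R} → Fin q) ℂ,
      B * opL (cut R q) Y = opL (cut R q) Y * B := fun Y =>
    (ph_acts_comm disjoint_compl_right (ph_acts_opOn R Y) hB).symm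
  have h := vertex_term (N := Conf V q) (α := fun _ => {x // x ∈ R} → Fin q)
    (β := fun _ => {x // x ∉ R} → Fin q) (fun _ => cut R q) ψ
    (fun _ i => g (eigp (ψ ∘ (cut R q).symm) i)) hψ 0 (K := K) hg1 hg2 (s := z.re) hz P
    (by
      have : opL (cut R q) P = A' := hP.symm
      rw [this]; exact hA'1) B hB1 hBc
  refine le_trans (le_of_eq ?_) h
  have e1 : sg (fun _ => cut R q) ψ (fun _ i => g (eigp (ψ ∘ (cut R q).symm) i)) 0 ((z.re : ℝ) : ℂ)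
      = k2S R ψ g ((z.re : ℝ) : ℂ) := rfl
  have e2 : sg (fun _ => cut R q) ψ (fun _ i => g (eigp (ψ ∘ (cut R q).symm) i)) 0
      ((-z.re : ℝ) : ℂ) = k2S R ψ g ((-z.re : ℝ) : ℂ) := rfl
  have e3 : opL (cut R q) P = A' := hP.symm
  rw [e1, e2, e3, Matrix.star_mulVec, ← Matrix.dotProduct_mulVec, Matrix.mulVec_mulVec,
    Matrix.mulVec_mulVec, k2S_conj]
  have hBS : ∀ w : ℂ, B * k2S R ψ g w = k2S R ψ g w * B := fun w =>
    (ph_acts_comm disjoint_compl_right (k2S_acts R ψ g w) hB).symm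
  have e4 : star ((z.re : ℝ) : ℂ) = ((z.re : ℝ) : ℂ) := by
    rw [RCLike.star_def, Complex.conj_ofReal]
  have e5 : k2S R ψ g z * (A * B) * k2S R ψ g (-z) =
      k2S R ψ g (star ((z.re : ℝ) : ℂ)) * (A' * B) * k2S R ψ g ((-z.re : ℝ) : ℂ) := by
    have f1 : z = ((z.re : ℝ) : ℂ) + (z.im : ℂ) * Complex.I := (Complex.re_add_im z).symm
    have f2 : k2S R ψ g z = k2S R ψ g ((z.re : ℝ) : ℂ) * k2S R ψ g ((z.im : ℂ) * Complex.I) := by
      rw [k2S_mul, ← f1]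
    have f3 : k2S R ψ g (-z) = k2S R ψ g (-((z.im : ℂ) * Complex.I)) *
        k2S R ψ g ((-z.re : ℝ) : ℂ) := by
      rw [k2S_mul]
      congr 1
      conv_lhs => rw [f1]
      push_cast
      ring
    rw [e4, f2, f3, hA']
    calc k2S R ψ g ((z.re : ℝ) : ℂ) * k2S R ψ g ((z.im : ℂ) * Complex.I) * (A * B) *
        (k2S R ψ g (-((z.im : ℂ) * Complex.I)) * k2S R ψ g ((-z.re : ℝ) : ℂ)) =
        k2S R ψ g ((z.re : ℝ) : ℂ) * (k2S R ψ g ((z.im : ℂ) * Complex.I) * A *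
          (B * k2S R ψ g (-((z.im : ℂ) * Complex.I)))) * k2S R ψ g ((-z.re : ℝ) : ℂ) := by
          simp only [Matrix.mul_assoc]
      _ = _ := by rw [hBS]; simp only [Matrix.mul_assoc]
  rw [e5]

theorem k2_edge (R : Finset V) {ψ : Conf V q → ℂ} (hψ : nsq ψ = 1) (g : ℝ → ℝ) {K : ℝ}
    (hg1 : ∀ i, eigp (ψ ∘ (cut R q).symm) i ≤ Real.exp (g (eigp (ψ ∘ (cut R q).symm) i)))
    (hg2 : ∑ i, Real.exp (g (eigp (ψ ∘ (cut R q).symm) i)) ≤ K) {A B : Op V q}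
    (hA : ActsOn R A) (hB : ActsOn Rᶜ B) {z : ℂ} (hz : |z.re| = 1 / 2) :
    ‖star ψ ⬝ᵥ ((k2S R ψ g z * (A * B) * k2S R ψ g (-z)) *ᵥ ψ)‖ ≤
      Real.sqrt K * (‖A‖ * ‖B‖) := by
  rcases eq_or_ne A 0 with rfl | hA0
  · simp
  rcases eq_or_ne B 0 with rfl | hB0
  · simp
  have ha : 0 < ‖A‖ := norm_pos_iff.2 hA0
  have hb : 0 < ‖B‖ := norm_pos_iff.2 hB0
  set A' : Op V q := ((‖A‖⁻¹ : ℝ) : ℂ) • A with hA'
  set B' : Op V q := ((‖B‖⁻¹ : ℝ) : ℂ) • B with hB'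
  have hA1 : ‖A'‖ ≤ 1 := by
    rw [hA', norm_smul, Complex.norm_real, norm_inv, norm_norm, inv_mul_cancel₀ ha.ne']
  have hB1 : ‖B'‖ ≤ 1 := by
    rw [hB', norm_smul, Complex.norm_real, norm_inv, norm_norm, inv_mul_cancel₀ hb.ne']
  have h := k2_edge1 R hψ g hg1 hg2 (ph_acts_smul _ hA : ActsOn R A')
    (ph_acts_smul _ hB : ActsOn Rᶜ B') hA1 hB1 hz
  have e : A * B = ((‖A‖ * ‖B‖ : ℝ) : ℂ) • (A' * B') := by
    rw [hA', hB', Matrix.smul_mul, Matrix.mul_smul, smul_smul, smul_smul]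
    have : ((‖A‖ * ‖B‖ : ℝ) : ℂ) * ((‖A‖⁻¹ : ℝ) : ℂ) * ((‖B‖⁻¹ : ℝ) : ℂ) = 1 := by
      rw [← Complex.ofReal_mul, ← Complex.ofReal_mul, ← Complex.ofReal_one]
      congr 1
      field_simp
    rw [this, one_smul]
  rw [e, Matrix.mul_smul, Matrix.smul_mul, Matrix.smul_mulVec, dotProduct_smul, smul_eq_mul,
    norm_mul, Complex.norm_real, Real.norm_of_nonneg (by positivity), mul_comm]
  exact mul_le_mul_of_nonneg_right h (by positivity)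

/-! ### the strip bound -/

theorem k2_strip {f : ℂ → ℂ} (hf : Differentiable ℂ f) {C L : ℝ}
    (hbd : ∀ z : ℂ, |z.re| ≤ 1 / 2 → ‖f z‖ ≤ C) (h0 : ∀ z : ℂ, z.re = 0 → ‖f z‖ ≤ 1)
    (h1 : ∀ z : ℂ, |z.re| = 1 / 2 → ‖f z‖ ≤ Real.exp L) (z : ℂ) (hz : |z.re| ≤ 1 / 2) :
    ‖f z‖ ≤ Real.exp (2 * L * |z.re|) := by
  have main : ∀ (g : ℂ → ℂ), Differentiable ℂ g → (∀ z : ℂ, |z.re| ≤ 1 / 2 → ‖g z‖ ≤ C) →
      (∀ z : ℂ, z.re = 0 → ‖g z‖ ≤ 1) → (∀ z : ℂ, |z.re| = 1 / 2 → ‖g z‖ ≤ Real.exp L) →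
      ∀ z : ℂ, 0 ≤ z.re → z.re ≤ 1 / 2 → ‖g z‖ ≤ Real.exp (2 * L * |z.re|) := by
    intro g hg hgb hg0 hg1 z hz0 hz1
    have hB : BddAbove ((norm ∘ g) '' Complex.HadamardThreeLines.verticalClosedStrip 0 (1 / 2)) := by
      refine ⟨C, ?_⟩
      rintro _ ⟨w, hw, rfl⟩
      refine hgb w ?_
      have h2 : w.re ∈ Set.Icc (0 : ℝ) (1 / 2) := hw
      rw [abs_of_nonneg h2.1]
      exact h2.2
    have key := Complex.HadamardThreeLines.norm_le_interp_of_mem_verticalClosedStrip'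
      (by norm_num : (0 : ℝ) < 1 / 2) (z := z) ⟨hz0, hz1⟩ hg.diffContOnCl hB
      (a := 1) (b := Real.exp L)
      (fun w hw => hg0 w hw) (fun w hw => hg1 w (by
        have h2 : w.re = 1 / 2 := hw
        rw [h2, abs_of_nonneg (by norm_num)]))
    refine key.trans (le_of_eq ?_)
    rw [Real.one_rpow, one_mul, ← Real.exp_mul, abs_of_nonneg hz0]
    congr 1
    ring
  rcases le_total 0 z.re with h | h
  · exact main f hf hbd h0 h1 z h (by rwa [abs_of_nonneg h] at hz)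
  · have h2 := main (fun w => f (-w)) (hf.comp differentiable_neg)
      (fun w hw => hbd (-w) (by rwa [Complex.neg_re, abs_neg]))
      (fun w hw => h0 (-w) (by rw [Complex.neg_re, hw, neg_zero]))
      (fun w hw => h1 (-w) (by rwa [Complex.neg_re, abs_neg])) (-z)
      (by rw [Complex.neg_re]; linarith)
      (by rw [Complex.neg_re]; rwa [abs_of_nonpos h] at hz)
    simp only [neg_neg, Complex.neg_re, abs_neg] at h2
    exact h2

/-! ### exponentials -/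

theorem k2_exp_add (G : Op V q) (z w : ℂ) :
    NormedSpace.exp (z • G) * NormedSpace.exp (w • G) = NormedSpace.exp ((z + w) • G) := by
  letI : NormedAlgebra ℚ (Op V q) := NormedAlgebra.restrictScalars ℚ ℝ (Op V q)
  rw [add_smul, NormedSpace.exp_add_of_commute]
  exact ((Commute.refl G).smul_left z).smul_right w

theorem k2_exp_imag_norm {G : Op V q} (hG : G.IsHermitian) {z : ℂ} (hz : z.re = 0) :
    ‖NormedSpace.exp (z • G)‖ ≤ 1 := by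
  have e : z = (z.im : ℂ) * Complex.I := by
    apply Complex.ext
    · rw [hz]; simp
    · simp
  rw [e]
  refine norm_le_of_iso ?_
  rw [exp_imag_star hG]
  exact exp_inv_neg G _

theorem k2_exp_norm {G : Op V q} (hG : G.IsHermitian) (z : ℂ) :
    ‖NormedSpace.exp (z • G)‖ ≤ Real.exp (|z.re| * ‖G‖) := by
  have e : NormedSpace.exp (z • G) = NormedSpace.exp ((z.re : ℂ) • G) *
      NormedSpace.exp (((z.im : ℂ) * Complex.I) • G) := by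
    rw [k2_exp_add, Complex.re_add_im]
  rw [e]
  have h1 : ‖NormedSpace.exp (((z.im : ℂ) * Complex.I) • G)‖ ≤ 1 :=
    k2_exp_imag_norm hG (by simp)
  have h2 : ‖NormedSpace.exp ((z.re : ℂ) • G)‖ ≤ Real.exp (|z.re| * ‖G‖) := by
    refine (norm_exp_le125 _).trans (Real.exp_le_exp.2 ?_)
    rw [norm_smul, Complex.norm_real, Real.norm_eq_abs]
  exact (norm_mul_le _ _).trans (by
    have := mul_le_mul h2 h1 (norm_nonneg _) (Real.exp_pos _).le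
    rwa [mul_one] at this)

/-! ### the flow of one line -/

/-- the generators of one line: the modular generator of the region and half of one local operator
on each side -/
noncomputable def k2Gen (R : Finset V) (ψ : Conf V q → ℂ) (g : ℝ → ℝ) (Kb Kb' : Op V q) :
    ℕ → Op V q := fun k =>
  if k = 0 then k2G R ψ g else if k = 1 then (2 : ℂ)⁻¹ • Kb else if k = 2 then (2 : ℂ)⁻¹ • Kb' else 0

theorem k2Gen_zero (R : Finset V) (ψ : Conf V q → ℂ) (g : ℝ → ℝ) (Kb Kb' : Op V q) :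
    k2Gen R ψ g Kb Kb' 0 = k2G R ψ g := rfl

theorem k2Gen_one (R : Finset V) (ψ : Conf V q → ℂ) (g : ℝ → ℝ) (Kb Kb' : Op V q) :
    k2Gen R ψ g Kb Kb' 1 = (2 : ℂ)⁻¹ • Kb := rfl

theorem k2Gen_two (R : Finset V) (ψ : Conf V q → ℂ) (g : ℝ → ℝ) (Kb Kb' : Op V q) :
    k2Gen R ψ g Kb Kb' 2 = (2 : ℂ)⁻¹ • Kb' := rfl

theorem k2Gen_herm (R : Finset V) (ψ : Conf V q → ℂ) (g : ℝ → ℝ) {Kb Kb' : Op V q}
    (h : Kb.IsHermitian) (h' : Kb'.IsHermitian) (k : ℕ) : (k2Gen R ψ g Kb Kb' k).IsHermitian := by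
  have h2 : star (2 : ℂ)⁻¹ = (2 : ℂ)⁻¹ := by simp
  rw [k2Gen]
  split_ifs
  · exact k2G_herm R ψ g
  · rw [Matrix.IsHermitian, conjTranspose_smul, h.eq, h2]
  · rw [Matrix.IsHermitian, conjTranspose_smul, h'.eq, h2]
  · exact Matrix.isHermitian_zero

/-- conjugation by the flow of half of a local operator -/
noncomputable def k2C (K X : Op V q) (z : ℂ) : Op V q :=
  NormedSpace.exp ((z / 2) • K) * X * NormedSpace.exp ((-(z / 2)) • K)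

theorem k2C_acts {S : Finset V} {K X : Op V q} (hK : ActsOn S K) (hX : ActsOn S X) (z : ℂ) :
    ActsOn S (k2C K X z) :=
  ph_acts_mul (ph_acts_mul (ph_acts_exp (ph_acts_smul _ hK)) hX) (ph_acts_exp (ph_acts_smul _ hK))

theorem k2C_sum (K : Op V q) {ι : Type*} (s : Finset ι) (X : ι → Op V q) (z : ℂ) :
    k2C K (∑ i ∈ s, X i) z = ∑ i ∈ s, k2C K (X i) z := by
  simp only [k2C]
  rw [Finset.mul_sum, Finset.sum_mul]

theorem k2_exp_cancel (G : Op V q) (z : ℂ) :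
    NormedSpace.exp (z • G) * NormedSpace.exp ((-z) • G) = 1 := by
  have h := exp_inv_neg G (-z)
  rwa [neg_neg] at h

/-- conjugation of a product over a cut -/
theorem k2C_split {S S' : Finset V} (hd : Disjoint S S') {K K' A B : Op V q} (hK : ActsOn S K)
    (hK' : ActsOn S' K') (hA : ActsOn S A) (hB : ActsOn S' B) (z : ℂ) :
    k2C K (k2C K' (A * B) z) z = k2C K A z * k2C K' B z := by
  have c1 : NormedSpace.exp ((z / 2) • K') * A = A * NormedSpace.exp ((z / 2) • K') :=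
    (ph_acts_comm hd hA (ph_acts_exp (ph_acts_smul _ hK'))).symm
  have e1 : k2C K' (A * B) z = A * k2C K' B z := by
    rw [k2C, k2C, ← Matrix.mul_assoc, ← Matrix.mul_assoc, ← Matrix.mul_assoc, c1]
  have c2 : k2C K' B z * NormedSpace.exp ((-(z / 2)) • K) =
      NormedSpace.exp ((-(z / 2)) • K) * k2C K' B z :=
    (ph_acts_comm hd (ph_acts_exp (ph_acts_smul _ hK)) (k2C_acts hK' hB z)).symm
  rw [e1, k2C]
  calc NormedSpace.exp ((z / 2) • K) * (A * k2C K' B z) * NormedSpace.exp ((-(z / 2)) • K) =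
      NormedSpace.exp ((z / 2) • K) * A * (k2C K' B z * NormedSpace.exp ((-(z / 2)) • K)) := by
        simp only [Matrix.mul_assoc]
    _ = NormedSpace.exp ((z / 2) • K) * A * NormedSpace.exp ((-(z / 2)) • K) * k2C K' B z := by
        rw [c2]; simp only [Matrix.mul_assoc]
    _ = _ := rfl

theorem k2_fE (R : Finset V) (ψ : Conf V q → ℂ) (g : ℝ → ℝ) (Kb Kb' P : Op V q) (z : ℂ) :
    fE ψ (k2Gen R ψ g Kb Kb') 3 P z =
      star ψ ⬝ᵥ ((k2S R ψ g z * k2C Kb (k2C Kb' P z) z * k2S R ψ g (-z)) *ᵥ ψ) := by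
  rw [fE, cjF, expL_apply]
  simp only [prR, prL, Matrix.one_mul, Matrix.mul_one, k2Gen_zero, k2Gen_one, k2Gen_two, k2C,
    smul_smul, k2S_exp, ← div_eq_mul_inv, neg_div]
  simp only [Matrix.mul_assoc]

/-- the two-sided bound on the lines `|Re z| = 1/2` -/
theorem k2_fE_edge (R a a' : Finset V) (ha : a ⊆ R) (ha' : a' ⊆ Rᶜ) {ψ : Conf V q → ℂ}
    (hψ : nsq ψ = 1) (g : ℝ → ℝ) {K : ℝ}
    (hg1 : ∀ i, eigp (ψ ∘ (cut R q).symm) i ≤ Real.exp (g (eigp (ψ ∘ (cut R q).symm) i)))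
    (hg2 : ∑ i, Real.exp (g (eigp (ψ ∘ (cut R q).symm) i)) ≤ K) {Kb Kb' : Op V q}
    (hKb : ActsOn R Kb) (hKb' : ActsOn Rᶜ Kb') {P : Op V q} (hP1 : ‖P‖ ≤ 1)
    (hPa : ActsOn (a ∪ a') P) {κ κ' : ℝ} (hκ0 : 0 ≤ κ) (hκ0' : 0 ≤ κ')
    (hκ : ∀ z : ℂ, |z.re| = 1 / 4 → ∀ X : Op V q, ActsOn a X →
      ‖NormedSpace.exp (z • Kb) * X * NormedSpace.exp ((-z) • Kb)‖ ≤ κ * ‖X‖)
    (hκ' : ∀ z : ℂ, |z.re| = 1 / 4 → ∀ X : Op V q, ActsOn a' X →
      ‖NormedSpace.exp (z • Kb') * X * NormedSpace.exp ((-z) • Kb')‖ ≤ κ' * ‖X‖)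
    {z : ℂ} (hz : |z.re| = 1 / 2) :
    ‖fE ψ (k2Gen R ψ g Kb Kb') 3 P z‖ ≤ (q : ℝ) ^ (2 * a'.card) * (Real.sqrt K * (κ * κ')) := by
  have hRd : Disjoint R Rᶜ := disjoint_compl_right
  have hd : Disjoint a a' := Finset.disjoint_of_subset_left ha
    (Finset.disjoint_of_subset_right ha' hRd)
  have hz4 : |(z / 2).re| = 1 / 4 := by
    have : (z / 2).re = z.re / 2 := by simp
    rw [this, abs_div, hz]
    norm_num
  have e1 : k2C Kb (k2C Kb' P z) z = ∑ u : Conf {x // x ∈ a'} q, ∑ c : Conf {x // x ∈ a'} q,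
      k2C Kb (k2_coef a' P u c) z * k2C Kb' (pu_E a' u c) z := by
    conv_lhs => rw [k2_expand a' P]
    rw [k2C_sum, k2C_sum]
    refine Finset.sum_congr rfl fun u _ => ?_
    rw [k2C_sum, k2C_sum]
    refine Finset.sum_congr rfl fun c _ => ?_
    exact k2C_split hRd hKb hKb' (ph_acts_mono ha (k2_coef_acts hd hPa u c))
      (ph_acts_mono ha' (pu_E_acts a' u c)) z
  rw [k2_fE, e1]
  simp only [Finset.mul_sum, Finset.sum_mul, Matrix.sum_mulVec, dotProduct_sum]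
  have hterm : ∀ u c : Conf {x // x ∈ a'} q,
      ‖star ψ ⬝ᵥ ((k2S R ψ g z * (k2C Kb (k2_coef a' P u c) z * k2C Kb' (pu_E a' u c) z) *
        k2S R ψ g (-z)) *ᵥ ψ)‖ ≤ Real.sqrt K * (κ * κ') := by
    intro u c
    have hA : ActsOn R (k2C Kb (k2_coef a' P u c) z) :=
      k2C_acts hKb (ph_acts_mono ha (k2_coef_acts hd hPa u c)) z
    have hB : ActsOn Rᶜ (k2C Kb' (pu_E a' u c) z) :=
      k2C_acts hKb' (ph_acts_mono ha' (pu_E_acts a' u c)) z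
    have hAn : ‖k2C Kb (k2_coef a' P u c) z‖ ≤ κ := by
      refine (hκ (z / 2) hz4 _ (k2_coef_acts hd hPa u c)).trans ?_
      exact mul_le_of_le_one_right hκ0 ((k2_coef_norm a' P u c).trans hP1)
    have hBn : ‖k2C Kb' (pu_E a' u c) z‖ ≤ κ' := by
      refine (hκ' (z / 2) hz4 _ (pu_E_acts a' u c)).trans ?_
      exact mul_le_of_le_one_right hκ0' (k2_E_norm a' u c)
    refine (k2_edge R hψ g hg1 hg2 hA hB hz).trans ?_
    exact mul_le_mul_of_nonneg_left (mul_le_mul hAn hBn (norm_nonneg _) hκ0) (Real.sqrt_nonneg _)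
  refine (norm_sum_le _ _).trans ?_
  refine (Finset.sum_le_sum fun u _ => (norm_sum_le _ _).trans
    (Finset.sum_le_sum fun c _ => hterm u c)).trans (le_of_eq ?_)
  have hcard : Fintype.card (Conf {x // x ∈ a'} q) = q ^ a'.card := by
    simp [Conf]
  rw [Finset.sum_const, Finset.sum_const, Finset.card_univ, hcard, nsmul_eq_mul, nsmul_eq_mul]
  push_cast
  ring

theorem k2_fE_zero (R : Finset V) {ψ : Conf V q → ℂ} (hψ : nsq ψ = 1) (g : ℝ → ℝ)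
    {Kb Kb' : Op V q} (h : Kb.IsHermitian) (h' : Kb'.IsHermitian) {P : Op V q} (hP1 : ‖P‖ ≤ 1)
    {z : ℂ} (hz : z.re = 0) : ‖fE ψ (k2Gen R ψ g Kb Kb') 3 P z‖ ≤ 1 := by
  have hC : ∀ {K X : Op V q}, K.IsHermitian → ‖X‖ ≤ 1 → ‖k2C K X z‖ ≤ 1 := by
    intro K X hK hX
    have h1 : (z / 2).re = 0 := by
      have : (z / 2).re = z.re / 2 := by simp
      rw [this, hz, zero_div]
    have h2 : (-(z / 2)).re = 0 := by rw [Complex.neg_re, h1, neg_zero]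
    refine (norm_mul_le _ _).trans (mul_le_one₀ ?_ (norm_nonneg _) (k2_exp_imag_norm hK h2))
    exact (norm_mul_le _ _).trans (mul_le_one₀ (k2_exp_imag_norm hK h1) (norm_nonneg _) hX)
  rw [k2_fE]
  refine (dot_le_norm_bound ψ _ hψ).trans ?_
  refine (norm_mul_le _ _).trans (mul_le_one₀ ?_ (norm_nonneg _)
    (k2S_norm_im R ψ g (by rw [Complex.neg_re, hz, neg_zero])))
  exact (norm_mul_le _ _).trans (mul_le_one₀ (k2S_norm_im R ψ g hz) (norm_nonneg _)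
    (hC h (hC h' hP1)))

theorem k2_fE_crude (R : Finset V) {ψ : Conf V q → ℂ} (hψ : nsq ψ = 1) (g : ℝ → ℝ)
    {Kb Kb' : Op V q} (h : Kb.IsHermitian) (h' : Kb'.IsHermitian) (P : Op V q)
    {z : ℂ} (hz : |z.re| ≤ 1 / 2) : ‖fE ψ (k2Gen R ψ g Kb Kb') 3 P z‖ ≤
      (Real.exp ‖k2G R ψ g‖ * Real.exp ‖Kb‖ * Real.exp ‖Kb'‖) ^ 2 * ‖P‖ := by
  have hE : ∀ {G : Op V q}, G.IsHermitian → ∀ w : ℂ, |w.re| ≤ 1 →
      ‖NormedSpace.exp (w • G)‖ ≤ Real.exp ‖G‖ := fun hG w hw =>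
    (k2_exp_norm hG w).trans (Real.exp_le_exp.2 (mul_le_of_le_one_left (norm_nonneg _) hw))
  have h2 : ∀ w : ℂ, |w.re| ≤ 1 / 2 → |(w / 2).re| ≤ 1 := by
    intro w hw
    have : (w / 2).re = w.re / 2 := by simp
    rw [this, abs_div, abs_two]
    linarith [abs_nonneg w.re]
  have hC : ∀ {K X : Op V q}, K.IsHermitian → ‖k2C K X z‖ ≤
      Real.exp ‖K‖ * ‖X‖ * Real.exp ‖K‖ := by
    intro K X hK
    have h3 := h2 z hz
    have h4 : |(-(z / 2)).re| ≤ 1 := by rw [Complex.neg_re, abs_neg]; exact h3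
    refine (norm_mul_le _ _).trans (mul_le_mul ?_ (hE hK _ h4) (norm_nonneg _) (by positivity))
    exact (norm_mul_le _ _).trans (mul_le_mul_of_nonneg_right (hE hK _ h3) (norm_nonneg _))
  have hS : ∀ w : ℂ, |w.re| ≤ 1 → ‖k2S R ψ g w‖ ≤ Real.exp ‖k2G R ψ g‖ := fun w hw => by
    rw [k2S_exp]
    exact hE (k2G_herm R ψ g) w hw
  rw [k2_fE]
  refine (dot_le_norm_bound ψ _ hψ).trans ?_
  have h5 : ‖k2C Kb (k2C Kb' P z) z‖ ≤
      Real.exp ‖Kb‖ * (Real.exp ‖Kb'‖ * ‖P‖ * Real.exp ‖Kb'‖) * Real.exp ‖Kb‖ := by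
    refine (hC h).trans ?_
    gcongr
    exact hC h'
  have h6 : |z.re| ≤ 1 := by linarith
  calc ‖k2S R ψ g z * k2C Kb (k2C Kb' P z) z * k2S R ψ g (-z)‖ ≤
      ‖k2S R ψ g z‖ * ‖k2C Kb (k2C Kb' P z) z‖ * ‖k2S R ψ g (-z)‖ :=
        (norm_mul_le _ _).trans (mul_le_mul_of_nonneg_right (norm_mul_le _ _) (norm_nonneg _))
    _ ≤ Real.exp ‖k2G R ψ g‖ *
        (Real.exp ‖Kb‖ * (Real.exp ‖Kb'‖ * ‖P‖ * Real.exp ‖Kb'‖) * Real.exp ‖Kb‖) *
        Real.exp ‖k2G R ψ g‖ := by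
        refine mul_le_mul (mul_le_mul (hS _ h6) h5 (norm_nonneg _) (Real.exp_pos _).le)
          (hS _ (by rw [Complex.neg_re, abs_neg]; exact h6)) (norm_nonneg _) (by positivity)
    _ = _ := by ring

/-- **The strip bound of one line** -/
theorem k2_fE_strip (R a a' : Finset V) (ha : a ⊆ R) (ha' : a' ⊆ Rᶜ) {ψ : Conf V q → ℂ}
    (hψ : nsq ψ = 1) (g : ℝ → ℝ) {K : ℝ}
    (hg1 : ∀ i, eigp (ψ ∘ (cut R q).symm) i ≤ Real.exp (g (eigp (ψ ∘ (cut R q).symm) i)))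
    (hg2 : ∑ i, Real.exp (g (eigp (ψ ∘ (cut R q).symm) i)) ≤ K) {Kb Kb' : Op V q}
    (hKb : ActsOn R Kb) (hKb' : ActsOn Rᶜ Kb') (hH : Kb.IsHermitian) (hH' : Kb'.IsHermitian)
    {P : Op V q} (hP1 : ‖P‖ ≤ 1)
    (hPa : ActsOn (a ∪ a') P) {κ κ' : ℝ} (hκ0 : 0 ≤ κ) (hκ0' : 0 ≤ κ')
    (hκ : ∀ z : ℂ, |z.re| = 1 / 4 → ∀ X : Op V q, ActsOn a X →
      ‖NormedSpace.exp (z • Kb) * X * NormedSpace.exp ((-z) • Kb)‖ ≤ κ * ‖X‖)
    (hκ' : ∀ z : ℂ, |z.re| = 1 / 4 → ∀ X : Op V q, ActsOn a' X →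
      ‖NormedSpace.exp (z • Kb') * X * NormedSpace.exp ((-z) • Kb')‖ ≤ κ' * ‖X‖)
    {L : ℝ} (hLe : (q : ℝ) ^ (2 * a'.card) * (Real.sqrt K * (κ * κ')) ≤ Real.exp L)
    (z : ℂ) (hz : |z.re| ≤ 1 / 2) :
    ‖fE ψ (k2Gen R ψ g Kb Kb') 3 P z‖ ≤ Real.exp (2 * L * |z.re|) :=
  k2_strip (fE_diff ψ _ 3 P) (fun w hw => k2_fE_crude R hψ g hH hH' P hw)
    (fun w hw => k2_fE_zero R hψ g hH hH' hP1 hw)
    (fun w hw => (k2_fE_edge R a a' ha ha' hψ g hg1 hg2 hKb hKb' hP1 hPa hκ0 hκ0' hκ hκ' hw).trans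
      hLe) z hz

/-! ### the two values on the imaginary axis -/

/-- the expectation of a positive operator is subadditive up to a factor two -/
theorem k2_psd_add {N : Type*} [Fintype N] [DecidableEq N] {P : Matrix N N ℂ} (hP : P.PosSemidef)
    (u v : N → ℂ) : (star (u + v) ⬝ᵥ (P *ᵥ (u + v))).re ≤
      2 * (star u ⬝ᵥ (P *ᵥ u)).re + 2 * (star v ⬝ᵥ (P *ᵥ v)).re := by
  have h := (Complex.le_def.1 (hP.dotProduct_mulVec_nonneg (u - v))).1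
  rw [Complex.zero_re] at h
  simp only [star_add, star_sub, Matrix.mulVec_add, Matrix.mulVec_sub, add_dotProduct,
    sub_dotProduct, dotProduct_add, dotProduct_sub, Complex.add_re, Complex.sub_re] at h ⊢
  linarith

theorem k2_ip_le {N : Type*} [Fintype N] [DecidableEq N] {P : Matrix N N ℂ} (hP1 : ‖P‖ ≤ 1)
    (v : N → ℂ) : (star v ⬝ᵥ (P *ᵥ v)).re ≤ nsq v := by
  refine (Complex.re_le_norm _).trans ((nrm_ip_le _ _).trans ?_)
  have h1 := nrm_mulVec_le P v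
  have h2 := nrm_nonneg v
  have h3 : nrm v * nrm v = nsq v := by rw [← sq, nrm_sq]
  calc nrm v * nrm (P *ᵥ v) ≤ nrm v * (‖P‖ * nrm v) := mul_le_mul_of_nonneg_left h1 h2
    _ ≤ nrm v * (1 * nrm v) := by gcongr
    _ = nsq v := by rw [one_mul, h3]

theorem k2_nsq_add_le {N : Type*} [Fintype N] (u v : N → ℂ) :
    nsq (u + v) ≤ 2 * nsq u + 2 * nsq v := by
  unfold nsq
  rw [Finset.mul_sum, Finset.mul_sum, ← Finset.sum_add_distrib]
  refine Finset.sum_le_sum fun i _ => ?_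
  have h1 : ‖(u + v) i‖ ≤ ‖u i‖ + ‖v i‖ := norm_add_le _ _
  have h2 : ‖(u + v) i‖ ^ 2 ≤ (‖u i‖ + ‖v i‖) ^ 2 := pow_le_pow_left₀ (norm_nonneg _) h1 2
  nlinarith [sq_nonneg (‖u i‖ - ‖v i‖)]

theorem k2_nsq_unit {N : Type*} [Fintype N] [DecidableEq N] {W : Matrix N N ℂ} (hW : Wᴴ * W = 1)
    (v : N → ℂ) : nsq (W *ᵥ v) = nsq v := by
  have h : ((nsq (W *ᵥ v) : ℝ) : ℂ) = ((nsq v : ℝ) : ℂ) := by
    rw [← ip_self, ← ip_self, ip_mulVec, Matrix.mulVec_mulVec, hW, Matrix.one_mulVec]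
  exact_mod_cast h

/-- transport of the expectation by an almost local unitary -/
theorem k2_point (R a a' : Finset V) {ψ : Conf V q → ℂ} {P W W' U U' : Op V q}
    (hP : P.PosSemidef) (hP1 : ‖P‖ ≤ 1) (hPa : ActsOn (a ∪ a') P) (ha : a ⊆ R) (ha' : a' ⊆ Rᶜ)
    (hW' : ActsOn Rᶜ W') (hU : ActsOn (R \ a) U) (hU' : ActsOn (Rᶜ \ a') U')
    (hW1 : W'ᴴ * W' = 1) (hU1 : Uᴴ * U = 1) (hU1' : U'ᴴ * U' = 1) {η η' : ℝ}
    (h : nsq (W *ᵥ ψ - U *ᵥ ψ) ≤ η) (h' : nsq (W' *ᵥ ψ - U' *ᵥ ψ) ≤ η') :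
    (star ((W' * W) *ᵥ ψ) ⬝ᵥ (P *ᵥ ((W' * W) *ᵥ ψ))).re ≤
      2 * (star ψ ⬝ᵥ (P *ᵥ ψ)).re + 4 * (η + η') := by
  have hRd : Disjoint R Rᶜ := disjoint_compl_right
  have hUR : ActsOn R U := ph_acts_mono Finset.sdiff_subset hU
  have hUR' : ActsOn Rᶜ U' := ph_acts_mono Finset.sdiff_subset hU'
  -- the difference
  have hdiff : (W' * W) *ᵥ ψ - (U' * U) *ᵥ ψ =
      W' *ᵥ (W *ᵥ ψ - U *ᵥ ψ) + U *ᵥ (W' *ᵥ ψ - U' *ᵥ ψ) := by
    have c1 : U * W' = W' * U := ph_acts_comm hRd hUR hW'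
    have c2 : U * U' = U' * U := ph_acts_comm hRd hUR hUR'
    simp only [Matrix.mulVec_sub, Matrix.mulVec_mulVec]
    rw [c1, c2]
    abel
  have hn : nsq ((W' * W) *ᵥ ψ - (U' * U) *ᵥ ψ) ≤ 2 * (η + η') := by
    rw [hdiff]
    refine (k2_nsq_add_le _ _).trans ?_
    rw [k2_nsq_unit hW1, k2_nsq_unit hU1]
    linarith
  -- commutation with `P`
  have hcU : U * P = P * U := ph_acts_comm (by
    rw [Finset.disjoint_union_right]
    exact ⟨Finset.sdiff_disjoint, Finset.disjoint_of_subset_left Finset.sdiff_subset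
      (Finset.disjoint_of_subset_right ha' hRd)⟩) hU hPa
  have hcU' : U' * P = P * U' := ph_acts_comm (by
    rw [Finset.disjoint_union_right]
    exact ⟨(Finset.disjoint_of_subset_left ha (Finset.disjoint_of_subset_right
      Finset.sdiff_subset hRd)).symm, Finset.sdiff_disjoint⟩) hU' hPa
  have hiso : (U' * U)ᴴ * (U' * U) = 1 := by
    rw [conjTranspose_mul]
    calc Uᴴ * U'ᴴ * (U' * U) = Uᴴ * (U'ᴴ * U') * U := by simp only [Matrix.mul_assoc]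
      _ = 1 := by rw [hU1', Matrix.mul_one, hU1]
  have hexp : star ((U' * U) *ᵥ ψ) ⬝ᵥ (P *ᵥ ((U' * U) *ᵥ ψ)) = star ψ ⬝ᵥ (P *ᵥ ψ) := by
    have c3 : P * (U' * U) = U' * U * P := by
      rw [← Matrix.mul_assoc, ← hcU', Matrix.mul_assoc, ← hcU, Matrix.mul_assoc]
    rw [Matrix.mulVec_mulVec, c3, ip_mulVec, Matrix.mulVec_mulVec, ← Matrix.mul_assoc, hiso,
      Matrix.one_mul]
  have hsum : (W' * W) *ᵥ ψ = (U' * U) *ᵥ ψ + ((W' * W) *ᵥ ψ - (U' * U) *ᵥ ψ) := by abel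
  rw [hsum]
  refine (k2_psd_add hP _ _).trans ?_
  rw [hexp]
  have h4 := k2_ip_le hP1 ((W' * W) *ᵥ ψ - (U' * U) *ᵥ ψ)
  linarith

/-- the local flow on one side -/
noncomputable def k2W (S : Finset V) (ψ : Conf V q → ℂ) (g : ℝ → ℝ) (K : Op V q) (s : ℝ) :
    Op V q :=
  NormedSpace.exp (-(((s : ℂ) * Complex.I) • K)) * k2S S ψ g (-((s : ℂ) * Complex.I))

theorem k2W_acts {S : Finset V} (ψ : Conf V q → ℂ) (g : ℝ → ℝ) {K : Op V q} (hK : ActsOn S K)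
    (s : ℝ) : ActsOn S (k2W S ψ g K s) :=
  ph_acts_mul (ph_acts_exp (ph_acts_neg (ph_acts_smul _ hK))) (k2S_acts S ψ g _)

theorem k2W_iso (S : Finset V) (ψ : Conf V q → ℂ) (g : ℝ → ℝ) {K : Op V q} (hK : K.IsHermitian)
    (s : ℝ) : (k2W S ψ g K s)ᴴ * k2W S ψ g K s = 1 := by
  have h1 : (NormedSpace.exp (-(((s : ℂ) * Complex.I) • K)))ᴴ *
      NormedSpace.exp (-(((s : ℂ) * Complex.I) • K)) = 1 := by
    have e : -(((s : ℂ) * Complex.I) • K) = (((-s : ℝ) : ℂ) * Complex.I) • K := by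
      rw [← neg_smul]
      congr 1
      push_cast
      ring
    rw [e, exp_imag_star hK]
    exact exp_inv_neg K _
  have h2 : (k2S S ψ g (-((s : ℂ) * Complex.I)))ᴴ * k2S S ψ g (-((s : ℂ) * Complex.I)) = 1 := by
    rw [k2S_conj, k2S_mul]
    have e : star (-((s : ℂ) * Complex.I)) + -((s : ℂ) * Complex.I) = 0 := by
      simp
    rw [e, k2S_zero]
  rw [k2W, conjTranspose_mul]
  calc (k2S S ψ g (-((s : ℂ) * Complex.I)))ᴴ *
      (NormedSpace.exp (-(((s : ℂ) * Complex.I) • K)))ᴴ *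
      (NormedSpace.exp (-(((s : ℂ) * Complex.I) • K)) * k2S S ψ g (-((s : ℂ) * Complex.I))) =
      (k2S S ψ g (-((s : ℂ) * Complex.I)))ᴴ *
        ((NormedSpace.exp (-(((s : ℂ) * Complex.I) • K)))ᴴ *
        NormedSpace.exp (-(((s : ℂ) * Complex.I) • K))) * k2S S ψ g (-((s : ℂ) * Complex.I)) := by
        simp only [Matrix.mul_assoc]
    _ = 1 := by rw [h1, Matrix.mul_one, h2]

/-- on the imaginary axis the flow of one line is the product of two one-sided flows -/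
theorem k2_vec (R : Finset V) (ψ : Conf V q → ℂ) (g : ℝ → ℝ) {Kb Kb' : Op V q}
    (hKb : ActsOn R Kb) (s : ℝ) :
    prL (fun k => NormedSpace.exp ((-(((2 * s : ℝ) : ℂ) * Complex.I)) • k2Gen R ψ g Kb Kb' k)) 3
      *ᵥ ψ = (k2W Rᶜ ψ g Kb' s * k2W R ψ g Kb s) *ᵥ ψ := by
  have hRd : Disjoint R Rᶜ := disjoint_compl_right
  have e1 : (-(((2 * s : ℝ) : ℂ) * Complex.I)) * (2 : ℂ)⁻¹ = -((s : ℂ) * Complex.I) := by
    push_cast
    ring
  have e2 : -(((2 * s : ℝ) : ℂ) * Complex.I) = -((s : ℂ) * Complex.I) + -((s : ℂ) * Complex.I) := by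
    push_cast
    ring
  simp only [prL, k2Gen_zero, k2Gen_one, k2Gen_two, smul_smul, Matrix.mul_one, e1]
  rw [← k2S_exp, e2, ← k2S_mul, neg_smul, neg_smul]
  have c : k2S Rᶜ ψ g (-((s : ℂ) * Complex.I)) * k2W R ψ g Kb s =
      k2W R ψ g Kb s * k2S Rᶜ ψ g (-((s : ℂ) * Complex.I)) :=
    (ph_acts_comm hRd (k2W_acts ψ g hKb s) (k2S_acts Rᶜ ψ g _)).symm
  have e3 : k2W Rᶜ ψ g Kb' s * k2W R ψ g Kb s =
      NormedSpace.exp (-(((s : ℂ) * Complex.I) • Kb')) *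
        (k2W R ψ g Kb s * k2S Rᶜ ψ g (-((s : ℂ) * Complex.I))) := by
    rw [← c, k2W, Matrix.mul_assoc]
  rw [e3]
  simp only [← Matrix.mulVec_mulVec]
  rw [← k2S_dual R ψ g, k2W]
  simp only [Matrix.mulVec_mulVec, Matrix.mul_assoc]

/-- **KAPPA2: the single line lemma.** The second order coefficient of a positive contraction `P`
on a core `a ∪ a'` in the direction of one line, `log ρ_R + (K_b + K_{b'}) / 2`. -/
theorem kappa2 (R a a' : Finset V) (ha : a ⊆ R) (ha' : a' ⊆ Rᶜ) {ψ : Conf V q → ℂ}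
    (hψ : nsq ψ = 1) (g : ℝ → ℝ) {K : ℝ}
    (hg1 : ∀ i, eigp (ψ ∘ (cut R q).symm) i ≤ Real.exp (g (eigp (ψ ∘ (cut R q).symm) i)))
    (hg2 : ∑ i, Real.exp (g (eigp (ψ ∘ (cut R q).symm) i)) ≤ K) {Kb Kb' : Op V q}
    (hKb : ActsOn R Kb) (hKb' : ActsOn Rᶜ Kb') (hH : Kb.IsHermitian) (hH' : Kb'.IsHermitian)
    {P : Op V q} (hP : P.PosSemidef) (hP1 : ‖P‖ ≤ 1)
    (hPa : ActsOn (a ∪ a') P) {κ κ' : ℝ} (hκ0 : 0 ≤ κ) (hκ0' : 0 ≤ κ')
    (hκ : ∀ z : ℂ, |z.re| = 1 / 4 → ∀ X : Op V q, ActsOn a X →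
      ‖NormedSpace.exp (z • Kb) * X * NormedSpace.exp ((-z) • Kb)‖ ≤ κ * ‖X‖)
    (hκ' : ∀ z : ℂ, |z.re| = 1 / 4 → ∀ X : Op V q, ActsOn a' X →
      ‖NormedSpace.exp (z • Kb') * X * NormedSpace.exp ((-z) • Kb')‖ ≤ κ' * ‖X‖)
    {L : ℝ} (hL : 0 ≤ L)
    (hLe : (q : ℝ) ^ (2 * a'.card) * (Real.sqrt K * (κ * κ')) ≤ Real.exp L)
    {y : ℝ} (hy : 0 < y) (hy1 : y * (8 * (1 + L)) ≤ 1) {η η' : ℝ}
    {U U' : ℝ → Op V q}
    (hU : ∀ s, s = y ∨ s = -y → ActsOn (R \ a) (U s) ∧ (U s)ᴴ * U s = 1 ∧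
      nsq (NormedSpace.exp (-(((s : ℂ) * Complex.I) • Kb)) *ᵥ
        (k2S R ψ g (-((s : ℂ) * Complex.I)) *ᵥ ψ) - U s *ᵥ ψ) ≤ η)
    (hU' : ∀ s, s = y ∨ s = -y → ActsOn (Rᶜ \ a') (U' s) ∧ (U' s)ᴴ * U' s = 1 ∧
      nsq (NormedSpace.exp (-(((s : ℂ) * Complex.I) • Kb')) *ᵥ
        (k2S Rᶜ ψ g (-((s : ℂ) * Complex.I)) *ᵥ ψ) - U' s *ᵥ ψ) ≤ η') :
    -(c2 (fE ψ (k2Gen R ψ g Kb Kb') 3 P)).re ≤
      ((star ψ ⬝ᵥ (P *ᵥ ψ)).re / 4 + η + η') / y ^ 2 + 128 * Real.exp 1 * (1 + L) ^ 4 * y ^ 2 := by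
  have hb := k2_fE_strip R a a' ha ha' hψ g hg1 hg2 hKb hKb' hH hH' hP1 hPa hκ0 hκ0' hκ hκ' hLe
  have h := k2_scalar (fE_diff ψ (k2Gen R ψ g Kb Kb') 3 P) hL hb hy hy1
  have hval : ∀ s, s = y ∨ s = -y →
      (fE ψ (k2Gen R ψ g Kb Kb') 3 P (((2 * s : ℝ) : ℂ) * Complex.I)).re ≤
        2 * (star ψ ⬝ᵥ (P *ᵥ ψ)).re + 4 * (η + η') := by
    intro s hs
    obtain ⟨u1, u2, u3⟩ := hU s hs
    obtain ⟨v1, v2, v3⟩ := hU' s hs
    rw [fE_imag ψ (fun k _ => k2Gen_herm R ψ g hH hH' k) P (2 * s), k2_vec R ψ g hKb s, expL_apply]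
    refine k2_point R a a' hP hP1 hPa ha ha' (k2W_acts ψ g hKb' s) u1 v1
      (k2W_iso Rᶜ ψ g hH' s) u2 v2 ?_ ?_
    · rw [k2W, ← Matrix.mulVec_mulVec]
      exact u3
    · rw [k2W, ← Matrix.mulVec_mulVec]
      exact v3
  have h1 := hval y (Or.inl rfl)
  have h2 := hval (-y) (Or.inr rfl)
  rw [mul_neg] at h2
  have h3 : (fE ψ (k2Gen R ψ g Kb Kb') 3 P 0).re = (star ψ ⬝ᵥ (P *ᵥ ψ)).re := by
    rw [fE_zero, expL_apply]
  have h4 : -(c2 (fE ψ (k2Gen R ψ g Kb Kb') 3 P)).re =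
      -(iteratedDeriv 2 (fE ψ (k2Gen R ψ g Kb Kb') 3 P) 0).re / 2 := by
    have e : (((2:ℕ).factorial : ℂ)⁻¹) = ((2⁻¹ : ℝ) : ℂ) := by
      rw [Nat.factorial_two]; push_cast; ring
    rw [c2, e, Complex.re_ofReal_mul]
    ring
  rw [h4]
  refine h.trans (add_le_add_left ?_ _)
  rw [h3]
  have hy2 : (0 : ℝ) < y ^ 2 := by positivity
  rw [div_le_div_iff₀ (by positivity) hy2]
  have h5 : (fE ψ (k2Gen R ψ g Kb Kb') 3 P (((2 * y : ℝ) : ℂ) * Complex.I)).re +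
      (fE ψ (k2Gen R ψ g Kb Kb') 3 P (((-(2 * y) : ℝ) : ℂ) * Complex.I)).re -
      2 * (star ψ ⬝ᵥ (P *ᵥ ψ)).re ≤ 2 * (star ψ ⬝ᵥ (P *ᵥ ψ)).re + 8 * (η + η') := by
    linarith
  nlinarith

end line

end Vale.Agent.P356.GA
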