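import Vale.Agent.P356.GA.Glue980
import Vale.Agent.P356.GA.Kappa2_228
import Vale.Agent.P356.GA.Glue107

/-!
# GA, block EN-a (helper87): the second order form on coefficient vectors with few generators

`QF ψ (Gen e ψ (gC e ψ M) n K) (n+1) P c` (980) for the regions `R 0 ⊇ R 1 ⊇ ⋯`, coefficient vectors
`c = (lines, slabs)`.

* `fQ_single`, `QF_healed`: one line and the slabs; with two half slabs this is 228's single line
  function (`k2Gen`, three generators).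
* `QF_lines_free` (F1): lines which do not cross the support of `P` give zero.
* `QF_lines_congr`: only the lines which cross the support of the dressed operator count.
* `QF_slab_irr`: slabs which act off the support of `P` and commute with the other ones drop out.
-/

set_option linter.all false

namespace Vale.Agent.P356.GA.ENa

open Matrix Finset Vale.Agent.P356 Vale.Agent.P356.SV Vale.Agent.P356.Path Vale.Agent.P356.PH
open Vale.Agent.P356.GA
open scoped BigOperators ComplexOrder Kronecker Matrix.Norms.L2Operator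

section ones
variable {N : Type*} [Fintype N] [DecidableEq N]

theorem prR_ones {Y : ℕ → Matrix N N ℂ} {n : ℕ} (h : ∀ k < n, Y k = 1) : prR Y n = 1 := by
  induction n with
  | zero => rfl
  | succ n ih => rw [prR, ih fun k hk => h k (by omega), h n (by omega), Matrix.mul_one]

theorem prL_ones {Y : ℕ → Matrix N N ℂ} {n : ℕ} (h : ∀ k < n, Y k = 1) : prL Y n = 1 := by
  induction n with
  | zero => rfl
  | succ n ih => rw [prL, ih fun k hk => h k (by omega), h n (by omega), Matrix.mul_one]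

theorem prR_single {Y : ℕ → Matrix N N ℂ} {n s : ℕ} (hs : s < n) (h : ∀ k < n, k ≠ s → Y k = 1) :
    prR Y n = Y s := by
  induction n with
  | zero => omega
  | succ n ih =>
    rcases Nat.lt_succ_iff_lt_or_eq.1 hs with h1 | h1
    · rw [prR, ih h1 fun k hk => h k (by omega), h n (by omega) (by omega), Matrix.mul_one]
    · subst h1
      rw [prR, prR_ones fun k hk => h k (by omega) (by omega), Matrix.one_mul]

theorem prL_single {Y : ℕ → Matrix N N ℂ} {n s : ℕ} (hs : s < n) (h : ∀ k < n, k ≠ s → Y k = 1) :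
    prL Y n = Y s := by
  induction n with
  | zero => omega
  | succ n ih =>
    rcases Nat.lt_succ_iff_lt_or_eq.1 hs with h1 | h1
    · rw [prL, ih h1 fun k hk => h k (by omega), h n (by omega) (by omega), Matrix.one_mul]
    · subst h1
      rw [prL, prL_ones fun k hk => h k (by omega) (by omega), Matrix.mul_one]

theorem exp_add_comm {A B : Matrix N N ℂ} (h : Commute A B) :
    NormedSpace.exp (A + B) = NormedSpace.exp A * NormedSpace.exp B := by
  letI : NormedAlgebra ℚ (Matrix N N ℂ) := NormedAlgebra.restrictScalars ℚ ℝ (Matrix N N ℂ)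
  exact NormedSpace.exp_add_of_commute h

end ones

section single
variable {N : Type*} [Fintype N] [DecidableEq N] {α β : ℕ → Type*}
  [∀ k, Fintype (α k)] [∀ k, DecidableEq (α k)] [∀ k, Fintype (β k)] [∀ k, DecidableEq (β k)]
  {ι : Type*} [Fintype ι] (e : ∀ k, N ≃ α k × β k) (ψ : N → ℂ) (g : ∀ k, α k → ℝ)

/-- only one line is active -/
theorem FT_single {n s : ℕ} (hs : s < n) (X : Matrix N N ℂ) {z : ℕ → ℂ}
    (hz : ∀ k < n, k ≠ s → z k = 0) :
    FT e ψ g n X z = star ψ ⬝ᵥ ((sg e ψ g s (z s) * X * sg e ψ g s (-(z s))) *ᵥ ψ) := by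
  rw [FT, prR_single hs (fun k hk hks => by rw [hz k hk hks, sg_zero]),
    prL_single hs (fun k hk hks => by rw [hz k hk hks, neg_zero, sg_zero])]

/-- no line is active -/
theorem FT_none (n : ℕ) (X : Matrix N N ℂ) {z : ℕ → ℂ} (hz : ∀ k < n, z k = 0) :
    FT e ψ g n X z = star ψ ⬝ᵥ (X *ᵥ ψ) := by
  rw [FT, prR_ones (fun k hk => by rw [hz k hk, sg_zero]),
    prL_ones (fun k hk => by rw [hz k hk, neg_zero, sg_zero]), Matrix.one_mul, Matrix.mul_one]

theorem fQ_single {n s : ℕ} (hs : s < n) (K : ι → Matrix N N ℂ) (X : Matrix N N ℂ)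
    {c : (ℕ → ℝ) × (ι → ℝ)} (hc : ∀ k < n, k ≠ s → c.1 k = 0) (ζ : ℂ) :
    fQ ψ (Gen e ψ g n K) (n + 1) X c ζ = star ψ ⬝ᵥ ((sg e ψ g s (ζ * (c.1 s : ℂ)) *
      (NormedSpace.exp (ζ • GamK K c.2) * X * NormedSpace.exp ((-ζ) • GamK K c.2)) *
      sg e ψ g s (-(ζ * (c.1 s : ℂ)))) *ᵥ ψ) := by
  rw [fQ_Gen, FT_single e ψ g hs _ (fun k hk hks => by rw [hc k hk hks, Complex.ofReal_zero,
    mul_zero])]

theorem fQ_none (n : ℕ) (K : ι → Matrix N N ℂ) (X : Matrix N N ℂ)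
    {c : (ℕ → ℝ) × (ι → ℝ)} (hc : ∀ k < n, c.1 k = 0) (ζ : ℂ) :
    fQ ψ (Gen e ψ g n K) (n + 1) X c ζ = star ψ ⬝ᵥ
      ((NormedSpace.exp (ζ • GamK K c.2) * X * NormedSpace.exp ((-ζ) • GamK K c.2)) *ᵥ ψ) := by
  rw [fQ_Gen, FT_none e ψ g n _ (fun k hk => by rw [hc k hk, Complex.ofReal_zero, mul_zero])]

/-- slabs which commute with the other slabs and with the observable drop out -/
theorem fQ_irr (n : ℕ) (K : ι → Matrix N N ℂ) {X : Matrix N N ℂ} (c : (ℕ → ℝ) × (ι → ℝ))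
    {γ : ι → ℝ} (h1 : Commute (GamK K γ) (GamK K c.2)) (h2 : Commute (GamK K γ) X) (ζ : ℂ) :
    fQ ψ (Gen e ψ g n K) (n + 1) X (c.1, c.2 + γ) ζ =
      fQ ψ (Gen e ψ g n K) (n + 1) X c ζ := by
  rw [fQ_Gen, fQ_Gen]
  congr 1
  have e0 : GamK K (c.2 + γ) = GamK K c.2 + GamK K γ := by
    rw [GamK, GamK, GamK, ← Finset.sum_add_distrib]
    exact Finset.sum_congr rfl fun b _ => by rw [Pi.add_apply, add_smul]
  have e1 : NormedSpace.exp (ζ • GamK K (c.2 + γ)) =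
      NormedSpace.exp (ζ • GamK K c.2) * NormedSpace.exp (ζ • GamK K γ) := by
    rw [e0, smul_add, exp_add_comm ((h1.symm.smul_left ζ).smul_right ζ)]
  have e2 : NormedSpace.exp ((-ζ) • GamK K (c.2 + γ)) =
      NormedSpace.exp ((-ζ) • GamK K γ) * NormedSpace.exp ((-ζ) • GamK K c.2) := by
    rw [e0, smul_add, add_comm, exp_add_comm ((h1.smul_left (-ζ)).smul_right (-ζ))]
  have e3 : NormedSpace.exp (ζ • GamK K γ) * X = X * NormedSpace.exp (ζ • GamK K γ) := by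
    letI : NormedAlgebra ℚ (Matrix N N ℂ) := NormedAlgebra.restrictScalars ℚ ℝ (Matrix N N ℂ)
    exact ((h2.smul_left ζ).exp_left).eq
  have e4 : NormedSpace.exp (ζ • GamK K γ) * NormedSpace.exp ((-ζ) • GamK K γ) = 1 := by
    have := exp_inv_neg (GamK K γ) (-ζ)
    rwa [neg_neg] at this
  show NormedSpace.exp (ζ • GamK K (c.2 + γ)) * X * NormedSpace.exp ((-ζ) • GamK K (c.2 + γ)) = _
  rw [e1, e2]
  calc _ = NormedSpace.exp (ζ • GamK K c.2) * (NormedSpace.exp (ζ • GamK K γ) * X) *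
        NormedSpace.exp ((-ζ) • GamK K γ) * NormedSpace.exp ((-ζ) • GamK K c.2) := by
          simp only [Matrix.mul_assoc]
    _ = NormedSpace.exp (ζ • GamK K c.2) * X * (NormedSpace.exp (ζ • GamK K γ) *
        NormedSpace.exp ((-ζ) • GamK K γ)) * NormedSpace.exp ((-ζ) • GamK K c.2) := by
          rw [e3]; simp only [Matrix.mul_assoc]
    _ = _ := by rw [e4, Matrix.mul_one]

/-- **`hirr` of SUM-A** -/
theorem QF_slab_irr (n : ℕ) (K : ι → Matrix N N ℂ) {X : Matrix N N ℂ} (c : (ℕ → ℝ) × (ι → ℝ))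
    {γ : ι → ℝ} (h1 : Commute (GamK K γ) (GamK K c.2)) (h2 : Commute (GamK K γ) X) :
    QF ψ (Gen e ψ g n K) (n + 1) X (c.1, c.2 + γ) =
      QF ψ (Gen e ψ g n K) (n + 1) X c :=
  QF_congr fun ζ => fQ_irr e ψ g n K c h1 h2 ζ

end single

section region
variable {V : Type} [Fintype V] [DecidableEq V] {q : ℕ} {ι : Type*} [Fintype ι]

/-- the line flow of the tilted state, region form -/
theorem sg_k2S (R : ℕ → Finset V) (ψ : Conf V q → ℂ) (M : ℝ) (s : ℕ) (z : ℂ) :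
    sg (fun k => cut (R k) q) ψ (gC (fun k => cut (R k) q) ψ M) s z =
      k2S (R s) ψ (lgm M) z := rfl

/-- **the healed line in 980's form is 228's single line function** -/
theorem fQ_healed (R : ℕ → Finset V) (ψ : Conf V q → ℂ) (M : ℝ) {n s : ℕ} (hs : s < n)
    (K : ι → Op V q) (P : Op V q) {c : (ℕ → ℝ) × (ι → ℝ)} (hc : ∀ k < n, k ≠ s → c.1 k = 0)
    (hcs : c.1 s = 1) {Kb Kb' : Op V q} (hK : Commute Kb Kb')
    (hG : GamK K c.2 = (2 : ℂ)⁻¹ • Kb + (2 : ℂ)⁻¹ • Kb') (ζ : ℂ) :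
    fQ ψ (Gen (fun k => cut (R k) q) ψ (gC (fun k => cut (R k) q) ψ M) n K) (n + 1) P c ζ =
      fE ψ (k2Gen (R s) ψ (lgm M) Kb Kb') 3 P ζ := by
  rw [fQ_single _ ψ _ hs K P hc, k2_fE, hcs, Complex.ofReal_one, mul_one, sg_k2S, sg_k2S]
  have e1 : NormedSpace.exp (ζ • GamK K c.2) =
      NormedSpace.exp ((ζ / 2) • Kb) * NormedSpace.exp ((ζ / 2) • Kb') := by
    rw [hG, smul_add, smul_smul, smul_smul, ← div_eq_mul_inv]
    exact exp_add_comm ((hK.smul_left _).smul_right _)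
  have e2 : NormedSpace.exp ((-ζ) • GamK K c.2) =
      NormedSpace.exp ((-(ζ / 2)) • Kb') * NormedSpace.exp ((-(ζ / 2)) • Kb) := by
    rw [hG, smul_add, smul_smul, smul_smul, ← div_eq_mul_inv, neg_div, add_comm]
    exact exp_add_comm ((hK.symm.smul_left _).smul_right _)
  rw [e1, e2, k2C, k2C]
  simp only [Matrix.mul_assoc]

/-- **TRANSPORT** of 228's single line bound -/
theorem QF_healed (R : ℕ → Finset V) (ψ : Conf V q → ℂ) (M : ℝ) {n s : ℕ} (hs : s < n)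
    (K : ι → Op V q) (P : Op V q) {c : (ℕ → ℝ) × (ι → ℝ)} (hc : ∀ k < n, k ≠ s → c.1 k = 0)
    (hcs : c.1 s = 1) {Kb Kb' : Op V q} (hK : Commute Kb Kb')
    (hG : GamK K c.2 = (2 : ℂ)⁻¹ • Kb + (2 : ℂ)⁻¹ • Kb') :
    QF ψ (Gen (fun k => cut (R k) q) ψ (gC (fun k => cut (R k) q) ψ M) n K) (n + 1) P c =
      -(c2 (fE ψ (k2Gen (R s) ψ (lgm M) Kb Kb') 3 P)).re :=
  QF_eq_c2 fun ζ => fQ_healed R ψ M hs K P hc hcs hK hG ζ

/-- the same from two disjoint regions -/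
theorem QF_healed_acts (R : ℕ → Finset V) (ψ : Conf V q → ℂ) (M : ℝ) {n s : ℕ} (hs : s < n)
    (K : ι → Op V q) (P : Op V q) {c : (ℕ → ℝ) × (ι → ℝ)} (hc : ∀ k < n, k ≠ s → c.1 k = 0)
    (hcs : c.1 s = 1) {b b' : Finset V} (hbb : Disjoint b b') {Kb Kb' : Op V q}
    (hb : ActsOn b Kb) (hb' : ActsOn b' Kb')
    (hG : GamK K c.2 = (2 : ℂ)⁻¹ • Kb + (2 : ℂ)⁻¹ • Kb') :
    QF ψ (Gen (fun k => cut (R k) q) ψ (gC (fun k => cut (R k) q) ψ M) n K) (n + 1) P c =
      -(c2 (fE ψ (k2Gen (R s) ψ (lgm M) Kb Kb') 3 P)).re :=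
  QF_healed R ψ M hs K P hc hcs (ph_acts_comm hbb hb hb') hG

/-- only the lines which cross the support of the dressed operator count -/
theorem fQ_lines_congr {R : ℕ → Finset V} (hR : ∀ j k, j ≤ k → R k ⊆ R j) (ψ : Conf V q → ℂ)
    (g : ∀ k, Conf {x // x ∈ R k} q → ℝ) (n : ℕ) (K : ι → Op V q) (P : Op V q) {A : Finset V}
    {c c' : (ℕ → ℝ) × (ι → ℝ)} (hGc : GamK K c.2 = GamK K c'.2)
    (hA : ∀ ζ : ℂ, ActsOn A (NormedSpace.exp (ζ • GamK K c.2) * P *
      NormedSpace.exp ((-ζ) • GamK K c.2)))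
    (h : ∀ k ∈ crs107 A R n, c.1 k = c'.1 k) (ζ : ℂ) :
    fQ ψ (Gen (fun k => cut (R k) q) ψ g n K) (n + 1) P c ζ =
      fQ ψ (Gen (fun k => cut (R k) q) ψ g n K) (n + 1) P c' ζ := by
  rw [fQ_Gen, fQ_Gen, ← hGc]
  exact FT_region_congr hR ψ g n (hA ζ) fun k hk => by rw [h k hk]

theorem QF_lines_congr {R : ℕ → Finset V} (hR : ∀ j k, j ≤ k → R k ⊆ R j) (ψ : Conf V q → ℂ)
    (g : ∀ k, Conf {x // x ∈ R k} q → ℝ) (n : ℕ) (K : ι → Op V q) (P : Op V q) {A : Finset V}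
    {c c' : (ℕ → ℝ) × (ι → ℝ)} (hGc : GamK K c.2 = GamK K c'.2)
    (hA : ∀ ζ : ℂ, ActsOn A (NormedSpace.exp (ζ • GamK K c.2) * P *
      NormedSpace.exp ((-ζ) • GamK K c.2)))
    (h : ∀ k ∈ crs107 A R n, c.1 k = c'.1 k) :
    QF ψ (Gen (fun k => cut (R k) q) ψ g n K) (n + 1) P c =
      QF ψ (Gen (fun k => cut (R k) q) ψ g n K) (n + 1) P c' :=
  QF_congr fun ζ => fQ_lines_congr hR ψ g n K P hGc hA h ζ

theorem exp_zero_smul {N : Type*} [Fintype N] [DecidableEq N] (z : ℂ) :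
    NormedSpace.exp (z • (0 : Matrix N N ℂ)) = 1 := by
  rw [smul_zero, NormedSpace.exp_zero]

/-- **(F1), `hnon` of SUM-A**: lines which do not cross the support of `P` give zero -/
theorem QF_lines_free {R : ℕ → Finset V} (hR : ∀ j k, j ≤ k → R k ⊆ R j) (ψ : Conf V q → ℂ)
    (g : ∀ k, Conf {x // x ∈ R k} q → ℝ) (n : ℕ) (K : ι → Op V q) {P : Op V q} {A : Finset V}
    (hP : ActsOn A P) {c : (ℕ → ℝ) × (ι → ℝ)} (hG : GamK K c.2 = 0)
    (h : ∀ k ∈ crs107 A R n, c.1 k = 0) :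
    QF ψ (Gen (fun k => cut (R k) q) ψ g n K) (n + 1) P c = 0 := by
  refine QF_const (a := star ψ ⬝ᵥ (P *ᵥ ψ)) fun ζ => ?_
  rw [fQ_Gen, hG, exp_zero_smul, exp_zero_smul, Matrix.one_mul, Matrix.mul_one,
    FT_region_congr hR ψ g n hP (z' := fun _ => 0) (fun k hk => by
      rw [h k hk, Complex.ofReal_zero, mul_zero])]
  exact FT_none _ ψ g n P fun k _ => rfl

end region

end Vale.Agent.P356.GA.ENa
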