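import Vale.Agent.P356.PH.Ev
import Vale.Agent.P356.SV.Tilt1
import Mathlib.Algebra.Order.Chebyshev

/-!
Detection of local deviations by the energy: a state of small excess energy cannot be moved to
first order by a generator whose double commutator with the Hamiltonian is bounded.
-/

set_option linter.all false

namespace Vale.Agent.P356.GA

open Matrix Finset Vale.Agent.P356 Vale.Agent.P356.SV Vale.Agent.P356.Path Vale.Agent.P356.PH
open scoped BigOperators ComplexOrder Kronecker Matrix.Norms.L2Operator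

section cstar
variable {𝔸 : Type*} [CStarAlgebra 𝔸]

/-- first order Taylor formula of the Heisenberg evolution, nonnegative times -/
theorem phTau_taylor_nonneg {L : 𝔸} (hL : IsSelfAdjoint L) (A : 𝔸) {s : ℝ} (hs : 0 ≤ s) :
    ‖phTau L s A - A - s • (Complex.I • (L * A - A * L))‖ ≤
      ‖L * (L * A - A * L) - (L * A - A * L) * L‖ * s ^ 2 / 2 := by
  set D : 𝔸 := L * A - A * L with hD
  set M : ℝ := ‖L * D - D * L‖ with hM
  -- first derivative
  have hd : ∀ t, HasDerivAt (fun s : ℝ => phTau L s A) (phTau L t (Complex.I • D)) t := fun t =>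
    phTau_hasDerivAt L A t
  have hd2 : ∀ t, HasDerivAt (fun s : ℝ => phTau L s (Complex.I • D))
      (phTau L t (Complex.I • (L * (Complex.I • D) - (Complex.I • D) * L))) t := fun t =>
    phTau_hasDerivAt L (Complex.I • D) t
  have hn2 : ∀ t, ‖phTau L t (Complex.I • (L * (Complex.I • D) - (Complex.I • D) * L))‖ = M :=
    fun t => by
      rw [phTau_norm hL, mul_smul_comm, smul_mul_assoc, ← smul_sub, norm_smul, norm_smul,
        Complex.norm_I, one_mul, one_mul]
  have h1 : ∀ t : ℝ, 0 ≤ t → ‖phTau L t (Complex.I • D) - Complex.I • D‖ ≤ M * t := fun t ht => by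
    refine ph_mvt (f := fun s => phTau L s (Complex.I • D) - Complex.I • D)
      (f' := fun t => phTau L t (Complex.I • (L * (Complex.I • D) - (Complex.I • D) * L)))
      (φ := fun t => M * t) (φ' := fun _ => M) ht (fun s => (hd2 s).sub_const _)
      (fun s => ?_) (fun s _ _ => (hn2 s).le) ?_ ?_
    · simpa using (hasDerivAt_id s).const_mul M
    · simp only [phTau_zero_time, sub_self]
    · simp only [mul_zero]
  have h2 := ph_mvt (f := fun s => phTau L s A - A - s • (Complex.I • D))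
    (f' := fun t => phTau L t (Complex.I • D) - Complex.I • D)
    (φ := fun t => M * t ^ 2 / 2) (φ' := fun t => M * t) hs (fun t => ?_) (fun t => ?_)
    (fun t ht _ => h1 t ht) ?_ ?_
  · exact h2
  · have h3 := ((hd t).sub_const A).sub ((hasDerivAt_id t).smul_const (Complex.I • D))
    refine h3.congr_deriv ?_
    rw [one_smul]
  · have h3 := ((hasDerivAt_pow 2 t).const_mul M).div_const 2
    refine h3.congr_deriv ?_
    push_cast
    ring
  · simp only [phTau_zero_time, sub_self, zero_smul]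
  · simp only [ne_eq, OfNat.ofNat_ne_zero, not_false_eq_true, zero_pow, mul_zero, zero_div]

theorem phTau_neg_gen (L : 𝔸) (s : ℝ) (A : 𝔸) : phTau (-L) s A = phTau L (-s) A := by
  have h1 : ∀ t : ℝ, phU (-L) t = phU L (-t) := fun t => by
    rw [phU, phU, smul_neg, smul_neg, neg_smul]
  rw [phTau, phTau, h1, h1]

/-- first order Taylor formula of the Heisenberg evolution, all times -/
theorem phTau_taylor {L : 𝔸} (hL : IsSelfAdjoint L) (A : 𝔸) (s : ℝ) :
    ‖phTau L s A - A - s • (Complex.I • (L * A - A * L))‖ ≤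
      ‖L * (L * A - A * L) - (L * A - A * L) * L‖ * s ^ 2 / 2 := by
  rcases le_total 0 s with hs | hs
  · exact phTau_taylor_nonneg hL A hs
  · have h := phTau_taylor_nonneg hL.neg A (neg_nonneg.2 hs)
    have e1 : (-L) * A - A * (-L) = -(L * A - A * L) := by
      rw [neg_mul, mul_neg]; abel
    rw [phTau_neg_gen, neg_neg, e1, smul_neg, neg_smul_neg, neg_sq] at h
    have e2 : (-L) * -(L * A - A * L) - -(L * A - A * L) * (-L) =
        L * (L * A - A * L) - (L * A - A * L) * L := by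
      rw [neg_mul_neg, neg_mul_neg]
    rw [e2] at h
    exact h

end cstar

section mat
variable {N : Type*} [Fintype N] [DecidableEq N]

/-- expectation value -/
noncomputable def expv (ψ : N → ℂ) (A : Matrix N N ℂ) : ℝ := (star ψ ⬝ᵥ (A *ᵥ ψ)).re

theorem expv_add (ψ : N → ℂ) (A B : Matrix N N ℂ) : expv ψ (A + B) = expv ψ A + expv ψ B := by
  rw [expv, expv, expv, add_mulVec, dotProduct_add, Complex.add_re]

theorem expv_sub (ψ : N → ℂ) (A B : Matrix N N ℂ) : expv ψ (A - B) = expv ψ A - expv ψ B := by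
  rw [expv, expv, expv, sub_mulVec, dotProduct_sub, Complex.sub_re]

theorem expv_neg (ψ : N → ℂ) (A : Matrix N N ℂ) : expv ψ (-A) = -expv ψ A := by
  rw [expv, expv, neg_mulVec, dotProduct_neg, Complex.neg_re]

theorem expv_zero (ψ : N → ℂ) : expv ψ (0 : Matrix N N ℂ) = 0 := by
  rw [expv, zero_mulVec, dotProduct_zero, Complex.zero_re]

theorem expv_one (ψ : N → ℂ) : expv ψ (1 : Matrix N N ℂ) = nsq ψ := by
  rw [expv, one_mulVec, ip_self_re]

theorem expv_rsmul (ψ : N → ℂ) (c : ℝ) (A : Matrix N N ℂ) : expv ψ (c • A) = c * expv ψ A := by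
  have h : (c • A : Matrix N N ℂ) = (c : ℂ) • A := by
    ext s t; simp
  rw [expv, expv, h, smul_mulVec, dotProduct_smul, smul_eq_mul, Complex.re_ofReal_mul]

theorem expv_csmul (ψ : N → ℂ) (c : ℝ) (A : Matrix N N ℂ) :
    expv ψ ((c : ℂ) • A) = c * expv ψ A := by
  rw [expv, expv, smul_mulVec, dotProduct_smul, smul_eq_mul, Complex.re_ofReal_mul]

theorem expv_sum {ι : Type*} (ψ : N → ℂ) (s : Finset ι) (A : ι → Matrix N N ℂ) :
    expv ψ (∑ i ∈ s, A i) = ∑ i ∈ s, expv ψ (A i) := by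
  classical
  induction s using Finset.induction_on with
  | empty => rw [Finset.sum_empty, Finset.sum_empty, expv_zero]
  | insert i s hi ih => rw [Finset.sum_insert hi, Finset.sum_insert hi, expv_add, ih]

theorem expv_abs_le (ψ : N → ℂ) (A : Matrix N N ℂ) : |expv ψ A| ≤ ‖A‖ * nsq ψ := by
  have h := dot_le A ψ ψ
  rw [Real.mul_self_sqrt (nsq_nonneg' ψ)] at h
  exact (Complex.abs_re_le_norm _).trans h

theorem expv_le (ψ : N → ℂ) (A : Matrix N N ℂ) : expv ψ A ≤ ‖A‖ * nsq ψ :=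
  (le_abs_self _).trans (expv_abs_le ψ A)

/-- the expectation of a square is the squared norm -/
theorem expv_sq {A : Matrix N N ℂ} (hA : A.IsHermitian) (ψ : N → ℂ) :
    expv ψ (A * A) = nsq (A *ᵥ ψ) := by
  rw [expv, ← ip_self_re, ip_mulVec, hA.eq, mulVec_mulVec]

theorem expv_sq_nonneg {A : Matrix N N ℂ} (hA : A.IsHermitian) (ψ : N → ℂ) :
    0 ≤ expv ψ (A * A) := by
  rw [expv_sq hA]
  exact nsq_nonneg' _

/-- Cauchy-Schwarz for expectations -/
theorem expv_sq_le {A : Matrix N N ℂ} (hA : A.IsHermitian) (ψ : N → ℂ) :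
    expv ψ A ^ 2 ≤ nsq ψ * expv ψ (A * A) := by
  rw [expv_sq hA]
  have h1 := nrm_ip_le ψ (A *ᵥ ψ)
  have h2 : |expv ψ A| ≤ nrm ψ * nrm (A *ᵥ ψ) := (Complex.abs_re_le_norm _).trans h1
  have h3 := pow_le_pow_left₀ (abs_nonneg _) h2 2
  rw [sq_abs, mul_pow, nrm_sq, nrm_sq] at h3
  exact h3

theorem nsq_unitary {U V : Matrix N N ℂ} (hU : Uᴴ = V) (hVU : V * U = 1) (ψ : N → ℂ) :
    nsq (U *ᵥ ψ) = nsq ψ := by
  have h : star (U *ᵥ ψ) ⬝ᵥ (U *ᵥ ψ) = star ψ ⬝ᵥ ψ := by
    rw [ip_mulVec, mulVec_mulVec, hU, hVU, one_mulVec]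
  rw [← ip_self_re, h, ip_self_re]

/-- the evolved Hamiltonian is still bounded below -/
theorem expv_phTau_ge {H L : Matrix N N ℂ} (hL : L.IsHermitian) {E : ℝ}
    (hE : ∀ v : N → ℂ, E * nsq v ≤ expv v H) (s : ℝ) (ψ : N → ℂ) :
    E * nsq ψ ≤ expv ψ (phTau L s H) := by
  have hL' : IsSelfAdjoint L := hL
  have h1 : (phU L (-s))ᴴ = phU L s := by
    have := phU_star hL' (-s)
    rw [neg_neg] at this
    exact this
  have h2 : expv ψ (phTau L s H) = expv (phU L (-s) *ᵥ ψ) H := by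
    rw [expv, expv, ip_mulVec, mulVec_mulVec, mulVec_mulVec, h1, phTau]
  rw [h2]
  have h3 := hE (phU L (-s) *ᵥ ψ)
  rwa [nsq_unitary h1 (phU_mul_neg L s)] at h3

/-- (D1) detection by one generator -/
theorem detect_one {H L : Matrix N N ℂ} (hL : L.IsHermitian) {E K M : ℝ}
    (hE : ∀ v : N → ℂ, E * nsq v ≤ expv v H) {ψ : N → ℂ} (hψ : nsq ψ = 1)
    (hK : expv ψ H - E ≤ K)
    (hM : ‖L * (L * H - H * L) - (L * H - H * L) * L‖ ≤ M) :
    |expv ψ (Complex.I • (H * L - L * H))| ≤ Real.sqrt (2 * K * M) := by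
  have hL' : IsSelfAdjoint L := hL
  set b : ℝ := expv ψ (Complex.I • (L * H - H * L)) with hb
  have hbe : expv ψ (Complex.I • (H * L - L * H)) = -b := by
    rw [hb, ← expv_neg, ← smul_neg, neg_sub]
  have key : ∀ s : ℝ, 0 ≤ (M / 2) * (s * s) + b * s + K := fun s => by
    have h1 := expv_phTau_ge hL hE s ψ
    have h2 := phTau_taylor hL' H s
    have h3 := expv_le ψ (phTau L s H - H - s • (Complex.I • (L * H - H * L)))
    rw [hψ, mul_one] at h3
    rw [hψ, mul_one] at h1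
    rw [expv_sub, expv_sub, expv_rsmul, ← hb] at h3
    have h4 : ‖L * (L * H - H * L) - (L * H - H * L) * L‖ * s ^ 2 / 2 ≤ M * s ^ 2 / 2 := by
      have := mul_le_mul_of_nonneg_right hM (sq_nonneg s)
      linarith
    nlinarith [h1, h2, h3, h4, hK]
  have hd := discrim_le_zero key
  rw [discrim] at hd
  rw [hbe, abs_neg]
  refine Real.abs_le_sqrt ?_
  nlinarith [hd]

/-- the expectation of `i [H, L]` for Hermitian `H`, `L`: bilinearity in the family -/
theorem comm_sum {ι : Type*} [Fintype ι] (H : Matrix N N ℂ) (ε : ι → ℝ)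
    (L : ι → Matrix N N ℂ) :
    H * (∑ b, ε b • L b) - (∑ b, ε b • L b) * H = ∑ b, ε b • (H * L b - L b * H) := by
  rw [Finset.mul_sum, Finset.sum_mul, ← Finset.sum_sub_distrib]
  refine Finset.sum_congr rfl fun b _ => ?_
  rw [mul_smul_comm, smul_mul_assoc, smul_sub]

/-- (D2) detection by a family of generators -/
theorem detect_family {ι : Type*} [Fintype ι] {H : Matrix N N ℂ} {L : ι → Matrix N N ℂ}
    (hL : ∀ b, (L b).IsHermitian) {E K M : ℝ}
    (hE : ∀ v : N → ℂ, E * nsq v ≤ expv v H) {ψ : N → ℂ} (hψ : nsq ψ = 1)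
    (hK : expv ψ H - E ≤ K)
    (hM : ∑ b, ∑ b', ‖L b * (L b' * H - H * L b') - (L b' * H - H * L b') * L b‖ ≤ M) :
    ∑ b, |expv ψ (Complex.I • (H * L b - L b * H))| ≤ Real.sqrt (2 * K * M) := by
  classical
  -- signs
  set x : ι → ℝ := fun b => expv ψ (Complex.I • (H * L b - L b * H)) with hx
  obtain ⟨ε, hε, hε1⟩ : ∃ ε : ι → ℝ, (∀ b, ε b * x b = |x b|) ∧ ∀ b, |ε b| ≤ 1 := by
    refine ⟨fun b => if 0 ≤ x b then 1 else -1, fun b => ?_, fun b => ?_⟩
    · dsimp only
      split_ifs with h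
      · rw [one_mul, abs_of_nonneg h]
      · rw [abs_of_neg (not_le.1 h)]; ring
    · dsimp only
      split_ifs
      · rw [abs_one]
      · rw [abs_neg, abs_one]
  set T : Matrix N N ℂ := ∑ b, ε b • L b with hT
  have hTh : T.IsHermitian := by
    have : IsSelfAdjoint T := by
      rw [hT]
      refine isSelfAdjoint_sum _ fun b _ => ?_
      have h1 : IsSelfAdjoint (L b) := hL b
      exact IsSelfAdjoint.smul (IsSelfAdjoint.all _) h1
    exact this
  have hcomm : T * H - H * T = ∑ b, ε b • (L b * H - H * L b) := by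
    rw [← neg_sub, hT, comm_sum, ← Finset.sum_neg_distrib]
    refine Finset.sum_congr rfl fun b _ => ?_
    rw [← smul_neg, neg_sub]
  have hM2 : ‖T * (T * H - H * T) - (T * H - H * T) * T‖ ≤ M := by
    refine le_trans ?_ hM
    have h1 : T * (T * H - H * T) - (T * H - H * T) * T =
        ∑ b, ∑ b', (ε b * ε b') •
          (L b * (L b' * H - H * L b') - (L b' * H - H * L b') * L b) := by
      rw [← neg_sub, hT, comm_sum, ← hT, ← Finset.sum_neg_distrib]
      refine Finset.sum_congr rfl fun b _ => ?_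
      rw [hcomm, Finset.mul_sum, Finset.sum_mul, ← Finset.sum_sub_distrib, Finset.smul_sum,
        ← Finset.sum_neg_distrib]
      refine Finset.sum_congr rfl fun b' _ => ?_
      rw [mul_smul_comm, smul_mul_assoc, ← smul_sub, smul_smul, ← smul_neg, neg_sub]
    rw [h1]
    refine (norm_sum_le _ _).trans (Finset.sum_le_sum fun b _ => ?_)
    refine (norm_sum_le _ _).trans (Finset.sum_le_sum fun b' _ => ?_)
    rw [norm_smul, Real.norm_eq_abs, abs_mul]
    have h2 : |ε b| * |ε b'| ≤ 1 := mul_le_one₀ (hε1 b) (abs_nonneg _) (hε1 b')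
    calc |ε b| * |ε b'| * _ ≤ 1 * _ := mul_le_mul_of_nonneg_right h2 (norm_nonneg _)
      _ = _ := one_mul _
  have h := detect_one hTh hE hψ hK hM2
  have h3 : expv ψ (Complex.I • (H * T - T * H)) = ∑ b, |x b| := by
    rw [hT, comm_sum, Finset.smul_sum, expv_sum]
    refine Finset.sum_congr rfl fun b _ => ?_
    rw [smul_comm, expv_rsmul, hε b]
  rw [h3] at h
  exact (le_abs_self _).trans h

/-- the penalty `Λ ∑ (O_b - o_b)^2` -/
noncomputable def penal {ι : Type*} [Fintype ι] (Λ : ℝ) (O : ι → Matrix N N ℂ) (o : ι → ℝ) :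
    Matrix N N ℂ :=
  (Λ : ℂ) • ∑ b, (O b - (o b : ℂ) • 1) * (O b - (o b : ℂ) • 1)

theorem herm_shift {A : Matrix N N ℂ} (hA : A.IsHermitian) (c : ℝ) :
    (A - (c : ℂ) • (1 : Matrix N N ℂ)).IsHermitian := by
  have h : (((c : ℂ) • (1 : Matrix N N ℂ))).IsHermitian := by
    rw [Matrix.IsHermitian, conjTranspose_smul, conjTranspose_one]
    simp
  exact hA.sub h

theorem penal_herm {ι : Type*} [Fintype ι] (Λ : ℝ) {O : ι → Matrix N N ℂ}
    (hO : ∀ b, (O b).IsHermitian) (o : ι → ℝ) : (penal Λ O o).IsHermitian := by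
  rw [penal, Matrix.IsHermitian, conjTranspose_smul, conjTranspose_sum]
  congr 1
  · simp
  · refine Finset.sum_congr rfl fun b _ => ?_
    rw [conjTranspose_mul, (herm_shift (hO b) (o b)).eq]

theorem expv_penal {ι : Type*} [Fintype ι] (Λ : ℝ) {O : ι → Matrix N N ℂ}
    (hO : ∀ b, (O b).IsHermitian) (o : ι → ℝ) (ψ : N → ℂ) :
    expv ψ (penal Λ O o) = Λ * ∑ b, nsq ((O b - (o b : ℂ) • 1) *ᵥ ψ) := by
  rw [penal, expv_csmul, expv_sum]
  congr 1
  exact Finset.sum_congr rfl fun b _ => expv_sq (herm_shift (hO b) (o b)) ψ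

theorem expv_penal_nonneg {ι : Type*} [Fintype ι] {Λ : ℝ} (hΛ : 0 ≤ Λ) {O : ι → Matrix N N ℂ}
    (hO : ∀ b, (O b).IsHermitian) (o : ι → ℝ) (ψ : N → ℂ) : 0 ≤ expv ψ (penal Λ O o) := by
  rw [expv_penal Λ hO o ψ]
  exact mul_nonneg hΛ (Finset.sum_nonneg fun b _ => nsq_nonneg' _)

theorem penal_mulVec {ι : Type*} [Fintype ι] (Λ : ℝ) {O : ι → Matrix N N ℂ}
    (o : ι → ℝ) {Ω : N → ℂ} (hΩ : ∀ b, O b *ᵥ Ω = (o b : ℂ) • Ω) :
    penal Λ O o *ᵥ Ω = 0 := by
  have h : ∀ b, (O b - (o b : ℂ) • (1 : Matrix N N ℂ)) *ᵥ Ω = 0 := fun b => by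
    rw [sub_mulVec, hΩ b, smul_mulVec, one_mulVec, sub_self]
  rw [penal, smul_mulVec, sum_mulVec, Finset.sum_eq_zero, smul_zero]
  intro b _
  rw [← mulVec_mulVec, h b, mulVec_zero]

/-- (D3a) the penalised Hamiltonian has the same ground state and at least the same gap -/
theorem gapped_penal {ι : Type*} [Fintype ι] {H : Matrix N N ℂ} {Δ E : ℝ} {Ω : N → ℂ}
    (hH : GappedGround H Δ E Ω) {Λ : ℝ} (hΛ : 0 ≤ Λ) {O : ι → Matrix N N ℂ}
    (hO : ∀ b, (O b).IsHermitian) (o : ι → ℝ) (hΩ : ∀ b, O b *ᵥ Ω = (o b : ℂ) • Ω) :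
    GappedGround (H + penal Λ O o) Δ E Ω := by
  refine ⟨hH.1, ?_, fun ψ => ?_⟩
  · rw [add_mulVec, hH.2.1, penal_mulVec Λ o hΩ, add_zero]
  · have h1 := hH.2.2 ψ
    have h2 := expv_penal_nonneg hΛ hO o ψ
    rw [expv] at h2
    rw [add_mulVec, dotProduct_add, Complex.add_re]
    linarith

/-- a gapped Hamiltonian is at least its ground state energy -/
theorem gapped_ge {H : Matrix N N ℂ} {Δ E : ℝ} {Ω : N → ℂ} (hH : GappedGround H Δ E Ω)
    (hΔ : 0 ≤ Δ) (v : N → ℂ) : E * nsq v ≤ expv v H := by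
  have h1 := hH.2.2 v
  have h2 : ‖star Ω ⬝ᵥ v‖ ^ 2 ≤ nsq v := by
    have h3 := pow_le_pow_left₀ (norm_nonneg _) (nrm_ip_le Ω v) 2
    rw [mul_pow, nrm_sq, nrm_sq, hH.1, one_mul] at h3
    exact h3
  have h4 : 0 ≤ Δ * (nsq v - ‖star Ω ⬝ᵥ v‖ ^ 2) := mul_nonneg hΔ (sub_nonneg.2 h2)
  rw [expv]
  linarith

/-- (D3b) detection: a state of small excess energy for the penalised Hamiltonian has nearly the
ground state expectations -/
theorem detect_penal {ι : Type*} [Fintype ι] {H : Matrix N N ℂ} {E : ℝ}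
    (hE : ∀ v : N → ℂ, E * nsq v ≤ expv v H) {Λ K M : ℝ} (hΛ : 0 < Λ)
    {O O' L : ι → Matrix N N ℂ} (hO' : ∀ b, (O' b).IsHermitian)
    (hL : ∀ b, (L b).IsHermitian) (o : ι → ℝ) {ψ : N → ℂ} (hψ : nsq ψ = 1)
    (hK : expv ψ (H + penal Λ O' o) - E ≤ K)
    (hOL : ∀ b, O b - O' b = Complex.I • (H * L b - L b * H))
    (hM : ∑ b, ∑ b', ‖L b * (L b' * H - H * L b') - (L b' * H - H * L b') * L b‖ ≤ M) :
    ∑ b, |expv ψ (O b) - o b| ≤
      Real.sqrt (Fintype.card ι * (K / Λ)) + Real.sqrt (2 * K * M) := by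
  have hp := expv_penal_nonneg hΛ.le hO' o ψ
  rw [expv_add] at hK
  have hK1 : expv ψ H - E ≤ K := by linarith
  have h0 := hE ψ
  rw [hψ, mul_one] at h0
  have hK2 : expv ψ (penal Λ O' o) ≤ K := by linarith
  rw [expv_penal Λ hO' o] at hK2
  have hS : ∑ b, nsq ((O' b - (o b : ℂ) • 1) *ᵥ ψ) ≤ K / Λ := by
    rw [le_div_iff₀ hΛ, mul_comm]
    exact hK2
  have h1 := detect_family hL hE hψ hK1 hM
  have h2 : ∀ b, |expv ψ (O b) - o b| ≤
      nrm ((O' b - (o b : ℂ) • 1) *ᵥ ψ) + |expv ψ (Complex.I • (H * L b - L b * H))| := fun b => by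
    have e1 : expv ψ (O b) - o b = expv ψ (O' b - (o b : ℂ) • 1) +
        expv ψ (Complex.I • (H * L b - L b * H)) := by
      rw [← hOL b, expv_sub, expv_sub, expv_csmul, expv_one, hψ]
      ring
    rw [e1]
    refine (abs_add_le _ _).trans (add_le_add ?_ le_rfl)
    have h3 := expv_sq_le (herm_shift (hO' b) (o b)) ψ
    rw [hψ, one_mul, expv_sq (herm_shift (hO' b) (o b))] at h3
    rw [nrm]
    exact Real.abs_le_sqrt h3
  refine (Finset.sum_le_sum fun b _ => h2 b).trans ?_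
  rw [Finset.sum_add_distrib]
  refine add_le_add ?_ h1
  refine Real.le_sqrt_of_sq_le ?_
  have h4 := sq_sum_le_card_mul_sum_sq (s := (Finset.univ : Finset ι))
    (f := fun b => nrm ((O' b - (o b : ℂ) • 1) *ᵥ ψ))
  refine h4.trans ?_
  rw [Finset.card_univ]
  refine mul_le_mul_of_nonneg_left ?_ (Nat.cast_nonneg _)
  simp only [nrm_sq]
  exact hS

end mat

end Vale.Agent.P356.GA
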