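import Vale.Agent.P356.SV.Ent
import Vale.Agent.P356.PH.Act
import Vale.Agent.P356.PH.Mat749

/-!
# GA, block CONT (helper686): continuity of the entropy (Fannes)

* `fn_dist`  : two distributions and the overlaps of two bases, in terms of `∑ w (√p - √s)^2`.
* `fn_obs`   : two density matrices, in terms of the expectations of observables of norm one.
* `fn_sqrt`  : two density matrices, in terms of `∑ w (√p - √s)^2`.
* `fn_region`: two states and a region, observables of the region.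
-/

set_option linter.all false

namespace Vale.Agent.P356.GA

open Matrix Finset Vale.Agent.P356 Vale.Agent.P356.SV Vale.Agent.P356.Path
open scoped BigOperators ComplexOrder Kronecker

section dist
variable {ι : Type*} [Fintype ι] [DecidableEq ι]

/-- the mixture with the uniform distribution -/
noncomputable def fnq (s : ι → ℝ) (ε : ℝ) (j : ι) : ℝ := (1 - ε) * s j + ε / Fintype.card ι

theorem fnq_lower {s : ι → ℝ} {ε : ℝ} (hs0 : ∀ i, 0 ≤ s i) (h1 : ε ≤ 1) (j : ι) :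
    ε / Fintype.card ι ≤ fnq s ε j := by
  have := mul_nonneg (sub_nonneg.mpr h1) (hs0 j)
  rw [fnq]; linarith

theorem fn_card_pos {s : ι → ℝ} (hs1 : ∑ i, s i = 1) : (0 : ℝ) < Fintype.card ι := by
  have hne : Nonempty ι := by
    by_contra hc
    rw [not_nonempty_iff] at hc
    simp at hs1
  exact_mod_cast Fintype.card_pos

theorem fnq_sum {s : ι → ℝ} {ε : ℝ} (hs1 : ∑ i, s i = 1) : ∑ j, fnq s ε j = 1 := by
  have hD := fn_card_pos hs1
  simp only [fnq]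
  rw [Finset.sum_add_distrib, ← Finset.mul_sum, hs1, Finset.sum_const, Finset.card_univ,
    nsmul_eq_mul]
  field_simp
  ring

theorem fnq_pos {s : ι → ℝ} {ε : ℝ} (hs0 : ∀ i, 0 ≤ s i) (hs1 : ∑ i, s i = 1) (h0 : 0 < ε)
    (h1 : ε ≤ 1) (j : ι) : 0 < fnq s ε j :=
  lt_of_lt_of_le (div_pos h0 (fn_card_pos hs1)) (fnq_lower hs0 h1 j)

theorem fnq_le_one {s : ι → ℝ} {ε : ℝ} (hs0 : ∀ i, 0 ≤ s i) (hs1 : ∑ i, s i = 1) (h0 : 0 < ε)
    (h1 : ε ≤ 1) (j : ι) : fnq s ε j ≤ 1 := by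
  rw [← fnq_sum (ε := ε) hs1]
  exact Finset.single_le_sum (fun i _ => (fnq_pos hs0 hs1 h0 h1 i).le) (Finset.mem_univ j)

theorem fnq_log_nonneg {s : ι → ℝ} {ε : ℝ} (hs0 : ∀ i, 0 ≤ s i) (hs1 : ∑ i, s i = 1) (h0 : 0 < ε)
    (h1 : ε ≤ 1) (j : ι) : 0 ≤ -Real.log (fnq s ε j) := by
  have := Real.log_nonpos (fnq_pos hs0 hs1 h0 h1 j).le (fnq_le_one hs0 hs1 h0 h1 j)
  linarith

theorem fnq_log_le {s : ι → ℝ} {ε : ℝ} (hs0 : ∀ i, 0 ≤ s i) (hs1 : ∑ i, s i = 1) (h0 : 0 < ε)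
    (h1 : ε ≤ 1) (j : ι) :
    -Real.log (fnq s ε j) ≤ Real.log (Fintype.card ι) + Real.log (1 / ε) := by
  have hD := fn_card_pos hs1
  have h := Real.log_le_log (div_pos h0 hD) (fnq_lower hs0 h1 j)
  rw [Real.log_div h0.ne' hD.ne'] at h
  rw [one_div, Real.log_inv]
  linarith

theorem fnq_self {s : ι → ℝ} {ε : ℝ} (hs0 : ∀ i, 0 ≤ s i) (hs1 : ∑ i, s i = 1) (h0 : 0 < ε)
    (h1 : ε < 1) :
    ∑ j, (-Real.log (fnq s ε j)) * s j ≤
      ∑ j, Real.negMulLog (s j) + Real.log (1 / (1 - ε)) := by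
  have h1' : 0 < 1 - ε := by linarith
  have hpt : ∀ j, (-Real.log (fnq s ε j)) * s j ≤
      Real.negMulLog (s j) + Real.log (1 / (1 - ε)) * s j := by
    intro j
    rcases (hs0 j).eq_or_lt with h | h
    · rw [← h]; simp
    · have hD := fn_card_pos hs1
      have hle : (1 - ε) * s j ≤ fnq s ε j := by
        have : 0 ≤ ε / Fintype.card ι := (div_pos h0 hD).le
        rw [fnq]; linarith
      have := Real.log_le_log (mul_pos h1' h) hle
      rw [Real.log_mul h1'.ne' h.ne'] at this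
      rw [one_div, Real.log_inv, Real.negMulLog]
      nlinarith [mul_le_mul_of_nonneg_right this h.le]
  calc _ ≤ ∑ j, (Real.negMulLog (s j) + Real.log (1 / (1 - ε)) * s j) :=
        Finset.sum_le_sum fun j _ => hpt j
    _ = _ := by rw [Finset.sum_add_distrib, ← Finset.mul_sum, hs1, mul_one]

/-- the core inequality: Klein against the mixture -/
theorem fn_core (T : Matrix ι ι ℂ) (hT : T * Tᴴ = 1) (p s : ι → ℝ) (hp0 : ∀ i, 0 ≤ p i)
    (hp1 : ∑ i, p i = 1) (hs0 : ∀ i, 0 ≤ s i) (hs1 : ∑ i, s i = 1) {ε : ℝ} (h0 : 0 < ε)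
    (h1 : ε < 1) {X : ℝ}
    (hX : ∑ j, (-Real.log (fnq s ε j)) * (∑ i, p i * ‖T j i‖ ^ 2 - s j) ≤ X) :
    ∑ i, Real.negMulLog (p i) ≤
      ∑ j, Real.negMulLog (s j) + X + Real.log (1 / (1 - ε)) := by
  have hk := b7_klein T hT p (fnq s ε) hp0 hp1 (fun j => (fnq_pos hs0 hs1 h0 h1.le j).le)
    (fnq_sum hs1).le (fun j hj => absurd hj (fnq_pos hs0 hs1 h0 h1.le j).ne')
  have hself := fnq_self hs0 hs1 h0 h1
  have e : ∑ j, (-Real.log (fnq s ε j)) * (∑ i, p i * ‖T j i‖ ^ 2 - s j) =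
      ∑ j, (-Real.log (fnq s ε j)) * ∑ i, p i * ‖T j i‖ ^ 2 -
        ∑ j, (-Real.log (fnq s ε j)) * s j := by
    rw [← Finset.sum_sub_distrib]
    exact Finset.sum_congr rfl fun j _ => by ring
  rw [e] at hX
  linarith

/-- Cauchy-Schwarz for weighted double sums -/
theorem fn_cs (w a b : ι → ι → ℝ) (hw : ∀ i j, 0 ≤ w i j) {A B : ℝ}
    (hA : ∑ i, ∑ j, w i j * a i j ^ 2 ≤ A) (hB : ∑ i, ∑ j, w i j * b i j ^ 2 ≤ B) :
    ∑ i, ∑ j, w i j * (|a i j| * |b i j|) ≤ √A * √B := by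
  have h : (∑ x : ι × ι, (√(w x.1 x.2) * |a x.1 x.2|) * (√(w x.1 x.2) * |b x.1 x.2|)) ≤
      √(∑ x : ι × ι, (√(w x.1 x.2) * |a x.1 x.2|) ^ 2) *
        √(∑ x : ι × ι, (√(w x.1 x.2) * |b x.1 x.2|) ^ 2) := by
    exact Real.sum_mul_le_sqrt_mul_sqrt _ _ _
  have e1 : ∑ x : ι × ι, (√(w x.1 x.2) * |a x.1 x.2|) ^ 2 = ∑ i, ∑ j, w i j * a i j ^ 2 := by
    rw [Fintype.sum_prod_type]
    refine Finset.sum_congr rfl fun i _ => Finset.sum_congr rfl fun j _ => ?_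
    rw [mul_pow, Real.sq_sqrt (hw i j), sq_abs]
  have e2 : ∑ x : ι × ι, (√(w x.1 x.2) * |b x.1 x.2|) ^ 2 = ∑ i, ∑ j, w i j * b i j ^ 2 := by
    rw [Fintype.sum_prod_type]
    refine Finset.sum_congr rfl fun i _ => Finset.sum_congr rfl fun j _ => ?_
    rw [mul_pow, Real.sq_sqrt (hw i j), sq_abs]
  have e3 : (∑ x : ι × ι, (√(w x.1 x.2) * |a x.1 x.2|) * (√(w x.1 x.2) * |b x.1 x.2|)) =
      ∑ i, ∑ j, w i j * (|a i j| * |b i j|) := by
    rw [Fintype.sum_prod_type]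
    refine Finset.sum_congr rfl fun i _ => Finset.sum_congr rfl fun j _ => ?_
    rw [show √(w i j) * |a i j| * (√(w i j) * |b i j|) =
      (√(w i j) * √(w i j)) * (|a i j| * |b i j|) by ring, Real.mul_self_sqrt (hw i j)]
  rw [e1, e2, e3] at h
  exact h.trans (mul_le_mul (Real.sqrt_le_sqrt hA) (Real.sqrt_le_sqrt hB) (Real.sqrt_nonneg _)
    (Real.sqrt_nonneg _))

/-- Fannes' inequality for two distributions with respect to two orthonormal bases, in terms of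
the Hellinger distance `∑ w (√p - √s)^2`. -/
theorem fn_dist (T : Matrix ι ι ℂ) (hT : T * Tᴴ = 1) (p s : ι → ℝ) (hp0 : ∀ i, 0 ≤ p i)
    (hp1 : ∑ i, p i = 1) (hs0 : ∀ i, 0 ≤ s i) (hs1 : ∑ i, s i = 1) {d : ℝ}
    (hd : ∑ j, ∑ i, ‖T j i‖ ^ 2 * (√(p i) - √(s j)) ^ 2 ≤ d) {ε : ℝ} (h0 : 0 < ε)
    (h1 : ε < 1) :
    ∑ i, Real.negMulLog (p i) ≤
      ∑ j, Real.negMulLog (s j) + 2 * √d * (Real.log (Fintype.card ι) + Real.log (1 / ε)) +
        Real.log (1 / (1 - ε)) := by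
  have hrow := b7_row hT
  have hcol := b7_col hT
  refine fn_core T hT p s hp0 hp1 hs0 hs1 h0 h1 ?_
  set M := Real.log (Fintype.card ι) + Real.log (1 / ε) with hM
  have hl0 := fnq_log_nonneg hs0 hs1 h0 h1.le
  have hl1 := fnq_log_le hs0 hs1 h0 h1.le
  have hD : ∀ j, ∑ i, p i * ‖T j i‖ ^ 2 - s j = ∑ i, ‖T j i‖ ^ 2 * (p i - s j) := by
    intro j
    simp only [mul_sub, Finset.sum_sub_distrib]
    rw [← Finset.sum_mul, hrow, one_mul]
    congr 1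
    exact Finset.sum_congr rfl fun i _ => mul_comm _ _
  have hM0 : 0 ≤ M := by
    have hD := fn_card_pos hs1
    obtain ⟨j⟩ : Nonempty ι := by
      by_contra hc
      rw [not_nonempty_iff] at hc
      simp at hs1
    exact (hl0 j).trans (hl1 j)
  have hB : ∑ j, ∑ i, ‖T j i‖ ^ 2 * (√(p i) + √(s j)) ^ 2 ≤ 4 := by
    have h2 : ∀ j i, ‖T j i‖ ^ 2 * (√(p i) + √(s j)) ^ 2 ≤
        2 * (‖T j i‖ ^ 2 * p i) + 2 * (‖T j i‖ ^ 2 * s j) := by
      intro j i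
      have ha := Real.sq_sqrt (hp0 i)
      have hb := Real.sq_sqrt (hs0 j)
      have h3 : (√(p i) + √(s j)) ^ 2 ≤ 2 * p i + 2 * s j := by
        nlinarith [sq_nonneg (√(p i) - √(s j))]
      nlinarith [mul_le_mul_of_nonneg_left h3 (sq_nonneg ‖T j i‖)]
    calc _ ≤ ∑ j, ∑ i, (2 * (‖T j i‖ ^ 2 * p i) + 2 * (‖T j i‖ ^ 2 * s j)) :=
          Finset.sum_le_sum fun j _ => Finset.sum_le_sum fun i _ => h2 j i
      _ = 2 * ∑ i, (∑ j, ‖T j i‖ ^ 2) * p i + 2 * ∑ j, (∑ i, ‖T j i‖ ^ 2) * s j := by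
          simp only [Finset.sum_add_distrib, ← Finset.mul_sum, Finset.sum_mul]
          congr 2
          rw [Finset.sum_comm]
      _ = 4 := by
          simp only [hrow, hcol, one_mul, hp1, hs1]
          norm_num
  have hcs := fn_cs (fun j i => ‖T j i‖ ^ 2) (fun j i => √(p i) - √(s j))
    (fun j i => √(p i) + √(s j)) (fun _ _ => sq_nonneg _) hd hB
  have hsq4 : √(4 : ℝ) = 2 := by
    rw [show (4 : ℝ) = 2 ^ 2 by norm_num]; exact Real.sqrt_sq (by norm_num)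
  rw [hsq4] at hcs
  have hpt : ∀ j, (-Real.log (fnq s ε j)) * (∑ i, p i * ‖T j i‖ ^ 2 - s j) ≤
      M * ∑ i, ‖T j i‖ ^ 2 * (|√(p i) - √(s j)| * |√(p i) + √(s j)|) := by
    intro j
    rw [hD j]
    have habs : |∑ i, ‖T j i‖ ^ 2 * (p i - s j)| ≤
        ∑ i, ‖T j i‖ ^ 2 * (|√(p i) - √(s j)| * |√(p i) + √(s j)|) := by
      refine (Finset.abs_sum_le_sum_abs _ _).trans (le_of_eq ?_)
      refine Finset.sum_congr rfl fun i _ => ?_
      rw [abs_mul, abs_of_nonneg (sq_nonneg _), ← abs_mul]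
      congr 2
      have ha := Real.mul_self_sqrt (hp0 i)
      have hb := Real.mul_self_sqrt (hs0 j)
      nlinarith
    calc _ ≤ |(-Real.log (fnq s ε j)) * (∑ i, ‖T j i‖ ^ 2 * (p i - s j))| := le_abs_self _
      _ = (-Real.log (fnq s ε j)) * |∑ i, ‖T j i‖ ^ 2 * (p i - s j)| := by
          rw [abs_mul, abs_of_nonneg (hl0 j)]
      _ ≤ M * _ := mul_le_mul (hl1 j) habs (abs_nonneg _) hM0
  calc _ ≤ ∑ j, M * ∑ i, ‖T j i‖ ^ 2 * (|√(p i) - √(s j)| * |√(p i) + √(s j)|) :=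
        Finset.sum_le_sum fun j _ => hpt j
    _ = M * ∑ j, ∑ i, ‖T j i‖ ^ 2 * (|√(p i) - √(s j)| * |√(p i) + √(s j)|) := by
        rw [Finset.mul_sum]
    _ ≤ M * (√d * 2) := mul_le_mul_of_nonneg_left hcs hM0
    _ = 2 * √d * M := by ring

end dist

section mat
open scoped Matrix.Norms.L2Operator
variable {ι : Type*} [Fintype ι] [DecidableEq ι]

theorem fn_norm_diag {U : Matrix ι ι ℂ} (hU : U * Uᴴ = 1) (y : ι → ℝ) {c : ℝ} (hc : 0 ≤ c)
    (hy : ∀ j, |y j| ≤ c) : ‖U * diagonal (fun j => (y j : ℂ)) * Uᴴ‖ ≤ c := by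
  have hiso : ∀ W : Matrix ι ι ℂ, Wᴴ * W = 1 → ‖W‖ ≤ 1 := by
    intro W h
    have h1 := Matrix.l2_opNorm_conjTranspose_mul_self W
    rw [h] at h1
    have h2 : ‖(1 : Matrix ι ι ℂ)‖ ≤ 1 := by
      rw [← Matrix.diagonal_one, Matrix.l2_opNorm_diagonal]
      rw [pi_norm_le_iff_of_nonneg zero_le_one]
      intro i; simp
    nlinarith [norm_nonneg W]
  have hU' : Uᴴ * U = 1 := mul_eq_one_comm.mp hU
  have h1 : ‖U‖ ≤ 1 := hiso U hU'
  have h2 : ‖Uᴴ‖ ≤ 1 := hiso Uᴴ (by rw [conjTranspose_conjTranspose]; exact hU)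
  have h3 : ‖(diagonal (fun j => (y j : ℂ)) : Matrix ι ι ℂ)‖ ≤ c := by
    rw [Matrix.l2_opNorm_diagonal, pi_norm_le_iff_of_nonneg hc]
    intro i
    rw [Complex.norm_real, Real.norm_eq_abs]
    exact hy i
  calc _ ≤ ‖U * diagonal (fun j => (y j : ℂ))‖ * ‖Uᴴ‖ := norm_mul_le _ _
    _ ≤ (‖U‖ * ‖(diagonal (fun j => (y j : ℂ)) : Matrix ι ι ℂ)‖) * ‖Uᴴ‖ :=
        mul_le_mul_of_nonneg_right (norm_mul_le _ _) (norm_nonneg _)
    _ ≤ (1 * c) * 1 := by gcongr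
    _ = c := by ring

theorem fn_herm_diag (U : Matrix ι ι ℂ) (y : ι → ℝ) :
    (U * diagonal (fun j => (y j : ℂ)) * Uᴴ).IsHermitian := by
  unfold Matrix.IsHermitian
  rw [conjTranspose_mul, conjTranspose_mul, conjTranspose_conjTranspose,
    diagonal_conjTranspose, Matrix.mul_assoc]
  congr 3
  funext i
  simp only [Pi.star_apply, RCLike.star_def, Complex.conj_ofReal]

theorem fn_trace_diag (ρ U : Matrix ι ι ℂ) (y : ι → ℝ) :
    ((ρ * (U * diagonal (fun j => (y j : ℂ)) * Uᴴ)).trace).re =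
      ∑ j, y j * ((Uᴴ * ρ * U) j j).re := by
  have e : (ρ * (U * diagonal (fun j => (y j : ℂ)) * Uᴴ)).trace =
      ((Uᴴ * ρ * U) * diagonal (fun j => (y j : ℂ))).trace := by
    calc (ρ * (U * diagonal (fun j => (y j : ℂ)) * Uᴴ)).trace
        = ((ρ * U * diagonal (fun j => (y j : ℂ))) * Uᴴ).trace := by
          simp only [Matrix.mul_assoc]
      _ = (Uᴴ * (ρ * U * diagonal (fun j => (y j : ℂ)))).trace := Matrix.trace_mul_comm _ _
      _ = _ := by simp only [Matrix.mul_assoc]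
  rw [e, Matrix.trace, Complex.re_sum]
  refine Finset.sum_congr rfl fun j _ => ?_
  rw [Matrix.diag_apply, Matrix.mul_diagonal, mul_comm, Complex.re_ofReal_mul]

theorem fn_diag_re {ρ : Matrix ι ι ℂ} (h : ρ.IsHermitian) (R : Matrix ι ι ℂ) (j : ι) :
    ((Rᴴ * ρ * R) j j).re = ∑ i, h.eigenvalues i *
        ‖(Rᴴ * (h.eigenvectorUnitary : Matrix ι ι ℂ)) j i‖ ^ 2 := by
  rw [b7_diag_entry h R j, Complex.ofReal_re]

theorem fn_diag_self {σ : Matrix ι ι ℂ} (h : σ.IsHermitian) (j : ι) :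
    (((h.eigenvectorUnitary : Matrix ι ι ℂ)ᴴ * σ * (h.eigenvectorUnitary : Matrix ι ι ℂ)) j j).re =
      h.eigenvalues j := by
  rw [b7_diag h, Matrix.diagonal_apply_eq, Complex.ofReal_re]

theorem fn_T {V U : Matrix ι ι ℂ} (hV : V * Vᴴ = 1) (hU : U * Uᴴ = 1) :
    (Vᴴ * U) * (Vᴴ * U)ᴴ = 1 := by
  have hV' : Vᴴ * V = 1 := mul_eq_one_comm.mp hV
  rw [conjTranspose_mul, conjTranspose_conjTranspose]
  calc Vᴴ * U * (Uᴴ * V) = Vᴴ * (U * Uᴴ) * V := by simp only [Matrix.mul_assoc]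
    _ = 1 := by rw [hU, Matrix.mul_one, hV']

/-- Fannes' inequality in terms of observables of norm one. Only positive observables which
commute with `σ` are used. -/
theorem fn_obs {ρ σ : Matrix ι ι ℂ} (hρ : ρ.PosSemidef) (hρ1 : ρ.trace = 1)
    (hσ : σ.PosSemidef) (hσ1 : σ.trace = 1) {δ : ℝ}
    (hδ : ∀ Y : Matrix ι ι ℂ, Y.IsHermitian → ‖Y‖ ≤ 1 →
      ((ρ * Y).trace).re ≤ ((σ * Y).trace).re + δ) {ε : ℝ} (h0 : 0 < ε) (h1 : ε < 1) :
    vnEntropy ρ ≤ vnEntropy σ + δ * (Real.log (Fintype.card ι) + Real.log (1 / ε)) +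
      Real.log (1 / (1 - ε)) := by
  have hhρ := hρ.isHermitian
  have hhσ := hσ.isHermitian
  rw [vnEntropy, dif_pos hhρ, vnEntropy, dif_pos hhσ]
  set U := (hhρ.eigenvectorUnitary : Matrix ι ι ℂ) with hUd
  set V := (hhσ.eigenvectorUnitary : Matrix ι ι ℂ) with hVd
  have hU : U * Uᴴ = 1 := b7_unitary hhρ
  have hV : V * Vᴴ = 1 := b7_unitary hhσ
  have hp0 : ∀ i, 0 ≤ hhρ.eigenvalues i := fun i => hρ.eigenvalues_nonneg i
  have hs0 : ∀ i, 0 ≤ hhσ.eigenvalues i := fun i => hσ.eigenvalues_nonneg i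
  have hp1 : ∑ i, hhρ.eigenvalues i = 1 := b7_sum_eig hhρ hρ1
  have hs1 : ∑ i, hhσ.eigenvalues i = 1 := b7_sum_eig hhσ hσ1
  refine fn_core (Vᴴ * U) (fn_T hV hU) _ _ hp0 hp1 hs0 hs1 h0 h1 ?_
  set M := Real.log (Fintype.card ι) + Real.log (1 / ε) with hM
  have hl0 := fnq_log_nonneg hs0 hs1 h0 h1.le
  have hl1 := fnq_log_le hs0 hs1 h0 h1.le
  have hcard : (1 : ℝ) ≤ Fintype.card ι := by
    have := fn_card_pos hs1
    exact_mod_cast (Nat.one_le_iff_ne_zero.mpr (fun h => by rw [h] at this; simp at this))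
  have hMpos : 0 < M := by
    have a1 := Real.log_nonneg hcard
    have a2 : 0 < Real.log (1 / ε) := Real.log_pos (by rw [lt_div_iff₀ h0]; linarith)
    linarith
  set y : ι → ℝ := fun j => (-Real.log (fnq hhσ.eigenvalues ε j)) / M with hy
  have hy1 : ∀ j, |y j| ≤ 1 := by
    intro j
    rw [hy]
    simp only
    rw [abs_div, abs_of_nonneg (hl0 j), abs_of_pos hMpos, div_le_one hMpos]
    exact hl1 j
  have key := hδ (V * diagonal (fun j => (y j : ℂ)) * Vᴴ) (fn_herm_diag V y)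
    (fn_norm_diag hV y zero_le_one hy1)
  rw [fn_trace_diag, fn_trace_diag] at key
  have e : ∑ j, (-Real.log (fnq hhσ.eigenvalues ε j)) *
      (∑ i, hhρ.eigenvalues i * ‖(Vᴴ * U) j i‖ ^ 2 - hhσ.eigenvalues j) =
      M * (∑ j, y j * ((Vᴴ * ρ * V) j j).re - ∑ j, y j * ((Vᴴ * σ * V) j j).re) := by
    rw [← Finset.sum_sub_distrib, Finset.mul_sum]
    refine Finset.sum_congr rfl fun j _ => ?_
    rw [fn_diag_re hhρ V j, hVd, fn_diag_self hhσ j, hy]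
    simp only
    field_simp
    ring
  rw [e]
  nlinarith

/-- Fannes' inequality in terms of the Hilbert-Schmidt distance of the square roots. -/
theorem fn_sqrt {ρ σ : Matrix ι ι ℂ} (hρ : ρ.PosSemidef) (hρ1 : ρ.trace = 1)
    (hσ : σ.PosSemidef) (hσ1 : σ.trace = 1) {d : ℝ}
    (hd : ∑ j, ∑ i, ‖((hσ.isHermitian.eigenvectorUnitary : Matrix ι ι ℂ)ᴴ *
      (hρ.isHermitian.eigenvectorUnitary : Matrix ι ι ℂ)) j i‖ ^ 2 *
        (√(hρ.isHermitian.eigenvalues i) - √(hσ.isHermitian.eigenvalues j)) ^ 2 ≤ d)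
    {ε : ℝ} (h0 : 0 < ε) (h1 : ε < 1) :
    vnEntropy ρ ≤ vnEntropy σ + 2 * √d * (Real.log (Fintype.card ι) + Real.log (1 / ε)) +
      Real.log (1 / (1 - ε)) := by
  have hhρ := hρ.isHermitian
  have hhσ := hσ.isHermitian
  rw [vnEntropy, dif_pos hhρ, vnEntropy, dif_pos hhσ]
  exact fn_dist _ (fn_T (b7_unitary hhσ) (b7_unitary hhρ)) _ _
    (fun i => hρ.eigenvalues_nonneg i) (b7_sum_eig hhρ hρ1) (fun i => hσ.eigenvalues_nonneg i)
    (b7_sum_eig hhσ hσ1) hd h0 h1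

end mat

section region
open scoped Matrix.Norms.L2Operator
variable {V : Type*} [Fintype V] [DecidableEq V] {q : ℕ}

/-- Fannes' inequality for the entropy of the region `A` in two pure states whose expectations
of the observables of `A` differ by at most `δ`. -/
theorem fn_region (A : Finset V) {ψ Ω : Conf V q → ℂ} (hψ : nsq ψ = 1) (hΩ : nsq Ω = 1) {δ : ℝ}
    (hδ : ∀ Y : Op {x // x ∈ A} q, Y.IsHermitian → ‖Y‖ ≤ 1 →
      (star ψ ⬝ᵥ (opOn A Y *ᵥ ψ)).re ≤ (star Ω ⬝ᵥ (opOn A Y *ᵥ Ω)).re + δ)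
    {ε : ℝ} (h0 : 0 < ε) (h1 : ε < 1) :
    entropyOf A ψ ≤ entropyOf A Ω + δ * (A.card * Real.log q + Real.log (1 / ε)) +
      Real.log (1 / (1 - ε)) := by
  have h := fn_obs (b7_rdm_psd A ψ) (b7_rdm_trace A ψ hψ) (b7_rdm_psd A Ω) (b7_rdm_trace A Ω hΩ)
    (δ := δ) (fun Y hY hY1 => by
      have := hδ Y hY hY1
      rwa [expect_opOn, expect_opOn] at this) h0 h1
  have hc : Real.log (Fintype.card ({x // x ∈ A} → Fin q)) = A.card * Real.log q := by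
    rw [Fintype.card_fun, Fintype.card_fin, Fintype.card_coe]
    push_cast
    rw [Real.log_pow]
  rw [hc] at h
  exact h

theorem fn_opL_norm_le {N α β : Type*} [Fintype N] [DecidableEq N] [Fintype α] [Fintype β]
    [DecidableEq α] [DecidableEq β] (e : N ≃ α × β) (Y : Matrix α α ℂ) : ‖opL e Y‖ ≤ ‖Y‖ := by
  refine PH.ph_norm_le (norm_nonneg _) fun φ => ?_
  have h1 : nsq (opL e Y *ᵥ φ) = ∑ b, nsq (Y *ᵥ (fun a => φ (e.symm (a, b)))) := by
    rw [← nsq_comp e, nsq, Fintype.sum_prod_type, Finset.sum_comm]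
    refine Finset.sum_congr rfl fun b _ => ?_
    rw [nsq]
    refine Finset.sum_congr rfl fun a _ => ?_
    rw [Function.comp_apply, opL_mulVec_apply]
    rfl
  have h2 : nsq φ = ∑ b, nsq (fun a => φ (e.symm (a, b))) := by
    rw [← nsq_comp e, nsq, Fintype.sum_prod_type, Finset.sum_comm]
    rfl
  rw [h1, h2, Finset.mul_sum]
  exact Finset.sum_le_sum fun b _ => PH.ph_nsq_mulVec_le Y _

theorem fn_opOn_norm_le {A : Finset V} {Y : Op {x // x ∈ A} q} (c : ℝ)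
    (h : ‖Y‖ ≤ c) : ‖opOn A Y‖ ≤ c := (fn_opL_norm_le _ Y).trans h

/-- The same for all regions `B ⊆ A`, with `ActsOn`. -/
theorem fn_subregion (A : Finset V) {ψ Ω : Conf V q → ℂ} (hψ : nsq ψ = 1) (hΩ : nsq Ω = 1) {δ : ℝ}
    (hδ : ∀ X : Op V q, X.IsHermitian → ActsOn A X → ‖X‖ ≤ 1 →
      (star ψ ⬝ᵥ (X *ᵥ ψ)).re ≤ (star Ω ⬝ᵥ (X *ᵥ Ω)).re + δ)
    {B : Finset V} (hB : B ⊆ A) {ε : ℝ} (h0 : 0 < ε) (h1 : ε < 1) :
    entropyOf B ψ ≤ entropyOf B Ω + δ * (B.card * Real.log q + Real.log (1 / ε)) +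
      Real.log (1 / (1 - ε)) := by
  refine fn_region B hψ hΩ (fun Y hY hY1 => ?_) h0 h1
  refine hδ _ ?_ (PH.act_mono hB (PH.act_opOn B Y)) (fn_opOn_norm_le 1 hY1)
  unfold Matrix.IsHermitian
  rw [opOn_conjTranspose, hY.eq]

theorem fn_log_le {ε : ℝ} (h0 : 0 < ε) (h1 : ε ≤ 1 / 2) : Real.log (1 / (1 - ε)) ≤ 2 * ε := by
  have h2 : 0 < 1 - ε := by linarith
  have h := Real.log_le_sub_one_of_pos (one_div_pos.mpr h2)
  refine h.trans ?_
  have e : 1 / (1 - ε) - 1 = ε / (1 - ε) := by field_simp; ring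
  rw [e, div_le_iff₀ h2]
  nlinarith

/-- Two-sided form with a simple error term. -/
theorem fn_subregion_abs (A : Finset V) {ψ Ω : Conf V q → ℂ} (hψ : nsq ψ = 1) (hΩ : nsq Ω = 1)
    {δ : ℝ} (hδ : ∀ X : Op V q, X.IsHermitian → ActsOn A X → ‖X‖ ≤ 1 →
      |(star ψ ⬝ᵥ (X *ᵥ ψ)).re - (star Ω ⬝ᵥ (X *ᵥ Ω)).re| ≤ δ)
    {B : Finset V} (hB : B ⊆ A) {ε : ℝ} (h0 : 0 < ε) (h1 : ε ≤ 1 / 2) :
    |entropyOf B ψ - entropyOf B Ω| ≤
      δ * (B.card * Real.log q + Real.log (1 / ε)) + 2 * ε := by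
  have h1' : ε < 1 := by linarith
  have hl := fn_log_le h0 h1
  have a := fn_subregion A hψ hΩ (δ := δ) (fun X a b c => by
    have := (abs_le.mp (hδ X a b c)).2; linarith) hB h0 h1'
  have b := fn_subregion A hΩ hψ (δ := δ) (fun X a b c => by
    have := (abs_le.mp (hδ X a b c)).1; linarith) hB h0 h1'
  rw [abs_le]
  constructor <;> linarith

end region

end Vale.Agent.P356.GA
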