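import Vale.Agent.P356.GA.UpFin551
import Vale.Agent.P356.GA.Fannes686
import Vale.Agent.P356.GA.Detect939
import Vale.Agent.P356.SV.Contract

/-!
# GA, block ENTROPY (two layers)

Entropies of a vector close to the doubled ground state, from below, on every region of the
doubled lattice; entropies of a second ground state close to the first one.
-/

set_option linter.all false

namespace Vale.Agent.P356.GA

open Matrix Finset Vale.Agent.P356 Vale.Agent.P356.SV Vale.Agent.P356.Path Vale.Agent.P356.NA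
  Vale.Agent.P356.SA
open scoped BigOperators ComplexOrder Kronecker

section gen
variable {V W : Type} [Fintype V] [DecidableEq V] [Fintype W] [DecidableEq W] {q : ℕ}

theorem nrm_dbl (Ω : Conf V q → ℂ) (Ω' : Conf W q → ℂ) : nrm (dbl Ω Ω') = nrm Ω * nrm Ω' := by
  rw [nrm, nsq_dbl, Real.sqrt_mul (nsq_nonneg' _)]
  rfl

/-- two doubled vectors -/
theorem dbl_dist (Ω Ω' : Conf V q → ℂ) (h : nsq Ω = 1) (h' : nsq Ω' = 1) {ε : ℝ}
    (hd : nrm (Ω' - Ω) ≤ ε) :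
    nrm ((dbl Ω' Ω' : Conf (V ⊕ V) q → ℂ) - dbl Ω Ω) ≤ 2 * ε := by
  have e : (dbl Ω' Ω' : Conf (V ⊕ V) q → ℂ) - dbl Ω Ω = dbl (Ω' - Ω) Ω' + dbl Ω (Ω' - Ω) := by
    funext s
    simp only [dbl, Pi.sub_apply, Pi.add_apply]
    ring
  have h1 : nrm Ω = 1 := by rw [nrm, h, Real.sqrt_one]
  have h2 : nrm Ω' = 1 := by rw [nrm, h', Real.sqrt_one]
  rw [e]
  refine (nrm_add_le _ _).trans ?_
  rw [nrm_dbl, nrm_dbl, h1, h2]
  linarith

/-- the spread of the doubled vector on any region of the two layers -/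
theorem tail_two (O : Finset (V ⊕ W)) {Ω : Conf V q → ℂ} {Ω' : Conf W q → ℂ}
    (h : nsq Ω = 1) (h' : nsq Ω' = 1) {K : ℝ} (hK : 0 ≤ K) (hA : TailLe (rdm O.toLeft Ω) K)
    (hB : TailLe (rdm O.toRight Ω') K) :
    TailLe (rdm O (dbl Ω Ω')) ((10 + 6 * Real.sqrt K) ^ 2) := by
  have := tail_dbl O.toLeft O.toRight h h' hK hA hB
  rwa [Finset.toLeft_disjSum_toRight] at this

theorem entropy_two (O : Finset (V ⊕ W)) {Ω : Conf V q → ℂ} {Ω' : Conf W q → ℂ}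
    (h : nsq Ω = 1) (h' : nsq Ω' = 1) :
    entropyOf O (dbl Ω Ω') = entropyOf O.toLeft Ω + entropyOf O.toRight Ω' := by
  have := entropy_dbl O.toLeft O.toRight h h'
  rwa [Finset.toLeft_disjSum_toRight] at this

/-- **block ENTROPY**, abstract: a vector of two layers close to `c • Ω ⊗ Ω` -/
theorem entropy_low_two865 (O : Finset (V ⊕ V)) {Ω : Conf V q → ℂ} (hΩ : nsq Ω = 1)
    {ψ : Conf (V ⊕ V) q → ℂ} (hψ : nsq ψ = 1) {c : ℂ} (hc : ‖c‖ ≤ 1) {δ K s : ℝ} (hδ : 0 ≤ δ)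
    (hs : 0 ≤ s) (hd : nrm (ψ - c • dbl Ω Ω) ≤ δ) (hK : 0 ≤ K)
    (hA : TailLe (rdm O.toLeft Ω) K) (hB : TailLe (rdm O.toRight Ω) K) :
    entropyOf O.toLeft Ω + entropyOf O.toRight Ω ≤ entropyOf O ψ +
      ((4 * Real.exp (-s) + 2 * δ ^ 2) * (entropyOf O.toLeft Ω + entropyOf O.toRight Ω) +
        ((24 + 12 * Real.sqrt K) * (2 + s) + s)) := by
  have hd1 : nsq (dbl Ω Ω : Conf (V ⊕ V) q → ℂ) = 1 := by rw [nsq_dbl, hΩ, one_mul]
  have h := entropy_low_clean O ψ (dbl Ω Ω) hψ hd1 c hc hδ hs hd (tail_two O hΩ hΩ hK hA hB)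
  rw [entropy_two O hΩ hΩ, Real.sqrt_sq (by positivity)] at h
  refine h.trans (le_of_eq ?_)
  ring

/-- small energy means close to the doubled reference vector -/
theorem close_two {H : Op (V ⊕ V) q} {Δ E η ε : ℝ} {Ω Ω' : Conf V q → ℂ}
    {ψ : Conf (V ⊕ V) q → ℂ} (hΩ : nsq Ω = 1) (hΩ' : nsq Ω' = 1)
    (hg : GappedGround H Δ E (dbl Ω' Ω')) (hΔ : 0 < Δ) (hψ : nsq ψ = 1)
    (he : GA.expv ψ H - E ≤ η) (hε : nrm (Ω' - Ω) ≤ ε) :
    ∃ c : ℂ, ‖c‖ ≤ 1 ∧ nrm (ψ - c • dbl Ω Ω) ≤ Real.sqrt (η / Δ) + 2 * ε :=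
  close_of_energy hg hΔ hψ (by
    have : (star ψ ⬝ᵥ (H *ᵥ ψ)).re = GA.expv ψ H := rfl
    rw [this]; linarith) (dbl_dist Ω Ω' hΩ hΩ' hε)

end gen

section prime
open scoped Matrix.Norms.L2Operator
variable {V : Type} [Fintype V] [DecidableEq V] {q : ℕ}

/-- expectations of two unit vectors -/
theorem expect_diff {N : Type*} [Fintype N] [DecidableEq N] (X : Matrix N N ℂ) {Ω Ω' : N → ℂ}
    (hΩ : nsq Ω = 1) (hΩ' : nsq Ω' = 1) (hX : ‖X‖ ≤ 1) {ε : ℝ} (hε : nrm (Ω' - Ω) ≤ ε) :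
    |(star Ω' ⬝ᵥ (X *ᵥ Ω')).re - (star Ω ⬝ᵥ (X *ᵥ Ω)).re| ≤ 2 * ε := by
  have h1 : nrm Ω = 1 := by rw [nrm, hΩ, Real.sqrt_one]
  have h2 : nrm Ω' = 1 := by rw [nrm, hΩ', Real.sqrt_one]
  have hc : ∀ v : N → ℂ, nrm (X *ᵥ v) ≤ nrm v := fun v => by
    have h : nrm (X *ᵥ v) ≤ 1 * nrm v := by
      rw [nrm, nrm]
      refine Real.sqrt_le_iff.2 ⟨by positivity, ?_⟩
      rw [mul_pow, Real.sq_sqrt (nsq_nonneg' v)]
      refine (PH.ph_nsq_mulVec_le X v).trans (mul_le_mul_of_nonneg_right ?_ (nsq_nonneg' v))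
      exact pow_le_pow_left₀ (norm_nonneg _) hX 2
    rwa [one_mul] at h
  have e : star Ω' ⬝ᵥ (X *ᵥ Ω') - star Ω ⬝ᵥ (X *ᵥ Ω) =
      star Ω' ⬝ᵥ (X *ᵥ (Ω' - Ω)) + star (Ω' - Ω) ⬝ᵥ (X *ᵥ Ω) := by
    rw [Matrix.mulVec_sub, dotProduct_sub, star_sub, sub_dotProduct]
    ring
  rw [← Complex.sub_re, e]
  refine (Complex.abs_re_le_norm _).trans ((norm_add_le _ _).trans ?_)
  have h3 := nrm_ip_le Ω' (X *ᵥ (Ω' - Ω))
  have h4 := nrm_ip_le (Ω' - Ω) (X *ᵥ Ω)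
  have h5 := hc (Ω' - Ω)
  have h6 := hc Ω
  have h7 := nrm_nonneg (Ω' - Ω)
  rw [h2, one_mul] at h3
  rw [h1] at h6
  nlinarith

/-- the entropies of the ground state with detectors and of the ground state -/
theorem entropy_prime (B : Finset V) {Ω Ω' : Conf V q → ℂ} (hΩ : nsq Ω = 1) (hΩ' : nsq Ω' = 1)
    {ε ε' : ℝ} (hε : nrm (Ω' - Ω) ≤ ε) (h0 : 0 < ε') (h1 : ε' ≤ 1 / 2) :
    |entropyOf B Ω' - entropyOf B Ω| ≤
      2 * ε * (B.card * Real.log q + Real.log (1 / ε')) + 2 * ε' :=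
  fn_subregion_abs B hΩ' hΩ (fun X _ _ hX => expect_diff X hΩ hΩ' hX hε) (Finset.Subset.refl B)
    h0 h1

/-- the same for a region with a small complement -/
theorem entropy_prime_compl (B : Finset V) {Ω Ω' : Conf V q → ℂ} (hΩ : nsq Ω = 1)
    (hΩ' : nsq Ω' = 1) {ε ε' : ℝ} (hε : nrm (Ω' - Ω) ≤ ε) (h0 : 0 < ε') (h1 : ε' ≤ 1 / 2) :
    |entropyOf Bᶜ Ω' - entropyOf Bᶜ Ω| ≤
      2 * ε * (B.card * Real.log q + Real.log (1 / ε')) + 2 * ε' := by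
  rw [entropy_compl B Ω' hΩ', entropy_compl B Ω hΩ]
  exact entropy_prime B hΩ hΩ' hε h0 h1

end prime

section lattice
variable {L q R : ℕ} {J Δ E : ℝ}

/-- **block ENTROPY** on the lattice: `ψ` of small energy excess for the doubled system with
detectors, any region `O` of the two layers, against the ground state `Ω` itself -/
theorem entropy_layers (hJ : 0 < J) (hΔ : 0 < Δ) (hq : 1 ≤ q) {H : Op (Site L) q}
    {Ω Ω' : Conf (Site L) q → ℂ} (hA : Admissible L q R J H) (hg : GappedGround H Δ E Ω)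
    {H2 : Op (Site L ⊕ Site L) q} {Δ' E2 : ℝ} (hΔ' : 0 < Δ') (hΩ' : nsq Ω' = 1)
    (hg2 : GappedGround H2 Δ' E2 (dbl Ω' Ω')) {ψ : Conf (Site L ⊕ Site L) q → ℂ}
    (hψ : nsq ψ = 1) {η ε : ℝ} (he : GA.expv ψ H2 - E2 ≤ η) (hε : nrm (Ω' - Ω) ≤ ε)
    (O : Finset (Site L ⊕ Site L)) {Pm : ℝ} (h1 : (bdry O.toLeft : ℝ) ≤ Pm)
    (h2 : (bdry O.toRight : ℝ) ≤ Pm) {s : ℝ} (hs : 0 ≤ s) :
    entropyOf O.toLeft Ω + entropyOf O.toRight Ω ≤ entropyOf O ψ +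
      ((4 * Real.exp (-s) + 2 * (Real.sqrt (η / Δ') + 2 * ε) ^ 2) *
          (entropyOf O.toLeft Ω + entropyOf O.toRight Ω) +
        ((24 + 12 * Real.sqrt (spread_const q R * (J / Δ) * Pm)) * (2 + s) + s)) := by
  have hΩ : nsq Ω = 1 := hg.1
  obtain ⟨c, hc, hd⟩ := close_two hΩ hΩ' hg2 hΔ' hψ he hε
  have hε0 : 0 ≤ ε := (nrm_nonneg _).trans hε
  have hP : 0 ≤ Pm := (Nat.cast_nonneg _).trans h1
  have hsc : 0 ≤ spread_const q R * (J / Δ) := by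
    unfold spread_const; positivity
  have ht : ∀ B : Finset (Site L), (bdry B : ℝ) ≤ Pm →
      TailLe (rdm B Ω) (spread_const q R * (J / Δ) * Pm) := fun B hB =>
    b6e_tail_mono (mul_le_mul_of_nonneg_left hB hsc) (spread_law hJ hΔ hq hA hg B).2.1
  exact entropy_low_two865 O hΩ hψ hc (by positivity) hs hd (mul_nonneg hsc hP) (ht _ h1) (ht _ h2)

end lattice

end Vale.Agent.P356.GA
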