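import Vale.Agent.P356.PH.Mat749
import Vale.Agent.P356.SV.Ent
import Vale.Agent.P356.SV.Meas
import Vale.Agent.P356.NA.SpecBase
import Mathlib.Analysis.CStarAlgebra.Spectrum

/-!
Complex functions of reduced states, as operators on the whole system.
-/

set_option linter.all false

namespace Vale.Agent.P356.GA

open Matrix Finset Vale.Agent.P356 Vale.Agent.P356.SV Vale.Agent.P356.Path Vale.Agent.P356.PH
open scoped BigOperators ComplexOrder Kronecker Matrix.Norms.L2Operator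

section gen
variable {α β : Type*} [Fintype α] [Fintype β] [DecidableEq α] [DecidableEq β]

/-- complex function of the reduced state -/
noncomputable def clF (x : α × β → ℂ) (f : α → ℂ) : Matrix α α ℂ :=
  eigU x * diagonal f * (eigU x)ᴴ

theorem clF_mul (x : α × β → ℂ) (f g : α → ℂ) : clF x f * clF x g = clF x (fun i => f i * g i) := by
  have h := eigU_mul' x
  rw [clF, clF, clF]
  calc eigU x * diagonal f * (eigU x)ᴴ * (eigU x * diagonal g * (eigU x)ᴴ) =
      eigU x * diagonal f * ((eigU x)ᴴ * eigU x) * diagonal g * (eigU x)ᴴ := by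
        simp only [Matrix.mul_assoc]
    _ = eigU x * (diagonal f * diagonal g) * (eigU x)ᴴ := by
        rw [h, Matrix.mul_one, Matrix.mul_assoc (eigU x)]
    _ = _ := by rw [diagonal_mul_diagonal]

theorem clF_one (x : α × β → ℂ) : clF x (fun _ => 1) = 1 := by
  rw [clF, diagonal_one, Matrix.mul_one]
  exact eigU_mul x

theorem clF_conj (x : α × β → ℂ) (f : α → ℂ) : (clF x f)ᴴ = clF x (fun i => star (f i)) := by
  rw [clF, clF, conjTranspose_mul, conjTranspose_mul, conjTranspose_conjTranspose,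
    diagonal_conjTranspose, Matrix.mul_assoc]
  rfl

theorem clF_sub (x : α × β → ℂ) (f g : α → ℂ) : clF x f - clF x g = clF x (fun i => f i - g i) := by
  rw [clF, clF, clF, ← Matrix.sub_mul, ← Matrix.mul_sub, diagonal_sub]

theorem clF_redA (x : α × β → ℂ) : clF x (fun i => (eigp x i : ℂ)) = redA x :=
  (redA_spec x).symm

theorem clF_trace (x : α × β → ℂ) (f : α → ℂ) :
    (redA x * clF x f).trace = ∑ i, (eigp x i : ℂ) * f i := by
  rw [← clF_redA, clF_mul, clF, Matrix.trace_mul_comm, ← Matrix.mul_assoc, eigU_mul',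
    Matrix.one_mul, Matrix.trace_diagonal]

theorem eigU_mem (x : α × β → ℂ) : eigU x ∈ unitary (Matrix α α ℂ) :=
  ⟨eigU_mul' x, eigU_mul x⟩

theorem clF_norm (x : α × β → ℂ) (f : α → ℂ) {C : ℝ} (hC : 0 ≤ C) (hf : ∀ i, ‖f i‖ ≤ C) :
    ‖clF x f‖ ≤ C := by
  have h1 : (eigU x)ᴴ ∈ unitary (Matrix α α ℂ) := Unitary.star_mem (eigU_mem x)
  rw [clF, CStarRing.norm_mul_mem_unitary _ h1, CStarRing.norm_mem_unitary_mul _ (eigU_mem x),
    Matrix.l2_opNorm_diagonal]
  exact (pi_norm_le_iff_of_nonneg hC).2 hf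

end gen

section regions
variable {V : Type*} [Fintype V] [DecidableEq V] {q : ℕ}

/-- the inclusion of the local algebra as a star algebra homomorphism -/
noncomputable def phInclS (X : Finset V) (q : ℕ) : Op {x // x ∈ X} q →⋆ₐ[ℂ] Op V q :=
  { phIncl X q with map_star' := fun k => (opOn_conjTranspose X k).symm }

theorem opOn_norm_le (X : Finset V) (k : Op {x // x ∈ X} q) : ‖opOn X k‖ ≤ ‖k‖ :=
  NonUnitalStarAlgHom.norm_apply_le (phInclS X q) k

/-- number of configurations outside a region -/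
noncomputable def dO (q : ℕ) (S : Finset V) : ℂ :=
  (Fintype.card ({x // x ∉ S} → Fin q) : ℂ)

theorem dO_eq (q : ℕ) (S : Finset V) : dO q S = (q : ℂ) ^ (Fintype.card V - S.card) := by
  rw [dO, Fintype.card_fun, Fintype.card_fin, Fintype.card_subtype_compl, Fintype.card_coe]
  push_cast
  rfl

theorem trace_reindex' {m n : Type*} [Fintype m] [Fintype n] (e : m ≃ n) (A : Matrix m m ℂ) :
    (Matrix.reindex e e A).trace = A.trace := by
  simp only [Matrix.trace, Matrix.diag_apply, Matrix.reindex_apply, Matrix.submatrix_apply]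
  exact Equiv.sum_comp e.symm (fun i => A i i)

theorem trace_opOn (S : Finset V) (k : Op {x // x ∈ S} q) :
    (opOn S k).trace = dO q S * k.trace := by
  rw [opOn, opL, trace_reindex', Matrix.trace_kronecker, Matrix.trace_one, dO, mul_comm]

theorem nsq_mulVec_eq (A : Op V q) (ψ : Conf V q → ℂ) :
    ((nsq (A *ᵥ ψ) : ℝ) : ℂ) = star ψ ⬝ᵥ ((Aᴴ * A) *ᵥ ψ) := by
  rw [← NA.na_spow_nsq_star, Matrix.star_mulVec, ← Matrix.dotProduct_mulVec, Matrix.mulVec_mulVec]

/-- complex function of the reduced state of `S`, on the whole system -/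
noncomputable def cr (S : Finset V) (ψ : Conf V q → ℂ) (f : ({x // x ∈ S} → Fin q) → ℂ) : Op V q :=
  opOn S (clF (ψ ∘ (cut S q).symm) f)

theorem cr_mul (S : Finset V) (ψ : Conf V q → ℂ) (f g : ({x // x ∈ S} → Fin q) → ℂ) :
    cr S ψ f * cr S ψ g = cr S ψ (fun i => f i * g i) := by
  rw [cr, cr, cr, ← opOn_mul, clF_mul]

theorem cr_conj (S : Finset V) (ψ : Conf V q → ℂ) (f : ({x // x ∈ S} → Fin q) → ℂ) :
    (cr S ψ f)ᴴ = cr S ψ (fun i => star (f i)) := by
  rw [cr, cr, opOn_conjTranspose, clF_conj]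

theorem cr_one (S : Finset V) (ψ : Conf V q → ℂ) : cr S ψ (fun _ => 1) = 1 := by
  rw [cr, clF_one, opOn_one]

theorem cr_sub (S : Finset V) (ψ : Conf V q → ℂ) (f g : ({x // x ∈ S} → Fin q) → ℂ) :
    cr S ψ f - cr S ψ g = cr S ψ (fun i => f i - g i) := by
  rw [cr, cr, cr, ← opOn_sub, clF_sub]

theorem cr_acts (S : Finset V) (ψ : Conf V q → ℂ) (f : ({x // x ∈ S} → Fin q) → ℂ) :
    ActsOn S (cr S ψ f) := ph_acts_opOn S _

theorem cr_expect (S : Finset V) (ψ : Conf V q → ℂ) (f : ({x // x ∈ S} → Fin q) → ℂ) :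
    star ψ ⬝ᵥ (cr S ψ f *ᵥ ψ) = ∑ i, (eigp (ψ ∘ (cut S q).symm) i : ℂ) * f i := by
  rw [cr, opOn, expect_opL, clF_trace]

theorem cr_nsq (S : Finset V) (ψ : Conf V q → ℂ) (f : ({x // x ∈ S} → Fin q) → ℂ) :
    nsq (cr S ψ f *ᵥ ψ) = ∑ i, eigp (ψ ∘ (cut S q).symm) i * ‖f i‖ ^ 2 := by
  have h : ((nsq (cr S ψ f *ᵥ ψ) : ℝ) : ℂ) =
      ((∑ i, eigp (ψ ∘ (cut S q).symm) i * ‖f i‖ ^ 2 : ℝ) : ℂ) := by
    rw [nsq_mulVec_eq, cr_conj, cr_mul, cr_expect]
    push_cast
    refine Finset.sum_congr rfl fun i _ => ?_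
    rw [RCLike.star_def, Complex.conj_mul']
  exact_mod_cast h

theorem cr_norm (S : Finset V) (ψ : Conf V q → ℂ) (f : ({x // x ∈ S} → Fin q) → ℂ) {C : ℝ}
    (hC : 0 ≤ C) (hf : ∀ i, ‖f i‖ ≤ C) : ‖cr S ψ f‖ ≤ C :=
  (opOn_norm_le S _).trans (clF_norm _ f hC hf)

/-- a function which is one on the support acts trivially -/
theorem cr_fix (S : Finset V) (ψ : Conf V q → ℂ) (f : ({x // x ∈ S} → Fin q) → ℂ)
    (hf : ∀ i, eigp (ψ ∘ (cut S q).symm) i ≠ 0 → f i = 1) : cr S ψ f *ᵥ ψ = ψ := by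
  have h1 : nsq ((cr S ψ f - 1) *ᵥ ψ) = 0 := by
    rw [← cr_one S ψ, cr_sub, cr_nsq]
    refine Finset.sum_eq_zero fun i _ => ?_
    by_cases h : eigp (ψ ∘ (cut S q).symm) i = 0
    · rw [h, zero_mul]
    · rw [hf i h, sub_self, norm_zero]
      ring
  have h2 : (cr S ψ f - 1) *ᵥ ψ = 0 := by
    funext s
    have h3 : ∀ s ∈ (Finset.univ : Finset (Conf V q)), ‖((cr S ψ f - 1) *ᵥ ψ) s‖ ^ 2 = 0 :=
      (Finset.sum_eq_zero_iff_of_nonneg (fun s _ => by positivity)).1 h1
    have h4 := h3 s (Finset.mem_univ s)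
    simpa using h4
  rw [Matrix.sub_mulVec, Matrix.one_mulVec, sub_eq_zero] at h2
  exact h2

/-- the reduced state as an operator on the whole system -/
theorem cr_rho (S : Finset V) (ψ : Conf V q → ℂ) :
    cr S ψ (fun i => (eigp (ψ ∘ (cut S q).symm) i : ℂ)) = opOn S (rdm S ψ) := by
  rw [cr, clF_redA]
  rfl

/-- expectations through the trace -/
theorem trace_rho (S : Finset V) (ψ : Conf V q → ℂ) {X : Op V q} (hX : ActsOn S X) :
    (opOn S (rdm S ψ) * X).trace = dO q S * (star ψ ⬝ᵥ (X *ᵥ ψ)) := by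
  obtain ⟨k, rfl⟩ := ph_acts_iff.1 hX
  rw [← opOn_mul, trace_opOn, expect_opOn]

/-- traces factorise over disjoint regions -/
theorem trace_disj {S T : Finset V} (h : Disjoint S T) {A C : Op V q} (hA : ActsOn S A)
    (hC : ActsOn T C) : (A * C).trace * (q : ℂ) ^ (Fintype.card V) = A.trace * C.trace := by
  have hT : (S ∪ T) \ S = T := Finset.union_sdiff_cancel_left h
  rw [← hT] at hC
  obtain ⟨k, rfl⟩ := ph_acts_iff.1 hA
  obtain ⟨l, rfl⟩ := ph_acts_iff.1 hC
  rw [← b6d_prod_opOn S (S ∪ T) Finset.subset_union_left, trace_opOn, trace_opOn, trace_opOn,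
    b6d_prod_trace, dO_eq, dO_eq, dO_eq]
  have c0 : ((S ∪ T) \ S).card = T.card := by rw [hT]
  have c1 : (S ∪ T).card = S.card + T.card := Finset.card_union_of_disjoint h
  have c2 : (S ∪ T).card ≤ Fintype.card V := Finset.card_le_univ _
  have c3 : (q : ℂ) ^ (Fintype.card V - (S ∪ T).card) * (q : ℂ) ^ (Fintype.card V) =
      (q : ℂ) ^ (Fintype.card V - S.card) *
      (q : ℂ) ^ (Fintype.card V - ((S ∪ T) \ S).card) := by
    rw [← pow_add, ← pow_add]
    congr 1
    omega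
  linear_combination (k.trace * l.trace) * c3

theorem ite_mul_and {P Q R : Prop} [Decidable P] [Decidable Q] [Decidable R] (h : P ↔ Q ∧ R) :
    (if P then (1 : ℂ) else 0) = (if Q then 1 else 0) * (if R then 1 else 0) := by
  by_cases hq : Q <;> by_cases hr : R <;> simp [h, hq, hr]

/-- decomposition of a local operator along a subregion -/
theorem act_span {X A : Finset V} (hXA : X ⊆ A) {Z : Op V q} (hZ : ActsOn A Z) :
    Z ∈ Submodule.span ℂ {W : Op V q | ∃ B C, ActsOn X B ∧ ActsOn (A \ X) C ∧ W = B * C} := by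
  classical
  obtain ⟨k, rfl⟩ := ph_acts_iff.1 hZ
  have hk : k = ∑ u, ∑ v, k u v • (Matrix.single u v (1 : ℂ)) := by
    conv_lhs => rw [Matrix.matrix_eq_sum_single k]
    refine Finset.sum_congr rfl fun u _ => Finset.sum_congr rfl fun v _ => ?_
    rw [Matrix.smul_single, smul_eq_mul, mul_one]
  rw [hk]
  have hsum : opOn A (∑ u, ∑ v, k u v • (Matrix.single u v (1 : ℂ))) =
      ∑ u, ∑ v, k u v • opOn A (Matrix.single u v (1 : ℂ)) := by
    rw [opOn, opL_sum]
    refine Finset.sum_congr rfl fun u _ => ?_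
    rw [opL_sum]
    refine Finset.sum_congr rfl fun v _ => ?_
    rw [opL_smul, opOn]
  rw [hsum]
  refine Submodule.sum_mem _ fun u _ => Submodule.sum_mem _ fun v _ =>
    Submodule.smul_mem _ _ (Submodule.subset_span ?_)
  refine ⟨opOn X (Matrix.single (fun x => u ⟨x.1, hXA x.2⟩) (fun x => v ⟨x.1, hXA x.2⟩) 1),
    opOn (A \ X) (Matrix.single (fun x => u ⟨x.1, (Finset.mem_sdiff.mp x.2).1⟩)
      (fun x => v ⟨x.1, (Finset.mem_sdiff.mp x.2).1⟩) 1), ph_acts_opOn _ _, ph_acts_opOn _ _, ?_⟩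
  rw [← b6d_prod_opOn X A hXA]
  congr 1
  ext s t
  rw [b6d_prod_apply]
  simp only [Matrix.single_apply]
  have key : ∀ (w s : Conf {x // x ∈ A} q), w = s ↔
      ((fun x : {x // x ∈ X} => w ⟨x.1, hXA x.2⟩) = fun x : {x // x ∈ X} => s ⟨x.1, hXA x.2⟩) ∧
      ((fun x : {x // x ∈ A \ X} => w ⟨x.1, (Finset.mem_sdiff.mp x.2).1⟩) =
        fun x : {x // x ∈ A \ X} => s ⟨x.1, (Finset.mem_sdiff.mp x.2).1⟩) := by
    intro w s
    constructor
    · rintro rfl
      exact ⟨rfl, rfl⟩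
    · rintro ⟨h1, h2⟩
      funext x
      by_cases hx : x.1 ∈ X
      · exact congrFun h1 ⟨x.1, hx⟩
      · exact congrFun h2 ⟨x.1, Finset.mem_sdiff.mpr ⟨x.2, hx⟩⟩
  refine ite_mul_and ?_
  have k1 := key u s
  have k2 := key v t
  tauto

/-- the marginal relation between two reduced states -/
theorem trace_marg {N N2 M : Finset V} (h1 : N2 ⊆ N) (h2 : N2 ⊆ M) (hd : Disjoint N (M \ N2))
    (ψ : Conf V q → ℂ) {X : Op V q} (hX : ActsOn M X) :
    (opOn N (rdm N ψ) * X).trace * dO q N2 = (opOn N2 (rdm N2 ψ) * X).trace * dO q N := by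
  by_cases hq : q = 0
  · subst hq
    rcases isEmpty_or_nonempty V with hV | hV
    · have e : N = N2 := Finset.eq_of_veq (by simp [Finset.eq_empty_of_isEmpty])
      subst e
      ring
    · haveI : IsEmpty (Conf V 0) := ⟨fun s => (s (Classical.arbitrary V)).elim0⟩
      simp [Matrix.trace]
  have hq' : (q : ℂ) ^ (Fintype.card V) ≠ 0 := pow_ne_zero _ (by exact_mod_cast hq)
  have hspan := act_span h2 hX
  refine Submodule.span_induction (p := fun X _ => (opOn N (rdm N ψ) * X).trace * dO q N2 =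
    (opOn N2 (rdm N2 ψ) * X).trace * dO q N) ?_ ?_ ?_ ?_ hspan
  · rintro _ ⟨B, C, hB, hC, rfl⟩
    have hBN : ActsOn N B := ph_acts_mono h1 hB
    have e1 := trace_disj hd (ph_acts_mul (ph_acts_opOn N (rdm N ψ)) hBN) hC
    have e2 := trace_disj (Finset.disjoint_of_subset_left h1 hd)
      (ph_acts_mul (ph_acts_opOn N2 (rdm N2 ψ)) hB) hC
    rw [trace_rho N ψ hBN] at e1
    rw [trace_rho N2 ψ hB] at e2
    rw [Matrix.mul_assoc] at e1 e2
    have e3 : ((opOn N (rdm N ψ) * (B * C)).trace * dO q N2) * (q : ℂ) ^ (Fintype.card V) =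
        ((opOn N2 (rdm N2 ψ) * (B * C)).trace * dO q N) * (q : ℂ) ^ (Fintype.card V) := by
      linear_combination dO q N2 * e1 - dO q N * e2
    exact mul_right_cancel₀ hq' e3
  · simp
  · intro x y _ _ hx hy
    rw [Matrix.mul_add, Matrix.mul_add, Matrix.trace_add, Matrix.trace_add, add_mul, add_mul,
      hx, hy]
  · intro c x _ hx
    rw [Matrix.mul_smul, Matrix.mul_smul, Matrix.trace_smul, Matrix.trace_smul, smul_mul_assoc,
      smul_mul_assoc, hx]

end regions

end Vale.Agent.P356.GA
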