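import Vale.Agent.P356.GA.Kap87
import Vale.Agent.P356.GA.Fun749
import Vale.Agent.P356.GA.Detect939
import Vale.Agent.P356.SA.Ssa679
import Mathlib.Analysis.Matrix.HermitianFunctionalCalculus
import Mathlib.Analysis.SpecialFunctions.ContinuousFunctionalCalculus.ExpLog.Order

/-!
# P356, GA: block KAPPA3, quantum part

Monotonicity of the relative entropy with respect to faithful reference states, in the form
`S_ψ(a ∪ N) - S_ψ(N) ≤ <- log σ_{a ∪ N}>_ψ - <- log σ_N>_ψ`, and Klein's inequality.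
-/

set_option linter.all false

namespace Vale.Agent.P356.GA.Kap

open Matrix Finset Vale.Agent.P356 Vale.Agent.P356.SV Vale.Agent.P356.Path Vale.Agent.P356.PH
open Vale.Agent.P356.SA Vale.Agent.P356.GA
open scoped BigOperators ComplexOrder Kronecker Matrix.Norms.L2Operator

section mat

variable {ι : Type*} [Fintype ι] [DecidableEq ι]

theorem cfc_spec {σ : Matrix ι ι ℂ} (h : σ.IsHermitian) (f : ℝ → ℝ) :
    cfc f σ = (h.eigenvectorUnitary : Matrix ι ι ℂ) *
      diagonal (fun i => (f (h.eigenvalues i) : ℂ)) *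
      (h.eigenvectorUnitary : Matrix ι ι ℂ)ᴴ := by
  rw [Matrix.IsHermitian.cfc_eq h f, Matrix.IsHermitian.cfc, Unitary.conjStarAlgAut_apply]
  rfl

/-- the trace of a state against a function of another matrix -/
theorem trace_cfc {ρ σ : Matrix ι ι ℂ} (hρ : ρ.IsHermitian) (hσ : σ.IsHermitian) (f : ℝ → ℝ) :
    (ρ * cfc f σ).trace = ((∑ j, f (hσ.eigenvalues j) * ∑ i, hρ.eigenvalues i *
      ‖(((hσ.eigenvectorUnitary : Matrix ι ι ℂ))ᴴ *
        (hρ.eigenvectorUnitary : Matrix ι ι ℂ)) j i‖ ^ 2 : ℝ) : ℂ) := by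
  rw [cfc_spec hσ f]
  set W := (hσ.eigenvectorUnitary : Matrix ι ι ℂ) with hW
  have e : (ρ * (W * diagonal (fun i => (f (hσ.eigenvalues i) : ℂ)) * Wᴴ)).trace =
      (Wᴴ * ρ * W * diagonal (fun i => (f (hσ.eigenvalues i) : ℂ))).trace := by
    rw [← Matrix.mul_assoc, Matrix.trace_mul_comm]
    simp only [Matrix.mul_assoc]
  rw [e, Matrix.trace]
  push_cast
  refine Finset.sum_congr rfl fun j _ => ?_
  rw [diag_apply, mul_diagonal, b7_diag_entry hρ W j]
  push_cast
  ring

theorem ovl_unit {ρ σ : Matrix ι ι ℂ} (hρ : ρ.IsHermitian) (hσ : σ.IsHermitian) :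
    ((((hσ.eigenvectorUnitary : Matrix ι ι ℂ))ᴴ * (hρ.eigenvectorUnitary : Matrix ι ι ℂ))) *
      ((((hσ.eigenvectorUnitary : Matrix ι ι ℂ))ᴴ * (hρ.eigenvectorUnitary : Matrix ι ι ℂ)))ᴴ = 1
    := by
  have hW := b7_unitary hσ
  have hU := b7_unitary hρ
  rw [conjTranspose_mul, conjTranspose_conjTranspose]
  calc ((hσ.eigenvectorUnitary : Matrix ι ι ℂ))ᴴ * (hρ.eigenvectorUnitary : Matrix ι ι ℂ) *
      (((hρ.eigenvectorUnitary : Matrix ι ι ℂ))ᴴ * (hσ.eigenvectorUnitary : Matrix ι ι ℂ)) =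
      ((hσ.eigenvectorUnitary : Matrix ι ι ℂ))ᴴ * ((hρ.eigenvectorUnitary : Matrix ι ι ℂ) *
      ((hρ.eigenvectorUnitary : Matrix ι ι ℂ))ᴴ) * (hσ.eigenvectorUnitary : Matrix ι ι ℂ) := by
        simp only [Matrix.mul_assoc]
    _ = 1 := by rw [hU, Matrix.mul_one]; exact mul_eq_one_comm.mp hW

/-- the relative entropy through spectral data -/
theorem rel_eq {ρ σ : Matrix ι ι ℂ} (hρ : ρ.IsHermitian) (hσ : σ.IsHermitian) :
    ∑ i, ∑ j, ‖(((hσ.eigenvectorUnitary : Matrix ι ι ℂ))ᴴ *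
        (hρ.eigenvectorUnitary : Matrix ι ι ℂ)) j i‖ ^ 2 * hρ.eigenvalues i *
        (Real.log (hρ.eigenvalues i) - Real.log (hσ.eigenvalues j)) =
      -vnEntropy ρ - ((ρ * CFC.log σ).trace).re := by
  have hT := ovl_unit hρ hσ
  have e0 : CFC.log σ = cfc Real.log σ := rfl
  rw [e0, trace_cfc hρ hσ Real.log, Complex.ofReal_re, vnEntropy, dif_pos hρ]
  set T := ((hσ.eigenvectorUnitary : Matrix ι ι ℂ))ᴴ * (hρ.eigenvectorUnitary : Matrix ι ι ℂ)
  have e1 : ∀ i, ∑ j, ‖T j i‖ ^ 2 * hρ.eigenvalues i *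
      (Real.log (hρ.eigenvalues i) - Real.log (hσ.eigenvalues j)) =
      -Real.negMulLog (hρ.eigenvalues i) - ∑ j, Real.log (hσ.eigenvalues j) *
        (hρ.eigenvalues i * ‖T j i‖ ^ 2) := by
    intro i
    have h1 : ∑ j, ‖T j i‖ ^ 2 * hρ.eigenvalues i *
        (Real.log (hρ.eigenvalues i) - Real.log (hσ.eigenvalues j)) =
        (∑ j, ‖T j i‖ ^ 2) * (hρ.eigenvalues i * Real.log (hρ.eigenvalues i)) -
        ∑ j, Real.log (hσ.eigenvalues j) * (hρ.eigenvalues i * ‖T j i‖ ^ 2) := by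
      rw [Finset.sum_mul, ← Finset.sum_sub_distrib]
      exact Finset.sum_congr rfl fun j _ => by ring
    rw [h1, b7_col hT, Real.negMulLog]
    ring
  rw [Finset.sum_congr rfl fun i _ => e1 i, Finset.sum_sub_distrib, Finset.sum_neg_distrib]
  congr 1
  rw [Finset.sum_comm]
  exact Finset.sum_congr rfl fun j _ => by rw [Finset.mul_sum]

/-- **monotonicity of the relative entropy** under a partial trace, faithful reference states -/
theorem mono_mat {α κ : Type*} [Fintype α] [Fintype κ] [DecidableEq α] [DecidableEq κ]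
    (e : ι ≃ α × κ) {ρ σ : Matrix ι ι ℂ} {ρ' σ' : Matrix κ κ ℂ} (hρ : ρ.PosSemidef)
    (hσ : σ.PosDef) (hρ' : ρ'.PosSemidef) (hσ' : σ'.PosDef)
    (hρt : ∀ k k', ρ' k k' = ∑ a, ρ (e.symm (a, k)) (e.symm (a, k')))
    (hσt : ∀ k k', σ' k k' = ∑ a, σ (e.symm (a, k)) (e.symm (a, k'))) :
    vnEntropy ρ - vnEntropy ρ' ≤
      -((ρ * CFC.log σ).trace).re + ((ρ' * CFC.log σ').trace).re := by
  have htr : ρ.trace = ρ'.trace := by
    rw [Matrix.trace, Matrix.trace, ← e.symm.sum_comp, Fintype.sum_prod_type, Finset.sum_comm]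
    exact Finset.sum_congr rfl fun k _ => by
      rw [diag_apply, hρt]
      rfl
  have h1 := hρ.isHermitian.trace_eq_sum_eigenvalues
  have h2 := hρ'.isHermitian.trace_eq_sum_eigenvalues
  have htr' : ∑ i, hρ.isHermitian.eigenvalues i = ∑ i, hρ'.isHermitian.eigenvalues i := by
    rw [h1, h2] at htr
    exact_mod_cast htr
  have h := SA.ssa_mono e (b7_unitary hρ.isHermitian) (b7_unitary hσ.isHermitian)
    (b7_spec hρ.isHermitian) (b7_spec hσ.isHermitian) (fun i => hρ.eigenvalues_nonneg i)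
    (fun i => (hσ.eigenvalues_pos i).le) (b7_unitary hρ'.isHermitian) (b7_unitary hσ'.isHermitian)
    (b7_spec hρ'.isHermitian) (b7_spec hσ'.isHermitian) (fun i => hρ'.eigenvalues_nonneg i)
    (fun i => (hσ'.eigenvalues_pos i).le)
    (fun i j h => absurd h (hσ.eigenvalues_pos j).ne')
    (fun i j h => absurd h (hσ'.eigenvalues_pos j).ne') htr' hρt hσt
  rw [rel_eq, rel_eq] at h
  linarith

/-- Klein's inequality -/
theorem klein_mat {ρ σ : Matrix ι ι ℂ} (hρ : ρ.PosSemidef) (htr : ρ.trace = 1) (hσ : σ.PosDef)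
    (htr' : σ.trace = 1) : vnEntropy ρ ≤ -((ρ * CFC.log σ).trace).re := by
  have h := b7_klein _ (ovl_unit hρ.isHermitian hσ.isHermitian) hρ.isHermitian.eigenvalues
    hσ.isHermitian.eigenvalues (fun i => hρ.eigenvalues_nonneg i)
    (b7_sum_eig hρ.isHermitian htr) (fun i => (hσ.eigenvalues_pos i).le)
    (b7_sum_eig hσ.isHermitian htr').le
    (fun j hj => absurd hj (hσ.eigenvalues_pos j).ne')
  have e0 : CFC.log σ = cfc Real.log σ := rfl
  rw [e0, trace_cfc hρ.isHermitian hσ.isHermitian Real.log, Complex.ofReal_re, vnEntropy,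
    dif_pos hρ.isHermitian]
  refine h.trans (le_of_eq ?_)
  rw [← Finset.sum_neg_distrib]
  exact Finset.sum_congr rfl fun j _ => by ring

end mat

section region

variable {V : Type*} [Fintype V] [DecidableEq V] {q : ℕ}

/-- a partial trace from the traces against local operators -/
theorem pt_of_trace {N A : Finset V} (h : N ⊆ A) (m : Op {x // x ∈ A} q) (m' : Op {x // x ∈ N} q)
    (hm : ∀ Z, (m * b6d_prod N A h Z 1).trace = (m' * Z).trace)
    (k k' : {x // x ∈ N} → Fin q) :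
    m' k k' = ∑ i, m (((b6d_split N A h q).trans (Equiv.prodComm _ _)).symm (i, k))
      (((b6d_split N A h q).trans (Equiv.prodComm _ _)).symm (i, k')) := by
  have h1 := hm (Matrix.single k' k 1)
  have h2 : (m' * Matrix.single k' k (1 : ℂ)).trace = m' k k' := by
    rw [Matrix.trace_mul_comm, Matrix.trace]
    simp [Matrix.mul_apply, Matrix.single_apply, Finset.sum_ite_eq, ite_and]
  rw [h2] at h1
  rw [← h1, Matrix.trace, ← (b6d_split N A h q).symm.sum_comp, Fintype.sum_prod_type,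
    Finset.sum_comm]
  refine Finset.sum_congr rfl fun i _ => ?_
  have h3 : ∀ k1, (m * b6d_prod N A h (Matrix.single k' k (1 : ℂ)) 1).diag
      ((b6d_split N A h q).symm (k1, i)) =
      if k = k1 then m ((b6d_split N A h q).symm (k, i)) ((b6d_split N A h q).symm (k', i))
        else 0 := by
    intro k1
    rw [diag_apply, mul_apply, ← (b6d_split N A h q).symm.sum_comp, Fintype.sum_prod_type]
    have h4 : ∀ k2 j, (b6d_prod N A h (Matrix.single k' k (1 : ℂ)) 1)
        ((b6d_split N A h q).symm (k2, j)) ((b6d_split N A h q).symm (k1, i)) =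
        (if k' = k2 then (if k = k1 then (if j = i then (1 : ℂ) else 0) else 0) else 0) := by
      intro k2 j
      rw [b6d_prod, Matrix.reindex_apply, Matrix.submatrix_apply, kroneckerMap_apply,
        Matrix.single_apply, Matrix.one_apply]
      simp only [Equiv.symm_symm, Equiv.apply_symm_apply]
      by_cases e1 : k' = k2 <;> by_cases e2 : k = k1 <;> by_cases e3 : j = i <;>
        simp [e1, e2, e3]
    simp only [h4]
    by_cases e2 : k = k1
    · simp [e2, Finset.sum_ite_eq, Finset.sum_ite_eq']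
    · simp [e2]
  simp only [h3]
  rw [Finset.sum_ite_eq, if_pos (Finset.mem_univ _)]
  rfl

theorem rdm_trace_prod {N A : Finset V} (h : N ⊆ A) (ψ : Conf V q → ℂ) (Z : Op {x // x ∈ N} q) :
    (rdm A ψ * b6d_prod N A h Z 1).trace = (rdm N ψ * Z).trace := by
  rw [← expect_opOn, ← expect_opOn, b6d_prod_opOn, opOn_one, Matrix.mul_one]

/-- **monotonicity of the relative entropy**, regions -/
theorem mono_region {N A : Finset V} (h : N ⊆ A) (ψ : Conf V q → ℂ) {σ : Op {x // x ∈ A} q}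
    {σ' : Op {x // x ∈ N} q} (hσ : σ.PosDef) (hσ' : σ'.PosDef)
    (ht : ∀ Z, (σ * b6d_prod N A h Z 1).trace = (σ' * Z).trace) :
    entropyOf A ψ - entropyOf N ψ ≤
      -expv ψ (opOn A (CFC.log σ)) + expv ψ (opOn N (CFC.log σ')) := by
  have h1 := mono_mat ((b6d_split N A h q).trans (Equiv.prodComm _ _)) (b7_rdm_psd A ψ) hσ
    (b7_rdm_psd N ψ) hσ' (pt_of_trace h _ _ (rdm_trace_prod h ψ)) (pt_of_trace h _ _ ht)
  unfold entropyOf expv
  rw [expect_opOn, expect_opOn]
  exact h1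

/-- Klein's inequality, regions -/
theorem klein_region (A : Finset V) {ψ : Conf V q → ℂ} (hψ : nsq ψ = 1)
    {σ : Op {x // x ∈ A} q} (hσ : σ.PosDef) (htr : σ.trace = 1) :
    entropyOf A ψ ≤ -expv ψ (opOn A (CFC.log σ)) := by
  unfold entropyOf expv
  rw [expect_opOn]
  exact klein_mat (b7_rdm_psd A ψ) (b7_rdm_trace A ψ hψ) hσ htr

/-- exponentials of Hermitian matrices are positive definite -/
theorem exp_posDef {ι : Type*} [Fintype ι] [DecidableEq ι] {k : Matrix ι ι ℂ}
    (hk : k.IsHermitian) : (NormedSpace.exp k).PosDef := by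
  have h2 : ((2 : ℂ)⁻¹ • k).IsHermitian := by
    rw [Matrix.IsHermitian, conjTranspose_smul, hk.eq]
    simp
  letI : NormedAlgebra ℚ (Matrix ι ι ℂ) := NormedAlgebra.restrictScalars ℚ ℝ (Matrix ι ι ℂ)
  have e1 : NormedSpace.exp k = (NormedSpace.exp ((2 : ℂ)⁻¹ • k))ᴴ *
      NormedSpace.exp ((2 : ℂ)⁻¹ • k) := by
    rw [← Matrix.exp_conjTranspose, h2.eq, ← NormedSpace.exp_add_of_commute (Commute.refl _),
      ← add_smul]
    norm_num
  rw [e1]
  refine Matrix.PosDef.conjTranspose_mul_self _ ?_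
  have hu : IsUnit (NormedSpace.exp ((2 : ℂ)⁻¹ • k)) := Matrix.isUnit_exp _
  exact Matrix.mulVec_injective_of_isUnit hu

theorem opOn_exp (A : Finset V) (k : Op {x // x ∈ A} q) :
    opOn A (NormedSpace.exp k) = NormedSpace.exp (opOn A k) := by
  letI : NormedAlgebra ℚ (Op {x // x ∈ A} q) := NormedAlgebra.restrictScalars ℚ ℝ _
  letI : Algebra ℚ (Op V q) := (NormedAlgebra.restrictScalars ℚ ℝ (Op V q)).toAlgebra
  have hc : Continuous (phInclS A q) :=
    LinearMap.continuous_of_finiteDimensional (phInclS A q).toAlgHom.toLinearMap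
  exact NormedSpace.map_exp (phInclS A q) hc k

theorem opOn_half (A : Finset V) {K : Op V q} (hK : K.IsHermitian) (hA : ActsOn A K) :
    ∃ k : Op {x // x ∈ A} q, k.IsHermitian ∧ K = opOn A k := by
  obtain ⟨k, rfl⟩ := ph_acts_iff.1 hA
  refine ⟨(2 : ℂ)⁻¹ • (k + kᴴ), ?_, ?_⟩
  · rw [Matrix.IsHermitian, conjTranspose_smul, conjTranspose_add, conjTranspose_conjTranspose,
      add_comm kᴴ k]
    simp
  · have h1 : opOn A kᴴ = opOn A k := by
      rw [← opOn_conjTranspose]
      exact hK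
    have h2 : opOn A ((2 : ℂ)⁻¹ • (k + kᴴ)) = (2 : ℂ)⁻¹ • (opOn A k + opOn A kᴴ) := by
      rw [opOn, opL_smul, opL_add]
      rfl
    rw [h2, h1, ← two_smul ℂ, smul_smul]
    norm_num

/-- **monotonicity of the relative entropy** for whole-system operators `exp (-K)`: the form used
with the noisy reference states -/
theorem mono_exp {N A : Finset V} (h : N ⊆ A) {KA KN : Op V q} (hA : KA.IsHermitian)
    (hN : KN.IsHermitian) (aA : ActsOn A KA) (aN : ActsOn N KN)
    (hcons : ∀ Y, ActsOn N Y → (NormedSpace.exp (-KA) * Y).trace * dO q N =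
      (NormedSpace.exp (-KN) * Y).trace * dO q A)
    {ψ : Conf V q → ℂ} (hψ : nsq ψ = 1) :
    entropyOf A ψ - entropyOf N ψ ≤ expv ψ KA - expv ψ KN := by
  obtain ⟨kA, hkA, rfl⟩ := opOn_half A hA aA
  obtain ⟨kN, hkN, rfl⟩ := opOn_half N hN aN
  have hneg : ∀ (B : Finset V) (k : Op {x // x ∈ B} q), -opOn B k = opOn B (-k) := by
    intro B k
    exact (map_neg (phInclS B q) k).symm
  have hkA' : (-kA).IsHermitian := hkA.neg
  have hkN' : (-kN).IsHermitian := hkN.neg
  have hO : ∀ S : Finset V, dO q S ≠ 0 := fun S => by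
    rw [dO, Nat.cast_ne_zero, ← Nat.pos_iff_ne_zero, Fintype.card_pos_iff]
    rcases isEmpty_or_nonempty (Conf V q) with h | ⟨⟨s⟩⟩
    · exfalso
      rw [nsq, Finset.univ_eq_empty, Finset.sum_empty] at hψ
      exact zero_ne_one hψ
    · exact ⟨fun x => s x.1⟩
  have hA0 : dO q A ≠ 0 := hO A
  have hN0 : dO q N ≠ 0 := hO N
  have h1 := mono_region h ψ (exp_posDef hkA') (exp_posDef hkN') ?_
  · rw [CFC.log_exp _ hkA', CFC.log_exp _ hkN', ← hneg, ← hneg] at h1
    have e : ∀ M : Op V q, expv ψ (-M) = -expv ψ M := fun M => by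
      unfold expv
      rw [neg_mulVec, dotProduct_neg, Complex.neg_re]
    rw [e, e] at h1
    linarith
  · intro Z
    have h2 := hcons (opOn N Z) (ph_acts_opOn N Z)
    have e1 : opOn N Z = opOn A (b6d_prod N A h Z 1) := by
      rw [b6d_prod_opOn, opOn_one, Matrix.mul_one]
    rw [hneg, hneg, ← opOn_exp, ← opOn_exp, ← opOn_mul, trace_opOn, e1, ← opOn_mul,
      trace_opOn] at h2
    have h3 : dO q A * dO q N ≠ 0 := mul_ne_zero hA0 hN0
    refine mul_left_cancel₀ h3 ?_
    linear_combination h2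

/-- Klein's inequality for whole-system operators `exp (-K)` -/
theorem klein_exp {A : Finset V} {KA : Op V q} (hA : KA.IsHermitian) (aA : ActsOn A KA)
    (hnorm : (NormedSpace.exp (-KA)).trace = dO q A) {ψ : Conf V q → ℂ} (hψ : nsq ψ = 1) :
    entropyOf A ψ ≤ expv ψ KA := by
  obtain ⟨kA, hkA, rfl⟩ := opOn_half A hA aA
  have hneg : ∀ (B : Finset V) (k : Op {x // x ∈ B} q), -opOn B k = opOn B (-k) := by
    intro B k
    exact (map_neg (phInclS B q) k).symm
  have hkA' : (-kA).IsHermitian := hkA.neg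
  have hO : dO q A ≠ 0 := by
    rw [dO, Nat.cast_ne_zero, ← Nat.pos_iff_ne_zero, Fintype.card_pos_iff]
    rcases isEmpty_or_nonempty (Conf V q) with h | ⟨⟨s⟩⟩
    · exfalso
      rw [nsq, Finset.univ_eq_empty, Finset.sum_empty] at hψ
      exact zero_ne_one hψ
    · exact ⟨fun x => s x.1⟩
  have htr : (NormedSpace.exp (-kA)).trace = 1 := by
    rw [hneg, ← opOn_exp, trace_opOn] at hnorm
    exact mul_left_cancel₀ hO (by rw [hnorm, mul_one])
  have h1 := klein_region A hψ (exp_posDef hkA') htr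
  rw [CFC.log_exp _ hkA', ← hneg] at h1
  have e : ∀ M : Op V q, expv ψ (-M) = -expv ψ M := fun M => by
    unfold expv
    rw [neg_mulVec, dotProduct_neg, Complex.neg_re]
  rw [e, neg_neg] at h1
  exact h1

/-- consistent faithful reference states `exp (-K A)`, one for every region, as operators on the
whole system -/
structure RefFam (K : Finset V → Op V q) : Prop where
  herm : ∀ A, (K A).IsHermitian
  acts : ∀ A, ActsOn A (K A)
  cons : ∀ N A, N ⊆ A → ∀ Y, ActsOn N Y → (NormedSpace.exp (-K A) * Y).trace * dO q N =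
    (NormedSpace.exp (-K N) * Y).trace * dO q A
  norm : ∀ A, (NormedSpace.exp (-K A)).trace = dO q A

theorem RefFam.mono {K : Finset V → Op V q} (hK : RefFam K) {ψ : Conf V q → ℂ} (hψ : nsq ψ = 1)
    (a N : Finset V) : entropyOf (a ∪ N) ψ - entropyOf N ψ ≤ expv ψ (K (a ∪ N)) - expv ψ (K N) :=
  mono_exp subset_union_right (hK.herm _) (hK.herm _) (hK.acts _) (hK.acts _)
    (hK.cons _ _ subset_union_right) hψ

theorem RefFam.low {K : Finset V → Op V q} (hK : RefFam K) {ψ : Conf V q → ℂ} (hψ : nsq ψ = 1)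
    (b : Finset V) : entropyOf b ψ ≤ expv ψ (K b) :=
  klein_exp (hK.herm b) (hK.acts b) (hK.norm b) hψ

end region

section main

variable {V : Type} [Fintype V] [DecidableEq V] {q : ℕ} {I : Type} [Fintype I] [DecidableEq I]

/-- **KAPPA3**, quantum form, the state `ψ`: both errors of the mixed closeness lemma at a cut are
nonnegative and at most the expectations of local operators -/
theorem kap_cut_q {K : Finset V → Op V q} (hK : RefFam K) {ψ : Conf V q → ℂ} (hψ : nsq ψ = 1)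
    (β : V → I) {out W c b b' : Finset I} (hc : c ⊆ W) (hb : W ∩ out ⊆ b) (hb' : W \ out ⊆ b')
    {R : Finset V} (hR : blk β b ⊆ R) (hR' : blk β b' ⊆ Rᶜ) :
    (0 ≤ kap (fun A => entropyOf A ψ) (fun A => expv ψ (K A)) R (blk β b) (blk β (c ∩ out)) ∧
      kap (fun A => entropyOf A ψ) (fun A => expv ψ (K A)) R (blk β b) (blk β (c ∩ out)) ≤
        expv ψ (K (blk β b) - K (blk β b \ blk β (c ∩ out)) +
          (K (blk β (c ∩ out) ∪ blk β b') - K (blk β b')))) ∧
    (0 ≤ kap (fun A => entropyOf A ψ) (fun A => expv ψ (K A)) Rᶜ (blk β b') (blk β (c \ out)) ∧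
      kap (fun A => entropyOf A ψ) (fun A => expv ψ (K A)) Rᶜ (blk β b') (blk β (c \ out)) ≤
        expv ψ (K (blk β b') - K (blk β b' \ blk β (c \ out)) +
          (K (blk β (c \ out) ∪ blk β b) - K (blk β b)))) := by
  have hS := SA.entLike ψ hψ
  have hcW : c ∩ out ⊆ b := fun x hx => hb (by
    rw [mem_inter] at hx ⊢
    exact ⟨hc hx.1, hx.2⟩)
  have hcW' : c \ out ⊆ b' := fun x hx => hb' (by
    rw [mem_sdiff] at hx ⊢
    exact ⟨hc hx.1, hx.2⟩)
  have h := kap_cut hS (k := fun A => expv ψ (K A)) (fun a N _ => hK.mono hψ a N) β hc hb hb' hR hR'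
  have e : ∀ A B C D : Op V q, expv ψ (A - B + (C - D)) =
      (expv ψ A - expv ψ B) + (expv ψ C - expv ψ D) := by
    intro A B C D
    rw [expv_add, expv_sub, expv_sub]
  rw [e, e]
  exact ⟨⟨kap_nonneg hS (fun a N _ => hK.mono hψ a N) hR (blk_mono β hcW), h.1⟩,
    ⟨kap_nonneg hS (fun a N _ => hK.mono hψ a N) hR' (blk_mono β hcW'), h.2⟩⟩

/-- **KAPPA3**, quantum form, the reference state `Ω`: the expectations of the two local operators
are at most the Markov error of the window, up to the noise -/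
theorem pot_cut_q {K : Finset V → Op V q} (hK : RefFam K) {Ω : Conf V q → ℂ} (hΩ : nsq Ω = 1)
    {η : Finset V → ℝ} (hup : ∀ b, expv Ω (K b) ≤ entropyOf b Ω + η b)
    (β : V → I) {out W c b b' : Finset I} {Nb : I → Finset I}
    (hc : c ⊆ W) (hb : W ∩ out ⊆ b) (hb' : W \ out ⊆ b') (hd : Disjoint b b') :
    expv Ω (K (blk β b) - K (blk β b \ blk β (c ∩ out)) +
        (K (blk β (c ∩ out) ∪ blk β b') - K (blk β b'))) +
      expv Ω (K (blk β b') - K (blk β b' \ blk β (c \ out)) +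
          (K (blk β (c \ out) ∪ blk β b) - K (blk β b))) ≤
      Cut.cutErr (fun C => entropyOf (blk β C) Ω) Nb out W c +
        (η (blk β b) + η (blk β ((c ∩ out) ∪ b')) + (η (blk β b') + η (blk β ((c \ out) ∪ b)))) := by
  have hS := SA.entLike Ω hΩ
  have h := pot_cut (S := fun A => entropyOf A Ω) (k := fun A => expv Ω (K A)) (η := η) hS
    (fun b => hK.low hΩ b) hup β (Nb := Nb) hc hb hb' hd
  have e : ∀ A B C D : Op V q, expv Ω (A - B + (C - D)) =
      (expv Ω A - expv Ω B) + (expv Ω C - expv Ω D) := by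
    intro A B C D
    rw [expv_add, expv_sub, expv_sub]
  rw [e, e]
  have h' := h
  unfold pot at h'
  linarith

end main

end Vale.Agent.P356.GA.Kap
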