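import Vale.Agent.P356.GA.NoiseB677
import Vale.Agent.P356.GA.KapQ87

/-!
# GA (helper677): the noisy modular Hamiltonians form a consistent reference family (87's `RefFam`)
-/

set_option linter.all false

namespace Vale.Agent.P356.GA

open Matrix Finset Vale.Agent.P356 Vale.Agent.P356.SV Vale.Agent.P356.Path Vale.Agent.P356.PH
open scoped BigOperators ComplexOrder Kronecker Matrix.Norms.L2Operator MatrixOrder

variable {V : Type*} [Fintype V] [DecidableEq V] {q : ℕ}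

theorem Kt_exp {ε : ℝ} (h0 : 0 < ε) (h1 : ε ≤ 1) {Ω : Conf V q → ℂ} (hΩ : nsq Ω = 1)
    (b : Finset V) : NormedSpace.exp (-Kt ε Ω b) = nz ε Ω b := by
  have h := SF_one h0 h1 hΩ b
  rwa [SF, one_smul] at h

/-- the noisy family is a consistent family of faithful reference states -/
theorem Kt_refFam {ε : ℝ} (h0 : 0 < ε) (h1 : ε ≤ 1) {Ω : Conf V q → ℂ} (hΩ : nsq Ω = 1) :
    Kap.RefFam (Kt ε Ω) := by
  refine ⟨fun A => Kt_herm ε Ω A, fun A => Kt_acts h0 h1 hΩ A, ?_, ?_⟩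
  · intro N A hNA Y hY
    rw [Kt_exp h0 h1 hΩ, Kt_exp h0 h1 hΩ]
    have hd : Disjoint N (A \ N) := Finset.disjoint_sdiff
    have hY' : ActsOn (A \ N)ᶜ Y := by
      refine ph_acts_mono ?_ hY
      intro x hx
      rw [Finset.mem_compl, Finset.mem_sdiff, not_and_not_right]
      exact fun _ => hx
    have h := nz_trace_union ε hΩ hd hY'
    rw [Finset.union_sdiff_of_subset hNA] at h
    have hc : N.card + (A \ N).card = A.card := by
      have := Finset.card_sdiff_add_card_eq_card hNA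
      omega
    have h7 : A.card ≤ Fintype.card V := Finset.card_le_univ _
    have hd2 : dO q N = (q : ℂ) ^ (A \ N).card * dO q A := by
      rw [dO_eq, dO_eq, ← pow_add]
      congr 1
      omega
    rw [← h, hd2]
    ring
  · intro A
    rw [Kt_exp h0 h1 hΩ]
    exact nz_trace ε hΩ A

/-- the price of the noise -/
theorem Kt_hup {ε : ℝ} (h0 : 0 < ε) (h1 : ε < 1) {Ω : Conf V q → ℂ} (hΩ : nsq Ω = 1)
    (b : Finset V) : expv Ω (Kt ε Ω b) ≤ entropyOf b Ω + b.card * (-Real.log (1 - ε)) :=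
  Kt_le_entropy h0 h1 hΩ b

theorem neg_log_le_two_mul {ε : ℝ} (h0 : 0 ≤ ε) (h1 : ε ≤ 1 / 2) : -Real.log (1 - ε) ≤ 2 * ε := by
  have h2 : 0 < 1 - ε := by linarith
  have h3 := Real.one_sub_inv_le_log_of_pos h2
  have h4 : (1 - ε)⁻¹ ≤ 1 + 2 * ε := by
    rw [inv_le_iff_one_le_mul₀ h2]
    nlinarith
  linarith

theorem Kt_hup_two {ε : ℝ} (h0 : 0 < ε) (h1 : ε ≤ 1 / 2) {Ω : Conf V q → ℂ} (hΩ : nsq Ω = 1)
    (b : Finset V) : expv Ω (Kt ε Ω b) ≤ entropyOf b Ω + 2 * ε * b.card := by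
  refine (Kt_hup h0 (by linarith) hΩ b).trans ?_
  have h := mul_le_mul_of_nonneg_left (neg_log_le_two_mul h0.le h1) (Nat.cast_nonneg (α := ℝ) b.card)
  linarith

theorem Kt_low {ε : ℝ} (h0 : 0 < ε) (h1 : ε ≤ 1) {Ω : Conf V q → ℂ} (hΩ : nsq Ω = 1)
    (b : Finset V) {ψ : Conf V q → ℂ} (hψ : nsq ψ = 1) : entropyOf b ψ ≤ expv ψ (Kt ε Ω b) :=
  entropy_le_Kt h0 h1 hΩ b hψ

/-- norm bound of the whole family on regions of bounded size -/
theorem Kt_norm_card {ε : ℝ} (h0 : 0 < ε) (h1 : ε ≤ 1) {Ω : Conf V q → ℂ} (hΩ : nsq Ω = 1)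
    {b : Finset V} {m : ℕ} (hb : b.card ≤ m) : ‖Kt ε Ω b‖ ≤ (m : ℝ) * Real.log (q / ε) := by
  refine (Kt_norm h0 h1 hΩ b).trans ?_
  rcases b.eq_empty_or_nonempty with rfl | ⟨x, hx⟩
  · rw [Finset.card_empty, Nat.cast_zero, zero_mul]
    rcases Nat.eq_zero_or_pos q with h | h
    · subst h
      simp
    · have hq : (1 : ℝ) ≤ q := by exact_mod_cast h
      refine mul_nonneg (Nat.cast_nonneg _) (Real.log_nonneg ?_)
      rw [le_div_iff₀ h0]
      linarith
  · have hq : (1 : ℝ) ≤ q := by exact_mod_cast q_pos_of_unit hΩ (x := x)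
    have : 0 ≤ Real.log (q / ε) := Real.log_nonneg (by rw [le_div_iff₀ h0]; linarith)
    gcongr

end Vale.Agent.P356.GA
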