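import Vale.Agent.P356.GA.Line228
import Vale.Agent.P356.GA.RefFam677

/-!
Block LINE228, second part: the single line estimate with the noisy modular Hamiltonians of a
reference state; the local quantity is compared with the entropies of the reference state.
-/

set_option linter.all false

namespace Vale.Agent.P356.GA

open Matrix Finset Vale.Agent.P356 Vale.Agent.P356.SV Vale.Agent.P356.Path Vale.Agent.P356.PH
open Vale.Agent.P356.SA Vale.Agent.P356.GA.Kap Vale.Agent.P356.GA.Theta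
open scoped BigOperators ComplexOrder Kronecker Matrix.Norms.L2Operator

section line
variable {V : Type} [Fintype V] [DecidableEq V] {q : ℕ}

/-- the conjugation bound of 677 in the form used here -/
theorem line_conj {ε : ℝ} (h0 : 0 < ε) (h1 : ε ≤ 1) {Ω : Conf V q → ℂ} (hΩ : nsq Ω = 1)
    (hq : 1 ≤ q) {b a : Finset V} (ha : a ⊆ b) {X : Op V q} (hX : ActsOn a X) {z : ℂ}
    (hz : |z.re| = 1 / 4) :
    ‖NormedSpace.exp (z • Kt ε Ω b) * X * NormedSpace.exp ((-z) • Kt ε Ω b)‖ ≤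
      Real.exp (Real.log ((q : ℝ) ^ 2 / ε) / 4 * a.card) * ‖X‖ := by
  have hd : Disjoint (b \ a) a := Finset.sdiff_disjoint
  have hX' : ActsOn (b \ a)ᶜ X := by
    refine ph_acts_mono ?_ hX
    intro x hx
    rw [Finset.mem_compl, Finset.mem_sdiff, not_and_not_right]
    exact fun _ => hx
  have hz' : |(-z).re| ≤ 1 / 2 := by
    rw [Complex.neg_re, abs_neg, hz]
    norm_num
  have h := SF_sandwich h0 h1 hΩ hd hX' hz'
  rw [Finset.sdiff_union_of_subset ha, SF, SF, neg_neg, Complex.neg_re, abs_neg, hz] at h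
  have e1 : (-z) • (-(Kt ε Ω b)) = z • Kt ε Ω b := by rw [neg_smul_neg]
  have e2 : z • (-(Kt ε Ω b)) = (-z) • Kt ε Ω b := by rw [smul_neg, neg_smul]
  rw [e1, e2] at h
  refine h.trans (le_of_eq ?_)
  congr 1
  have hq0 : (0 : ℝ) < q := by exact_mod_cast hq
  have hp : (0 : ℝ) < ((q : ℝ) ^ 2 / ε) := by positivity
  rw [Real.rpow_def_of_pos (by positivity), Real.log_pow]
  congr 1
  ring

/-- **The single line estimate** with the reference state `Ω`. -/
theorem line_om {O c b b' A W : Finset V} {ε : ℝ} (hε0 : 0 < ε) (hε1 : ε ≤ 1 / 2)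
    {Ω ψ : Conf V q → ℂ} (hΩ : nsq Ω = 1) (hψ : nsq ψ = 1)
    (hb : b ⊆ O) (hb' : Disjoint b' O) (hc : c ∩ O ⊆ b) (hc' : c \ O ⊆ b')
    (hbA : b ⊆ A) (hbA' : b' ⊆ A) (hbW : O ∩ W ⊆ b ∪ c) (hbW' : W \ O ⊆ b' ∪ c)
    {M : ℝ} (hq : 1 ≤ q) (hM : Fintype.card V * Real.log q ≤ M)
    {P : Op V q} (hP : P.PosSemidef) (hP1 : ‖P‖ ≤ 1) (hPa : ActsOn c P)
    {δ : ℝ} (hδ : 0 ≤ δ)
    (hdev : ∀ X : Op V q, ActsOn A X →
      ‖star ψ ⬝ᵥ (X *ᵥ ψ) - star Ω ⬝ᵥ (X *ᵥ Ω)‖ ≤ δ * ‖X‖)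
    {L : ℝ} (hL : 3 * Real.log (q / ε) * c.card + 1 ≤ L)
    {h : ℝ} (h0 : 0 < h) (hh : h * (8 * (1 + L)) ≤ 1) :
    -(c2 (fE ψ (k2Gen O ψ (lgm M) (Kt ε Ω b) (Kt ε Ω b')) 3 P)).re ≤
      expv ψ P / h ^ 2 +
        32 * Real.pi * Real.cosh Real.pi ^ 2 *
          (th (fun A => entropyOf A Ω) c W O + 4 * ε * A.card +
            4 * (A.card * Real.log (q / ε)) * δ +
            2 * (q : ℝ) ^ Fintype.card V * Real.exp (-M)) / h +
        128 * Real.exp 1 * (1 + L) ^ 4 * h ^ 2 := by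
  have hε2 : ε ≤ 1 := by linarith
  have hK : RefFam (Kt ε Ω) := Kt_refFam hε0 hε2 hΩ
  have hq1 : (1 : ℝ) ≤ q := by exact_mod_cast hq
  have hlq : 0 ≤ Real.log q := Real.log_nonneg hq1
  have hle : Real.log ε ≤ 0 := Real.log_nonpos hε0.le hε2
  have hlog1 : Real.log ((q : ℝ) ^ 2 / ε) = 2 * Real.log q - Real.log ε := by
    rw [Real.log_div (by positivity) hε0.ne', Real.log_pow]
    push_cast
    ring
  have hlog2 : Real.log ((q : ℝ) / ε) = Real.log q - Real.log ε := by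
    rw [Real.log_div (by positivity) hε0.ne']
  have hΛ : 0 ≤ Real.log ((q : ℝ) ^ 2 / ε) / 4 := by rw [hlog1]; linarith
  have hLΛ : (2 * Real.log q + Real.log ((q : ℝ) ^ 2 / ε) / 4) * c.card + 1 ≤ L := by
    refine le_trans ?_ hL
    have : 2 * Real.log q + Real.log ((q : ℝ) ^ 2 / ε) / 4 ≤ 3 * Real.log (q / ε) := by
      rw [hlog1, hlog2]
      linarith
    have h2 := mul_le_mul_of_nonneg_right this (Nat.cast_nonneg (α := ℝ) c.card)
    linarith
  have main := line_theta hb hb' hc hc' hψ hK hq hM hP hP1 hPa hΛ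
    (fun z hz X hX => line_conj hε0 hε2 hΩ hq hc hX hz)
    (fun z hz X hX => line_conj hε0 hε2 hΩ hq hc' hX hz) hLΛ h0 hh
  refine main.trans ?_
  have hcA : c ⊆ A := by
    intro x hx
    by_cases hxO : x ∈ O
    · exact hbA (hc (Finset.mem_inter.2 ⟨hx, hxO⟩))
    · exact hbA' (hc' (Finset.mem_sdiff.2 ⟨hx, hxO⟩))
  have hNA : b \ c ⊆ A := Finset.sdiff_subset.trans hbA
  have hNA' : b' \ c ⊆ A := Finset.sdiff_subset.trans hbA'
  have hn : ∀ {S : Finset V}, S ⊆ A → ‖Kt ε Ω S‖ ≤ (A.card : ℝ) * Real.log (q / ε) := fun hS =>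
    Kt_norm_card hε0 hε2 hΩ (Finset.card_le_card hS)
  have h1 := theta_near hK (ψ := ψ) (Ω := Ω) hcA hNA hNA' hδ
    (hn (Finset.union_subset hcA hNA)) (hn hNA) (hn (Finset.union_subset hcA hNA')) (hn hNA') hdev
  have h2 := theta_le hK hΩ (η := fun b => 2 * ε * b.card)
    (fun b => Kt_hup_two hε0 hε1 hΩ b) hbW hbW'
  have h3 : ∀ {S : Finset V}, S ⊆ A → 2 * ε * (S.card : ℝ) ≤ 2 * ε * A.card := fun hS => by
    refine mul_le_mul_of_nonneg_left ?_ (by positivity)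
    exact_mod_cast Finset.card_le_card hS
  have h4 := h3 (Finset.union_subset hcA hNA)
  have h5 := h3 (Finset.union_subset hcA hNA')
  have h6 : expv ψ (Theta (Kt ε Ω) c (b \ c) (b' \ c)) ≤
      th (fun A => entropyOf A Ω) c W O + 4 * ε * A.card +
        4 * (A.card * Real.log (q / ε)) * δ := by
    linarith
  have hpi := Real.pi_pos
  have hch := Real.cosh_pos Real.pi
  have h7 : 32 * Real.pi * Real.cosh Real.pi ^ 2 *
      (expv ψ (Theta (Kt ε Ω) c (b \ c) (b' \ c)) +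
        2 * (q : ℝ) ^ Fintype.card V * Real.exp (-M)) / h ≤
      32 * Real.pi * Real.cosh Real.pi ^ 2 *
      (th (fun A => entropyOf A Ω) c W O + 4 * ε * A.card +
        4 * (A.card * Real.log (q / ε)) * δ + 2 * (q : ℝ) ^ Fintype.card V * Real.exp (-M)) / h := by
    refine div_le_div_of_nonneg_right ?_ h0.le
    exact mul_le_mul_of_nonneg_left (by linarith) (by positivity)
  linarith

end line

end Vale.Agent.P356.GA
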