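import Vale.Agent.P356.SA.DecGeo

/-!
The interface of the doubled tilt inequality: for every region `X` of a box of side `l` there are
nested regions `X ⊆ P k ⊆ M ⊆ Q k` within distance `l ^ (1 - ω)` of `X`, with few boundary edges on
average, such that the entropies of `P k` and `Q k` are, on average, not larger than the entropy of
the ring `Q k \ P k` up to `l ^ (-u) S M + l ^ (1 - c)`.
-/

set_option linter.all false

namespace Vale.Agent.P356.GA

open Matrix Finset Vale.Agent.P356 Vale.Agent.P356.SV Vale.Agent.P356.NA Vale.Agent.P356.SA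
open scoped BigOperators

/-- the doubled inequality for one entropy function -/
structure DIS {L : ℕ} (S : Finset (Site L) → ℝ) (ω u c C : ℝ) (n₀ : ℕ) : Prop where
  out : ∀ l x0 x1 y0 y1 : ℕ, n₀ ≤ l → x1 ≤ x0 + l → y1 ≤ y0 + l →
    ∀ X : Finset (Site L), X ⊆ rect L x0 x1 y0 y1 →
    ∃ (n w : ℕ) (P Q : ℕ → Finset (Site L)) (M : Finset (Site L)),
      1 ≤ n ∧ (w : ℝ) ≤ (l : ℝ) ^ (1 - ω) ∧
      (∀ k, k < n → X ⊆ P k ∧ P k ⊆ M ∧ M ⊆ Q k ∧ Q k ⊆ sa7_nb X w) ∧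
      (bdry M : ℝ) ≤ C * ((sa7_nb X w \ X).card / (l : ℝ) ^ (1 - ω)) ∧
      ∑ k ∈ range n, ((bdry (P k) : ℝ) + bdry (Q k)) ≤
        n * (C * ((sa7_nb X w \ X).card / (l : ℝ) ^ (1 - ω))) ∧
      (1 - C * (l : ℝ) ^ (-c)) * ∑ k ∈ range n, (S (P k) + S (Q k)) ≤
        ∑ k ∈ range n, S (Q k \ P k) + n * (C * (l : ℝ) ^ (-u) * S M + C * (l : ℝ) ^ (1 - c))

/-- the doubled inequality for the ground states of all admissible gapped Hamiltonians -/
def DI (q R : ℕ) (J Δ : ℝ) : Prop :=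
  ∃ (ω u c C : ℝ) (n₀ : ℕ), 0 < ω ∧ 2 * ω < u ∧ 2 * ω < c ∧ c < 1 ∧ 0 < C ∧
    ∀ (L : ℕ) (H : Op (Site L) q), Admissible L q R J H →
    ∀ (E : ℝ) (Ω : Conf (Site L) q → ℂ), GappedGround H Δ E Ω →
      DIS (fun A => entropyOf A Ω) ω u c C n₀

end Vale.Agent.P356.GA
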