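import Vale.Agent.P356.GA.TiltUp412
import Vale.Agent.P356.GA.Low125e
import Vale.Agent.P356.GA.DIDef960
import Vale.Agent.P356.GA.Detect939

/-!
# Common objects of the proof of the strict area law for all gapped Hamiltonians

One function `T` on the square (the smoothed distance to the region `X`), its level sets, the
nested outer regions `R k` of the two-layer lattice, the slabs, the tiles and the healing generator
`Gm`. `Core` is the output of the analytic part (energy of all self-consistent tilted states and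
first order term), which implies the doubling inequality `DI`.
-/

set_option linter.all false

namespace Vale.Agent.P356.GA

open Matrix Finset Vale.Agent.P356 Vale.Agent.P356.SV Vale.Agent.P356.Path Vale.Agent.P356.NA
open Vale.Agent.P356.SA
open scoped BigOperators ComplexOrder Kronecker Matrix.Norms.L2Operator

section geo
variable {L : ℕ}

/-- sublevel set `{T ≤ t}` -/
noncomputable def loT (T : Site L → ℝ) (t : ℝ) : Finset (Site L) :=
  open Classical in Finset.univ.filter (fun x => T x ≤ t)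

/-- superlevel set `{t < T}` -/
noncomputable def upT (T : Site L → ℝ) (t : ℝ) : Finset (Site L) :=
  open Classical in Finset.univ.filter (fun x => t < T x)

/-- slab `{t < T ≤ u}` -/
noncomputable def slT (T : Site L → ℝ) (t u : ℝ) : Finset (Site L) :=
  open Classical in Finset.univ.filter (fun x => t < T x ∧ T x ≤ u)

/-- tile of side `M` with index `j` -/
def tileB (L M : ℕ) (j : Site L) : Finset (Site L) :=
  Finset.univ.filter (fun x => x.1.val / M = j.1.val ∧ x.2.val / M = j.2.val)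

/-- Geometric data: the function `T`, the first level `t0`, the number `n` of lines in each layer
(levels `t0 + k` in layer one, `t0 + N - k` in layer two, `k < n`), the level `t0 + m` of the
middle region, the thickness `mp` of the slabs and the side `tl` of the tiles. -/
structure Gd (L : ℕ) where
  T : Site L → ℝ
  t0 : ℝ
  n : ℕ
  N : ℕ
  m : ℕ
  mp : ℕ
  tl : ℕ

namespace Gd

/-- inner regions -/
noncomputable def P (g : Gd L) (k : ℕ) : Finset (Site L) := loT g.T (g.t0 + k)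

/-- outer regions -/
noncomputable def Q (g : Gd L) (k : ℕ) : Finset (Site L) := loT g.T (g.t0 + g.N - k)

/-- middle region -/
noncomputable def Mid (g : Gd L) : Finset (Site L) := loT g.T (g.t0 + g.m)

/-- the nested regions of the two-layer lattice: the complement of `P k` in layer one and `Q k` in
layer two -/
noncomputable def R (g : Gd L) (k : ℕ) : Finset (Site L ⊕ Site L) :=
  open Classical in Finset.univ.filter
    (fun v => Sum.elim (fun x => g.t0 + k < g.T x) (fun x => g.T x ≤ g.t0 + g.N - k) v)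

/-- slab of layer one, above the level `t0 + k` -/
noncomputable def s1 (g : Gd L) (k : ℕ) : Finset (Site L) := slT g.T (g.t0 + k) (g.t0 + k + g.mp)

/-- slab of layer two, below the level `t0 + N - k` -/
noncomputable def s2 (g : Gd L) (k : ℕ) : Finset (Site L) :=
  slT g.T (g.t0 + g.N - k - g.mp) (g.t0 + g.N - k)

variable {q : ℕ}

/-- healing generator, layer one -/
noncomputable def Gm1 (g : Gd L) (θ : ℝ) (Kt : Finset (Site L) → Op (Site L) q) : Op (Site L) q :=
  ∑ k ∈ range g.n, ∑ j : Site L, ((θ / 2 : ℝ) : ℂ) • Kt (g.s1 k ∩ tileB L g.tl j)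

/-- healing generator, layer two -/
noncomputable def Gm2 (g : Gd L) (θ : ℝ) (Kt : Finset (Site L) → Op (Site L) q) : Op (Site L) q :=
  ∑ k ∈ range g.n, ∑ j : Site L, ((θ / 2 : ℝ) : ℂ) • Kt (g.s2 k ∩ tileB L g.tl j)

/-- healing generator on the two-layer lattice -/
noncomputable def Gm (g : Gd L) (θ : ℝ) (Kt : Finset (Site L) → Op (Site L) q) :
    Op (Site L ⊕ Site L) q := cp1 (g.Gm1 θ Kt) + cp2 (g.Gm2 θ Kt)

/-- the self-consistent tilted states of the two-layer system with start vector `Ω ⊗ Ω` -/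
def St (g : Gd L) (θ M : ℝ) (Kt : Finset (Site L) → Op (Site L) q) (Ω : Conf (Site L) q → ℂ)
    (τ t : ℝ) (ψ : Conf (Site L ⊕ Site L) q → ℂ) : Prop :=
  TState (fun k => cut (g.R k) q) (fun _ => θ) M (g.Gm θ Kt) (dbl Ω Ω) (1 + τ * Complex.I) g.n t ψ

/-- the dressed expectation `⟨ψ|Y X Y⁻¹|ψ⟩` of a tilted state -/
noncomputable def wkv (g : Gd L) (θ M : ℝ) (τ t : ℝ) (ψ : Conf (Site L ⊕ Site L) q → ℂ)
    (X : Op (Site L ⊕ Site L) q) : ℂ :=
  FT (fun k => cut (g.R k) q) ψ (gL (fun k => cut (g.R k) q) ψ (fun _ => θ) M) g.n X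
    (fun _ => (t : ℂ) * (1 + τ * Complex.I))

end Gd
end geo

/-- **Output of the analytic part** at scale `l` for the region `X` (`w = ⌊l ^ (1 - om)⌋`): there
are geometric data around `X`, a healing generator and a perturbed Hamiltonian `H'` with ground
state `Ω'` near `Ω` such that every self-consistent tilted state of the two-layer system has
`H'`-energy at most `l ^ (-2 c)` and first order term at most its value in `Ω' ⊗ Ω'` plus
`l ^ (1 - c)`. -/
def CoreAt (L q : ℕ) (Δ om u c C : ℝ) (Ω : Conf (Site L) q → ℂ) (l w : ℕ)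
    (X : Finset (Site L)) : Prop :=
  ∃ (g : Gd L) (Kt : Finset (Site L) → Op (Site L) q) (H' : Op (Site L) q) (E' : ℝ)
    (Ω' : Conf (Site L) q → ℂ) (θ M₁ : ℝ),
    1 ≤ g.n ∧ θ = (l : ℝ) ^ u / (2 * g.n) ∧
    X ⊆ g.P 0 ∧ g.Q 0 ⊆ sa7_nb X w ∧ g.n + g.mp ≤ g.m ∧ g.m + g.n + g.mp ≤ g.N ∧
    (bdry g.Mid : ℝ) ≤ C * ((sa7_nb X w \ X).card / (l : ℝ) ^ (1 - om)) ∧
    ∑ k ∈ range g.n, ((bdry (g.P k) : ℝ) + bdry (g.Q k)) ≤
      g.n * (C * ((sa7_nb X w \ X).card / (l : ℝ) ^ (1 - om))) ∧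
    (∀ b, (Kt b).IsHermitian ∧ ActsOn b (Kt b)) ∧
    ‖g.Gm1 θ Kt + g.Gm2 θ Kt‖ ≤ (l : ℝ) ^ (4 : ℝ) ∧
    GappedGround H' (Δ / 2) E' Ω' ∧ nsq (Ω' - Ω) ≤ (l : ℝ) ^ (-20 : ℝ) ∧
    ∀ M, M₁ ≤ M → ∀ τ : ℝ, |τ| ≤ 10 * Real.log l → ∀ t, 0 < t → t ≤ 1 →
      ∀ ψ, g.St θ M Kt Ω' τ t ψ →
        expv ψ (cp1 H' + cp2 H') - (E' + E') ≤ (l : ℝ) ^ (-(2 * c)) ∧
        ((1 + τ * Complex.I) * g.wkv θ M τ t ψ (g.Gm θ Kt)).re ≤
          expv (dbl Ω' Ω') (g.Gm θ Kt) + (l : ℝ) ^ (1 - c)

/-- The analytic part, for all admissible gapped Hamiltonians. -/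
def Core (q R : ℕ) (J Δ : ℝ) : Prop :=
  ∃ (om u c C : ℝ) (n₀ : ℕ), 0 < om ∧ 2 * om < u ∧ 2 * om < c ∧ c < 1 / 10 ∧ 0 < C ∧
    ∀ (L : ℕ) (H : Op (Site L) q), Admissible L q R J H →
    ∀ (E : ℝ) (Ω : Conf (Site L) q → ℂ), GappedGround H Δ E Ω →
    ∀ (l w x0 x1 y0 y1 : ℕ) (X : Finset (Site L)), n₀ ≤ l →
      (w : ℝ) ≤ (l : ℝ) ^ (1 - om) → (l : ℝ) ^ (1 - om) < (w : ℝ) + 1 →
      x1 ≤ x0 + l → y1 ≤ y0 + l → X ⊆ rect L x0 x1 y0 y1 → X.Nonempty → w < 2 * L →
      CoreAt L q Δ om u c C Ω l w X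

end Vale.Agent.P356.GA
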