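import Vale.Agent.P356.GA.Theta124
import Vale.Agent.P356.GA.EntDbl865
import Vale.Agent.P356.GA.Defs341


/-!
# GA (helper770): the Markov functional `th` of the two-layer system

For a core and a window in one layer the functional `th` of `Ω ⊗ Ω` is the functional of `Ω` in
this layer; the traces of the outer regions `g.R k` on the two layers are superlevel and sublevel
sets of `T`, and `th` does not distinguish a cut from its complement.
-/

set_option linter.all false

namespace Vale.Agent.P356.GA.Theta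

open Finset Vale.Agent.P356 Vale.Agent.P356.SV Vale.Agent.P356.SA Vale.Agent.P356.GA
open Vale.Agent.P356.GA.Notch
open scoped BigOperators

section
variable {V W : Type} [Fintype V] [DecidableEq V] [Fintype W] [DecidableEq W] {q : ℕ}

theorem entropy_left {Ω : Conf V q → ℂ} {Ω' : Conf W q → ℂ} (hΩ : nsq Ω = 1) (hΩ' : nsq Ω' = 1)
    (A : Finset V) : entropyOf (A.disjSum (∅ : Finset W)) (dbl Ω Ω') =
      entropyOf A Ω + entropyOf ∅ Ω' := by
  rw [entropy_two _ hΩ hΩ', Finset.toLeft_disjSum, Finset.toRight_disjSum]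

theorem entropy_right {Ω : Conf V q → ℂ} {Ω' : Conf W q → ℂ} (hΩ : nsq Ω = 1) (hΩ' : nsq Ω' = 1)
    (B : Finset W) : entropyOf ((∅ : Finset V).disjSum B) (dbl Ω Ω') =
      entropyOf ∅ Ω + entropyOf B Ω' := by
  rw [entropy_two _ hΩ hΩ', Finset.toLeft_disjSum, Finset.toRight_disjSum]

theorem ced_dbl_left {Ω : Conf V q → ℂ} {Ω' : Conf W q → ℂ} (hΩ : nsq Ω = 1) (hΩ' : nsq Ω' = 1)
    (c N : Finset V) :
    ced (fun A => entropyOf A (dbl Ω Ω')) (c.disjSum ∅) (N.disjSum ∅) =
      ced (fun A => entropyOf A Ω) c N := by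
  have e : (c.disjSum ∅ ∪ N.disjSum ∅ : Finset (V ⊕ W)) = (c ∪ N).disjSum ∅ := by
    ext x
    rcases x with x | x <;> simp
  unfold ced
  simp only
  rw [e, entropy_left hΩ hΩ', entropy_left hΩ hΩ']
  ring

theorem ced_dbl_right {Ω : Conf V q → ℂ} {Ω' : Conf W q → ℂ} (hΩ : nsq Ω = 1) (hΩ' : nsq Ω' = 1)
    (c N : Finset W) :
    ced (fun A => entropyOf A (dbl Ω Ω')) ((∅ : Finset V).disjSum c) ((∅ : Finset V).disjSum N) =
      ced (fun A => entropyOf A Ω') c N := by
  have e : ((∅ : Finset V).disjSum c ∪ (∅ : Finset V).disjSum N : Finset (V ⊕ W)) =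
      (∅ : Finset V).disjSum (c ∪ N) := by
    ext x
    rcases x with x | x <;> simp
  unfold ced
  simp only
  rw [e, entropy_right hΩ hΩ', entropy_right hΩ hΩ']
  ring

/-- a core and a window in layer one -/
theorem th_dbl_left {Ω : Conf V q → ℂ} {Ω' : Conf W q → ℂ} (hΩ : nsq Ω = 1) (hΩ' : nsq Ω' = 1)
    (c B : Finset V) (O : Finset (V ⊕ W)) :
    th (fun A => entropyOf A (dbl Ω Ω')) (c.disjSum ∅) (B.disjSum ∅) O =
      th (fun A => entropyOf A Ω) c B O.toLeft := by
  have e1 : (O ∩ B.disjSum ∅) \ c.disjSum ∅ = ((O.toLeft ∩ B) \ c).disjSum (∅ : Finset W) := by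
    ext x
    rcases x with x | x <;> simp
  have e2 : (B.disjSum ∅ \ O) \ c.disjSum ∅ = ((B \ O.toLeft) \ c).disjSum (∅ : Finset W) := by
    ext x
    rcases x with x | x <;> simp
  unfold th
  rw [e1, e2, ced_dbl_left hΩ hΩ', ced_dbl_left hΩ hΩ']

/-- a core and a window in layer two -/
theorem th_dbl_right {Ω : Conf V q → ℂ} {Ω' : Conf W q → ℂ} (hΩ : nsq Ω = 1) (hΩ' : nsq Ω' = 1)
    (c B : Finset W) (O : Finset (V ⊕ W)) :
    th (fun A => entropyOf A (dbl Ω Ω')) ((∅ : Finset V).disjSum c) ((∅ : Finset V).disjSum B) O =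
      th (fun A => entropyOf A Ω') c B O.toRight := by
  have e1 : (O ∩ (∅ : Finset V).disjSum B) \ (∅ : Finset V).disjSum c =
      (∅ : Finset V).disjSum ((O.toRight ∩ B) \ c) := by
    ext x
    rcases x with x | x <;> simp
  have e2 : ((∅ : Finset V).disjSum B \ O) \ (∅ : Finset V).disjSum c =
      (∅ : Finset V).disjSum ((B \ O.toRight) \ c) := by
    ext x
    rcases x with x | x <;> simp
  unfold th
  rw [e1, e2, ced_dbl_right hΩ hΩ', ced_dbl_right hΩ hΩ']

end

section
variable {L : ℕ}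

theorem R_toLeft (g : Gd L) (k : ℕ) : (g.R k).toLeft = upT g.T (g.t0 + k) := by
  ext x
  rw [Finset.mem_toLeft]
  unfold Gd.R upT
  simp only [mem_filter, mem_univ, true_and, Sum.elim_inl]

theorem R_toRight (g : Gd L) (k : ℕ) : (g.R k).toRight = (upT g.T (g.t0 + g.N - k))ᶜ := by
  ext x
  rw [Finset.mem_toRight, mem_compl]
  unfold Gd.R upT
  simp only [mem_filter, mem_univ, true_and, Sum.elim_inr, not_lt]

/-- layer one: the functional of the cut `g.R k` -/
theorem th_R_left {q : ℕ} {Ω : Conf (Site L) q → ℂ} (hΩ : nsq Ω = 1) (g : Gd L) (k : ℕ)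
    (c B : Finset (Site L)) :
    th (fun A => entropyOf A (dbl Ω Ω)) (c.disjSum ∅) (B.disjSum ∅) (g.R k) =
      th (fun A => entropyOf A Ω) c B (upT g.T (g.t0 + k)) := by
  rw [th_dbl_left hΩ hΩ, R_toLeft]

/-- layer two: the functional of the cut `g.R k` -/
theorem th_R_right {q : ℕ} {Ω : Conf (Site L) q → ℂ} (hΩ : nsq Ω = 1) (g : Gd L) (k : ℕ)
    (c B : Finset (Site L)) :
    th (fun A => entropyOf A (dbl Ω Ω)) ((∅ : Finset (Site L)).disjSum c)
      ((∅ : Finset (Site L)).disjSum B) (g.R k) =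
      th (fun A => entropyOf A Ω) c B (upT g.T (g.t0 + g.N - k)) := by
  rw [th_dbl_right hΩ hΩ, R_toRight, th_compl]

end

end Vale.Agent.P356.GA.Theta
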