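import Vale.Agent.P356.GA.EnDefs394
import Vale.Agent.P356.GA.ENa87
import Vale.Agent.P356.GA.LineOm228
import Vale.Agent.P356.GA.EntDbl865
import Vale.Agent.P356.GA.ThLayer770

/-!
Block E1: the single line estimate on the two-layer lattice, in the notation of `EnDefs394`.
-/

set_option linter.all false

namespace Vale.Agent.P356.GA

open Matrix Finset Vale.Agent.P356 Vale.Agent.P356.SV Vale.Agent.P356.Path Vale.Agent.P356.PH
open Vale.Agent.P356.SA Vale.Agent.P356.NA Vale.Agent.P356.GA.Kap Vale.Agent.P356.GA.Theta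
open scoped BigOperators ComplexOrder Kronecker Matrix.Norms.L2Operator

section e1
variable {L q : ℕ}

theorem e1_fst (g : Gd L) (m : ℕ) (j : SS L) (k k' : ℕ) :
    (g.toC (Sum.healed m j k)).1 k' = if k = k' then 1 else 0 := by
  show Sum.healed m j k (Sum.inl k') = _
  rw [Sum.healed]
  simp only [Pi.sub_apply, Pi.smul_apply, smul_eq_mul]
  rw [Sum.ln_inl, Sum.sl_inl, Sum.sl_inl]
  ring

theorem e1_snd (g : Gd L) (m : ℕ) (j : SS L) (k : ℕ) (p : Fin g.n × SS L) :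
    (g.toC (Sum.healed m j k)).2 p = -(1 / 2) * (if (k, j) = ((p.1 : ℕ), p.2) then 1 else 0) -
      1 / 2 * (if (k - m, j) = ((p.1 : ℕ), p.2) then 1 else 0) := by
  show Sum.healed m j k (Sum.inr ((p.1 : ℕ), p.2)) = _
  rw [Sum.healed]
  simp only [Pi.sub_apply, Pi.smul_apply, smul_eq_mul]
  rw [Sum.ln_inr, Sum.sl_inr, Sum.sl_inr]
  ring

theorem e1_GamK (g : Gd L) (K : Finset (SS L) → Op (SS L) q) {k : ℕ} (j : SS L)
    (hkn : k < g.n) :
    GamK (g.KV K) (g.toC (Sum.healed g.mp j k)).2 =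
      (2 : ℂ)⁻¹ • K (g.Wd (k, j)) + (2 : ℂ)⁻¹ • K (g.Wd (k - g.mp, j)) := by
  have hkm : k - g.mp < g.n := by omega
  have hterm : ∀ p : Fin g.n × SS L, (g.toC (Sum.healed g.mp j k)).2 p • g.KV K p =
      (if p = (⟨k, hkn⟩, j) then (2 : ℂ)⁻¹ • K (g.Wd (k, j)) else 0) +
        (if p = (⟨k - g.mp, hkm⟩, j) then (2 : ℂ)⁻¹ • K (g.Wd (k - g.mp, j)) else 0) := by
    intro p
    have i1 : ((k, j) = ((p.1 : ℕ), p.2)) ↔ p = (⟨k, hkn⟩, j) := by
      rw [Prod.ext_iff, Prod.ext_iff, Fin.ext_iff]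
      simp only
      constructor
      · rintro ⟨h1, h2⟩; exact ⟨h1.symm, h2.symm⟩
      · rintro ⟨h1, h2⟩; exact ⟨h1.symm, h2.symm⟩
    have i2 : ((k - g.mp, j) = ((p.1 : ℕ), p.2)) ↔ p = (⟨k - g.mp, hkm⟩, j) := by
      rw [Prod.ext_iff, Prod.ext_iff, Fin.ext_iff]
      simp only
      constructor
      · rintro ⟨h1, h2⟩; exact ⟨h1.symm, h2.symm⟩
      · rintro ⟨h1, h2⟩; exact ⟨h1.symm, h2.symm⟩
    have hh : ∀ X : Op (SS L) q, (1 / 2 : ℝ) • X = (2 : ℂ)⁻¹ • X := by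
      intro X
      rw [← Complex.coe_smul]
      congr 1
      push_cast
      ring
    have a1 : (-(1 / 2) * (if (k, j) = ((p.1 : ℕ), p.2) then 1 else 0) : ℝ) •
        -K (g.Wd ((p.1 : ℕ), p.2)) =
        if p = (⟨k, hkn⟩, j) then (2 : ℂ)⁻¹ • K (g.Wd (k, j)) else 0 := by
      by_cases h : p = (⟨k, hkn⟩, j)
      · rw [if_pos (i1.2 h), if_pos h, h]
        simp only
        rw [mul_one, neg_smul_neg, hh]
      · rw [if_neg (fun h' => h (i1.1 h')), if_neg h, mul_zero, zero_smul]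
    have a2 : (1 / 2 * (if (k - g.mp, j) = ((p.1 : ℕ), p.2) then 1 else 0) : ℝ) •
        -K (g.Wd ((p.1 : ℕ), p.2)) =
        -(if p = (⟨k - g.mp, hkm⟩, j) then (2 : ℂ)⁻¹ • K (g.Wd (k - g.mp, j)) else 0) := by
      by_cases h : p = (⟨k - g.mp, hkm⟩, j)
      · rw [if_pos (i2.2 h), if_pos h, h]
        simp only
        rw [mul_one, smul_neg, hh]
      · rw [if_neg (fun h' => h (i2.1 h')), if_neg h, mul_zero, zero_smul, neg_zero]
    rw [e1_snd, sub_smul, Gd.KV, a1, a2, sub_neg_eq_add]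
  rw [GamK, Finset.sum_congr rfl fun p _ => hterm p, Finset.sum_add_distrib,
    Finset.sum_ite_eq' Finset.univ, Finset.sum_ite_eq' Finset.univ, if_pos (Finset.mem_univ _),
    if_pos (Finset.mem_univ _)]

/-- the healed line in the notation of the two-layer lattice -/
theorem e1_healed (g : Gd L) (ψ : Conf (SS L) q → ℂ) (M : ℝ) {K : Finset (SS L) → Op (SS L) q}
    (hK : ∀ b, ActsOn b (K b)) (P : Op (SS L) q) (j : SS L) {k : ℕ} (hk : g.mp ≤ k)
    (hkn : k < g.n) :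
    g.QV ψ M K P (Sum.healed g.mp j k) =
      -(c2 (fE ψ (k2Gen (g.R k) ψ (lgm M) (K (g.Wd (k, j))) (K (g.Wd (k - g.mp, j)))) 3 P)).re := by
  have hdis : Disjoint (g.Wd (k, j)) (g.Wd (k - g.mp, j)) := by
    rw [Finset.disjoint_left]
    intro x hx hx'
    rw [Gd.Wd, Sum.mem_slab] at hx hx'
    simp only at hx hx'
    rw [Nat.sub_add_cancel hk] at hx'
    exact hx'.1.2 hx.1.1
  exact ENa.QF_healed_acts g.R ψ M hkn (g.KV K) P
    (fun k' _ hkk => by rw [e1_fst, if_neg (Ne.symm hkk)]) (by rw [e1_fst, if_pos rfl]) hdis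
    (hK _) (hK _) (e1_GamK g K j hkn)

/-- **E1**, on the two-layer lattice. -/
theorem e1_line (g : Gd L) {ε : ℝ} (hε0 : 0 < ε) (hε1 : ε ≤ 1 / 2)
    {Ω ψ : Conf (SS L) q → ℂ} (hΩ : nsq Ω = 1) (hψ : nsq ψ = 1) {M : ℝ} (hq : 1 ≤ q)
    (hM : Fintype.card (SS L) * Real.log q ≤ M)
    {P : Op (SS L) q} (hP : P.PosSemidef) (hP1 : ‖P‖ ≤ 1) {c A W : Finset (SS L)}
    (hPa : ActsOn c P) {j : SS L} {k : ℕ} (hk : g.mp ≤ k) (hkn : k < g.n)
    (hcB : c ⊆ g.tB j) (hcT : Disjoint c (g.R (k + g.mp))) (hcS : c ⊆ g.R (k - g.mp))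
    (hWB : W ⊆ g.tB j ∪ c) (hWT : Disjoint W (g.R (k + g.mp))) (hWS : W ⊆ g.R (k - g.mp))
    (hbA : g.Wd (k, j) ⊆ A) (hbA' : g.Wd (k - g.mp, j) ⊆ A)
    {δ : ℝ} (hδ : 0 ≤ δ)
    (hdev : ∀ X : Op (SS L) q, ActsOn A X →
      ‖star ψ ⬝ᵥ (X *ᵥ ψ) - star Ω ⬝ᵥ (X *ᵥ Ω)‖ ≤ δ * ‖X‖)
    {Lc : ℝ} (hL : 3 * Real.log (q / ε) * c.card + 1 ≤ Lc)
    {h : ℝ} (h0 : 0 < h) (hh : h * (8 * (1 + Lc)) ≤ 1) :
    g.QV ψ M (Kt ε Ω) P (Sum.healed g.mp j k) ≤
      expv ψ P / h ^ 2 +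
        32 * Real.pi * Real.cosh Real.pi ^ 2 *
          (th (fun A => entropyOf A Ω) c W (g.R k) + 4 * ε * A.card +
            4 * (A.card * Real.log (q / ε)) * δ +
            2 * (q : ℝ) ^ Fintype.card (SS L) * Real.exp (-M)) / h +
        128 * Real.exp 1 * (1 + Lc) ^ 4 * h ^ 2 := by
  have hε2 : ε ≤ 1 := by linarith
  rw [e1_healed g ψ M (fun b => Kt_acts hε0 hε2 hΩ b) P j hk hkn]
  have hkk : k - g.mp + g.mp = k := Nat.sub_add_cancel hk
  refine line_om hε0 hε1 hΩ hψ ?_ ?_ ?_ ?_ hbA hbA' ?_ ?_ hq hM hP hP1 hPa hδ hdev hL h0 hh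
  · intro x hx
    rw [Gd.Wd, Sum.mem_slab] at hx
    exact hx.1.1
  · rw [Finset.disjoint_left]
    intro x hx hx'
    rw [Gd.Wd, Sum.mem_slab] at hx
    simp only at hx
    rw [hkk] at hx
    exact hx.1.2 hx'
  · intro x hx
    rw [Finset.mem_inter] at hx
    rw [Gd.Wd, Sum.mem_slab]
    exact ⟨⟨hx.2, fun h' => Finset.disjoint_left.1 hcT hx.1 h'⟩, hcB hx.1⟩
  · intro x hx
    rw [Finset.mem_sdiff] at hx
    rw [Gd.Wd, Sum.mem_slab]
    simp only
    rw [hkk]
    exact ⟨⟨hcS hx.1, hx.2⟩, hcB hx.1⟩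
  · intro x hx
    rw [Finset.mem_inter] at hx
    rcases Finset.mem_union.1 (hWB hx.2) with h1 | h1
    · refine Finset.mem_union_left _ ?_
      rw [Gd.Wd, Sum.mem_slab]
      exact ⟨⟨hx.1, fun h' => Finset.disjoint_left.1 hWT hx.2 h'⟩, h1⟩
    · exact Finset.mem_union_right _ h1
  · intro x hx
    rw [Finset.mem_sdiff] at hx
    rcases Finset.mem_union.1 (hWB hx.1) with h1 | h1
    · refine Finset.mem_union_left _ ?_
      rw [Gd.Wd, Sum.mem_slab]
      simp only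
      rw [hkk]
      exact ⟨⟨hWS hx.1, hx.2⟩, h1⟩
    · exact Finset.mem_union_right _ h1

/-! ### the two layers -/

/-- the level of the line `k` in the layer of `v` -/
noncomputable def layLev (g : Gd L) (v : SS L) (k : ℕ) : ℝ :=
  Sum.elim (fun _ => g.t0 + k) (fun _ => g.t0 + g.N - k) v

/-- the tile `i` in the layer of `v` -/
def layPt (v : SS L) (i : Site L) : SS L := Sum.elim (fun _ => Sum.inl i) (fun _ => Sum.inr i) v

/-- a set in the layer of `v` -/
def layS (v : SS L) (A : Finset (Site L)) : Finset (SS L) := lay v fun _ => A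

theorem inL_eq_disjSum (A : Finset (Site L)) :
    inL A = A.disjSum (∅ : Finset (Site L)) := by
  ext x
  rcases x with x | x
  · rw [mem_inL_inl]; simp
  · simp [mem_inL_inr]

theorem inR_eq_disjSum (A : Finset (Site L)) :
    inR A = (∅ : Finset (Site L)).disjSum A := by
  ext x
  rcases x with x | x
  · simp [mem_inR_inl]
  · rw [mem_inR_inr]; simp

theorem th_layS {Ω : Conf (Site L) q → ℂ} (hΩ : nsq Ω = 1) (g : Gd L) (v : SS L) (k : ℕ)
    (c B : Finset (Site L)) :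
    th (fun A => entropyOf A (dbl Ω Ω)) (layS v c) (layS v B) (g.R k) =
      th (fun A => entropyOf A Ω) c B (upT g.T (layLev g v k)) := by
  rcases v with v | v
  · show th _ (inL c) (inL B) _ = _
    rw [inL_eq_disjSum, inL_eq_disjSum, th_R_left hΩ]
    rfl
  · show th _ (inR c) (inR B) _ = _
    rw [inR_eq_disjSum, inR_eq_disjSum, th_R_right hΩ]
    rfl

theorem layS_card (v : SS L) (A : Finset (Site L)) : (layS v A).card = A.card := by
  rcases v with v | v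
  · exact Finset.card_map _
  · exact Finset.card_map _

theorem layS_mono (v : SS L) {A B : Finset (Site L)} (h : A ⊆ B) : layS v A ⊆ layS v B := by
  rcases v with v | v
  · exact Finset.map_subset_map.2 h
  · exact Finset.map_subset_map.2 h

theorem layS_tile (g : Gd L) (v : SS L) (i : Site L) :
    layS v (tileB L g.tl i) = g.tB (layPt v i) := by
  rcases v with v | v <;> rfl

/-- a window within thickness `mp` of the level of the line `k` -/
theorem layS_near (g : Gd L) (v : SS L) {k : ℕ} (hk : g.mp ≤ k) {W : Finset (Site L)}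
    (hT : ∀ x ∈ W, layLev g v k - g.mp < g.T x ∧ g.T x ≤ layLev g v k + g.mp) :
    Disjoint (layS v W) (g.R (k + g.mp)) ∧ layS v W ⊆ g.R (k - g.mp) := by
  have hcast : ((k - g.mp : ℕ) : ℝ) = (k : ℝ) - g.mp := by
    rw [Nat.cast_sub hk]
  rcases v with v | v
  · constructor
    · rw [Finset.disjoint_left]
      rintro (x | x) hx hx'
      · have h1 : x ∈ W := mem_inL_inl.1 hx
        have h2 := (hT x h1).2
        rw [Gd.mem_R_inl] at hx'
        simp only [layLev, Sum.elim_inl] at h2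
        push_cast at hx'
        linarith
      · exact absurd hx mem_inL_inr
    · rintro (x | x) hx
      · have h1 : x ∈ W := mem_inL_inl.1 hx
        have h2 := (hT x h1).1
        rw [Gd.mem_R_inl, hcast]
        simp only [layLev, Sum.elim_inl] at h2
        linarith
      · exact absurd hx mem_inL_inr
  · constructor
    · rw [Finset.disjoint_left]
      rintro (x | x) hx hx'
      · exact absurd hx mem_inR_inl
      · have h1 : x ∈ W := mem_inR_inr.1 hx
        have h2 := (hT x h1).1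
        rw [Gd.mem_R_inr] at hx'
        simp only [layLev, Sum.elim_inr] at h2
        push_cast at hx'
        linarith
    · rintro (x | x) hx
      · exact absurd hx mem_inR_inl
      · have h1 : x ∈ W := mem_inR_inr.1 hx
        have h2 := (hT x h1).2
        rw [Gd.mem_R_inr, hcast]
        simp only [layLev, Sum.elim_inr] at h2
        linarith

/-- the windows of a tile are in the layer and in the tile -/
theorem Wd_sub_layS (g : Gd L) (v : SS L) (i : Site L) (k : ℕ) :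
    g.Wd (k, layPt v i) ⊆ layS v (tileB L g.tl i) := by
  rw [layS_tile]
  exact g.Wd_sub _

/-- **E1** for a core in one of the layers: core `c`, window `W` in the tile `i`, all within
thickness `mp` of the level. -/
theorem e1_site (g : Gd L) {ε : ℝ} (hε0 : 0 < ε) (hε1 : ε ≤ 1 / 2)
    {Ω : Conf (Site L) q → ℂ} (hΩ : nsq Ω = 1) {ψ : Conf (SS L) q → ℂ} (hψ : nsq ψ = 1) {M : ℝ}
    (hq : 1 ≤ q) (hM : Fintype.card (SS L) * Real.log q ≤ M) (v : SS L)
    {P : Op (SS L) q} (hP : P.PosSemidef) (hP1 : ‖P‖ ≤ 1) {c W : Finset (Site L)}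
    (hPa : ActsOn (layS v c) P) {i : Site L} {k : ℕ} (hk : g.mp ≤ k) (hkn : k < g.n)
    (hcW : c ⊆ W) (hWB : W ⊆ tileB L g.tl i)
    (hT : ∀ x ∈ W, layLev g v k - g.mp < g.T x ∧ g.T x ≤ layLev g v k + g.mp)
    {A : Finset (SS L)} (hA : layS v (tileB L g.tl i) ⊆ A)
    {δ : ℝ} (hδ : 0 ≤ δ)
    (hdev : ∀ X : Op (SS L) q, ActsOn A X →
      ‖star ψ ⬝ᵥ (X *ᵥ ψ) - star (dbl Ω Ω) ⬝ᵥ (X *ᵥ dbl Ω Ω)‖ ≤ δ * ‖X‖)
    {Lc : ℝ} (hL : 3 * Real.log (q / ε) * c.card + 1 ≤ Lc)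
    {h : ℝ} (h0 : 0 < h) (hh : h * (8 * (1 + Lc)) ≤ 1) :
    g.QV ψ M (Kt ε (dbl Ω Ω)) P (Sum.healed g.mp (layPt v i) k) ≤
      expv ψ P / h ^ 2 +
        32 * Real.pi * Real.cosh Real.pi ^ 2 *
          (th (fun A => entropyOf A Ω) c W (upT g.T (layLev g v k)) + 4 * ε * A.card +
            4 * (A.card * Real.log (q / ε)) * δ +
            2 * (q : ℝ) ^ Fintype.card (SS L) * Real.exp (-M)) / h +
        128 * Real.exp 1 * (1 + Lc) ^ 4 * h ^ 2 := by
  have hΩ2 : nsq (dbl Ω Ω) = 1 := by rw [nsq_dbl, hΩ, one_mul]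
  obtain ⟨w1, w2⟩ := layS_near g v hk hT
  have hWB' : layS v W ⊆ g.tB (layPt v i) := by
    rw [← layS_tile]
    exact layS_mono v hWB
  have hcS : layS v c ⊆ layS v W := layS_mono v hcW
  have main := e1_line g hε0 hε1 hΩ2 hψ hq hM hP hP1 hPa (j := layPt v i) hk hkn
    (hcS.trans hWB') (Finset.disjoint_of_subset_left hcS w1) (hcS.trans w2)
    (W := layS v W) (hWB'.trans Finset.subset_union_left) w1 w2
    ((Wd_sub_layS g v i k).trans hA) ((Wd_sub_layS g v i (k - g.mp)).trans hA) hδ hdev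
    (Lc := Lc) (by rw [layS_card]; exact hL) h0 hh
  rw [th_layS hΩ] at main
  exact main

theorem e1_mem_upT {T : Site L → ℝ} {t : ℝ} {x : Site L} : x ∈ upT T t ↔ t < T x := by
  unfold upT
  rw [Finset.mem_filter]
  exact ⟨fun h => h.2, fun h => ⟨Finset.mem_univ _, h⟩⟩

/-- a core cut by the line: `th` is `thC` -/
theorem th_eq_thC (g : Gd L) (v : SS L) {S : Finset (Site L) → ℝ} {c W : Finset (Site L)} {k : ℕ}
    (hc : Sum.Cuts g.R (layS v c) k) :
    th S c W (upT g.T (layLev g v k)) = thC S c W (upT g.T (layLev g v k)) := by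
  obtain ⟨h1, h2⟩ := hc
  rw [Finset.not_subset] at h1
  rw [Finset.not_disjoint_iff] at h2
  obtain ⟨x, hx, hxR⟩ := h1
  obtain ⟨y, hy, hyR⟩ := h2
  unfold thC
  rw [if_pos]
  rcases v with v | v
  · rcases x with x | x
    · rcases y with y | y
      · refine ⟨⟨y, mem_inL_inl.1 hy, ?_⟩, ⟨x, mem_inL_inl.1 hx, ?_⟩⟩
        · rw [Gd.mem_R_inl] at hyR
          exact e1_mem_upT.2 hyR
        · rw [Gd.mem_R_inl] at hxR
          exact fun h' => hxR (e1_mem_upT.1 h')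
      · exact absurd hy mem_inL_inr
    · exact absurd hx mem_inL_inr
  · rcases x with x | x
    · exact absurd hx mem_inR_inl
    · rcases y with y | y
      · exact absurd hy mem_inR_inl
      · refine ⟨⟨x, mem_inR_inr.1 hx, ?_⟩, ⟨y, mem_inR_inr.1 hy, ?_⟩⟩
        · rw [Gd.mem_R_inr] at hxR
          exact e1_mem_upT.2 (not_le.1 hxR)
        · rw [Gd.mem_R_inr] at hyR
          exact fun h' => absurd (e1_mem_upT.1 h') (not_lt.2 hyR)

end e1

end Vale.Agent.P356.GA
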