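import Vale.Agent.P356.GA.Notch107

/-!
# GA, block THETA-AVG (helper124): the symmetric Markov functional of a core, averaged

For a core `c`, a window `W` and a cut `O` (a region), `th S c W O = S(c | N) + S(c | N')`, where
`N = (O ∩ W) \ c` and `N' = (W \ O) \ c`.  This is the quantity which bounds the sum of the two
`κ`'s of the single line lemma (both sides of the line).  It is bounded by the Markov defects of
the sites of the two-sided notch, and on average over the noise and the levels by the entropies of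
the tiles.
-/

set_option linter.all false

namespace Vale.Agent.P356.GA.Theta

open Finset Vale.Agent.P356 Vale.Agent.P356.SA Vale.Agent.P356.GA Vale.Agent.P356.GA.Notch
open MeasureTheory
open scoped BigOperators ENNReal

/-! ### Conditional entropies of regions -/

section ent

variable {V : Type*} [Fintype V] [DecidableEq V] {S : Finset V → ℝ}

/-- conditional entropy `S(c | N)` of a region -/
def ced (S : Finset V → ℝ) (c N : Finset V) : ℝ := S (c ∪ N) - S N

theorem ced_chain (S : Finset V → ℝ) (A B N : Finset V) :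
    ced S (A ∪ B) N = ced S A N + ced S B (A ∪ N) := by
  have e : B ∪ (A ∪ N) = A ∪ B ∪ N := by
    ext x
    simp only [mem_union]
    tauto
  unfold ced
  rw [e]
  ring

theorem ced_anti (hS : EntLike S) {c N N' : Finset V} (h : N ⊆ N') (hc : Disjoint c N') :
    ced S c N' ≤ ced S c N := by
  have h1 := hS.ssa c N (N' \ N) (hc.mono_right h) (hc.mono_right sdiff_subset) disjoint_sdiff
  rw [Finset.union_assoc, union_sdiff_of_subset h] at h1
  unfold ced
  linarith

/-- weak monotonicity: `S(A | B) + S(A | D) ≥ 0` -/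
theorem ced_weak (hS : EntLike S) {A B D : Finset V} (h1 : Disjoint A B) (h2 : Disjoint A D)
    (h3 : Disjoint B D) : 0 ≤ ced S A B + ced S A D := by
  have e1 : S (A ∪ D) = S (A ∪ D)ᶜ := (hS.compl _).symm
  have e2 : S D = S (A ∪ (A ∪ D)ᶜ) := by
    rw [← hS.compl D]
    congr 1
    ext x
    simp only [mem_compl, mem_union, not_or]
    constructor
    · intro hx
      by_cases hA : x ∈ A
      · exact Or.inl hA
      · exact Or.inr ⟨hA, hx⟩
    · rintro (hx | hx)
      · exact Finset.disjoint_left.1 h2 hx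
      · exact hx.2
  have hB : B ⊆ (A ∪ D)ᶜ := by
    intro x hx
    rw [mem_compl, mem_union, not_or]
    exact ⟨fun h => Finset.disjoint_left.1 h1 h hx, Finset.disjoint_left.1 h3 hx⟩
  have hA : Disjoint A (A ∪ D)ᶜ := by
    rw [Finset.disjoint_left]
    intro x hx hx'
    rw [mem_compl, mem_union, not_or] at hx'
    exact hx'.1 hx
  have h4 := ced_anti hS hB hA
  unfold ced at h4 ⊢
  linarith

/-- the symmetric Markov functional of the core `c` in the window `W`, for the cut `O` -/
def th (S : Finset V → ℝ) (c W O : Finset V) : ℝ :=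
  ced S c ((O ∩ W) \ c) + ced S c ((W \ O) \ c)

theorem th_nonneg (hS : EntLike S) (c W O : Finset V) : 0 ≤ th S c W O := by
  refine ced_weak hS disjoint_sdiff disjoint_sdiff ?_
  rw [Finset.disjoint_left]
  intro x hx hx'
  exact (mem_sdiff.1 (mem_sdiff.1 hx').1).2 (mem_inter.1 (mem_sdiff.1 hx).1).1

/-- the functional decreases when the window is enlarged -/
theorem th_anti (hS : EntLike S) {c W W' O : Finset V} (h : W ⊆ W') :
    th S c W' O ≤ th S c W O := by
  refine add_le_add (ced_anti hS ?_ disjoint_sdiff) (ced_anti hS ?_ disjoint_sdiff)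
  · exact sdiff_subset_sdiff (inter_subset_inter_left h) subset_rfl
  · exact sdiff_subset_sdiff (sdiff_subset_sdiff h subset_rfl) subset_rfl

/-- only the trace of the cut on the window matters -/
theorem th_congr (S : Finset V → ℝ) {c W O O' : Finset V} (h : O ∩ W = O' ∩ W) :
    th S c W O = th S c W O' := by
  have h' : W \ O = W \ O' := by
    ext x
    have := Finset.ext_iff.1 h x
    simp only [mem_inter, mem_sdiff] at this ⊢
    tauto
  unfold th
  rw [h, h']

/-- symmetry: the complementary cut -/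
theorem th_compl (S : Finset V → ℝ) (c W O : Finset V) : th S c W Oᶜ = th S c W O := by
  have e1 : Oᶜ ∩ W = W \ O := by
    ext x
    simp only [mem_inter, mem_compl, mem_sdiff]
    tauto
  have e2 : W \ Oᶜ = O ∩ W := by
    ext x
    simp only [mem_inter, mem_compl, mem_sdiff]
    tauto
  unfold th
  rw [e1, e2, add_comm]

/-- the functional increases with the core -/
theorem th_mono (hS : EntLike S) {c a W O : Finset V} (h : c ⊆ a) (ha : a ⊆ W) :
    th S c W O ≤ th S a W O := by
  set PO := (a \ c) ∩ O with hPO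
  set PI := (a \ c) \ O with hPI
  set Na := (O ∩ W) \ a with hNa
  set Na' := (W \ O) \ a with hNa'
  have ea : a = PO ∪ (c ∪ PI) := by
    ext x
    simp only [hPO, hPI, mem_union, mem_inter, mem_sdiff]
    have := @h x
    tauto
  have ea' : a = PI ∪ (c ∪ PO) := by
    ext x
    simp only [hPO, hPI, mem_union, mem_inter, mem_sdiff]
    have := @h x
    tauto
  have eN : (O ∩ W) \ c = PO ∪ Na := by
    ext x
    simp only [hPO, hNa, mem_union, mem_inter, mem_sdiff]
    have h1 := @h x
    have h2 := @ha x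
    tauto
  have eN' : (W \ O) \ c = PI ∪ Na' := by
    ext x
    simp only [hPI, hNa', mem_union, mem_inter, mem_sdiff]
    have h1 := @h x
    have h2 := @ha x
    tauto
  have e1 : ced S a Na = ced S PO Na + (ced S c (PO ∪ Na) + ced S PI (c ∪ (PO ∪ Na))) := by
    conv_lhs => rw [ea]
    rw [ced_chain, ced_chain]
  have e2 : ced S a Na' = ced S PI Na' + (ced S c (PI ∪ Na') + ced S PO (c ∪ (PI ∪ Na'))) := by
    conv_lhs => rw [ea']
    rw [ced_chain, ced_chain]
  have w1 : 0 ≤ ced S PO Na + ced S PO (c ∪ (PI ∪ Na')) := by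
    refine ced_weak hS ?_ ?_ ?_ <;> rw [Finset.disjoint_left] <;> intro x hx hx' <;>
      simp only [hPO, hPI, hNa, hNa', mem_union, mem_inter, mem_sdiff] at hx hx' <;>
      have h1 := @h x <;> tauto
  have w2 : 0 ≤ ced S PI (c ∪ (PO ∪ Na)) + ced S PI Na' := by
    refine ced_weak hS ?_ ?_ ?_ <;> rw [Finset.disjoint_left] <;> intro x hx hx' <;>
      simp only [hPO, hPI, hNa, hNa', mem_union, mem_inter, mem_sdiff] at hx hx' <;>
      have h1 := @h x <;> tauto
  show ced S c ((O ∩ W) \ c) + ced S c ((W \ O) \ c) ≤ ced S a Na + ced S a Na'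
  rw [e1, e2, eN, eN']
  linarith

/-- crude bound -/
theorem th_le (hS : EntLike S) (c W O : Finset V) : th S c W O ≤ 2 * S c := by
  have h1 := ced_anti hS (c := c) (Finset.empty_subset ((O ∩ W) \ c)) disjoint_sdiff
  have h2 := ced_anti hS (c := c) (Finset.empty_subset ((W \ O) \ c)) disjoint_sdiff
  have h3 : ced S c ∅ = S c := by
    unfold ced
    rw [hS.empty, Finset.union_empty, sub_zero]
  unfold th
  linarith

/-- the two `κ`'s of the single line lemma, core `c = aR ∪ a'` (`aR ⊆ O`, `a'` off `O`),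
`b = aR ∪ N`, `b' = a' ∪ N'`: their sum is `S(c | N) + S(c | N')` -/
theorem kappa_sum (S : Finset V → ℝ) (aR a' N N' : Finset V) :
    (ced S aR N + ced S aR (a' ∪ N')) + (ced S a' N' + ced S a' (aR ∪ N)) =
      ced S (aR ∪ a') N + ced S (aR ∪ a') N' := by
  have h1 := ced_chain S aR a' N
  have h2 := ced_chain S a' aR N'
  rw [Finset.union_comm a' aR] at h2
  rw [h1, h2]
  ring

/-- each of the two `κ`'s is non-negative (weak monotonicity) -/
theorem kappa_nonneg (hS : EntLike S) {aR a' N N' : Finset V} (h1 : Disjoint aR N)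
    (h2 : Disjoint aR (a' ∪ N')) (h3 : Disjoint N (a' ∪ N')) :
    0 ≤ ced S aR N + ced S aR (a' ∪ N') := ced_weak hS h1 h2 h3

end ent

/-! ### The pointwise bound -/

variable {V B : Type*} [Fintype V] [DecidableEq V] [Fintype B] [DecidableEq B]
  {d : V → ℝ} {β : B → V → ℝ} {idx : V → ℕ} {S : Finset V → ℝ}

/-- the two-sided notch of the bump `b` at the level `t` -/
noncomputable def notch2 (d : V → ℝ) (β : B → V → ℝ) (v : B → ℝ) (b : B) (l t : ℝ) : Finset V :=
  univ.filter fun x => |hgt d β v x - t| ≤ l * β b x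

theorem mem_notch2 {v : B → ℝ} {b : B} {l t : ℝ} {x : V} :
    x ∈ notch2 d β v b l t ↔ |hgt d β v x - t| ≤ l * β b x := by
  rw [notch2, mem_filter]
  simp

/-- **Pointwise bound of the notch.** -/
theorem th_notch (hS : EntLike S) (hidx : Function.Injective idx) (hβ : ∀ b x, 0 ≤ β b x)
    {v : B → ℝ} {t : ℝ} (ht : ∀ y, hgt d β v y ≠ t) {b : B} {W : Finset V} {tl : V → Finset V}
    (hW : ∀ x, 0 < β b x → x ∈ W ∧ tl x ⊆ W) {l : ℝ} :
    th S (notch2 d β v b l t) W (out d β v t) ≤
      ∑ x ∈ notch2 d β v b l t,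
        del S d β idx tl (low v b ((hgt d β v x - t) / β b x)) x := by
  set a := notch2 d β v b l t with ha
  set lam : V → ℝ := fun x => (hgt d β v x - t) / β b x with hlam
  have hpos : ∀ x ∈ a, 0 < β b x := by
    intro x hx
    have h1 := mem_notch2.1 hx
    rcases (hβ b x).lt_or_eq with h | h
    · exact h
    · rw [← h, mul_zero] at h1
      have h2 := abs_nonpos_iff.1 h1
      exact absurd (sub_eq_zero.1 h2) (ht x)
  have hlaml : ∀ x ∈ a, |lam x| ≤ l := fun x hx => by
    rw [hlam]
    simp only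
    rw [abs_div, abs_of_pos (hpos x hx), div_le_iff₀ (hpos x hx)]
    exact mem_notch2.1 hx
  have hlamx : ∀ x ∈ a, hgt d β v x - lam x * β b x = t := by
    intro x hx
    rw [hlam]
    simp only
    rw [div_mul_cancel₀ _ (hpos x hx).ne']
    ring
  set κ : V → (ℝ ×ₗ ℕ) := fun x => toLex (lam x, idx x) with hκ
  have hκinj : Function.Injective κ := by
    intro x y h
    apply hidx
    have h1 : (lam x, idx x) = (lam y, idx y) := toLex.injective h
    exact (Prod.ext_iff.1 h1).2
  have hκlt : ∀ x y, κ x < κ y ↔ lam x < lam y ∨ lam x = lam y ∧ idx x < idx y := by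
    intro x y
    rw [hκ]
    simp only
    rw [Prod.Lex.toLex_lt_toLex]
  have hmemout : ∀ x, x ∈ out d β v t ↔ t < hgt d β v x := fun x => by
    rw [out, mem_filter]
    simp
  -- the order pattern of `x` in the lowered heights
  have hup : ∀ x ∈ a, above (key d β idx (low v b (lam x))) (tl x) x ⊆
      above κ a x ∪ (out d β v t ∩ W) \ a := by
    intro x hx y hy
    obtain ⟨hy1, hy2⟩ := mem_filter.1 hy
    have hyW : y ∈ W := (hW x (hpos x hx)).2 hy1
    rw [key_lt, hgt_low, hgt_low, hlamx x hx] at hy2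
    by_cases hya : y ∈ a
    · refine mem_union_left _ (mem_filter.2 ⟨hya, (hκlt x y).2 ?_⟩)
      have h1 := hlamx y hya
      have h2 := hpos y hya
      rcases hy2 with h3 | ⟨h3, h4⟩
      · left
        have h5 : lam x * β b y < lam y * β b y := by linarith
        exact lt_of_mul_lt_mul_right h5 h2.le
      · right
        have h5 : lam x * β b y = lam y * β b y := by linarith
        exact ⟨mul_right_cancel₀ h2.ne' h5, h4⟩
    · refine mem_union_right _ (mem_sdiff.2 ⟨mem_inter.2 ⟨(hmemout y).2 ?_, hyW⟩, hya⟩)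
      by_contra h1
      have h2 : l * β b y < |hgt d β v y - t| := by
        by_contra h
        exact hya (mem_notch2.2 (not_lt.1 h))
      rw [abs_of_nonpos (by linarith [not_lt.1 h1])] at h2
      have h3 : -l * β b y ≤ lam x * β b y :=
        mul_le_mul_of_nonneg_right (abs_le.1 (hlaml x hx)).1 (hβ b y)
      rcases hy2 with h5 | ⟨h5, -⟩ <;> linarith
  have hdn : ∀ x ∈ a, below (key d β idx (low v b (lam x))) (tl x) x ⊆
      below κ a x ∪ (W \ out d β v t) \ a := by
    intro x hx y hy
    obtain ⟨hy1, hy2⟩ := mem_filter.1 hy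
    have hyW : y ∈ W := (hW x (hpos x hx)).2 hy1
    rw [key_lt, hgt_low, hgt_low, hlamx x hx] at hy2
    by_cases hya : y ∈ a
    · refine mem_union_left _ (mem_filter.2 ⟨hya, (hκlt y x).2 ?_⟩)
      have h1 := hlamx y hya
      have h2 := hpos y hya
      rcases hy2 with h3 | ⟨h3, h4⟩
      · left
        have h5 : lam y * β b y < lam x * β b y := by linarith
        exact lt_of_mul_lt_mul_right h5 h2.le
      · right
        have h5 : lam y * β b y = lam x * β b y := by linarith
        exact ⟨mul_right_cancel₀ h2.ne' h5, h4⟩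
    · refine mem_union_right _ (mem_sdiff.2 ⟨mem_sdiff.2 ⟨hyW, fun h => ?_⟩, hya⟩)
      have h1 := (hmemout y).1 h
      have h2 : l * β b y < |hgt d β v y - t| := by
        by_contra h
        exact hya (mem_notch2.2 (not_lt.1 h))
      rw [abs_of_nonneg (by linarith)] at h2
      have h3 : lam x * β b y ≤ l * β b y :=
        mul_le_mul_of_nonneg_right (abs_le.1 (hlaml x hx)).2 (hβ b y)
      rcases hy2 with h5 | ⟨h5, -⟩ <;> linarith
  show ced S a ((out d β v t ∩ W) \ a) + ced S a ((W \ out d β v t) \ a) ≤ _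
  unfold ced
  rw [chain_above hκinj S a, chain_below hκinj S a, ← Finset.sum_add_distrib]
  refine Finset.sum_le_sum fun x hx => ?_
  unfold del
  rw [add_comm (ce S x (below _ _ _))]
  refine add_le_add (ce_anti hS (hup x hx) ?_) (ce_anti hS (hdn x hx) ?_)
  · rw [mem_union, not_or]
    exact ⟨notMem_above κ a x, fun h => (mem_sdiff.1 h).2 hx⟩
  · rw [mem_union, not_or]
    exact ⟨notMem_below κ a x, fun h => (mem_sdiff.1 h).2 hx⟩

/-- **Pointwise bound of a core.** -/
theorem th_core (hS : EntLike S) (hidx : Function.Injective idx) (hβ : ∀ b x, 0 ≤ β b x)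
    {v : B → ℝ} {t : ℝ} (ht : ∀ y, hgt d β v y ≠ t) {b : B} {W c : Finset V} {tl : V → Finset V}
    (hW : ∀ x, 0 < β b x → x ∈ W ∧ tl x ⊆ W) {l : ℝ}
    (hc : ∀ x ∈ c, |hgt d β v x - t| ≤ l * β b x) :
    th S c W (out d β v t) ≤
      ∑ x ∈ notch2 d β v b l t,
        del S d β idx tl (low v b ((hgt d β v x - t) / β b x)) x := by
  refine le_trans (th_mono hS (fun x hx => mem_notch2.2 (hc x hx)) ?_)
    (th_notch hS hidx hβ ht hW)
  intro x hx
  have h1 := mem_notch2.1 hx
  rcases (hβ b x).lt_or_eq with h | h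
  · exact (hW x h).1
  · rw [← h, mul_zero] at h1
    exact absurd (sub_eq_zero.1 (abs_nonpos_iff.1 h1)) (ht x)

/-! ### Averages -/

/-- change of variables in the level -/
theorem lintegral_level2 {T b : ℝ} (hb : 0 < b) {s : Set ℝ} (hs : MeasurableSet s)
    {F : ℝ → ℝ≥0∞} (hF : Measurable F) :
    ∫⁻ t : ℝ, s.indicator F ((T - t) / b) = ENNReal.ofReal b * ∫⁻ u in s, F u := by
  set K : ℝ → ℝ≥0∞ := s.indicator F with hK
  have hKm : Measurable K := hF.indicator hs
  rw [lintegral_sub_left_eq_self (fun u : ℝ => K (u / b)) T]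
  have h3 : ∫⁻ u : ℝ, K (u / b) = ∫⁻ u, K u ∂(Measure.map (b⁻¹ * ·) volume) := by
    rw [lintegral_map hKm (measurable_const_mul _)]
    refine lintegral_congr fun u => ?_
    rw [div_eq_inv_mul]
  rw [h3, Real.map_volume_mul_left (inv_ne_zero hb.ne'), lintegral_smul_measure, inv_inv,
    abs_of_pos hb, hK, lintegral_indicator hs, smul_eq_mul]

/-- the integral over the levels of the sum over the notch -/
theorem lintegral_notch2 (hβ : ∀ b x, 0 ≤ β b x) (tl : V → Finset V) (v : B → ℝ) (b : B) (l : ℝ) :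
    ∫⁻ t : ℝ, ∑ x ∈ notch2 d β v b l t,
        ENNReal.ofReal (del S d β idx tl (low v b ((hgt d β v x - t) / β b x)) x) =
      ∑ x, ENNReal.ofReal (β b x) * ∫⁻ s in Set.Icc (-l) l,
        ENNReal.ofReal (del S d β idx tl (low v b s) x) := by
  classical
  have hmeas : ∀ x, Measurable fun s : ℝ => ENNReal.ofReal (del S d β idx tl (low v b s) x) := by
    intro x
    refine ENNReal.measurable_ofReal.comp (measurable_del ?_ S d β idx tl x)
    unfold low
    fun_prop
  have h1 : ∀ t : ℝ, ∑ x ∈ notch2 d β v b l t,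
      ENNReal.ofReal (del S d β idx tl (low v b ((hgt d β v x - t) / β b x)) x) =
      ∑ x, (if |hgt d β v x - t| ≤ l * β b x then
        ENNReal.ofReal (del S d β idx tl (low v b ((hgt d β v x - t) / β b x)) x) else 0) := by
    intro t
    rw [notch2, Finset.sum_filter]
  simp only [h1]
  rw [lintegral_finsetSum']
  · refine Finset.sum_congr rfl fun x _ => ?_
    rcases (hβ b x).lt_or_eq with h | h
    · rw [← lintegral_level2 (T := hgt d β v x) h measurableSet_Icc (hmeas x)]
      refine lintegral_congr fun t => ?_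
      rw [Set.indicator_apply]
      have h2 : |hgt d β v x - t| ≤ l * β b x ↔ (hgt d β v x - t) / β b x ∈ Set.Icc (-l) l := by
        rw [Set.mem_Icc, ← abs_le, abs_div, abs_of_pos h, div_le_iff₀ h]
      simp only [h2]
    · rw [← h, ENNReal.ofReal_zero, zero_mul]
      have hnull : ∀ᵐ t : ℝ, hgt d β v x ≠ t := by
        have : ({hgt d β v x} : Set ℝ)ᶜ ∈ ae (volume : Measure ℝ) := by
          rw [mem_ae_iff, compl_compl]
          exact Real.volume_singleton
        filter_upwards [this] with t ht h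
        exact ht (by rw [h]; rfl)
      rw [lintegral_eq_zero_iff' ?_]
      · filter_upwards [hnull] with t ht
        rw [if_neg]
        · rfl
        · rw [mul_zero]
          exact fun h2 => ht (sub_eq_zero.1 (abs_nonpos_iff.1 h2))
      · refine (Measurable.ite ?_ ?_ measurable_const).aemeasurable
        · exact measurableSet_le (continuous_abs.measurable.comp (measurable_const.sub measurable_id)) measurable_const
        · exact (hmeas x).comp ((measurable_const.sub measurable_id).div_const _)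
  · intro x _
    refine (Measurable.ite ?_ ?_ measurable_const).aemeasurable
    · exact measurableSet_le (continuous_abs.measurable.comp (measurable_const.sub measurable_id)) measurable_const
    · exact (hmeas x).comp ((measurable_const.sub measurable_id).div_const _)

/-- moving a bump inside of the cube -/
theorem lintegral_low2 (tl : V → Finset V) (b : B) (x : V) {l s : ℝ} (hs : -l ≤ s) (hsl : s ≤ l) :
    ∫⁻ v in {v | v ∈ cube B ∧ l ≤ v b ∧ v b ≤ 1 - l},
        ENNReal.ofReal (del S d β idx tl (low v b s) x) ≤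
      ∫⁻ v in cube B, ENNReal.ofReal (del S d β idx tl v x) := by
  have hm : MeasurableSet {v : B → ℝ | v ∈ cube B ∧ l ≤ v b ∧ v b ≤ 1 - l} :=
    measurableSet_cube.inter ((measurableSet_le measurable_const (measurable_pi_apply b)).inter
      (measurableSet_le (measurable_pi_apply b) measurable_const))
  rw [← lintegral_indicator hm, ← lintegral_indicator measurableSet_cube]
  rw [← lintegral_sub_right_eq_self (fun v : B → ℝ => (cube B).indicator
    (fun v => ENNReal.ofReal (del S d β idx tl v x)) v) (s • (Pi.single b (1:ℝ) : B → ℝ))]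
  refine lintegral_mono fun v => ?_
  show ({v : B → ℝ | v ∈ cube B ∧ l ≤ v b ∧ v b ≤ 1 - l}).indicator _ v ≤ (cube B).indicator _ _
  by_cases hv : v ∈ {v : B → ℝ | v ∈ cube B ∧ l ≤ v b ∧ v b ≤ 1 - l}
  · rw [Set.indicator_of_mem hv]
    have h1 : v - s • (Pi.single b (1:ℝ) : B → ℝ) ∈ cube B := by
      intro b' _
      have h2 := hv.1 b' (Set.mem_univ _)
      by_cases hb : b' = b
      · subst hb
        have h3 := hv.2
        simp only [Pi.sub_apply, Pi.smul_apply, Pi.single_eq_same, smul_eq_mul, mul_one]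
        exact ⟨by linarith, by linarith⟩
      · simp only [Pi.sub_apply, Pi.smul_apply, Pi.single_eq_of_ne hb, smul_eq_mul, mul_zero,
          sub_zero]
        exact h2
    rw [Set.indicator_of_mem h1]
    exact le_rfl
  · rw [Set.indicator_of_notMem hv]
    exact bot_le

/-- the functional of a core which is cut by the region `O`, else `0` -/
noncomputable def thC (S : Finset V → ℝ) (c W O : Finset V) : ℝ :=
  open Classical in if (∃ x ∈ c, x ∈ O) ∧ ∃ y ∈ c, y ∉ O then th S c W O else 0

omit [Fintype B] [DecidableEq B] in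
theorem thC_nonneg (hS : EntLike S) (c W O : Finset V) : 0 ≤ thC S c W O := by
  unfold thC
  split_ifs
  · exact th_nonneg hS _ _ _
  · exact le_rfl

omit [Fintype B] [DecidableEq B] in
theorem thC_anti (hS : EntLike S) {c W W' O : Finset V} (h : W ⊆ W') :
    thC S c W' O ≤ thC S c W O := by
  unfold thC
  split_ifs
  · exact th_anti hS h
  · exact le_rfl

omit [Fintype B] [DecidableEq B] in
theorem thC_le (hS : EntLike S) (c W O : Finset V) : thC S c W O ≤ 2 * S c := by
  unfold thC
  split_ifs
  · exact th_le hS _ _ _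
  · exact mul_nonneg zero_le_two (hS.nonneg c)

/-- **one bump**: the average over the noise (with `l ≤ v b ≤ 1 - l`) and over all levels of the
functional of the core `c`, when it is cut. -/
theorem th_one (hS : EntLike S) (hidx : Function.Injective idx) (hβ : ∀ b x, 0 ≤ β b x)
    (tl : V → Finset V) {b : B} {c W : Finset V} {l : ℝ} (hl : 0 ≤ l)
    (hW : ∀ x, 0 < β b x → x ∈ W ∧ tl x ⊆ W)
    (hosc : ∀ v ∈ cube B, ∀ x ∈ c, ∀ y ∈ c, |hgt d β v x - hgt d β v y| ≤ l * β b x) :
    ∫⁻ v in {v | v ∈ cube B ∧ l ≤ v b ∧ v b ≤ 1 - l}, ∫⁻ t : ℝ,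
      ENNReal.ofReal (thC S c W (out d β v t)) ≤
      ENNReal.ofReal (2 * l) * ∑ x, ENNReal.ofReal (β b x) *
        ∫⁻ v in cube B, ENNReal.ofReal (del S d β idx tl v x) := by
  classical
  have hm : MeasurableSet {v : B → ℝ | v ∈ cube B ∧ l ≤ v b ∧ v b ≤ 1 - l} :=
    measurableSet_cube.inter ((measurableSet_le measurable_const (measurable_pi_apply b)).inter
      (measurableSet_le (measurable_pi_apply b) measurable_const))
  have hmemout : ∀ (v : B → ℝ) t x, x ∈ out d β v t ↔ t < hgt d β v x := fun v t x => by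
    rw [out, mem_filter]
    simp
  -- pointwise in `v`
  have h1 : ∀ v ∈ {v : B → ℝ | v ∈ cube B ∧ l ≤ v b ∧ v b ≤ 1 - l}, ∫⁻ t : ℝ,
      ENNReal.ofReal (thC S c W (out d β v t)) ≤
      ∑ x, ENNReal.ofReal (β b x) * ∫⁻ s in Set.Icc (-l) l,
        ENNReal.ofReal (del S d β idx tl (low v b s) x) := by
    intro v hv
    rw [← lintegral_notch2 hβ tl v b l]
    -- the levels `T_y` are negligible
    have hnull : ∀ᵐ t : ℝ, ∀ y, hgt d β v y ≠ t := by
      rw [ae_all_iff]
      intro y
      have : ({hgt d β v y} : Set ℝ)ᶜ ∈ ae (volume : Measure ℝ) := by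
        rw [mem_ae_iff, compl_compl]
        exact Real.volume_singleton
      filter_upwards [this] with t ht h
      exact ht (by rw [h]; rfl)
    refine lintegral_mono_ae ?_
    filter_upwards [hnull] with t ht
    unfold thC
    split_ifs with hcut
    · obtain ⟨⟨z, hz, hzt⟩, y, hy, hyt⟩ := hcut
      rw [hmemout] at hzt hyt
      have h2 := th_core (tl := tl) hS hidx hβ ht (b := b) (W := W) (c := c) hW (l := l)
        (fun x hx => by
          have h3 := hosc v hv.1 x hx y hy
          have h4 := hosc v hv.1 x hx z hz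
          rw [abs_le] at h3 h4 ⊢
          rcases le_or_gt t (hgt d β v x) with h5 | h5
          · exact ⟨by linarith [mul_nonneg hl (hβ b x)], by linarith⟩
          · exact ⟨by linarith, by linarith [mul_nonneg hl (hβ b x)]⟩)
      refine (ENNReal.ofReal_le_ofReal h2).trans (le_of_eq ?_)
      rw [ENNReal.ofReal_sum_of_nonneg fun x _ => del_nonneg hS tl _ x]
    · rw [ENNReal.ofReal_zero]
      exact bot_le
  have hmj : ∀ x, Measurable fun p : (B → ℝ) × ℝ =>
      ENNReal.ofReal (del S d β idx tl (low p.1 b p.2) x) := by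
    intro x
    refine ENNReal.measurable_ofReal.comp (measurable_del ?_ S d β idx tl x)
    unfold low
    fun_prop
  calc _ ≤ ∫⁻ v in {v | v ∈ cube B ∧ l ≤ v b ∧ v b ≤ 1 - l}, ∑ x, ENNReal.ofReal (β b x) *
        ∫⁻ s in Set.Icc (-l) l, ENNReal.ofReal (del S d β idx tl (low v b s) x) :=
        setLIntegral_mono' hm h1
    _ = ∑ x, ENNReal.ofReal (β b x) * ∫⁻ v in {v | v ∈ cube B ∧ l ≤ v b ∧ v b ≤ 1 - l},
        ∫⁻ s in Set.Icc (-l) l, ENNReal.ofReal (del S d β idx tl (low v b s) x) := by
        rw [lintegral_finsetSum]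
        · refine Finset.sum_congr rfl fun x _ => ?_
          rw [lintegral_const_mul]
          exact (hmj x).lintegral_prod_right'
        · intro x _
          exact ((hmj x).lintegral_prod_right').const_mul _
    _ = ∑ x, ENNReal.ofReal (β b x) * ∫⁻ s in Set.Icc (-l) l,
        ∫⁻ v in {v | v ∈ cube B ∧ l ≤ v b ∧ v b ≤ 1 - l},
          ENNReal.ofReal (del S d β idx tl (low v b s) x) := by
        refine Finset.sum_congr rfl fun x _ => ?_
        rw [lintegral_lintegral_swap (hmj x).aemeasurable]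
    _ ≤ ∑ x, ENNReal.ofReal (β b x) * ∫⁻ s in Set.Icc (-l) l,
        ∫⁻ v in cube B, ENNReal.ofReal (del S d β idx tl v x) := by
        refine Finset.sum_le_sum fun x _ => mul_le_mul_right ?_ _
        exact setLIntegral_mono' measurableSet_Icc fun s hs => lintegral_low2 tl b x hs.1 hs.2
    _ = ENNReal.ofReal (2 * l) * ∑ x, ENNReal.ofReal (β b x) *
        ∫⁻ v in cube B, ENNReal.ofReal (del S d β idx tl v x) := by
        rw [Finset.mul_sum]
        refine Finset.sum_congr rfl fun x _ => ?_
        rw [setLIntegral_const, Real.volume_Icc]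
        have : l - -l = 2 * l := by ring
        rw [this]
        ring

/-- **(THETA-AVG)**: cores `c k`, `k ∈ Ks`, windows `W k`, bumps `bk k`; the average over the
noise and all levels of the sum of the functionals `S(c | N) + S(c | N')` of the cores which are
cut is at most `4 A` times the sum of the entropies of the tiles. -/
theorem th_avg (hS : EntLike S) (hidx : Function.Injective idx) (hβ : ∀ b x, 0 ≤ β b x)
    (tl : V → Finset V) {K : Type*} (Ks : Finset K) (bk : K → B) (c W : K → Finset V) {l : K → ℝ}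
    (hl : ∀ k ∈ Ks, 0 ≤ l k) {A : ℝ} (hA : 0 ≤ A)
    (hW : ∀ k ∈ Ks, ∀ x, 0 < β (bk k) x → x ∈ W k ∧ tl x ⊆ W k)
    (hosc : ∀ k ∈ Ks, ∀ v ∈ cube B, ∀ x ∈ c k, ∀ y ∈ c k,
      |hgt d β v x - hgt d β v y| ≤ l k * β (bk k) x)
    (hsum : ∀ x, ∑ k ∈ Ks, l k * β (bk k) x ≤ A)
    {J : Type*} (s : Finset J) (t : J → Finset V)
    (hd : ∀ i ∈ s, ∀ j ∈ s, i ≠ j → Disjoint (t i) (t j))
    (ht : ∀ i ∈ s, ∀ x ∈ t i, t i ⊆ tl x)
    (hcov : ∀ k ∈ Ks, ∀ x, 0 < β (bk k) x → x ∈ s.biUnion t) :
    ∑ k ∈ Ks, ∫⁻ v in {v | v ∈ cube B ∧ l k ≤ v (bk k) ∧ v (bk k) ≤ 1 - l k}, ∫⁻ τ : ℝ,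
      ENNReal.ofReal (thC S (c k) (W k) (out d β v τ)) ≤
      ENNReal.ofReal (4 * A * ∑ i ∈ s, S (t i)) := by
  classical
  set U := s.biUnion t with hU
  have h0 : ∀ k ∈ Ks, ∀ x, x ∉ U → β (bk k) x = 0 := by
    intro k hk x hx
    rcases (hβ (bk k) x).lt_or_eq with h | h
    · exact absurd (hcov k hk x h) hx
    · exact h.symm
  have hmj : ∀ x, Measurable fun v : B → ℝ => ENNReal.ofReal (del S d β idx tl v x) :=
    fun x => ENNReal.measurable_ofReal.comp (measurable_del measurable_id S d β idx tl x)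
  have h1 : ∀ k ∈ Ks, ∫⁻ v in {v | v ∈ cube B ∧ l k ≤ v (bk k) ∧ v (bk k) ≤ 1 - l k},
      ∫⁻ τ : ℝ, ENNReal.ofReal (thC S (c k) (W k) (out d β v τ)) ≤
      ∑ x ∈ U, ENNReal.ofReal (2 * (l k * β (bk k) x)) *
        ∫⁻ v in cube B, ENNReal.ofReal (del S d β idx tl v x) := by
    intro k hk
    refine (th_one hS hidx hβ tl (hl k hk) (hW k hk) (hosc k hk)).trans (le_of_eq ?_)
    rw [Finset.mul_sum]
    rw [← Finset.sum_subset (Finset.subset_univ U) (fun x _ hx => by
      rw [h0 k hk x hx, ENNReal.ofReal_zero, zero_mul, mul_zero])]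
    refine Finset.sum_congr rfl fun x _ => ?_
    rw [← mul_assoc, ← mul_assoc, ENNReal.ofReal_mul (mul_nonneg zero_le_two (hl k hk))]
  have htil : ∀ v : B → ℝ, ∑ x ∈ U, ENNReal.ofReal (del S d β idx tl v x) ≤
      ENNReal.ofReal (2 * ∑ i ∈ s, S (t i)) := by
    intro v
    rw [← ENNReal.ofReal_sum_of_nonneg fun x _ => del_nonneg hS tl v x]
    refine ENNReal.ofReal_le_ofReal ?_
    have h2 := tiles_le (T := key d β idx v) (key_injective hidx v) hS s t hd (B := tl) ht
    refine le_trans (le_of_eq ?_) h2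
    exact Finset.sum_congr (by rw [hU]) fun x _ => rfl
  calc _ ≤ ∑ k ∈ Ks, ∑ x ∈ U, ENNReal.ofReal (2 * (l k * β (bk k) x)) *
        ∫⁻ v in cube B, ENNReal.ofReal (del S d β idx tl v x) := Finset.sum_le_sum h1
    _ = ∑ x ∈ U, (∑ k ∈ Ks, ENNReal.ofReal (2 * (l k * β (bk k) x))) *
        ∫⁻ v in cube B, ENNReal.ofReal (del S d β idx tl v x) := by
        rw [Finset.sum_comm]
        exact Finset.sum_congr rfl fun x _ => by rw [Finset.sum_mul]
    _ ≤ ∑ x ∈ U, ENNReal.ofReal (2 * A) *
        ∫⁻ v in cube B, ENNReal.ofReal (del S d β idx tl v x) := by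
        refine Finset.sum_le_sum fun x _ => mul_le_mul_left ?_ _
        rw [← ENNReal.ofReal_sum_of_nonneg fun k hk =>
          mul_nonneg zero_le_two (mul_nonneg (hl k hk) (hβ _ _)), ← Finset.mul_sum]
        exact ENNReal.ofReal_le_ofReal (mul_le_mul_of_nonneg_left (hsum x) zero_le_two)
    _ = ENNReal.ofReal (2 * A) * ∫⁻ v in cube B,
        ∑ x ∈ U, ENNReal.ofReal (del S d β idx tl v x) := by
        rw [← Finset.mul_sum, lintegral_finsetSum _ fun x _ => hmj x]
    _ ≤ ENNReal.ofReal (2 * A) * ∫⁻ v in cube B, ENNReal.ofReal (2 * ∑ i ∈ s, S (t i)) := by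
        refine mul_le_mul_right ?_ _
        exact setLIntegral_mono' measurableSet_cube fun v _ => htil v
    _ = ENNReal.ofReal (4 * A * ∑ i ∈ s, S (t i)) := by
        rw [setLIntegral_const, volume_cube, mul_one, ← ENNReal.ofReal_mul (by positivity)]
        congr 1
        ring

/-- the exceptional noise -/
theorem volume_exc2 (b : B) {l : ℝ} (hl : 0 ≤ l) :
    volume {v : B → ℝ | v ∈ cube B ∧ ¬ (l ≤ v b ∧ v b ≤ 1 - l)} ≤ ENNReal.ofReal (2 * l) := by
  classical
  have h1 : {v : B → ℝ | v ∈ cube B ∧ ¬ (l ≤ v b ∧ v b ≤ 1 - l)} ⊆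
      {v : B → ℝ | v ∈ cube B ∧ v b < l} ∪
      Set.pi Set.univ fun b' => if b' = b then Set.Icc (1 - l) 1 else Set.Icc (0:ℝ) 1 := by
    rintro v ⟨h2, h3⟩
    by_cases h4 : v b < l
    · exact Or.inl ⟨h2, h4⟩
    · right
      intro b' _
      have h5 := h2 b' (Set.mem_univ _)
      show v b' ∈ if b' = b then Set.Icc (1 - l) 1 else Set.Icc (0:ℝ) 1
      by_cases hb : b' = b
      · rw [if_pos hb]
        subst hb
        refine ⟨?_, h5.2⟩
        by_contra h6
        exact h3 ⟨not_lt.1 h4, (not_le.1 h6).le⟩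
      · rw [if_neg hb]
        exact h5
  refine (measure_mono h1).trans ((measure_union_le _ _).trans ?_)
  have h2 : volume (Set.pi Set.univ fun b' : B =>
      if b' = b then Set.Icc (1 - l) 1 else Set.Icc (0:ℝ) 1) = ENNReal.ofReal l := by
    rw [volume_pi, Measure.pi_pi]
    have h3 : ∀ b', volume (if b' = b then Set.Icc (1 - l) 1 else Set.Icc (0:ℝ) 1) =
        if b' = b then ENNReal.ofReal l else 1 := by
      intro b'
      split_ifs
      · rw [Real.volume_Icc]
        congr 1
        ring
      · rw [Real.volume_Icc, sub_zero, ENNReal.ofReal_one]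
    simp only [h3]
    rw [Finset.prod_ite_eq' Finset.univ b, if_pos (Finset.mem_univ b)]
  rw [h2, two_mul, ENNReal.ofReal_add hl hl]
  exact add_le_add (volume_exc b hl) le_rfl

end Vale.Agent.P356.GA.Theta
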