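import Vale.Agent.P356.GA.Level795b
import Vale.Agent.P356.GA.Theta124

/-!
# GA, block LEVEL (helper795): the level function of the cuts on the square lattice

`T = d + noise` with tents of radius `s`; cuts `lev T (t0 + k)`, `k < n`; the two-sided Markov
defects (`thC` of helper124) of the cores `bal z D` in the windows `bal z (3 ρ)` are small on average for all but few
sites, and the total boundary of the cuts is at most a constant times the area of the ring.
-/

set_option linter.all false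

namespace Vale.Agent.P356.GA.Level

open Finset Vale.Agent.P356 Vale.Agent.P356.SV Vale.Agent.P356.SA Vale.Agent.P356.GA
open Vale.Agent.P356.GA.Notch Vale.Agent.P356.GA.Theta MeasureTheory
open scoped BigOperators ENNReal

variable {L : ℕ}

/-- the level set -/
noncomputable def lev (T : Site L → ℝ) (t : ℝ) : Finset (Site L) := univ.filter fun x => t < T x

theorem mem_lev {T : Site L → ℝ} {t : ℝ} {x : Site L} : x ∈ lev T t ↔ t < T x := by
  simp [lev]

theorem lev_anti (T : Site L → ℝ) {t t' : ℝ} (h : t ≤ t') : lev T t' ⊆ lev T t := by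
  intro x hx
  rw [mem_lev] at hx ⊢
  linarith

/-- the sites whose level is near the range `(a₀, a₀ + n]` of the cuts -/
noncomputable def zone (d : Site L → ℝ) (a₀ : ℝ) (n s : ℕ) : Finset (Site L) :=
  univ.filter fun x => a₀ - 2 * s ≤ d x ∧ d x ≤ a₀ + n + 2 * s

theorem mem_zone {d : Site L → ℝ} {a₀ : ℝ} {n s : ℕ} {x : Site L} :
    x ∈ zone d a₀ n s ↔ a₀ - 2 * s ≤ d x ∧ d x ≤ a₀ + n + 2 * s := by
  simp [zone]

theorem card_nbr (x : Site L) : (univ.filter fun y : Site L => dist1 y x = 1).card ≤ 4 := by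
  classical
  have h1 : (univ.filter fun y : Site L => dist1 y x = 1).card ≤
      ({((x.1 : ℤ) + 1, (x.2 : ℤ)), ((x.1 : ℤ) - 1, (x.2 : ℤ)), ((x.1 : ℤ), (x.2 : ℤ) + 1),
        ((x.1 : ℤ), (x.2 : ℤ) - 1)} : Finset (ℤ × ℤ)).card := by
    refine Finset.card_le_card_of_injOn (fun p => (((p.1 : ℕ) : ℤ), ((p.2 : ℕ) : ℤ))) ?_ ?_
    · intro p hp
      rw [Finset.mem_coe, mem_filter] at hp
      have h := hp.2
      unfold dist1 at h
      rw [Finset.mem_coe]
      simp only [mem_insert, mem_singleton, Prod.mk.injEq]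
      omega
    · intro p _ p' _ h
      have h1 := congrArg Prod.fst h
      have h2 := congrArg Prod.snd h
      simp only at h1 h2
      exact Prod.ext (Fin.ext (by exact_mod_cast h1)) (Fin.ext (by exact_mod_cast h2))
  exact h1.trans Finset.card_le_four

/-- the ordered bonds with second end in `Z` -/
noncomputable def bonds (Z : Finset (Site L)) : Finset (Site L × Site L) :=
  univ.filter fun p => p.2 ∈ Z ∧ dist1 p.1 p.2 = 1

theorem card_bonds (Z : Finset (Site L)) : (bonds Z).card ≤ 4 * Z.card := by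
  classical
  have h1 : bonds Z ⊆ Z.biUnion fun x => (univ.filter fun y : Site L => dist1 y x = 1).image
      fun y => (y, x) := by
    intro p hp
    rw [bonds, mem_filter] at hp
    rw [mem_biUnion]
    exact ⟨p.2, hp.2.1, mem_image.2 ⟨p.1, mem_filter.2 ⟨mem_univ _, hp.2.2⟩, rfl⟩⟩
  refine (Finset.card_le_card h1).trans (Finset.card_biUnion_le.trans ?_)
  calc ∑ x ∈ Z, ((univ.filter fun y : Site L => dist1 y x = 1).image fun y => (y, x)).card
      ≤ ∑ x ∈ Z, 4 := Finset.sum_le_sum fun x _ => Finset.card_image_le.trans (card_nbr x)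
    _ = 4 * Z.card := by rw [Finset.sum_const, smul_eq_mul, mul_comm]

section height
variable {d : Site L → ℝ} {s : ℕ} {v : Bt L → ℝ}

theorem hgt_ge (hs : 0 < s) (hv : v ∈ cube (Bt L)) (x : Site L) : d x ≤ hgt d (tn L s) v x := by
  have := (noise_le hs hv x).1
  unfold hgt
  linarith

theorem hgt_le (hs : 0 < s) (hv : v ∈ cube (Bt L)) (x : Site L) :
    hgt d (tn L s) v x ≤ d x + s / 2 := by
  have := (noise_le hs hv x).2
  unfold hgt
  linarith

theorem hgt_lip (hd : ∀ x y, |d x - d y| ≤ dist1 x y) (hs : 0 < s) (hv : v ∈ cube (Bt L))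
    (x y : Site L) : |hgt d (tn L s) v x - hgt d (tn L s) v y| ≤ 2 * dist1 x y := by
  have h1 := noise_lip hs hv x y
  have h2 := hd x y
  unfold hgt
  have e : d x + ∑ b, v b * tn L s b x - (d y + ∑ b, v b * tn L s b y) =
      (d x - d y) + (∑ b, v b * tn L s b x - ∑ b, v b * tn L s b y) := by ring
  rw [e]
  refine (abs_add_le _ _).trans ?_
  linarith

end height

/-- a core which is cut lies in the zone -/
theorem cut_zone {d T : Site L → ℝ} {s n D : ℕ} {a₀ t₀ : ℝ} (hD : 8 * D ≤ s) (h0 : a₀ < t₀)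
    (h1 : t₀ ≤ a₀ + 1) (hT1 : ∀ x, d x ≤ T x) (hT2 : ∀ x, T x ≤ d x + s / 2)
    (hT : ∀ x y, |T x - T y| ≤ 2 * dist1 x y) {z : Site L} {k : ℕ} (hk : k < n)
    (hx : ∃ x ∈ bal z D, x ∈ lev T (t₀ + k)) (hy : ∃ y ∈ bal z D, y ∉ lev T (t₀ + k)) :
    z ∈ zone d a₀ n s := by
  obtain ⟨x, hx, hx'⟩ := hx
  obtain ⟨y, hy, hy'⟩ := hy
  rw [mem_lev] at hx' hy'
  have hk' : (k : ℝ) + 1 ≤ n := by exact_mod_cast hk
  have hk0 : (0 : ℝ) ≤ k := Nat.cast_nonneg _
  have hDs : 8 * (D : ℝ) ≤ s := by exact_mod_cast hD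
  have h2 : (dist1 x z : ℝ) ≤ 2 * D := by exact_mod_cast dist1_self_le hx
  have h3 : (dist1 y z : ℝ) ≤ 2 * D := by exact_mod_cast dist1_self_le hy
  have h4 := abs_le.1 (hT x z)
  have h5 := abs_le.1 (hT y z)
  have h6 := hT1 z
  have h7 := hT2 z
  have hD0 : (0 : ℝ) ≤ D := Nat.cast_nonneg _
  rw [mem_zone]
  constructor
  · linarith
  · linarith

theorem thC_off {d T : Site L → ℝ} {S : Finset (Site L) → ℝ} {s n D : ℕ} {a₀ t₀ : ℝ}
    (hD : 8 * D ≤ s) (h0 : a₀ < t₀)
    (h1 : t₀ ≤ a₀ + 1) (hT1 : ∀ x, d x ≤ T x) (hT2 : ∀ x, T x ≤ d x + s / 2)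
    (hT : ∀ x y, |T x - T y| ≤ 2 * dist1 x y) {z : Site L} {W : Finset (Site L)} {k : ℕ}
    (hk : k < n) (hz : z ∉ zone d a₀ n s) : thC S (bal z D) W (lev T (t₀ + k)) = 0 := by
  unfold thC
  rw [if_neg]
  rintro ⟨hx, hy⟩
  exact hz (cut_zone hD h0 h1 hT1 hT2 hT hk hx hy)

/-- the boundary of a cut consists of bonds in the zone -/
theorem bdry_sub {d T : Site L → ℝ} {s n : ℕ} {a₀ τ : ℝ} (hs : 0 < s) (h0 : a₀ < τ)
    (h1 : τ ≤ a₀ + n) (hd : ∀ x y, |d x - d y| ≤ dist1 x y) (hT1 : ∀ x, d x ≤ T x)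
    (hT2 : ∀ x, T x ≤ d x + s / 2) :
    (bdry (lev T τ) : ℝ) ≤ ∑ p ∈ bonds (zone d a₀ n s), if T p.2 ≤ τ ∧ τ < T p.1 then (1 : ℝ) else 0 := by
  classical
  rw [← Finset.sum_filter, Finset.sum_const, nsmul_eq_mul, mul_one]
  have h2 : bdry (lev T τ) ≤ ((bonds (zone d a₀ n s)).filter fun p => T p.2 ≤ τ ∧ τ < T p.1).card := by
    unfold bdry
    refine Finset.card_le_card fun p hp => ?_
    rw [mem_filter] at hp
    obtain ⟨-, h3, h4, h5⟩ := hp
    rw [mem_lev] at h3 h4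
    rw [mem_filter, bonds, mem_filter]
    refine ⟨⟨mem_univ _, ?_, h5⟩, not_lt.1 h4, h3⟩
    rw [mem_zone]
    have h6 := abs_le.1 (hd p.1 p.2)
    rw [h5] at h6
    have h7 := hT2 p.1
    have h8 := hT1 p.2
    have hs1 : (1 : ℝ) ≤ s := by exact_mod_cast hs
    push_cast at h6
    constructor
    · linarith
    · linarith
  exact_mod_cast h2

/-! ### The averages -/

section avg
variable {S : Finset (Site L) → ℝ} {d : Site L → ℝ}

/-- an injective index of the sites -/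
noncomputable def six (L : ℕ) (x : Site L) : ℕ := Fintype.equivFin (Site L) x

theorem six_inj : Function.Injective (six L) := fun x y h =>
  (Fintype.equivFin (Site L)).injective (Fin.ext h)

/-- the average of the defects -/
theorem avg_defect (hS : EntLike S) (hd : ∀ x y, |d x - d y| ≤ dist1 x y) {D s ρ l x0 x1 y0 y1 : ℕ}
    (hD : 1 ≤ D) (hs : 8 * D ≤ s) (hρ : s ≤ ρ) {E₀ : ℝ}
    (hE : ∀ u0 u1 v0 v1 : ℕ, u1 ≤ u0 + ρ → v1 ≤ v0 + ρ → S (rect L u0 u1 v0 v1) ≤ E₀)
    (hx : x1 ≤ x0 + l) (hy : y1 ≤ y0 + l) (Z : Finset (Site L)) (hZ : Z ⊆ rect L x0 x1 y0 y1) :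
    ∑ z ∈ Z, ∫⁻ v in {v | v ∈ cube (Bt L) ∧ 256 * (D : ℝ) / s ≤ v (near s z) ∧
      v (near s z) ≤ 1 - 256 * (D : ℝ) / s}, ∫⁻ τ : ℝ,
      ENNReal.ofReal (thC S (bal z D) (bal z (3 * ρ)) (out d (tn L s) v τ)) ≤
      ENNReal.ofReal (4 * (800 * D * (s : ℝ) ^ 2) * (((l / ρ + 7 : ℕ) : ℝ) ^ 2 * E₀)) := by
  classical
  have hs0 : 0 < s := by omega
  have hsr : (0 : ℝ) < s := by exact_mod_cast hs0
  have hs1 : (1 : ℝ) ≤ s := by exact_mod_cast hs0
  have hρ0 : 0 < ρ := by omega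
  have hE0 : 0 ≤ E₀ := by
    have h1 := hE 0 0 0 0 (by omega) (by omega)
    exact (hS.nonneg _).trans h1
  set U : Finset (Site L) := Z.biUnion fun z => bal z (2 * s) with hU
  set J := U.image (tix ρ) with hJ
  have hmain := th_avg (S := S) (d := d) (β := tn L s) (idx := six L) hS six_inj
    (fun b x => tn_nonneg s b x) (fun x => tile L ρ (tix ρ x)) Z (near s) (fun z => bal z D)
    (fun z => bal z (3 * ρ)) (l := fun _ => 256 * (D : ℝ) / s) (fun _ _ => by positivity)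
    (A := 800 * D * (s : ℝ) ^ 2) (by positivity) ?_ ?_ ?_ J (tile L ρ) ?_ ?_ ?_
  · refine hmain.trans (ENNReal.ofReal_le_ofReal ?_)
    refine mul_le_mul_of_nonneg_left ?_ (by positivity)
    calc ∑ i ∈ J, S (tile L ρ i) ≤ ∑ i ∈ J, E₀ := by
          refine Finset.sum_le_sum fun i _ => ?_
          rw [tile_rect hρ0]
          exact hE _ _ _ _ le_rfl le_rfl
      _ = J.card * E₀ := by rw [Finset.sum_const, nsmul_eq_mul]
      _ ≤ ((l / ρ + 7 : ℕ) : ℝ) ^ 2 * E₀ := by
          refine mul_le_mul_of_nonneg_right ?_ hE0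
          have h1 := card_tix hρ0 hρ hx hy U (fun x hx => by
            rw [hU, mem_biUnion] at hx
            obtain ⟨z, hz, hz'⟩ := hx
            exact ⟨z, hZ hz, hz'⟩)
          exact_mod_cast h1
  · -- windows
    intro z _ x hx
    have h1 := tn_supp hs0 hx
    refine ⟨bal_mono z (by omega) h1, fun y hy => ?_⟩
    have h2 := bal_trans h1 (tile_bal hρ0 hy)
    exact bal_mono z (by omega) h2
  · -- oscillation
    intro z _ v hv x hx y hy
    have h1 := hgt_lip hd hs0 hv x y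
    have h2 : (dist1 x y : ℝ) ≤ 4 * D := by exact_mod_cast dist1_le_of_bal hx hy
    have h3 := tn_core hs0 hs hx
    have h4 : 256 * (D : ℝ) / s * (s / 32) ≤ 256 * (D : ℝ) / s * tn L s (near s z) x :=
      mul_le_mul_of_nonneg_left h3 (by positivity)
    have h5 : 256 * (D : ℝ) / s * (s / 32) = 8 * D := by
      field_simp
      norm_num
    linarith
  · -- overlap
    intro x
    have h1 : ∑ z ∈ Z, 256 * (D : ℝ) / s * tn L s (near s z) x ≤
        ∑ z ∈ bal x (2 * s), 32 * (D : ℝ) := by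
      calc ∑ z ∈ Z, 256 * (D : ℝ) / s * tn L s (near s z) x
          ≤ ∑ z ∈ Z, if z ∈ bal x (2 * s) then 32 * (D : ℝ) else 0 := by
            refine Finset.sum_le_sum fun z _ => ?_
            split_ifs with hz
            · have h2 : tn L s (near s z) x ≤ s / 8 := tent_le _ _ _
              have h3 : 256 * (D : ℝ) / s * tn L s (near s z) x ≤ 256 * (D : ℝ) / s * (s / 8) :=
                mul_le_mul_of_nonneg_left h2 (by positivity)
              have h4 : 256 * (D : ℝ) / s * (s / 8) = 32 * D := by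
                field_simp
                norm_num
              linarith
            · rcases (tn_nonneg s (near s z) x).lt_or_eq with h | h
              · exact absurd (bal_comm.1 (tn_supp hs0 h)) hz
              · rw [← h, mul_zero]
        _ = ∑ z ∈ Z.filter (· ∈ bal x (2 * s)), 32 * (D : ℝ) := (Finset.sum_filter _ _).symm
        _ ≤ ∑ z ∈ bal x (2 * s), 32 * (D : ℝ) := by
            refine Finset.sum_le_sum_of_subset_of_nonneg (fun z hz => (mem_filter.1 hz).2) ?_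
            intro _ _ _
            positivity
    refine h1.trans ?_
    rw [Finset.sum_const, nsmul_eq_mul]
    have h2 : ((bal x (2 * s)).card : ℝ) ≤ (2 * (2 * s) + 1) ^ 2 := by
      exact_mod_cast card_bal x (2 * s)
    have h3 : ((2 * (2 * (s : ℝ)) + 1) ^ 2) ≤ 25 * (s : ℝ) ^ 2 := by nlinarith
    calc ((bal x (2 * s)).card : ℝ) * (32 * D) ≤ (25 * (s : ℝ) ^ 2) * (32 * D) :=
          mul_le_mul_of_nonneg_right (h2.trans h3) (by positivity)
      _ = 800 * D * (s : ℝ) ^ 2 := by ring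
  · exact fun i _ j _ h => tile_disj ρ h
  · -- tiles
    intro i _ x hx
    rw [mem_tile] at hx
    have : tix ρ x = i := Prod.ext hx.1 hx.2
    rw [this]
  · -- cover
    intro z hz x hx
    have h1 := tn_supp hs0 hx
    rw [mem_biUnion]
    exact ⟨tix ρ x, mem_image.2 ⟨x, mem_biUnion.2 ⟨z, hz, h1⟩, rfl⟩, mem_tile.2 ⟨rfl, rfl⟩⟩

/-- the coarea bound -/
theorem avg_bdry (hd : ∀ x y, |d x - d y| ≤ dist1 x y) {s n : ℕ} (hs : 0 < s) (a₀ : ℝ)
    {v : Bt L → ℝ} (hv : v ∈ cube (Bt L)) :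
    ∫⁻ t in Set.Ioc a₀ (a₀ + 1), ∑ k ∈ range n,
      ENNReal.ofReal (bdry (out d (tn L s) v (t + k))) ≤
      ENNReal.ofReal (8 * (zone d a₀ n s).card) := by
  classical
  set T := hgt d (tn L s) v with hT
  have hout : ∀ τ, out d (tn L s) v τ = lev T τ := fun τ => rfl
  set E := bonds (zone d a₀ n s) with hE
  set F : ℝ → ℝ≥0∞ := fun τ => ∑ p ∈ E, (Set.Ico (T p.2) (T p.1)).indicator (fun _ => (1 : ℝ≥0∞)) τ
    with hF
  have hFm : Measurable F := by
    refine Finset.measurable_sum _ fun p _ => ?_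
    exact measurable_const.indicator measurableSet_Ico
  -- pointwise
  have h1 : ∀ t ∈ Set.Ioc a₀ (a₀ + 1), ∑ k ∈ range n,
      ENNReal.ofReal (bdry (out d (tn L s) v (t + k))) ≤ ∑ k ∈ range n, F (t + k * 1) := by
    intro t ht
    refine Finset.sum_le_sum fun k hk => ?_
    rw [mul_one, hout]
    have hk' : (k : ℝ) + 1 ≤ n := by exact_mod_cast mem_range.1 hk
    have hk0 : (0 : ℝ) ≤ k := Nat.cast_nonneg _
    have h2 := bdry_sub (T := T) hs (show a₀ < t + k by linarith [ht.1])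
      (show t + k ≤ a₀ + n by linarith [ht.2]) hd (hgt_ge hs hv) (hgt_le hs hv)
    refine (ENNReal.ofReal_le_ofReal h2).trans (le_of_eq ?_)
    rw [ENNReal.ofReal_sum_of_nonneg fun p _ => by split_ifs <;> norm_num]
    refine Finset.sum_congr rfl fun p _ => ?_
    by_cases hp : T p.2 ≤ t + k ∧ t + k < T p.1
    · rw [if_pos hp, Set.indicator_of_mem (show t + k ∈ Set.Ico (T p.2) (T p.1) from hp),
        ENNReal.ofReal_one]
    · rw [if_neg hp, Set.indicator_of_notMem (show t + k ∉ Set.Ico (T p.2) (T p.1) from hp),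
        ENNReal.ofReal_zero]
  calc _ ≤ ∫⁻ t in Set.Ioc a₀ (a₀ + 1), ∑ k ∈ range n, F (t + k * 1) :=
        setLIntegral_mono' measurableSet_Ioc h1
    _ = ∑ k ∈ range n, ∫⁻ t in Set.Ioc a₀ (a₀ + 1), F (t + k * 1) :=
        lintegral_finsetSum _ fun k _ => hFm.comp (measurable_id.add_const _)
    _ ≤ ∫⁻ τ, F τ := lintegral_comb n one_pos
    _ = ∑ p ∈ E, ENNReal.ofReal (T p.1 - T p.2) := by
        rw [hF, lintegral_finsetSum _ fun p _ => measurable_const.indicator measurableSet_Ico]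
        refine Finset.sum_congr rfl fun p _ => ?_
        rw [lintegral_indicator measurableSet_Ico, setLIntegral_const, one_mul, Real.volume_Ico]
    _ ≤ ∑ p ∈ E, ENNReal.ofReal 2 := by
        refine Finset.sum_le_sum fun p hp => ENNReal.ofReal_le_ofReal ?_
        rw [hE, bonds, mem_filter] at hp
        have h2 := (abs_le.1 (hgt_lip hd hs hv p.1 p.2)).2
        rw [hp.2.2] at h2
        push_cast at h2
        linarith
    _ = ENNReal.ofReal (E.card * 2) := by
        rw [Finset.sum_const, nsmul_eq_mul, ENNReal.ofReal_mul (Nat.cast_nonneg _),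
          ENNReal.ofReal_natCast]
    _ ≤ ENNReal.ofReal (8 * (zone d a₀ n s).card) := by
        refine ENNReal.ofReal_le_ofReal ?_
        have h2 : (E.card : ℝ) ≤ 4 * (zone d a₀ n s).card := by exact_mod_cast card_bonds _
        linarith

end avg

/-! ### The selection -/

/-- the law of the noise and the offset -/
noncomputable def law (L : ℕ) (a₀ : ℝ) : Measure ((Bt L → ℝ) × ℝ) :=
  (volume.restrict (cube (Bt L))).prod (volume.restrict (Set.Ioc a₀ (a₀ + 1)))

instance (L : ℕ) : IsProbabilityMeasure (volume.restrict (cube (Bt L))) :=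
  ⟨by rw [Measure.restrict_apply_univ]; exact volume_cube⟩

instance (a₀ : ℝ) : IsProbabilityMeasure (volume.restrict (Set.Ioc a₀ (a₀ + 1))) :=
  ⟨by rw [Measure.restrict_apply_univ, Real.volume_Ioc]; simp⟩

instance (L : ℕ) (a₀ : ℝ) : IsProbabilityMeasure (law L a₀) := by
  unfold law
  infer_instance

/-- the exceptional null set -/
def nul (L : ℕ) (d : Site L → ℝ) (s n : ℕ) (a₀ : ℝ) : Set ((Bt L → ℝ) × ℝ) :=
  {p | p.1 ∉ cube (Bt L) ∨ p.2 ∉ Set.Ioc a₀ (a₀ + 1) ∨
    ∃ x : Site L, ∃ k ∈ range n, hgt d (tn L s) p.1 x = p.2 + k}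

theorem law_nul (d : Site L → ℝ) (s n : ℕ) (a₀ : ℝ) : law L a₀ (nul L d s n a₀) = 0 := by
  have e : nul L d s n a₀ = {p | p.1 ∉ cube (Bt L)} ∪ ({p | p.2 ∉ Set.Ioc a₀ (a₀ + 1)} ∪
      ⋃ x : Site L, ⋃ k ∈ range n, {p | hgt d (tn L s) p.1 x = p.2 + k}) := by
    ext p
    simp only [nul, Set.mem_setOf_eq, Set.mem_union, Set.mem_iUnion, exists_prop]
  rw [e]
  refine measure_union_null ?_ (measure_union_null ?_ ?_)
  · have h1 : {p : (Bt L → ℝ) × ℝ | p.1 ∉ cube (Bt L)} = (cube (Bt L))ᶜ ×ˢ Set.univ := by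
      ext p
      simp
    rw [h1, law, Measure.prod_prod, Measure.restrict_apply measurableSet_cube.compl,
      Set.compl_inter_self, measure_empty, zero_mul]
  · have h1 : {p : (Bt L → ℝ) × ℝ | p.2 ∉ Set.Ioc a₀ (a₀ + 1)} =
        Set.univ ×ˢ (Set.Ioc a₀ (a₀ + 1))ᶜ := by
      ext p
      simp only [Set.mem_setOf_eq, Set.mem_prod, Set.mem_univ, true_and, Set.mem_compl_iff]
    rw [h1, law, Measure.prod_prod, Measure.restrict_apply measurableSet_Ioc.compl,
      Set.compl_inter_self, measure_empty, mul_zero]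
  · rw [measure_iUnion_null_iff]
    intro x
    have hfin : (⋃ k ∈ range n, {p : (Bt L → ℝ) × ℝ | hgt d (tn L s) p.1 x = p.2 + k}) =
        ⋃ k ∈ (↑(range n) : Set ℕ), {p : (Bt L → ℝ) × ℝ | hgt d (tn L s) p.1 x = p.2 + k} := by
      ext p
      simp
    rw [hfin, measure_biUnion_null_iff (Finset.countable_toSet _)]
    intro k _
    have hm : MeasurableSet {p : (Bt L → ℝ) × ℝ | hgt d (tn L s) p.1 x = p.2 + k} :=
      measurableSet_eq_fun (measurable_hgt measurable_fst d (tn L s) x)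
        (measurable_snd.add_const _)
    rw [law, Measure.measure_prod_null hm]
    refine Filter.Eventually.of_forall fun v => ?_
    have h1 : Prod.mk v ⁻¹' {p : (Bt L → ℝ) × ℝ | hgt d (tn L s) p.1 x = p.2 + k} =
        {hgt d (tn L s) v x - k} := by
      ext t
      simp only [Set.mem_preimage, Set.mem_setOf_eq, Set.mem_singleton_iff]
      constructor <;> intro h <;> linarith
    show (volume.restrict (Set.Ioc a₀ (a₀ + 1)))
      (Prod.mk v ⁻¹' {p : (Bt L → ℝ) × ℝ | hgt d (tn L s) p.1 x = p.2 + k}) = 0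
    rw [h1]
    refine le_antisymm ((Measure.restrict_apply_le _ _).trans ?_) bot_le
    rw [Real.volume_singleton]

/-- the functional of the defects of the core at `z` -/
noncomputable def Fd (S : Finset (Site L) → ℝ) (d : Site L → ℝ) (D s ρ n : ℕ) (z : Site L)
    (p : (Bt L → ℝ) × ℝ) : ℝ≥0∞ :=
  open Classical in if 256 * (D : ℝ) / s ≤ p.1 (near s z) ∧ p.1 (near s z) ≤ 1 - 256 * (D : ℝ) / s
    then ∑ k ∈ range n,
    ENNReal.ofReal (thC S (bal z D) (bal z (3 * ρ)) (out d (tn L s) p.1 (p.2 + k))) else 0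

/-- the functional of the exceptional sites -/
noncomputable def Fe (D s : ℕ) (z : Site L) (p : (Bt L → ℝ) × ℝ) : ℝ≥0∞ :=
  open Classical in if 256 * (D : ℝ) / s ≤ p.1 (near s z) ∧ p.1 (near s z) ≤ 1 - 256 * (D : ℝ) / s
    then 0 else 1

/-- the functional of the boundaries -/
noncomputable def Fb (d : Site L → ℝ) (s n : ℕ) (p : (Bt L → ℝ) × ℝ) : ℝ≥0∞ :=
  ∑ k ∈ range n, ENNReal.ofReal (bdry (out d (tn L s) p.1 (p.2 + k)))

theorem meas_out (d : Site L → ℝ) (s : ℕ) (f : Finset (Site L) → ℝ) (k : ℕ) :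
    Measurable fun p : (Bt L → ℝ) × ℝ => ENNReal.ofReal (f (out d (tn L s) p.1 (p.2 + k))) := by
  have h1 : Measurable fun p : (Bt L → ℝ) × ℝ => ((p.1, p.2 + (k : ℝ)) : (Bt L → ℝ) × ℝ) :=
    measurable_fst.prodMk (measurable_snd.add_const _)
  exact ENNReal.measurable_ofReal.comp ((measurable_out d (tn L s) f).comp h1)

theorem meas_mid (D s : ℕ) (z : Site L) : MeasurableSet {v : Bt L → ℝ |
    256 * (D : ℝ) / s ≤ v (near s z) ∧ v (near s z) ≤ 1 - 256 * (D : ℝ) / s} :=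
  (measurableSet_le measurable_const (measurable_pi_apply _)).inter
    (measurableSet_le (measurable_pi_apply _) measurable_const)

theorem measurable_Fd (S : Finset (Site L) → ℝ) (d : Site L → ℝ) (D s ρ n : ℕ) (z : Site L) :
    Measurable (Fd S d D s ρ n z) := by
  classical
  unfold Fd
  refine Measurable.ite (measurable_fst (meas_mid D s z)) ?_ measurable_const
  exact Finset.measurable_sum _ fun k _ => meas_out d s _ k

theorem measurable_Fe (D s : ℕ) (z : Site L) : Measurable (Fe D s z) := by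
  classical
  unfold Fe
  exact Measurable.ite (measurable_fst (meas_mid D s z)) measurable_const measurable_const

theorem measurable_Fb (d : Site L → ℝ) (s n : ℕ) : Measurable (Fb d s n) := by
  unfold Fb
  exact Finset.measurable_sum _ fun k _ => meas_out d s (fun A => (bdry A : ℝ)) k

theorem comb_one {G : ℝ → ℝ≥0∞} (hG : Measurable G) (n : ℕ) (a : ℝ) :
    ∫⁻ t in Set.Ioc a (a + 1), ∑ k ∈ range n, G (t + k) ≤ ∫⁻ τ, G τ := by
  have h2 := lintegral_comb (F := G) n (a := a) one_pos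
  simp only [mul_one] at h2
  refine le_trans (le_of_eq ?_) h2
  exact lintegral_finsetSum _ fun k _ => hG.comp (measurable_id.add_const _)

theorem meas_lev (d : Site L → ℝ) (s : ℕ) (f : Finset (Site L) → ℝ) (v : Bt L → ℝ) :
    Measurable fun τ : ℝ => ENNReal.ofReal (f (out d (tn L s) v τ)) :=
  (ENNReal.measurable_ofReal.comp (measurable_out d (tn L s) f)).comp
    (measurable_const.prodMk measurable_id)

theorem lint_Fd (S : Finset (Site L) → ℝ) (d : Site L → ℝ) (D s ρ n : ℕ) (z : Site L) (a₀ : ℝ) :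
    ∫⁻ p, Fd S d D s ρ n z p ∂(law L a₀) ≤
      ∫⁻ v in {v | v ∈ cube (Bt L) ∧ 256 * (D : ℝ) / s ≤ v (near s z) ∧
        v (near s z) ≤ 1 - 256 * (D : ℝ) / s}, ∫⁻ τ : ℝ,
      ENNReal.ofReal (thC S (bal z D) (bal z (3 * ρ)) (out d (tn L s) v τ)) := by
  classical
  obtain ⟨G, hG⟩ : ∃ G : (Bt L → ℝ) → ℝ → ℝ≥0∞, G = fun v τ =>
    ENNReal.ofReal (thC S (bal z D) (bal z (3 * ρ)) (out d (tn L s) v τ)) := ⟨_, rfl⟩
  have hGm : ∀ v, Measurable (G v) := fun v => by
    rw [hG]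
    exact meas_lev d s (fun A => thC S (bal z D) (bal z (3 * ρ)) A) v
  obtain ⟨Q, hQ⟩ : ∃ Q : Set (Bt L → ℝ), Q = {v : Bt L → ℝ |
    256 * (D : ℝ) / s ≤ v (near s z) ∧ v (near s z) ≤ 1 - 256 * (D : ℝ) / s} := ⟨_, rfl⟩
  have hms : MeasurableSet Q := by
    rw [hQ]
    exact meas_mid D s z
  have hF1 : ∀ v ∈ Q, ∀ t, Fd S d D s ρ n z (v, t) = ∑ k ∈ range n, G v (t + k) := by
    intro v hv t
    rw [hG]
    rw [hQ] at hv
    unfold Fd
    exact if_pos hv
  have hF2 : ∀ v ∉ Q, ∀ t, Fd S d D s ρ n z (v, t) = 0 := by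
    intro v hv t
    rw [hQ] at hv
    unfold Fd
    exact if_neg hv
  have hgoal : ∀ v τ, ENNReal.ofReal (thC S (bal z D) (bal z (3 * ρ)) (out d (tn L s) v τ)) =
      G v τ := by
    intro v τ
    rw [hG]
  simp only [hgoal]
  rw [law, lintegral_prod _ (measurable_Fd S d D s ρ n z).aemeasurable]
  have h1 : ∀ v : Bt L → ℝ, ∫⁻ t in Set.Ioc a₀ (a₀ + 1), Fd S d D s ρ n z (v, t) ≤
      (Q.indicator (fun v => ∫⁻ τ : ℝ, G v τ) v) := by
    intro v
    by_cases hv : v ∈ Q
    · rw [Set.indicator_of_mem hv]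
      simp only [hF1 v hv]
      exact comb_one (hGm v) n a₀
    · rw [Set.indicator_of_notMem hv]
      simp only [hF2 v hv, lintegral_zero, le_refl]
  refine (lintegral_mono h1).trans (le_of_eq ?_)
  rw [lintegral_indicator hms, Measure.restrict_restrict hms]
  have h4 : Q ∩ cube (Bt L) =
      {v | v ∈ cube (Bt L) ∧ 256 * (D : ℝ) / s ≤ v (near s z) ∧
        v (near s z) ≤ 1 - 256 * (D : ℝ) / s} := by
    rw [hQ]
    ext v
    simp only [Set.mem_inter_iff, Set.mem_setOf_eq]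
    exact and_comm
  rw [h4]

theorem lint_Fe (D s : ℕ) (z : Site L) (a₀ : ℝ) :
    ∫⁻ p, Fe D s z p ∂(law L a₀) ≤ ENNReal.ofReal (2 * (256 * (D : ℝ) / s)) := by
  classical
  obtain ⟨Q, hQ⟩ : ∃ Q : Set (Bt L → ℝ), Q = {v : Bt L → ℝ |
    ¬ (256 * (D : ℝ) / s ≤ v (near s z) ∧ v (near s z) ≤ 1 - 256 * (D : ℝ) / s)} := ⟨_, rfl⟩
  have hmsQ : MeasurableSet Q := by
    rw [hQ]
    exact (meas_mid D s z).compl
  have hms : MeasurableSet ((Prod.fst : (Bt L → ℝ) × ℝ → (Bt L → ℝ)) ⁻¹' Q) := measurable_fst hmsQ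
  have h1 : Fe D s z = ((Prod.fst : (Bt L → ℝ) × ℝ → (Bt L → ℝ)) ⁻¹' Q).indicator
      fun _ => (1 : ℝ≥0∞) := by
    funext p
    unfold Fe
    rw [Set.indicator_apply]
    by_cases hp : 256 * (D : ℝ) / s ≤ p.1 (near s z) ∧ p.1 (near s z) ≤ 1 - 256 * (D : ℝ) / s
    · rw [if_pos hp, if_neg]
      rw [Set.mem_preimage, hQ, Set.mem_setOf_eq, not_not]
      exact hp
    · rw [if_neg hp, if_pos]
      rw [Set.mem_preimage, hQ, Set.mem_setOf_eq]
      exact hp
  rw [h1, lintegral_indicator hms, setLIntegral_const, one_mul]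
  have h2 : ((Prod.fst : (Bt L → ℝ) × ℝ → (Bt L → ℝ)) ⁻¹' Q) = Q ×ˢ Set.univ := by
    ext p
    simp
  rw [h2, law, Measure.prod_prod, measure_univ, mul_one, Measure.restrict_apply hmsQ]
  refine le_trans (le_of_eq ?_) (volume_exc2 (near s z) (l := 256 * (D : ℝ) / s) (by positivity))
  rw [hQ]
  congr 1
  ext v
  simp only [Set.mem_inter_iff, Set.mem_setOf_eq]
  exact and_comm

/-- **(LEVEL)**: existence of a level function with small window-only Markov defects for all but few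
sites and small total boundary of the cuts. -/
theorem exists_level {S : Finset (Site L) → ℝ} (hS : EntLike S) {d : Site L → ℝ}
    (hd : ∀ x y, |d x - d y| ≤ dist1 x y) {D s ρ l n x0 x1 y0 y1 : ℕ} (hD : 1 ≤ D)
    (hs : 8 * D ≤ s) (hρ : s ≤ ρ) {E₀ : ℝ} (hE0 : 0 < E₀)
    (hE : ∀ u0 u1 v0 v1 : ℕ, u1 ≤ u0 + ρ → v1 ≤ v0 + ρ → S (rect L u0 u1 v0 v1) ≤ E₀)
    (a₀ : ℝ) (hx : x1 ≤ x0 + l) (hy : y1 ≤ y0 + l) (hZ : zone d a₀ n s ⊆ rect L x0 x1 y0 y1) :
    ∃ (T : Site L → ℝ) (t₀ : ℝ) (Exc : Finset (Site L)), a₀ < t₀ ∧ t₀ ≤ a₀ + 1 ∧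
      (∀ x, d x ≤ T x ∧ T x ≤ d x + s / 2) ∧ (∀ x y, |T x - T y| ≤ 2 * dist1 x y) ∧
      (∀ x, ∀ k < n, T x ≠ t₀ + k) ∧ Exc ⊆ zone d a₀ n s ∧
      (Exc.card : ℝ) ≤ 1536 * (zone d a₀ n s).card * (D / s) ∧
      ∑ z ∈ Excᶜ, ∑ k ∈ range n, thC S (bal z D) (bal z (3 * ρ)) (lev T (t₀ + k)) ≤
        9600 * D * (s : ℝ) ^ 2 * (((l / ρ + 7 : ℕ) : ℝ) ^ 2 * E₀) ∧
      ∑ k ∈ range n, (bdry (lev T (t₀ + k)) : ℝ) ≤ 24 * (zone d a₀ n s).card := by
  classical
  have hs0 : 0 < s := by omega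
  have hsr : (0 : ℝ) < s := by exact_mod_cast hs0
  have hDr : (0 : ℝ) < D := by exact_mod_cast hD
  set Z := zone d a₀ n s with hZdef
  set lam : ℝ := 256 * (D : ℝ) / s with hlam
  have hlam0 : 0 < lam := by positivity
  set Zc : ℝ := max (Z.card : ℝ) 1 with hZc
  have hZc1 : 1 ≤ Zc := le_max_right _ _
  -- the three functionals
  set F₁ : (Bt L → ℝ) × ℝ → ℝ≥0∞ := fun p => ∑ z ∈ Z, Fd S d D s ρ n z p with hF₁
  set F₂ : (Bt L → ℝ) × ℝ → ℝ≥0∞ := fun p => ∑ z ∈ Z, Fe D s z p with hF₂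
  set F₃ : (Bt L → ℝ) × ℝ → ℝ≥0∞ := Fb d s n with hF₃
  have hm₁ : Measurable F₁ := Finset.measurable_sum _ fun z _ => measurable_Fd S d D s ρ n z
  have hm₂ : Measurable F₂ := Finset.measurable_sum _ fun z _ => measurable_Fe D s z
  have hm₃ : Measurable F₃ := measurable_Fb d s n
  set B₁ : ℝ := 4 * (800 * D * (s : ℝ) ^ 2) * (((l / ρ + 7 : ℕ) : ℝ) ^ 2 * E₀) with hB₁
  have hB₁0 : 0 < B₁ := by positivity
  -- the means
  have hI₁ : ∫⁻ p, F₁ p ∂(law L a₀) ≤ ENNReal.ofReal B₁ := by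
    rw [lintegral_finsetSum _ fun z _ => measurable_Fd S d D s ρ n z]
    exact le_trans (Finset.sum_le_sum fun z _ => lint_Fd S d D s ρ n z a₀)
      (avg_defect hS hd hD hs hρ hE hx hy Z hZ)
  have hI₂ : ∫⁻ p, F₂ p ∂(law L a₀) ≤ ENNReal.ofReal (Zc * (2 * lam)) := by
    rw [lintegral_finsetSum _ fun z _ => measurable_Fe D s z]
    refine (Finset.sum_le_sum fun z _ => lint_Fe D s z a₀).trans ?_
    rw [Finset.sum_const, nsmul_eq_mul, ← ENNReal.ofReal_natCast, ← ENNReal.ofReal_mul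
      (Nat.cast_nonneg _)]
    exact ENNReal.ofReal_le_ofReal (mul_le_mul_of_nonneg_right (le_max_left _ _) (by positivity))
  have hI₃ : ∫⁻ p, F₃ p ∂(law L a₀) ≤ ENNReal.ofReal (8 * Zc) := by
    rw [law, lintegral_prod _ hm₃.aemeasurable]
    calc _ ≤ ∫⁻ v in cube (Bt L), ENNReal.ofReal (8 * Z.card) :=
          setLIntegral_mono' measurableSet_cube fun v hv => avg_bdry hd hs0 a₀ hv
      _ = ENNReal.ofReal (8 * Z.card) := by
          rw [setLIntegral_const, volume_cube, mul_one]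
      _ ≤ _ := ENNReal.ofReal_le_ofReal
          (mul_le_mul_of_nonneg_left (le_max_left _ _) (by norm_num))
  -- selection
  obtain ⟨⟨v, t⟩, hN, hsel⟩ := exists_good (law L a₀) (law_nul d s n a₀)
    (Finset.univ : Finset (Fin 3)) ![F₁, F₂, F₃]
    (fun i _ => by fin_cases i <;> assumption) ![B₁, Zc * (2 * lam), 8 * Zc]
    (fun i _ => by
      fin_cases i
      · exact hB₁0
      · show 0 < Zc * (2 * lam)
        positivity
      · show 0 < 8 * Zc
        positivity)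
    (fun i _ => by fin_cases i <;> assumption)
  have hs₁ : F₁ (v, t) ≤ ENNReal.ofReal (3 * B₁) := by
    have := hsel 0 (mem_univ _)
    simpa using this
  have hs₂ : F₂ (v, t) ≤ ENNReal.ofReal (3 * (Zc * (2 * lam))) := by
    have := hsel 1 (mem_univ _)
    simpa using this
  have hs₃ : F₃ (v, t) ≤ ENNReal.ofReal (3 * (8 * Zc)) := by
    have := hsel 2 (mem_univ _)
    simpa using this
  simp only [nul, Set.mem_setOf_eq, not_or, not_not, not_exists, not_and] at hN
  obtain ⟨hv, ht, hne⟩ := hN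
  set T := hgt d (tn L s) v with hT
  have hT1 : ∀ x, d x ≤ T x := hgt_ge hs0 hv
  have hT2 : ∀ x, T x ≤ d x + s / 2 := hgt_le hs0 hv
  have hTl : ∀ x y, |T x - T y| ≤ 2 * dist1 x y := hgt_lip hd hs0 hv
  have hout : ∀ τ, out d (tn L s) v τ = lev T τ := fun τ => rfl
  set Exc := Z.filter fun z => ¬ (lam ≤ v (near s z) ∧ v (near s z) ≤ 1 - lam) with hExc
  have hcard : (Exc.card : ℝ) ≤ 3 * (Zc * (2 * lam)) := by
    have h1 : F₂ (v, t) = (Exc.card : ℝ≥0∞) := by
      rw [hF₂, hExc, Finset.card_filter]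
      push_cast
      refine Finset.sum_congr rfl fun z _ => ?_
      unfold Fe
      by_cases h : lam ≤ v (near s z) ∧ v (near s z) ≤ 1 - lam
      · rw [if_pos h, if_neg (not_not.2 h)]
      · rw [if_neg h, if_pos h]
    rw [h1, ← ENNReal.ofReal_natCast] at hs₂
    exact (ENNReal.ofReal_le_ofReal_iff (by positivity)).1 hs₂
  have hdef : ∑ z ∈ Excᶜ, ∑ k ∈ range n,
      thC S (bal z D) (bal z (3 * ρ)) (lev T (t + k)) ≤ 3 * B₁ := by
    have hnn : ∀ (z : Site L) (A : Finset (Site L)), 0 ≤ thC S (bal z D) (bal z (3 * ρ)) A :=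
      fun z A => thC_nonneg hS _ _ A
    have h1 : ∑ z ∈ Excᶜ, ∑ k ∈ range n,
        thC S (bal z D) (bal z (3 * ρ)) (lev T (t + k)) =
        ∑ z ∈ Z.filter (fun z => lam ≤ v (near s z) ∧ v (near s z) ≤ 1 - lam),
        ∑ k ∈ range n, thC S (bal z D) (bal z (3 * ρ)) (lev T (t + k)) := by
      symm
      refine Finset.sum_subset ?_ ?_
      · intro z hz
        rw [mem_filter] at hz
        rw [mem_compl, hExc, mem_filter, not_and, not_not]
        exact fun _ => hz.2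
      · intro z hz hz'
        rw [mem_compl, hExc, mem_filter, not_and, not_not] at hz
        rw [mem_filter, not_and] at hz'
        have hzZ : z ∉ Z := fun h => hz' h (hz h)
        exact Finset.sum_eq_zero fun k hk =>
          thC_off hs ht.1 ht.2 hT1 hT2 hTl (mem_range.1 hk) hzZ
    rw [h1]
    have h2 : F₁ (v, t) = ENNReal.ofReal (∑ z ∈ Z.filter (fun z =>
        lam ≤ v (near s z) ∧ v (near s z) ≤ 1 - lam),
        ∑ k ∈ range n, thC S (bal z D) (bal z (3 * ρ)) (lev T (t + k))) := by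
      rw [ENNReal.ofReal_sum_of_nonneg fun z _ => Finset.sum_nonneg fun k _ => hnn _ _]
      rw [hF₁, Finset.sum_filter]
      refine Finset.sum_congr rfl fun z _ => ?_
      unfold Fd
      by_cases h : lam ≤ v (near s z) ∧ v (near s z) ≤ 1 - lam
      · rw [if_pos h, if_pos h, ENNReal.ofReal_sum_of_nonneg fun k _ => hnn _ _]
        rfl
      · rw [if_neg h, if_neg h]
    rw [h2] at hs₁
    exact (ENNReal.ofReal_le_ofReal_iff (by positivity)).1 hs₁
  have hbd : ∑ k ∈ range n, (bdry (lev T (t + k)) : ℝ) ≤ 3 * (8 * Zc) := by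
    have h2 : F₃ (v, t) = ENNReal.ofReal (∑ k ∈ range n, (bdry (lev T (t + k)) : ℝ)) := by
      rw [ENNReal.ofReal_sum_of_nonneg fun k _ => Nat.cast_nonneg _]
      rfl
    rw [h2] at hs₃
    exact (ENNReal.ofReal_le_ofReal_iff (by positivity)).1 hs₃
  refine ⟨T, t, Exc, ht.1, ht.2, fun x => ⟨hT1 x, hT2 x⟩, hTl,
    fun x k hk => hne x k (mem_range.2 hk), filter_subset _ _, ?_, ?_, ?_⟩
  · rcases Z.eq_empty_or_nonempty with h | h
    · have : Exc = ∅ := by rw [hExc, h, filter_empty]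
      rw [this, h]
      simp
    · have h1 : Zc = Z.card := max_eq_left (by exact_mod_cast h.card_pos)
      rw [h1] at hcard
      refine hcard.trans (le_of_eq ?_)
      rw [hlam]
      ring
  · refine hdef.trans (le_of_eq ?_)
    rw [hB₁]
    ring
  · rcases Z.eq_empty_or_nonempty with h | h
    · rw [h]
      refine le_of_eq ?_
      simp only [card_empty, Nat.cast_zero, mul_zero]
      refine Finset.sum_eq_zero fun k hk => ?_
      have hk' : (k : ℝ) + 1 ≤ n := by exact_mod_cast mem_range.1 hk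
      have hk0 : (0 : ℝ) ≤ k := Nat.cast_nonneg _
      have h1 := bdry_sub (T := T) hs0 (show a₀ < t + k by linarith [ht.1])
        (show t + k ≤ a₀ + n by linarith [ht.2]) hd hT1 hT2
      have h2 : bonds (zone d a₀ n s) = ∅ := by
        rw [← hZdef, h, bonds]
        ext p
        simp
      rw [h2, Finset.sum_empty] at h1
      exact le_antisymm h1 (Nat.cast_nonneg _)
    · have h1 : Zc = Z.card := max_eq_left (by exact_mod_cast h.card_pos)
      rw [h1] at hbd
      refine hbd.trans (le_of_eq ?_)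
      ring

end Vale.Agent.P356.GA.Level
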