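import Vale.Agent.P356.SA.DecGeo

/-!
# P356, GA (helper407): distance function of a region and the size of distance rings

`dX X` is the distance to `X`.  A ring `{a ≤ dX ≤ b}` has at most `8 (b + 1 - a) / a` times the number
of sites of `nb_b X \ X`.
-/

set_option linter.all false

namespace Vale.Agent.P356.GA.Ring407

open Finset Vale.Agent.P356 Vale.Agent.P356.SA
open scoped BigOperators

variable {L : ℕ}

theorem dist1_self (x : Site L) : dist1 x x = 0 := by simp [dist1]

theorem dist1_comm (x y : Site L) : dist1 x y = dist1 y x := by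
  simp only [dist1]
  omega

/-- distance to the region `X` -/
noncomputable def dX (X : Finset (Site L)) (x : Site L) : ℕ :=
  if h : X.Nonempty then X.inf' h (fun p => dist1 p x) else 0

theorem dX_le {X : Finset (Site L)} {p : Site L} (hp : p ∈ X) (x : Site L) :
    dX X x ≤ dist1 p x := by
  rw [dX, dif_pos ⟨p, hp⟩]
  exact Finset.inf'_le _ hp

theorem exists_dX {X : Finset (Site L)} (h : X.Nonempty) (x : Site L) :
    ∃ p ∈ X, dX X x = dist1 p x := by
  rw [dX, dif_pos h]
  obtain ⟨p, hp, e⟩ := X.exists_mem_eq_inf' h (fun p => dist1 p x)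
  exact ⟨p, hp, e⟩

theorem dX_step (X : Finset (Site L)) (x y : Site L) : dX X x ≤ dX X y + dist1 y x := by
  by_cases h : X.Nonempty
  · obtain ⟨p, hp, e⟩ := exists_dX h y
    rw [e]
    exact (dX_le hp x).trans (sa7_tri p y x)
  · simp [dX, h]

/-- `dX` is 1-Lipschitz -/
theorem dX_lip (X : Finset (Site L)) (x y : Site L) :
    |(dX X x : ℝ) - dX X y| ≤ dist1 x y := by
  have h1 := dX_step X x y
  have h2 := dX_step X y x
  rw [dist1_comm] at h1
  rw [abs_le]
  constructor
  · have : (dX X y : ℝ) ≤ dX X x + dist1 x y := by exact_mod_cast h2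
    linarith
  · have : (dX X x : ℝ) ≤ dX X y + dist1 x y := by exact_mod_cast h1
    linarith

theorem mem_nb {X : Finset (Site L)} (h : X.Nonempty) {r : ℕ} {x : Site L} :
    x ∈ sa7_nb X r ↔ dX X x ≤ r := by
  rw [sa7_mem_nb]
  constructor
  · rintro ⟨p, hp, hr⟩
    exact (dX_le hp x).trans hr
  · intro hr
    obtain ⟨p, hp, e⟩ := exists_dX h x
    exact ⟨p, hp, e ▸ hr⟩

theorem dX_zero {X : Finset (Site L)} {x : Site L} (hx : x ∈ X) : dX X x = 0 := by
  have := dX_le hx x
  rw [dist1_self] at this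
  omega

theorem dX_pos {X : Finset (Site L)} (h : X.Nonempty) {x : Site L} (hx : x ∉ X) : 1 ≤ dX X x := by
  by_contra h0
  obtain ⟨p, hp, e⟩ := exists_dX h x
  have h1 : dist1 p x = 0 := by omega
  have h2 : p = x := by
    simp only [dist1] at h1
    have a1 : (p.1 : ℕ) = x.1 := by omega
    have a2 : (p.2 : ℕ) = x.2 := by omega
    exact Prod.ext (Fin.ext a1) (Fin.ext a2)
  exact hx (h2 ▸ hp)

/-- the four directions -/
def dirs : Finset (ℤ × ℤ) := {(1, 0), (-1, 0), (0, 1), (0, -1)}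

theorem card_dirs : dirs.card ≤ 4 := Finset.card_le_four

/-- from a site of distance `v` one can walk `v / 2` steps straight towards `X` -/
theorem walk {X : Finset (Site L)} (h : X.Nonempty) (x : Site L) :
    ∃ e ∈ dirs, ∀ j : ℕ, 2 * j ≤ dX X x → ∃ y : Site L, (y.1 : ℤ) = x.1 - j * e.1 ∧
      (y.2 : ℤ) = x.2 - j * e.2 ∧ dX X y + j = dX X x := by
  obtain ⟨p, hp, e⟩ := exists_dX h x
  have key : ∀ (j : ℕ) (y : Site L), dist1 p y + j ≤ dX X x → dist1 y x ≤ j →
      dX X y + j = dX X x := by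
    intro j y h1 h2
    have h3 := dX_le hp y
    have h4 := dX_step X x y
    omega
  have hb1 := x.1.isLt
  have hb2 := x.2.isLt
  have hp1 := p.1.isLt
  have hp2 := p.2.isLt
  have e' := e
  simp only [dist1] at e'
  rcases le_total (((p.1 : ℤ) - (x.1 : ℤ)).natAbs) (((p.2 : ℤ) - (x.2 : ℤ)).natAbs) with hc | hc
  · rcases le_total (p.2 : ℤ) (x.2 : ℤ) with hs | hs
    · refine ⟨(0, 1), by simp [dirs], fun j hj => ?_⟩
      have hj2 : j ≤ (x.2 : ℕ) := by omega
      refine ⟨(x.1, ⟨x.2 - j, by omega⟩), by simp, ?_, ?_⟩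
      · simp only [mul_one]
        push_cast [Nat.cast_sub hj2]
        ring
      · apply key
        · simp only [dist1]
          push_cast [Nat.cast_sub hj2]
          omega
        · simp only [dist1]
          push_cast [Nat.cast_sub hj2]
          omega
    · refine ⟨(0, -1), by simp [dirs], fun j hj => ?_⟩
      refine ⟨(x.1, ⟨x.2 + j, by omega⟩), by simp, ?_, ?_⟩
      · simp only [mul_neg, mul_one]
        push_cast
        ring
      · apply key
        · simp only [dist1]
          push_cast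
          omega
        · simp only [dist1]
          push_cast
          omega
  · rcases le_total (p.1 : ℤ) (x.1 : ℤ) with hs | hs
    · refine ⟨(1, 0), by simp [dirs], fun j hj => ?_⟩
      have hj2 : j ≤ (x.1 : ℕ) := by omega
      refine ⟨(⟨x.1 - j, by omega⟩, x.2), ?_, by simp, ?_⟩
      · simp only [mul_one]
        push_cast [Nat.cast_sub hj2]
        ring
      · apply key
        · simp only [dist1]
          push_cast [Nat.cast_sub hj2]
          omega
        · simp only [dist1]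
          push_cast [Nat.cast_sub hj2]
          omega
    · refine ⟨(-1, 0), by simp [dirs], fun j hj => ?_⟩
      refine ⟨(⟨x.1 + j, by omega⟩, x.2), ?_, by simp, ?_⟩
      · simp only [mul_neg, mul_one]
        push_cast
        ring
      · apply key
        · simp only [dist1]
          push_cast
          omega
        · simp only [dist1]
          push_cast
          omega

/-- sites at distance exactly `v` -/
noncomputable def sph (X : Finset (Site L)) (v : ℕ) : Finset (Site L) :=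
  univ.filter fun x => dX X x = v

theorem mem_sph {X : Finset (Site L)} {v : ℕ} {x : Site L} : x ∈ sph X v ↔ dX X x = v := by
  simp [sph]

/-- a sphere has at most `8 / v` times the number of sites of `nb_v X \ X` -/
theorem card_sph {X : Finset (Site L)} (h : X.Nonempty) {v : ℕ} (hv : 1 ≤ v) :
    (sph X v).card * v ≤ 8 * (sa7_nb X v \ X).card := by
  classical
  have hc := fun x : Site L => walk h x
  choose e he hw using hc
  set m := v / 2 + v % 2 with hm
  have hm1 : v ≤ 2 * m := by omega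
  have hj : ∀ j ∈ range m, 2 * j ≤ v ∧ j < v := by
    intro j hj
    rw [mem_range] at hj
    omega
  let f : Site L × ℕ → (ℤ × ℤ) × Site L := fun q =>
    (e q.1, if hq : 2 * q.2 ≤ dX X q.1 then (hw q.1 q.2 hq).choose else q.1)
  have hcard : ((sph X v) ×ˢ (range m)).card ≤ (dirs ×ˢ (sa7_nb X v \ X)).card := by
    apply Finset.card_le_card_of_injOn f
    · rintro ⟨x, j⟩ hq
      rw [mem_coe, mem_product] at hq
      obtain ⟨h1, h2⟩ := hq
      rw [mem_sph] at h1
      simp only at h1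
      have h3 := hj j h2
      have hq' : 2 * j ≤ dX X x := by rw [h1]; exact h3.1
      have hs := (hw x j hq').choose_spec
      rw [mem_coe, mem_product]
      refine ⟨he x, ?_⟩
      simp only [f, dif_pos hq']
      rw [mem_sdiff, mem_nb h]
      constructor
      · omega
      · intro hX
        have := dX_zero hX
        omega
    · rintro ⟨x, j⟩ hq ⟨x', j'⟩ hq' hf
      rw [mem_coe, mem_product] at hq hq'
      obtain ⟨h1, h2⟩ := hq
      obtain ⟨h1', h2'⟩ := hq'
      rw [mem_sph] at h1 h1'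
      simp only at h1 h1' h2 h2'
      have h3 := hj j h2
      have h3' := hj j' h2'
      have hq1 : 2 * j ≤ dX X x := by rw [h1]; exact h3.1
      have hq1' : 2 * j' ≤ dX X x' := by rw [h1']; exact h3'.1
      have hs := (hw x j hq1).choose_spec
      have hs' := (hw x' j' hq1').choose_spec
      simp only [f, dif_pos hq1, dif_pos hq1', Prod.mk.injEq] at hf
      obtain ⟨f1, f2⟩ := hf
      rw [← f2, ← f1] at hs'
      obtain ⟨a1, a2, a3⟩ := hs
      obtain ⟨b1, b2, b3⟩ := hs'
      have hjj : j = j' := by omega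
      subst hjj
      have c1 : (x.1 : ℤ) = x'.1 := by linarith
      have c2 : (x.2 : ℤ) = x'.2 := by linarith
      have c3 : x = x' := Prod.ext (Fin.ext (by exact_mod_cast c1)) (Fin.ext (by exact_mod_cast c2))
      rw [c3]
  rw [card_product, card_product, card_range] at hcard
  have h4 : dirs.card * (sa7_nb X v \ X).card ≤ 4 * (sa7_nb X v \ X).card :=
    Nat.mul_le_mul_right _ card_dirs
  calc (sph X v).card * v ≤ (sph X v).card * (2 * m) := Nat.mul_le_mul_left _ hm1
    _ = 2 * ((sph X v).card * m) := by ring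
    _ ≤ 2 * (4 * (sa7_nb X v \ X).card) := Nat.mul_le_mul_left _ (hcard.trans h4)
    _ = 8 * (sa7_nb X v \ X).card := by ring

/-- the ring `{a ≤ dX ≤ b}` -/
noncomputable def rg (X : Finset (Site L)) (a b : ℕ) : Finset (Site L) :=
  univ.filter fun x => a ≤ dX X x ∧ dX X x ≤ b

theorem mem_rg {X : Finset (Site L)} {a b : ℕ} {x : Site L} :
    x ∈ rg X a b ↔ a ≤ dX X x ∧ dX X x ≤ b := by
  simp [rg]

/-- **size of a ring** -/
theorem card_rg {X : Finset (Site L)} (h : X.Nonempty) {a b : ℕ} (ha : 1 ≤ a) :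
    (rg X a b).card * a ≤ 8 * (b + 1 - a) * (sa7_nb X b \ X).card := by
  classical
  have hsub : rg X a b ⊆ (Finset.Ico a (b + 1)).biUnion (sph X) := by
    intro x hx
    rw [mem_rg] at hx
    rw [mem_biUnion]
    exact ⟨dX X x, by rw [mem_Ico]; omega, by rw [mem_sph]⟩
  calc (rg X a b).card * a ≤ (∑ v ∈ Finset.Ico a (b + 1), (sph X v).card) * a :=
        Nat.mul_le_mul_right _ ((card_le_card hsub).trans card_biUnion_le)
    _ = ∑ v ∈ Finset.Ico a (b + 1), (sph X v).card * a := by rw [Finset.sum_mul]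
    _ ≤ ∑ v ∈ Finset.Ico a (b + 1), 8 * (sa7_nb X b \ X).card := by
        refine Finset.sum_le_sum fun v hv => ?_
        rw [mem_Ico] at hv
        calc (sph X v).card * a ≤ (sph X v).card * v := Nat.mul_le_mul_left _ hv.1
          _ ≤ 8 * (sa7_nb X v \ X).card := card_sph h (by omega)
          _ ≤ 8 * (sa7_nb X b \ X).card := by
              refine Nat.mul_le_mul_left _ (card_le_card ?_)
              exact sdiff_subset_sdiff (sa7_nb_mono X (by omega)) (subset_refl X)
    _ = 8 * (b + 1 - a) * (sa7_nb X b \ X).card := by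
        rw [Finset.sum_const, Nat.card_Ico, smul_eq_mul]
        ring

/-- real form: sites with `α ≤ dX ≤ β` -/
theorem card_ring_real {X : Finset (Site L)} (h : X.Nonempty) {α β : ℝ} (hα : 1 ≤ α) (hαβ : α ≤ β)
    {S : Finset (Site L)} (hS : ∀ x ∈ S, α ≤ dX X x ∧ (dX X x : ℝ) ≤ β) {w : ℕ} (hβ : β ≤ w) :
    (S.card : ℝ) * α ≤ 8 * (β - α + 1) * (sa7_nb X w \ X).card := by
  classical
  have hβ0 : 0 ≤ β := by linarith
  have ha1 : 1 ≤ ⌈α⌉₊ := Nat.one_le_iff_ne_zero.mpr (Nat.ceil_pos.mpr (by linarith)).ne'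
  have hsub : S ⊆ rg X ⌈α⌉₊ ⌊β⌋₊ := by
    intro x hx
    obtain ⟨h1, h2⟩ := hS x hx
    rw [mem_rg]
    exact ⟨Nat.ceil_le.mpr h1, Nat.le_floor h2⟩
  have h1 := card_rg h (a := ⌈α⌉₊) (b := ⌊β⌋₊) ha1
  have h2 : ⌈α⌉₊ ≤ ⌊β⌋₊ + 1 := by
    rw [Nat.ceil_le]
    have := Nat.lt_floor_add_one β
    push_cast
    linarith
  have h3 : ((⌊β⌋₊ + 1 - ⌈α⌉₊ : ℕ) : ℝ) ≤ β - α + 1 := by
    rw [Nat.cast_sub h2]
    push_cast
    have a1 := Nat.floor_le hβ0
    have a2 := Nat.le_ceil α
    linarith
  have h4 : (sa7_nb X ⌊β⌋₊ \ X).card ≤ (sa7_nb X w \ X).card := by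
    refine card_le_card (sdiff_subset_sdiff (sa7_nb_mono X ?_) (subset_refl X))
    exact_mod_cast (Nat.floor_le hβ0).trans hβ
  have h5 : (((rg X ⌈α⌉₊ ⌊β⌋₊).card * ⌈α⌉₊ : ℕ) : ℝ) ≤
      ((8 * (⌊β⌋₊ + 1 - ⌈α⌉₊) * (sa7_nb X ⌊β⌋₊ \ X).card : ℕ) : ℝ) := by exact_mod_cast h1
  rw [Nat.cast_mul, Nat.cast_mul, Nat.cast_mul] at h5
  push_cast at h5 ⊢
  have h6 : (S.card : ℝ) ≤ (rg X ⌈α⌉₊ ⌊β⌋₊).card := by exact_mod_cast card_le_card hsub
  calc (S.card : ℝ) * α ≤ ((rg X ⌈α⌉₊ ⌊β⌋₊).card : ℝ) * ⌈α⌉₊ :=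
        mul_le_mul h6 (Nat.le_ceil α) (by linarith) (Nat.cast_nonneg _)
    _ ≤ 8 * ((⌊β⌋₊ + 1 - ⌈α⌉₊ : ℕ) : ℝ) * ((sa7_nb X ⌊β⌋₊ \ X).card : ℝ) := h5
    _ ≤ 8 * (β - α + 1) * ((sa7_nb X w \ X).card : ℝ) := by
        refine mul_le_mul ?_ (by exact_mod_cast h4) (Nat.cast_nonneg _) ?_
        · linarith
        · linarith

end Vale.Agent.P356.GA.Ring407
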