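import Vale.Agent.P356.GA.Defs341
import Vale.Agent.P356.GA.Level795
import Vale.Agent.P356.GA.Ring407

/-!
# GA: the geometric data around a region

`exists_level` of helper795 for the distance to the region `X` gives the geometric clauses of
`CoreAt`.
-/

set_option linter.all false

namespace Vale.Agent.P356.GA

open Finset Vale.Agent.P356 Vale.Agent.P356.SV Vale.Agent.P356.Path Vale.Agent.P356.NA
open Vale.Agent.P356.SA Vale.Agent.P356.GA.Level Vale.Agent.P356.GA.Theta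
open Vale.Agent.P356.GA.Ring407 (dX dX_lip dX_pos dX_zero mem_nb)
open scoped BigOperators

variable {L : ℕ}

theorem gd_zone_ring {X : Finset (Site L)} (h : X.Nonempty) {s A b w : ℕ}
    (hw : 4 * s + b + A + 2 ≤ w) :
    zone (fun x => (dX X x : ℝ)) ((2 * s + b + 1 : ℕ) : ℝ) (A + 1) s ⊆ sa7_nb X w \ X := by
  intro x hx
  rw [mem_zone] at hx
  obtain ⟨h1, h2⟩ := hx
  push_cast at h1 h2
  have hb0 : (0 : ℝ) ≤ b := Nat.cast_nonneg _
  have h1' : (1 : ℝ) ≤ dX X x := by linarith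
  have h2' : ((dX X x : ℕ) : ℝ) ≤ (4 * s + b + A + 2 : ℕ) := by
    push_cast
    linarith
  have h1n : 1 ≤ dX X x := by exact_mod_cast h1'
  have h2n : dX X x ≤ 4 * s + b + A + 2 := by exact_mod_cast h2'
  rw [Finset.mem_sdiff, mem_nb h]
  refine ⟨h2n.trans hw, fun hxX => ?_⟩
  rw [dX_zero hxX] at h1n
  omega

theorem gd_mem_loT {T : Site L → ℝ} {t : ℝ} {x : Site L} : x ∈ loT T t ↔ T x ≤ t := by
  simp [loT]

theorem gd_mem_upT {T : Site L → ℝ} {t : ℝ} {x : Site L} : x ∈ upT T t ↔ t < T x := by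
  simp [upT]

theorem gd_loT_compl (T : Site L → ℝ) (t : ℝ) : loT T t = (lev T t)ᶜ := by
  ext x
  rw [gd_mem_loT, Finset.mem_compl, mem_lev, not_lt]

theorem gd_bdry_loT (T : Site L → ℝ) (t : ℝ) : bdry (loT T t) = bdry (lev T t) := by
  rw [gd_loT_compl]
  refine le_antisymm (na_k_bdry_compl _) ?_
  have := na_k_bdry_compl (lev T t)ᶜ
  rwa [compl_compl] at this

/-- sites near one of the four end levels of the two ladders -/
noncomputable def endB (g : Gd L) (b : ℕ) : Finset (Site L) :=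
  open Classical in Finset.univ.filter fun z =>
    |g.T z - g.t0| ≤ b ∨ |g.T z - (g.t0 + g.n)| ≤ b ∨ |g.T z - (g.t0 + g.N - g.n)| ≤ b ∨
      |g.T z - (g.t0 + g.N)| ≤ b

theorem mem_endB {g : Gd L} {b : ℕ} {z : Site L} : z ∈ endB g b ↔
    |g.T z - g.t0| ≤ b ∨ |g.T z - (g.t0 + g.n)| ≤ b ∨ |g.T z - (g.t0 + g.N - g.n)| ≤ b ∨
      |g.T z - (g.t0 + g.N)| ≤ b := by
  simp [endB]

/-- few shifts bring a given real near a given integer level -/
theorem gd_card_shift (x : ℝ) (b K : ℕ) :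
    (((range K).filter fun κ : ℕ => |x - κ| ≤ b).card : ℝ) ≤ 2 * b + 1 := by
  classical
  have h1 : (((range K).filter fun κ : ℕ => |x - κ| ≤ b).image fun κ : ℕ => (κ : ℤ)) ⊆
      Finset.Icc ⌈x - b⌉ ⌊x + b⌋ := by
    intro y hy
    rw [Finset.mem_image] at hy
    obtain ⟨κ, hκ, rfl⟩ := hy
    rw [Finset.mem_filter, abs_le] at hκ
    rw [Finset.mem_Icc, Int.ceil_le, Int.le_floor]
    push_cast
    constructor <;> linarith [hκ.2.1, hκ.2.2]
  have h2 := Finset.card_le_card h1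
  rw [Finset.card_image_of_injective _ (fun a b h => by exact_mod_cast h), Int.card_Icc] at h2
  have h3 : (⌊x + b⌋ : ℝ) ≤ x + b := Int.floor_le _
  have h4 : x - b ≤ (⌈x - b⌉ : ℝ) := Int.le_ceil _
  have h5 : ((⌊x + b⌋ + 1 - ⌈x - b⌉).toNat : ℝ) ≤ 2 * b + 1 := by
    rcases le_or_gt 0 (⌊x + b⌋ + 1 - ⌈x - b⌉) with h | h
    · have h6 : (((⌊x + b⌋ + 1 - ⌈x - b⌉).toNat : ℤ) : ℝ) = ((⌊x + b⌋ + 1 - ⌈x - b⌉ : ℤ) : ℝ) := by
        rw [Int.toNat_of_nonneg h]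
      have h7 : ((⌊x + b⌋ + 1 - ⌈x - b⌉).toNat : ℝ) = ((⌊x + b⌋ + 1 - ⌈x - b⌉ : ℤ) : ℝ) := by
        rw [← h6]
        norm_cast
      rw [h7]
      push_cast
      linarith
    · rw [Int.toNat_of_nonpos h.le]
      push_cast
      positivity
  exact le_trans (by exact_mod_cast h2) h5

/-- sums over the two ladders are sub-sums -/
theorem gd_ladder_sum (G : ℝ → ℝ) (hG : ∀ x, 0 ≤ G x) (t₀ : ℝ) {κ n N A : ℕ} (h : κ + N ≤ A)
    (hn : n ≤ N) :
    ∑ k ∈ range n, G (t₀ + κ + k) ≤ ∑ k ∈ range (A + 1), G (t₀ + k) ∧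
      ∑ k ∈ range n, G (t₀ + κ + N - k) ≤ ∑ k ∈ range (A + 1), G (t₀ + k) := by
  have hgen : ∀ φ : ℕ → ℕ, (∀ a < n, ∀ c < n, φ a = φ c → a = c) → (∀ a < n, φ a ≤ A) →
      ∑ k ∈ range n, G (t₀ + ((φ k : ℕ) : ℝ)) ≤ ∑ k ∈ range (A + 1), G (t₀ + k) := by
    intro φ hφ1 hφ2
    have e5 : ∑ k ∈ range n, G (t₀ + ((φ k : ℕ) : ℝ)) =
        ∑ j ∈ (range n).image φ, G (t₀ + (j : ℝ)) := by
      rw [Finset.sum_image]
      intro a ha c hc hac
      rw [Finset.mem_coe, Finset.mem_range] at ha hc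
      exact hφ1 a ha c hc hac
    rw [e5]
    refine Finset.sum_le_sum_of_subset_of_nonneg ?_ fun _ _ _ => hG _
    intro j hj
    rw [Finset.mem_image] at hj
    obtain ⟨k, hk, rfl⟩ := hj
    rw [Finset.mem_range] at hk ⊢
    have := hφ2 k hk
    omega
  have e2 : ∑ k ∈ range n, G (t₀ + κ + k) = ∑ k ∈ range n, G (t₀ + ((κ + k : ℕ) : ℝ)) :=
    Finset.sum_congr rfl fun k _ => by
      have e : t₀ + (κ : ℝ) + k = t₀ + ((κ + k : ℕ) : ℝ) := by push_cast; ring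
      rw [e]
  have e3 : ∑ k ∈ range n, G (t₀ + κ + N - k) =
      ∑ k ∈ range n, G (t₀ + ((κ + (N - k) : ℕ) : ℝ)) :=
    Finset.sum_congr rfl fun k hk => by
      rw [Finset.mem_range] at hk
      have e : t₀ + (κ : ℝ) + N - k = t₀ + ((κ + (N - k) : ℕ) : ℝ) := by
        rw [Nat.cast_add, Nat.cast_sub (by omega)]
        ring
      rw [e]
  rw [e2, e3]
  exact ⟨hgen (fun k => κ + k) (fun a _ c _ h => by omega) (fun a ha => by omega),
    hgen (fun k => κ + (N - k)) (fun a ha c hc h => by omega) (fun a ha => by omega)⟩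

/-- sites of the end bands lie in the ring -/
theorem gd_band_ring {X : Finset (Site L)} (hX : X.Nonempty) {w s b A : ℕ}
    {T : Site L → ℝ} {t₀ : ℝ} (hA1 : A + 4 * s + 2 * b + 4 = w)
    (h0 : ((2 * s + b + 1 : ℕ) : ℝ) < t₀) (h1 : t₀ ≤ ((2 * s + b + 1 : ℕ) : ℝ) + 1)
    (hT : ∀ x, (dX X x : ℝ) ≤ T x ∧ T x ≤ dX X x + s / 2) :
    ∀ κ c : ℕ, κ + c ≤ A → ∀ z : Site L, |T z - (t₀ + κ + c)| ≤ b →
      z ∈ sa7_nb X w \ X := by
  have hs0 : (0 : ℝ) ≤ s := Nat.cast_nonneg _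
  have hb0 : (0 : ℝ) ≤ b := Nat.cast_nonneg _
  intro κ c hκc z hz
  rw [abs_le] at hz
  have h2 := (hT z).1
  have h3 := (hT z).2
  have hκc' : (κ : ℝ) + c ≤ A := by exact_mod_cast hκc
  have hκ0 : (0 : ℝ) ≤ κ := Nat.cast_nonneg _
  have hc0 : (0 : ℝ) ≤ c := Nat.cast_nonneg _
  push_cast at h0 h1
  have h4 : (0 : ℝ) < dX X z := by linarith [hz.1]
  have h5 : ((dX X z : ℕ) : ℝ) ≤ (w : ℕ) := by
    have h6 : ((A + 4 * s + 2 * b + 4 : ℕ) : ℝ) = w := by exact_mod_cast hA1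
    push_cast at h6
    rw [← h6]
    linarith [hz.2]
  have h4n : 0 < dX X z := by exact_mod_cast h4
  have h5n : dX X z ≤ w := by exact_mod_cast h5
  rw [Finset.mem_sdiff, mem_nb hX]
  refine ⟨h5n, fun h => ?_⟩
  rw [dX_zero h] at h4n
  omega

/-- a shift for which the end bands are small -/
theorem gd_exists_shift {X : Finset (Site L)} (hX : X.Nonempty) {w s b mp tl A K N n : ℕ}
    {T : Site L → ℝ} {t₀ : ℝ} (hA1 : A + 4 * s + 2 * b + 4 = w) (hK : K = A / 4)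
    (hN : N = A - K) (hn : n = N / 8)
    (hsw : 32 * s + 32 * b + 400 ≤ w)
    (h0 : ((2 * s + b + 1 : ℕ) : ℝ) < t₀) (h1 : t₀ ≤ ((2 * s + b + 1 : ℕ) : ℝ) + 1)
    (hT : ∀ x, (dX X x : ℝ) ≤ T x ∧ T x ≤ dX X x + s / 2) {r : ℝ}
    (hr : r = (sa7_nb X w \ X).card) :
    ∃ κ : ℕ, κ < K ∧
      ((endB (⟨T, t₀ + κ, n, N, 0, mp, tl⟩ : Gd L) b).card : ℝ) ≤ 32 * (2 * b + 1) * (r / w) := by
  have hbandring := gd_band_ring hX hA1 h0 h1 hT
  have hN8 : n ≤ N := by omega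
  have hr0 : 0 ≤ r := by rw [hr]; exact Nat.cast_nonneg _
  have hw1 : (1 : ℝ) ≤ w := by
    have : 1 ≤ w := by omega
    exact_mod_cast this
  have hw0 : (0 : ℝ) < w := by linarith
  by_contra hcon
  push Not at hcon
  have hsum : ∑ κ ∈ range K, ((endB (⟨T, t₀ + κ, n, N, 0, mp, tl⟩ : Gd L) b).card : ℝ) ≤
      r * (4 * (2 * b + 1)) := by
    have e1 : ∀ κ ∈ range K, ((endB (⟨T, t₀ + κ, n, N, 0, mp, tl⟩ : Gd L) b).card : ℝ) ≤
        ∑ z ∈ sa7_nb X w \ X, ((if |T z - t₀ - κ| ≤ b then (1 : ℝ) else 0) +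
          (if |T z - t₀ - n - κ| ≤ b then (1 : ℝ) else 0) +
          (if |T z - t₀ - (N - n : ℕ) - κ| ≤ b then (1 : ℝ) else 0) +
          (if |T z - t₀ - N - κ| ≤ b then (1 : ℝ) else 0)) := by
      intro κ hκ
      rw [Finset.mem_range] at hκ
      have hNn : ((N - n : ℕ) : ℝ) = N - n := by rw [Nat.cast_sub hN8]
      rw [Finset.card_eq_sum_ones]
      push_cast
      have hsub : endB (⟨T, t₀ + κ, n, N, 0, mp, tl⟩ : Gd L) b ⊆ sa7_nb X w \ X := by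
        intro z hz
        rw [mem_endB] at hz
        simp only at hz
        rcases hz with hz | hz | hz | hz
        · refine hbandring κ 0 (by omega) z ?_
          simpa using hz
        · exact hbandring κ n (by omega) z hz
        · refine hbandring κ (N - n) (by omega) z ?_
          rw [hNn]
          have e : T z - (t₀ + (κ : ℝ) + ((N : ℝ) - n)) = T z - (t₀ + κ + N - n) := by ring
          rw [e]
          exact hz
        · exact hbandring κ N (by omega) z hz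
      refine le_trans ?_ (Finset.sum_le_sum_of_subset_of_nonneg hsub fun z _ _ => by positivity)
      refine Finset.sum_le_sum fun z hz => ?_
      rw [mem_endB] at hz
      simp only at hz
      have p : ∀ P : Prop, ∀ [Decidable P], (0 : ℝ) ≤ if P then (1 : ℝ) else 0 := by
        intro P _
        split_ifs <;> norm_num
      rcases hz with hz | hz | hz | hz
      · have e : T z - t₀ - κ = T z - (t₀ + κ) := by ring
        rw [e, if_pos hz]
        have := p (|T z - t₀ - n - κ| ≤ b)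
        have := p (|T z - t₀ - (N - n : ℕ) - κ| ≤ b)
        have := p (|T z - t₀ - N - κ| ≤ b)
        linarith
      · have e : T z - t₀ - n - κ = T z - (t₀ + κ + n) := by ring
        rw [e, if_pos hz]
        have := p (|T z - t₀ - κ| ≤ b)
        have := p (|T z - t₀ - (N - n : ℕ) - κ| ≤ b)
        have := p (|T z - t₀ - N - κ| ≤ b)
        linarith
      · have e : T z - t₀ - (N - n : ℕ) - κ = T z - (t₀ + κ + N - n) := by rw [hNn]; ring
        rw [e, if_pos hz]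
        have := p (|T z - t₀ - κ| ≤ b)
        have := p (|T z - t₀ - n - κ| ≤ b)
        have := p (|T z - t₀ - N - κ| ≤ b)
        linarith
      · have e : T z - t₀ - N - κ = T z - (t₀ + κ + N) := by ring
        rw [e, if_pos hz]
        have := p (|T z - t₀ - κ| ≤ b)
        have := p (|T z - t₀ - n - κ| ≤ b)
        have := p (|T z - t₀ - (N - n : ℕ) - κ| ≤ b)
        linarith
    refine (Finset.sum_le_sum e1).trans ?_
    rw [Finset.sum_comm]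
    have e2 : ∀ z ∈ sa7_nb X w \ X, ∑ κ ∈ range K,
        ((if |T z - t₀ - κ| ≤ b then (1 : ℝ) else 0) +
          (if |T z - t₀ - n - κ| ≤ b then (1 : ℝ) else 0) +
          (if |T z - t₀ - (N - n : ℕ) - κ| ≤ b then (1 : ℝ) else 0) +
          (if |T z - t₀ - N - κ| ≤ b then (1 : ℝ) else 0)) ≤ 4 * (2 * b + 1) := by
      intro z _
      rw [Finset.sum_add_distrib, Finset.sum_add_distrib, Finset.sum_add_distrib]
      have c : ∀ x : ℝ, ∑ κ ∈ range K, (if |x - (κ : ℝ)| ≤ b then (1 : ℝ) else 0) ≤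
          2 * b + 1 := by
        intro x
        rw [Finset.sum_ite, Finset.sum_const_zero, add_zero, Finset.sum_const, nsmul_eq_mul,
          mul_one]
        exact gd_card_shift x b K
      have c1 := c (T z - t₀)
      have c2 := c (T z - t₀ - n)
      have c3 := c (T z - t₀ - (N - n : ℕ))
      have c4 := c (T z - t₀ - N)
      linarith
    refine (Finset.sum_le_sum e2).trans ?_
    rw [Finset.sum_const, nsmul_eq_mul, hr]
  have hKpos : 0 < K := by omega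
  have hlt : ∑ κ ∈ range K, (32 * (2 * (b : ℝ) + 1) * (r / w)) <
      ∑ κ ∈ range K, ((endB (⟨T, t₀ + κ, n, N, 0, mp, tl⟩ : Gd L) b).card : ℝ) := by
    refine Finset.sum_lt_sum (fun κ hκ => (hcon κ (Finset.mem_range.1 hκ)).le)
      ⟨0, Finset.mem_range.2 hKpos, hcon 0 hKpos⟩
  rw [Finset.sum_const, Finset.card_range, nsmul_eq_mul] at hlt
  have hKw : (w : ℝ) / 8 ≤ K := by
    have : w ≤ 8 * K := by omega
    have h6 : (w : ℝ) ≤ 8 * K := by exact_mod_cast this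
    linarith
  have h6 : 0 ≤ r / w := div_nonneg hr0 hw0.le
  have h7 : (w : ℝ) / 8 * (32 * (2 * (b : ℝ) + 1) * (r / w)) ≤
      K * (32 * (2 * (b : ℝ) + 1) * (r / w)) :=
    mul_le_mul_of_nonneg_right hKw (by positivity)
  have h8 : (w : ℝ) / 8 * (32 * (2 * (b : ℝ) + 1) * (r / w)) = r * (4 * (2 * b + 1)) := by
    field_simp
    ring
  linarith

/-- a middle level with small boundary -/
theorem gd_exists_mid {w A N κ : ℕ} {T : Site L → ℝ} {t₀ r : ℝ} (hr0 : 0 ≤ r)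
    (hb' : ∑ k ∈ range (A + 1), (bdry (lev T (t₀ + k)) : ℝ) ≤ 24 * r) (hκ : κ + N ≤ A)
    (hwN : w ≤ 8 * (N / 2)) (hw1 : 1 ≤ w) :
    ∃ m : ℕ, N / 4 ≤ m ∧ m < N / 4 + N / 2 ∧
      (bdry (lev T (t₀ + κ + m)) : ℝ) ≤ 200 * (r / w) := by
  have hw1 : (1 : ℝ) ≤ w := by exact_mod_cast hw1
  have hw0 : (0 : ℝ) < w := by linarith
  by_contra hcon
  push Not at hcon
  have h3 : ∑ k ∈ Finset.Ico (N / 4) (N / 4 + N / 2), (bdry (lev T (t₀ + κ + k)) : ℝ) ≤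
      24 * r := by
    have e5 : ∑ k ∈ Finset.Ico (N / 4) (N / 4 + N / 2), (bdry (lev T (t₀ + κ + k)) : ℝ) =
        ∑ j ∈ (Finset.Ico (N / 4) (N / 4 + N / 2)).image (fun k => κ + k),
          (bdry (lev T (t₀ + (j : ℝ))) : ℝ) := by
      rw [Finset.sum_image]
      · refine Finset.sum_congr rfl fun k _ => ?_
        push_cast
        rw [add_assoc]
      · intro a _ c _ hac
        simp only at hac
        omega
    rw [e5]
    refine (Finset.sum_le_sum_of_subset_of_nonneg ?_ fun _ _ _ => Nat.cast_nonneg _).trans hb'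
    intro j hj
    rw [Finset.mem_image] at hj
    obtain ⟨k, hk, rfl⟩ := hj
    rw [Finset.mem_Ico] at hk
    rw [Finset.mem_range]
    omega
  have hne : N / 4 < N / 4 + N / 2 := by omega
  have h4 : ∑ k ∈ Finset.Ico (N / 4) (N / 4 + N / 2), (200 * (r / w)) <
      ∑ k ∈ Finset.Ico (N / 4) (N / 4 + N / 2), (bdry (lev T (t₀ + κ + k)) : ℝ) := by
    refine Finset.sum_lt_sum (fun k hk => ?_) ⟨N / 4, Finset.mem_Ico.2 ⟨le_rfl, hne⟩, ?_⟩
    · rw [Finset.mem_Ico] at hk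
      exact (hcon k hk.1 hk.2).le
    · exact hcon _ le_rfl hne
  rw [Finset.sum_const, Nat.card_Ico, Nat.add_sub_cancel_left, nsmul_eq_mul] at h4
  have h5 : (w : ℝ) / 8 ≤ ((N / 2 : ℕ) : ℝ) := by
    have h6 : (w : ℝ) ≤ 8 * ((N / 2 : ℕ) : ℝ) := by exact_mod_cast hwN
    linarith
  have h6 : 0 ≤ r / w := div_nonneg hr0 hw0.le
  have h7 : (w : ℝ) / 8 * (200 * (r / w)) ≤ ((N / 2 : ℕ) : ℝ) * (200 * (r / w)) :=
    mul_le_mul_of_nonneg_right h5 (by positivity)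
  have h8 : (w : ℝ) / 8 * (200 * (r / w)) = 25 * r := by
    field_simp
    ring
  linarith

/-- The geometric clauses of `CoreAt` and the bookkeeping of both ladders, from the level
function. `b` is the half width of the end bands, `A + 1` the number of levels. -/
theorem gd_of_level {X : Finset (Site L)} (hX : X.Nonempty) {w s b mp tl A : ℕ}
    {T : Site L → ℝ} {t₀ : ℝ} (hA : A = w - 4 * s - 2 * b - 4)
    (hsw : 32 * s + 32 * b + 400 ≤ w) (hmp : 32 * mp ≤ w)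
    (h0 : ((2 * s + b + 1 : ℕ) : ℝ) < t₀) (h1 : t₀ ≤ ((2 * s + b + 1 : ℕ) : ℝ) + 1)
    (hT : ∀ x, (dX X x : ℝ) ≤ T x ∧ T x ≤ dX X x + s / 2)
    (hb : ∑ k ∈ range (A + 1), (bdry (lev T (t₀ + k)) : ℝ) ≤
      24 * (zone (fun x => (dX X x : ℝ)) ((2 * s + b + 1 : ℕ) : ℝ) (A + 1) s).card)
    (Z : Finset (Site L)) (F : Site L → Finset (Site L) → ℝ) (hF : ∀ z O, 0 ≤ F z O) {B : ℝ}
    (hFB : ∑ z ∈ Z, ∑ k ∈ range (A + 1), F z (lev T (t₀ + k)) ≤ B) :
    ∃ (g : Gd L) (κ : ℕ), g.T = T ∧ g.t0 = t₀ + κ ∧ g.mp = mp ∧ g.tl = tl ∧ κ + g.N ≤ A ∧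
      8 * g.n ≤ w ∧ w ≤ 16 * g.n ∧ g.N ≤ w ∧ g.n + g.mp ≤ g.m ∧ g.m + g.n + g.mp ≤ g.N ∧
      X ⊆ g.P 0 ∧ g.Q 0 ⊆ sa7_nb X w ∧
      (bdry g.Mid : ℝ) ≤ 200 * ((sa7_nb X w \ X).card / (w : ℝ)) ∧
      ∑ k ∈ range g.n, ((bdry (g.P k) : ℝ) + bdry (g.Q k)) ≤
        g.n * (800 * ((sa7_nb X w \ X).card / (w : ℝ))) ∧
      endB g b ⊆ sa7_nb X w \ X ∧
      ((endB g b).card : ℝ) ≤ 32 * (2 * b + 1) * ((sa7_nb X w \ X).card / (w : ℝ)) ∧
      ∑ z ∈ Z, ∑ k ∈ range g.n, (F z (lev T (g.t0 + k)) + F z (lev T (g.t0 + g.N - k))) ≤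
        2 * B := by
  obtain ⟨K, hK⟩ : ∃ K : ℕ, K = A / 4 := ⟨_, rfl⟩
  obtain ⟨N, hN⟩ : ∃ N : ℕ, N = A - K := ⟨_, rfl⟩
  obtain ⟨n, hn⟩ : ∃ n : ℕ, n = N / 8 := ⟨_, rfl⟩
  have hA1 : A + 4 * s + 2 * b + 4 = w := by omega
  have hring : ((zone (fun x => (dX X x : ℝ)) ((2 * s + b + 1 : ℕ) : ℝ) (A + 1) s).card : ℝ) ≤
      (sa7_nb X w \ X).card := by
    exact_mod_cast Finset.card_le_card (gd_zone_ring hX (by omega))
  obtain ⟨r, hr⟩ : ∃ r : ℝ, r = (sa7_nb X w \ X).card := ⟨_, rfl⟩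
  rw [← hr] at hring ⊢
  have hr0 : 0 ≤ r := by rw [hr]; exact Nat.cast_nonneg _
  have hb' : ∑ k ∈ range (A + 1), (bdry (lev T (t₀ + k)) : ℝ) ≤ 24 * r :=
    hb.trans (mul_le_mul_of_nonneg_left hring (by norm_num))
  have hw1 : (1 : ℝ) ≤ w := by
    have : 1 ≤ w := by omega
    exact_mod_cast this
  have hw0 : (0 : ℝ) < w := by linarith
  have hs0 : (0 : ℝ) ≤ s := Nat.cast_nonneg _
  have hb0 : (0 : ℝ) ≤ b := Nat.cast_nonneg _
  have hN8 : n ≤ N := by omega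
  have hbandring := gd_band_ring hX hA1 h0 h1 hT
  obtain ⟨κ, hκK, hκ⟩ := gd_exists_shift (mp := mp) (tl := tl) hX hA1 hK hN hn hsw h0 h1 hT hr
  obtain ⟨m, hm1, hm2, hm3⟩ := gd_exists_mid (w := w) (N := N) (κ := κ) hr0 hb' (by omega) (by omega)
    (by omega)
  have hnN : (⟨T, t₀ + κ, n, N, m, mp, tl⟩ : Gd L).n = n := rfl
  refine ⟨⟨T, t₀ + κ, n, N, m, mp, tl⟩, κ, rfl, rfl, rfl, rfl, ?_, ?_, ?_, ?_, ?_, ?_, ?_, ?_, ?_,
    ?_, ?_, hκ, ?_⟩
  · show κ + N ≤ A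
    omega
  · show 8 * n ≤ w
    omega
  · show w ≤ 16 * n
    omega
  · show N ≤ w
    omega
  · show n + mp ≤ m
    omega
  · show m + n + mp ≤ N
    omega
  · intro x hx
    show x ∈ loT T (t₀ + κ + ((0 : ℕ) : ℝ))
    rw [gd_mem_loT]
    have h2 := (hT x).2
    rw [dX_zero hx] at h2
    have hκ0 : (0 : ℝ) ≤ κ := Nat.cast_nonneg _
    push_cast at h2 h0 ⊢
    linarith
  · intro x hx
    have hx' : x ∈ loT T (t₀ + κ + ((N : ℕ) : ℝ) - ((0 : ℕ) : ℝ)) := hx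
    rw [gd_mem_loT] at hx'
    rw [mem_nb hX]
    have h2 := (hT x).1
    have hκN : (κ : ℝ) + N ≤ A := by
      have : κ + N ≤ A := by omega
      exact_mod_cast this
    have h3 : ((dX X x : ℕ) : ℝ) ≤ (A + 4 * s + 2 * b + 4 : ℕ) := by
      push_cast at hx' h1 ⊢
      linarith
    have h4 : dX X x ≤ A + 4 * s + 2 * b + 4 := by exact_mod_cast h3
    omega
  · show (bdry (loT T (t₀ + κ + ((m : ℕ) : ℝ))) : ℝ) ≤ _
    rw [gd_bdry_loT]
    exact hm3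
  · have e1 : ∀ k ∈ range n, ((bdry ((⟨T, t₀ + κ, n, N, m, mp, tl⟩ : Gd L).P k) : ℝ) +
        bdry ((⟨T, t₀ + κ, n, N, m, mp, tl⟩ : Gd L).Q k)) =
        (bdry (lev T (t₀ + κ + k)) : ℝ) + bdry (lev T (t₀ + κ + N - k)) := by
      intro k hk
      have e2 : (⟨T, t₀ + κ, n, N, m, mp, tl⟩ : Gd L).P k = loT T (t₀ + κ + k) := rfl
      have e3 : (⟨T, t₀ + κ, n, N, m, mp, tl⟩ : Gd L).Q k = loT T (t₀ + κ + N - k) := rfl
      rw [e2, e3, gd_bdry_loT, gd_bdry_loT]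
    show ∑ k ∈ range n, _ ≤ ((n : ℕ) : ℝ) * _
    rw [Finset.sum_congr rfl e1, Finset.sum_add_distrib]
    have h23 := gd_ladder_sum (fun x => (bdry (lev T x) : ℝ)) (fun _ => Nat.cast_nonneg _) t₀
      (κ := κ) (n := n) (N := N) (A := A) (by omega) hN8
    have h2 := h23.1.trans hb'
    have h3 := h23.2.trans hb'
    have h5 : (w : ℝ) / 16 ≤ (n : ℝ) := by
      have : w ≤ 16 * n := by omega
      have h6 : (w : ℝ) ≤ 16 * (n : ℝ) := by exact_mod_cast this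
      linarith
    have h6 : 0 ≤ r / w := div_nonneg hr0 hw0.le
    have h7 : (w : ℝ) / 16 * (800 * (r / w)) ≤ (n : ℝ) * (800 * (r / w)) :=
      mul_le_mul_of_nonneg_right h5 (by positivity)
    have h8 : (w : ℝ) / 16 * (800 * (r / w)) = 50 * r := by
      field_simp
      ring
    linarith
  · intro z hz
    rw [mem_endB] at hz
    simp only at hz
    have hNn : ((N - n : ℕ) : ℝ) = N - n := by rw [Nat.cast_sub hN8]
    rcases hz with hz | hz | hz | hz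
    · refine hbandring κ 0 (by omega) z ?_
      simpa using hz
    · exact hbandring κ n (by omega) z hz
    · refine hbandring κ (N - n) (by omega) z ?_
      rw [hNn]
      have e : T z - (t₀ + (κ : ℝ) + ((N : ℝ) - n)) = T z - (t₀ + κ + N - n) := by ring
      rw [e]
      exact hz
    · exact hbandring κ N (by omega) z hz
  · show ∑ z ∈ Z, ∑ k ∈ range n, (F z (lev T (t₀ + κ + k)) + F z (lev T (t₀ + κ + N - k))) ≤ 2 * B
    have hz : ∀ z ∈ Z, ∑ k ∈ range n, (F z (lev T (t₀ + κ + k)) + F z (lev T (t₀ + κ + N - k))) ≤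
        2 * ∑ k ∈ range (A + 1), F z (lev T (t₀ + k)) := by
      intro z _
      rw [Finset.sum_add_distrib]
      have h23 := gd_ladder_sum (fun x => F z (lev T x)) (fun _ => hF _ _) t₀
        (κ := κ) (n := n) (N := N) (A := A) (by omega) hN8
      linarith [h23.1, h23.2]
    refine (Finset.sum_le_sum hz).trans ?_
    rw [← Finset.mul_sum]
    exact mul_le_mul_of_nonneg_left hFB (by norm_num)

/-- **The geometric data of `CoreAt`.** -/
theorem exists_gd {S : Finset (Site L) → ℝ} (hS : EntLike S) {X : Finset (Site L)}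
    (hX : X.Nonempty) {l w D s ρ b mp tl x0 x1 y0 y1 : ℕ} (hD : 1 ≤ D) (hs : 8 * D ≤ s)
    (hρ : s ≤ ρ) (hsw : 32 * s + 32 * b + 400 ≤ w) (hmp : 32 * mp ≤ w) (hwl : w ≤ l)
    {E₀ : ℝ} (hE0 : 0 < E₀)
    (hE : ∀ u0 u1 v0 v1 : ℕ, u1 ≤ u0 + ρ → v1 ≤ v0 + ρ → S (rect L u0 u1 v0 v1) ≤ E₀)
    (hx : x1 ≤ x0 + l) (hy : y1 ≤ y0 + l) (hbox : X ⊆ rect L x0 x1 y0 y1) :
    ∃ (g : Gd L) (Exc : Finset (Site L)), g.mp = mp ∧ g.tl = tl ∧
      8 * g.n ≤ w ∧ w ≤ 16 * g.n ∧ g.N ≤ w ∧ g.n + g.mp ≤ g.m ∧ g.m + g.n + g.mp ≤ g.N ∧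
      X ⊆ g.P 0 ∧ g.Q 0 ⊆ sa7_nb X w ∧
      (bdry g.Mid : ℝ) ≤ 200 * ((sa7_nb X w \ X).card / (w : ℝ)) ∧
      ∑ k ∈ range g.n, ((bdry (g.P k) : ℝ) + bdry (g.Q k)) ≤
        g.n * (800 * ((sa7_nb X w \ X).card / (w : ℝ))) ∧
      (∀ z, g.t0 - b ≤ g.T z → g.T z ≤ g.t0 + g.N + b → z ∈ sa7_nb X w \ X) ∧
      ((endB g b).card : ℝ) ≤ 32 * (2 * b + 1) * ((sa7_nb X w \ X).card / (w : ℝ)) ∧
      (∀ x y, |g.T x - g.T y| ≤ 2 * dist1 x y) ∧
      (∀ x, (dX X x : ℝ) ≤ g.T x ∧ g.T x ≤ dX X x + s / 2) ∧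
      (∀ x, ∀ k ≤ g.N, g.T x ≠ g.t0 + k) ∧
      Exc ⊆ sa7_nb X w \ X ∧
      (Exc.card : ℝ) ≤ 1536 * (sa7_nb X w \ X).card * (D / s) ∧
      ∑ z ∈ Excᶜ, ∑ k ∈ range g.n, (thC S (bal z D) (bal z (3 * ρ)) (lev g.T (g.t0 + k)) +
        thC S (bal z D) (bal z (3 * ρ)) (lev g.T (g.t0 + g.N - k))) ≤
        2 * (9600 * D * (s : ℝ) ^ 2 * (((3 * l / ρ + 7 : ℕ) : ℝ) ^ 2 * E₀)) := by
  obtain ⟨A, hA⟩ : ∃ A : ℕ, A = w - 4 * s - 2 * b - 4 := ⟨_, rfl⟩
  have hA1 : A + 4 * s + 2 * b + 4 = w := by omega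
  have hring : zone (fun x => (dX X x : ℝ)) ((2 * s + b + 1 : ℕ) : ℝ) (A + 1) s ⊆
      sa7_nb X w \ X := gd_zone_ring hX (by omega)
  have hZ : zone (fun x => (dX X x : ℝ)) ((2 * s + b + 1 : ℕ) : ℝ) (A + 1) s ⊆
      rect L (x0 - w) (x1 + w) (y0 - w) (y1 + w) :=
    hring.trans (Finset.sdiff_subset.trans (sa7_nb_rect hbox w))
  obtain ⟨T, t₀, Exc, h0, h1, hT, hlip, hties, hExc, hExcC, hdef, hb⟩ :=
    exists_level hS (d := fun x => (dX X x : ℝ)) (dX_lip X) (n := A + 1) (l := 3 * l) hD hs hρ hE0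
      hE ((2 * s + b + 1 : ℕ) : ℝ) (by omega : x1 + w ≤ x0 - w + 3 * l)
      (by omega : y1 + w ≤ y0 - w + 3 * l) hZ
  obtain ⟨g, κ, gT, g0, gmp, gtl, gκ, gn1, gn2, gN, gm1, gm2, gX, gQ, gM, gb, gE1, gE2, gF⟩ :=
    gd_of_level (tl := tl) hX hA hsw hmp h0 h1 hT hb Excᶜ
      (fun z O => thC S (bal z D) (bal z (3 * ρ)) O) (fun z O => thC_nonneg hS _ _ _) hdef
  refine ⟨g, Exc, gmp, gtl, gn1, gn2, gN, gm1, gm2, gX, gQ, gM, gb, ?_, gE2, ?_, ?_, ?_,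
    hExc.trans hring, ?_, by rw [gT]; exact gF⟩
  · intro z hz1 hz2
    rw [gT, g0] at hz1 hz2
    have h2 := (hT z).1
    have h3 := (hT z).2
    have hκN : (κ : ℝ) + g.N ≤ A := by exact_mod_cast gκ
    have hκ0 : (0 : ℝ) ≤ κ := Nat.cast_nonneg _
    have hs0 : (0 : ℝ) ≤ s := Nat.cast_nonneg _
    have hb0 : (0 : ℝ) ≤ b := Nat.cast_nonneg _
    push_cast at h0 h1
    have h4 : (0 : ℝ) < dX X z := by linarith
    have h5 : ((dX X z : ℕ) : ℝ) ≤ (w : ℕ) := by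
      have h6 : ((A + 4 * s + 2 * b + 4 : ℕ) : ℝ) = w := by exact_mod_cast hA1
      push_cast at h6
      rw [← h6]
      linarith
    have h4n : 0 < dX X z := by exact_mod_cast h4
    have h5n : dX X z ≤ w := by exact_mod_cast h5
    rw [Finset.mem_sdiff, mem_nb hX]
    refine ⟨h5n, fun h => ?_⟩
    rw [dX_zero h] at h4n
    omega
  · intro x y
    rw [gT]
    exact hlip x y
  · intro x
    rw [gT]
    exact hT x
  · intro x k hk
    rw [gT, g0, add_assoc, ← Nat.cast_add]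
    exact hties x (κ + k) (by omega)
  · refine hExcC.trans ?_
    have h2 : ((zone (fun x => (dX X x : ℝ)) ((2 * s + b + 1 : ℕ) : ℝ) (A + 1) s).card : ℝ) ≤
        (sa7_nb X w \ X).card := by exact_mod_cast Finset.card_le_card hring
    have h3 : (0 : ℝ) ≤ (D : ℝ) / s := by positivity
    exact mul_le_mul_of_nonneg_right (mul_le_mul_of_nonneg_left h2 (by norm_num)) h3

end Vale.Agent.P356.GA
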