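import Vale.Agent.P356.GA.Class407
import Vale.Agent.P356.GA.E1_228
import Vale.Agent.P356.GA.Gd551

/-!
# P356, GA, block CLASS (helper407): the sum of the Markov functionals and the numbers of the
exceptional cores, on the two-layer lattice
-/

set_option linter.all false

namespace Vale.Agent.P356.GA.Class407

open Finset Vale.Agent.P356 Vale.Agent.P356.SV Vale.Agent.P356.SA Vale.Agent.P356.GA
open Vale.Agent.P356.GA.Level Vale.Agent.P356.GA.Edge795 Vale.Agent.P356.GA.Notch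
open Vale.Agent.P356.GA.Theta
open scoped BigOperators

variable {L : ℕ}

theorem lev_eq_upT (T : Site L → ℝ) (t : ℝ) : lev T t = upT T t := by
  classical
  ext x
  rw [mem_lev]
  unfold upT
  simp

theorem cor_eq_layS (D : ℕ) (v : SS L) : cor D v = layS v (bal (st v) D) := by
  rcases v with z | z <;> rfl

/-- **sum of the Markov functionals** over the cores outside the exceptional set and their cutting
lines, in terms of the two sums of `exists_gd` -/
theorem th_sum {S : Finset (Site L) → ℝ} (hS : EntLike S) (g : Gd L) (D W : ℕ)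
    {Z : Finset (SS L)} {Exc : Finset (Site L)} (hZ : ∀ v ∈ Z, st v ∉ Exc) :
    ∑ v ∈ Z, ∑ k ∈ Sum.cutL g.R g.n (cor D v),
        th S (bal (st v) D) (bal (st v) W) (upT g.T (layLev g v k)) ≤
      ∑ z ∈ Excᶜ, ∑ k ∈ range g.n, (thC S (bal z D) (bal z W) (lev g.T (g.t0 + k)) +
        thC S (bal z D) (bal z W) (lev g.T (g.t0 + g.N - k))) := by
  classical
  have h1 : ∀ v ∈ Z, ∑ k ∈ Sum.cutL g.R g.n (cor D v),
      th S (bal (st v) D) (bal (st v) W) (upT g.T (layLev g v k)) ≤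
      ∑ k ∈ range g.n, thC S (bal (st v) D) (bal (st v) W) (upT g.T (layLev g v k)) := by
    intro v _
    have h2 : ∑ k ∈ Sum.cutL g.R g.n (cor D v),
        th S (bal (st v) D) (bal (st v) W) (upT g.T (layLev g v k)) =
        ∑ k ∈ Sum.cutL g.R g.n (cor D v),
          thC S (bal (st v) D) (bal (st v) W) (upT g.T (layLev g v k)) := by
      refine Finset.sum_congr rfl fun k hk => ?_
      refine th_eq_thC g v ?_
      rw [← cor_eq_layS]
      exact (Sum.mem_cutL.1 hk).2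
    rw [h2]
    refine Finset.sum_le_sum_of_subset_of_nonneg ?_ fun k _ _ => thC_nonneg hS _ _ _
    intro k hk
    exact mem_range.2 (Sum.mem_cutL.1 hk).1
  refine (Finset.sum_le_sum h1).trans ?_
  have hsub : Z ⊆ (Excᶜ).disjSum (Excᶜ) := by
    intro v hv
    have := hZ v hv
    rcases v with z | z
    · exact Finset.inl_mem_disjSum.2 (mem_compl.2 this)
    · exact Finset.inr_mem_disjSum.2 (mem_compl.2 this)
  refine (Finset.sum_le_sum_of_subset_of_nonneg hsub fun v _ _ =>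
    Finset.sum_nonneg fun k _ => thC_nonneg hS _ _ _).trans (le_of_eq ?_)
  rw [Finset.sum_disjSum, ← Finset.sum_add_distrib]
  refine Finset.sum_congr rfl fun z _ => ?_
  rw [← Finset.sum_add_distrib]
  refine Finset.sum_congr rfl fun k _ => ?_
  rw [lev_eq_upT, lev_eq_upT]
  rfl

/-- the same for the entropy of the two-layer state -/
theorem th_sum2 {q : ℕ} {Ω : Conf (Site L) q → ℂ} (hΩ : nsq Ω = 1)
    (hS : EntLike (fun A : Finset (Site L) => entropyOf A Ω)) (g : Gd L) (D W : ℕ)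
    {Z : Finset (SS L)} {Exc : Finset (Site L)} (hZ : ∀ v ∈ Z, st v ∉ Exc) :
    ∑ v ∈ Z, ∑ k ∈ Sum.cutL g.R g.n (cor D v),
        th (fun A => entropyOf A (dbl Ω Ω)) (cor D v) (cor W v) (g.R k) ≤
      ∑ z ∈ Excᶜ, ∑ k ∈ range g.n,
        (thC (fun A => entropyOf A Ω) (bal z D) (bal z W) (lev g.T (g.t0 + k)) +
        thC (fun A => entropyOf A Ω) (bal z D) (bal z W) (lev g.T (g.t0 + g.N - k))) := by
  refine le_trans (le_of_eq ?_) (th_sum hS g D W hZ)
  refine Finset.sum_congr rfl fun v _ => Finset.sum_congr rfl fun k _ => ?_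
  rw [cor_eq_layS, cor_eq_layS, th_layS hΩ]

/-! ### Numbers of sites of the two-layer lattice -/

/-- the sites of both layers over `Z` -/
def two (Z : Finset (Site L)) : Finset (SS L) := Z.disjSum Z

theorem mem_two {Z : Finset (Site L)} {v : SS L} : v ∈ two Z ↔ st v ∈ Z := by
  rcases v with z | z
  · rw [two, Finset.inl_mem_disjSum]
    rfl
  · rw [two, Finset.inr_mem_disjSum]
    rfl

theorem card_two (Z : Finset (Site L)) : ((two Z).card : ℝ) = 2 * Z.card := by
  rw [two, Finset.card_disjSum]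
  push_cast
  ring

theorem two_mono {Z Z' : Finset (Site L)} (h : Z ⊆ Z') : two Z ⊆ two Z' := by
  intro v hv
  rw [mem_two] at hv ⊢
  exact h hv

/-- the ring around `X` in a box of side `3 l` -/
theorem ring_rect {X : Finset (Site L)} {w x0 x1 y0 y1 : ℕ} (hbox : X ⊆ rect L x0 x1 y0 y1) :
    sa7_nb X w \ X ⊆ rect L (x0 - w) (x1 + w) (y0 - w) (y1 + w) :=
  Finset.sdiff_subset.trans (sa7_nb_rect hbox w)

/-- **cores (windows) of radius `e` of the ring which are not inside one tile** -/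
theorem card_two_edg {X : Finset (Site L)} {M e l w x0 x1 y0 y1 : ℕ} (hM : 0 < M) (hMl : M ≤ l)
    (hwl : w ≤ l) (hx : x1 ≤ x0 + l) (hy : y1 ≤ y0 + l) (hbox : X ⊆ rect L x0 x1 y0 y1) :
    ((two (edg L M e ∩ (sa7_nb X w \ X))).card : ℝ) ≤ 216 * ((l : ℝ) ^ 2 * (e / M)) := by
  rw [card_two]
  have h1 : ((edg L M e ∩ (sa7_nb X w \ X)).card : ℝ) ≤
      ((edg L M e ∩ rect L (x0 - w) (x1 + w) (y0 - w) (y1 + w)).card : ℝ) := by
    exact_mod_cast Finset.card_le_card (Finset.inter_subset_inter_left (ring_rect hbox))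
  have h2 := card_edg_real (L := L) (M := M) (e := e) (l := 3 * l) (x0 := x0 - w) (x1 := x1 + w)
    (y0 := y0 - w) (y1 := y1 + w) hM (by omega) (by omega) (by omega)
  push_cast at h2
  have e1 : (12 : ℝ) * ((3 * (l : ℝ)) ^ 2 * (e / M)) = 108 * ((l : ℝ) ^ 2 * (e / M)) := by ring
  rw [e1] at h2
  linarith

/-- the edge cores of the ring: not inside one tile, or near the ends of the ladders -/
noncomputable def edgeZ (g : Gd L) (X : Finset (Site L)) (w D b : ℕ) : Finset (SS L) :=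
  open Classical in (two (sa7_nb X w \ X)).filter fun v => st v ∈ edg L g.tl D ∨ st v ∈ endB g b

/-- the exceptional cores of the ring: the window is not inside one tile, or exceptional level -/
noncomputable def excZ (g : Gd L) (X Exc : Finset (Site L)) (w W : ℕ) : Finset (SS L) :=
  open Classical in (two (sa7_nb X w \ X)).filter fun v => st v ∈ edg L g.tl W ∨ st v ∈ Exc

theorem mem_edgeZ {g : Gd L} {X : Finset (Site L)} {w D b : ℕ} {v : SS L} :
    v ∈ edgeZ g X w D b ↔ v ∈ two (sa7_nb X w \ X) ∧ (st v ∈ edg L g.tl D ∨ st v ∈ endB g b) := by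
  classical
  simp [edgeZ]

theorem mem_excZ {g : Gd L} {X Exc : Finset (Site L)} {w W : ℕ} {v : SS L} :
    v ∈ excZ g X Exc w W ↔ v ∈ two (sa7_nb X w \ X) ∧ (st v ∈ edg L g.tl W ∨ st v ∈ Exc) := by
  classical
  simp [excZ]

/-- **number of edge cores** -/
theorem card_edgeZ {g : Gd L} {X : Finset (Site L)} {D b l w x0 x1 y0 y1 : ℕ} (hM : 0 < g.tl)
    (hMl : g.tl ≤ l) (hwl : w ≤ l) (hx : x1 ≤ x0 + l) (hy : y1 ≤ y0 + l)
    (hbox : X ⊆ rect L x0 x1 y0 y1) {F : ℝ} (hF : ((endB g b).card : ℝ) ≤ F) :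
    ((edgeZ g X w D b).card : ℝ) ≤ 216 * ((l : ℝ) ^ 2 * (D / g.tl)) + 2 * F := by
  classical
  have hsub : edgeZ g X w D b ⊆ two (edg L g.tl D ∩ (sa7_nb X w \ X)) ∪ two (endB g b) := by
    intro v hv
    rw [mem_edgeZ, mem_two] at hv
    rw [mem_union, mem_two, mem_two, mem_inter]
    rcases hv.2 with h | h
    · exact Or.inl ⟨h, hv.1⟩
    · exact Or.inr h
  have h1 : ((edgeZ g X w D b).card : ℝ) ≤ ((two (edg L g.tl D ∩ (sa7_nb X w \ X))).card : ℝ) +
      ((two (endB g b)).card : ℝ) := by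
    exact_mod_cast (card_le_card hsub).trans (card_union_le _ _)
  have h2 := card_two_edg (e := D) hM hMl hwl hx hy hbox
  rw [card_two (endB g b)] at h1
  linarith

/-- **number of exceptional cores** -/
theorem card_excZ {g : Gd L} {X Exc : Finset (Site L)} {W l w x0 x1 y0 y1 : ℕ} (hM : 0 < g.tl)
    (hMl : g.tl ≤ l) (hwl : w ≤ l) (hx : x1 ≤ x0 + l) (hy : y1 ≤ y0 + l)
    (hbox : X ⊆ rect L x0 x1 y0 y1) {F : ℝ} (hF : (Exc.card : ℝ) ≤ F) :
    ((excZ g X Exc w W).card : ℝ) ≤ 216 * ((l : ℝ) ^ 2 * (W / g.tl)) + 2 * F := by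
  classical
  have hsub : excZ g X Exc w W ⊆ two (edg L g.tl W ∩ (sa7_nb X w \ X)) ∪ two Exc := by
    intro v hv
    rw [mem_excZ, mem_two] at hv
    rw [mem_union, mem_two, mem_two, mem_inter]
    rcases hv.2 with h | h
    · exact Or.inl ⟨h, hv.1⟩
    · exact Or.inr h
  have h1 : ((excZ g X Exc w W).card : ℝ) ≤ ((two (edg L g.tl W ∩ (sa7_nb X w \ X))).card : ℝ) +
      ((two Exc).card : ℝ) := by
    exact_mod_cast (card_le_card hsub).trans (card_union_le _ _)
  have h2 := card_two_edg (e := W) hM hMl hwl hx hy hbox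
  rw [card_two Exc] at h1
  linarith

/-- **an inner core**: in one tile, and all cutting lines have both slabs -/
theorem inner {g : Gd L} (hT : ∀ x y, |g.T x - g.T y| ≤ 2 * dist1 x y) {X : Finset (Site L)}
    {w D b : ℕ} (hb : g.mp + 4 * D ≤ b) {v : SS L} (hv : v ∈ two (sa7_nb X w \ X))
    (hve : v ∉ edgeZ g X w D b) : cor D v ⊆ g.tB (tj g v) ∧
      ∀ k < g.n + g.mp, Sum.Cuts g.R (cor D v) k → g.mp ≤ k ∧ k < g.n := by
  rw [mem_edgeZ] at hve
  have hve' : st v ∉ edg L g.tl D ∧ st v ∉ endB g b := by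
    constructor
    · exact fun h => hve ⟨hv, Or.inl h⟩
    · exact fun h => hve ⟨hv, Or.inr h⟩
  refine ⟨cor_sub_tile hve'.1, ?_⟩
  have hend := hve'.2
  rw [mem_endB] at hend
  push Not at hend
  obtain ⟨e1, e2, e3, e4⟩ := hend
  have hb' : (g.mp : ℝ) + 4 * D ≤ b := by exact_mod_cast hb
  have hl := lad_of (g := g) (v := v) (r := (g.mp : ℝ) + 4 * D) (lt_of_le_of_lt hb' e1)
    (lt_of_le_of_lt hb' e2) (lt_of_le_of_lt hb' e4) (lt_of_le_of_lt hb' e3)
  exact cut_lad hT hl.1 hl.2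

/-- cores off the ring see nothing: no cutting line -/
theorem off_cut {g : Gd L} (hT : ∀ x y, |g.T x - g.T y| ≤ 2 * dist1 x y) {X : Finset (Site L)}
    {w D b : ℕ} (hb : 4 * D ≤ b)
    (hring : ∀ z, g.t0 - b ≤ g.T z → g.T z ≤ g.t0 + g.N + b → z ∈ sa7_nb X w \ X) (hn : g.n ≤ g.N)
    {v : SS L} (hv : v ∉ two (sa7_nb X w \ X)) {k : ℕ} (hk : k < g.n) :
    ¬ Sum.Cuts g.R (cor D v) k := by
  intro hc
  have h1 := cuts_near hT hc
  have hb' : (4 : ℝ) * D ≤ b := by exact_mod_cast hb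
  have hk' : (k : ℝ) < g.n := by exact_mod_cast hk
  have hn' : (g.n : ℝ) ≤ g.N := by exact_mod_cast hn
  have hk0 : (0 : ℝ) ≤ k := Nat.cast_nonneg k
  apply hv
  rw [mem_two]
  rcases v with z | z
  · rw [hgt_inl] at h1
    exact hring z (by linarith [h1.2]) (by linarith [h1.1])
  · rw [hgt_inr] at h1
    exact hring z (by linarith [h1.1]) (by linarith [h1.2])

/-- cores off the ring see nothing: no slab meets them -/
theorem off_slab {g : Gd L} (hT : ∀ x y, |g.T x - g.T y| ≤ 2 * dist1 x y) {X : Finset (Site L)}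
    {w D b : ℕ} (hb : 4 * D ≤ b)
    (hring : ∀ z, g.t0 - b ≤ g.T z → g.T z ≤ g.t0 + g.N + b → z ∈ sa7_nb X w \ X)
    (hn : g.n + g.mp ≤ g.N) {v : SS L} (hv : v ∉ two (sa7_nb X w \ X)) {p : ℕ × SS L}
    (hp : p.1 < g.n) : Disjoint (cor D v) (g.Wd p) := by
  rw [Finset.disjoint_left]
  intro x hx hx'
  have h1 := hgt_cor hT hx
  have h2 := hgt_slab (k := p.1) (j := p.2) hx'
  rw [abs_le] at h1
  have hb' : (4 : ℝ) * D ≤ b := by exact_mod_cast hb
  have hk' : (p.1 : ℝ) < g.n := by exact_mod_cast hp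
  have hn' : (g.n : ℝ) + g.mp ≤ g.N := by exact_mod_cast hn
  have hk0 : (0 : ℝ) ≤ (p.1 : ℝ) := Nat.cast_nonneg _
  apply hv
  rw [mem_two]
  rcases v with z | z
  · rw [hgt_inl] at h1
    exact hring z (by linarith [h1.2, h2.1]) (by linarith [h1.1, h2.2])
  · rw [hgt_inr] at h1
    exact hring z (by linarith [h1.1, h2.2]) (by linarith [h1.2, h2.1])

end Vale.Agent.P356.GA.Class407
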