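import Vale.Agent.P356.GA.CData551
import Vale.Agent.P356.GA.ThSum407
import Vale.Agent.P356.SA.Ssa679

/-!
# Counts on `CData` (helper185)

The numbers of exceptional and of edge cores, and the sum of the Markov functionals, for the data
`CData` of helper551 in the notation of helper407.
-/

set_option linter.all false

namespace Vale.Agent.P356.GA

open Matrix Finset Vale.Agent.P356 Vale.Agent.P356.SV Vale.Agent.P356.Path Vale.Agent.P356.NA
open Vale.Agent.P356.SA Vale.Agent.P356.PH Vale.Agent.P356.GA.Par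
open Vale.Agent.P356.GA.Class407 Vale.Agent.P356.GA.Edge795
open Vale.Agent.P356.GA.Level (bal lev)
open Vale.Agent.P356.GA.Theta (thC th)
open scoped BigOperators ComplexOrder Kronecker Matrix.Norms.L2Operator

namespace CData

variable {q R : ℕ} {J Δ a C₁ C₂ : ℝ} {L l : ℕ} (d : CData q R J Δ a C₁ C₂ L l)

/-- the ring -/
noncomputable def ring185 : Finset (Site L) := sa7_nb d.X d.w \ d.X

theorem card_two_ring185 : ((two (sa7_nb d.X d.w \ d.X)).card : ℝ) ≤ 18 * (l : ℝ) ^ 2 := by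
  rw [card_two]
  have := d.area
  linarith

/-- sites of the ring near the tile edges -/
theorem card_two_edg185 {e : ℕ} (hM : 0 < d.g.tl) (hMl : d.g.tl ≤ 3 * l) :
    ((two (edg L d.g.tl e ∩ (sa7_nb d.X d.w \ d.X))).card : ℝ) ≤
      216 * ((l : ℝ) ^ 2 * (e / d.g.tl)) := by
  rw [card_two]
  have h1 : edg L d.g.tl e ∩ (sa7_nb d.X d.w \ d.X) ⊆
      edg L d.g.tl e ∩ rect L d.x0 d.x1 d.y0 d.y1 :=
    Finset.inter_subset_inter_left (Finset.sdiff_subset.trans d.box)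
  have h2 := card_edg_real (L := L) (M := d.g.tl) (e := e) (l := 3 * l) hM hMl d.hx d.hy
  have h3 : ((edg L d.g.tl e ∩ (sa7_nb d.X d.w \ d.X)).card : ℝ) ≤
      (edg L d.g.tl e ∩ rect L d.x0 d.x1 d.y0 d.y1).card := by
    exact_mod_cast Finset.card_le_card h1
  push_cast at h2
  have e1 : (12 : ℝ) * ((3 * (l : ℝ)) ^ 2 * (e / d.g.tl)) =
      108 * ((l : ℝ) ^ 2 * (e / d.g.tl)) := by ring
  rw [e1] at h2
  linarith

/-- **number of edge cores** -/
theorem card_edgeZ185 (hM : 0 < d.g.tl) (hMl : d.g.tl ≤ 3 * l) :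
    ((edgeZ d.g d.X d.w (Par.cD a l) (bw a l)).card : ℝ) ≤
      216 * ((l : ℝ) ^ 2 * (Par.cD a l / cM l)) +
        2 * (32 * (2 * bw a l + 1) * (9 * (l : ℝ) ^ 2 / d.w)) := by
  classical
  have hsub : edgeZ d.g d.X d.w (Par.cD a l) (bw a l) ⊆
      two (edg L d.g.tl (Par.cD a l) ∩ (sa7_nb d.X d.w \ d.X)) ∪ two (endB d.g (bw a l)) := by
    intro v hv
    rw [mem_edgeZ, mem_two] at hv
    rw [mem_union, mem_two, mem_two, mem_inter]
    rcases hv.2 with h | h
    · exact Or.inl ⟨h, hv.1⟩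
    · exact Or.inr h
  have h1 : ((edgeZ d.g d.X d.w (Par.cD a l) (bw a l)).card : ℝ) ≤
      ((two (edg L d.g.tl (Par.cD a l) ∩ (sa7_nb d.X d.w \ d.X))).card : ℝ) +
      ((two (endB d.g (bw a l))).card : ℝ) := by
    exact_mod_cast (card_le_card hsub).trans (card_union_le _ _)
  have h2 := d.card_two_edg185 (e := Par.cD a l) hM hMl
  rw [card_two (endB d.g (bw a l))] at h1
  have h3 := d.ends
  rw [d.tl] at h2 h1
  linarith

/-- **number of exceptional cores** -/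
theorem card_excZ185 (hM : 0 < d.g.tl) (hMl : d.g.tl ≤ 3 * l) :
    ((excZ d.g d.X d.Exc d.w (3 * cR l)).card : ℝ) ≤
      216 * ((l : ℝ) ^ 2 * ((3 * cR l : ℕ) / cM l)) +
        2 * (1536 * (9 * (l : ℝ) ^ 2) * (Par.cD a l / cS a l)) := by
  classical
  have hsub : excZ d.g d.X d.Exc d.w (3 * cR l) ⊆
      two (edg L d.g.tl (3 * cR l) ∩ (sa7_nb d.X d.w \ d.X)) ∪ two d.Exc := by
    intro v hv
    rw [mem_excZ, mem_two] at hv
    rw [mem_union, mem_two, mem_two, mem_inter]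
    rcases hv.2 with h | h
    · exact Or.inl ⟨h, hv.1⟩
    · exact Or.inr h
  have h1 : ((excZ d.g d.X d.Exc d.w (3 * cR l)).card : ℝ) ≤
      ((two (edg L d.g.tl (3 * cR l) ∩ (sa7_nb d.X d.w \ d.X))).card : ℝ) +
      ((two d.Exc).card : ℝ) := by
    exact_mod_cast (card_le_card hsub).trans (card_union_le _ _)
  have h2 := d.card_two_edg185 (e := 3 * cR l) hM hMl
  rw [card_two d.Exc] at h1
  have h3 := d.excC
  rw [d.tl] at h2 h1
  linarith

/-- **sum of the Markov functionals** of the cores with good level -/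
theorem th_sum185 {Z : Finset (SS L)} (hZ : ∀ v ∈ Z, st v ∉ d.Exc) :
    ∑ v ∈ Z, ∑ k ∈ Sum.cutL d.g.R d.g.n (cor (Par.cD a l) v),
        th (fun A => entropyOf A (dbl d.Ω d.Ω)) (cor (Par.cD a l) v) (cor (3 * cR l) v) (d.g.R k) ≤
      2 * (9600 * Par.cD a l * (cS a l : ℝ) ^ 2 *
        (((3 * l / cR l + 7 : ℕ) : ℝ) ^ 2 * (C₁ * (cR l : ℝ) ^ (2 - a)))) :=
  (th_sum2 d.gap.1 (entLike d.Ω d.gap.1) d.g (Par.cD a l) (3 * cR l) hZ).trans d.markov

/-- the end bands are wide enough -/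
theorem bw_ge185 : d.g.mp + 4 * Par.cD a l ≤ bw a l := by
  rw [d.mp]
  unfold bw
  omega

/-- an inner core at the scales -/
theorem inner185 {v : SS L} (hv : v ∈ two (sa7_nb d.X d.w \ d.X))
    (hve : v ∉ edgeZ d.g d.X d.w (Par.cD a l) (bw a l)) :
    cor (Par.cD a l) v ⊆ d.g.tB (tj d.g v) ∧
      ∀ k < d.g.n + d.g.mp, Sum.Cuts d.g.R (cor (Par.cD a l) v) k → d.g.mp ≤ k ∧ k < d.g.n :=
  inner d.lip d.bw_ge185 hv hve

end CData

end Vale.Agent.P356.GA
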