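import Vale.Agent.P356.GA.TwoCopy841

/-!
# GA, block E8 DETSUM (helper841): the sum of the deviations of the windows on both layers

`V = Site L ⊕ Site L`. `dfo P v` is the defect of the detector at `v` (in the layer of `v`),
`dvn P ψ v = 3 e + 2 √e`, `e = ⟨dfo P v⟩_ψ`, bounds the deviation of every unit vector `ψ` from
`Ω ⊗ Ω` (the original ground state) on the window `lyr (ball · r) v`.
`det_sum`: everything about the Hamiltonian with detectors in one theorem.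
`detErr_le`, `dev_num`: numeric versions.
-/

set_option linter.all false

namespace Vale.Agent.P356.GA

open Matrix Finset Vale.Agent.P356 Vale.Agent.P356.SV Vale.Agent.P356.Path Vale.Agent.P356.NA
open Vale.Agent.P356.SA Vale.Agent.P356.PH
open scoped BigOperators ComplexOrder Kronecker Matrix.Norms.L2Operator MatrixOrder

variable {L q : ℕ}

/-- the defect of the detector at `v`, on the two-layer lattice -/
def dfo (P : Site L → Op (Site L) q) : Site L ⊕ Site L → Op (Site L ⊕ Site L) q :=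
  Sum.elim (fun z => cp1 (1 - P z)) (fun z => cp2 (1 - P z))

/-- the deviation of the window of `v` -/
noncomputable def dvn (P : Site L → Op (Site L) q) (ψ : Conf (Site L ⊕ Site L) q → ℂ)
    (v : Site L ⊕ Site L) : ℝ :=
  3 * expv ψ (dfo P v) + 2 * Real.sqrt (expv ψ (dfo P v))

theorem dfo_nonneg {P : Site L → Op (Site L) q} (hP : ∀ z, (1 - P z).PosSemidef)
    (ψ : Conf (Site L ⊕ Site L) q → ℂ) (v : Site L ⊕ Site L) : 0 ≤ expv ψ (dfo P v) := by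
  rcases v with z | z
  · exact cp1_expv_nonneg (fun v => expv_nonneg_of_psd (hP z) v) ψ
  · exact cp2_expv_nonneg (fun v => expv_nonneg_of_psd (hP z) v) ψ

theorem dvn_nonneg {P : Site L → Op (Site L) q} (hP : ∀ z, (1 - P z).PosSemidef)
    (ψ : Conf (Site L ⊕ Site L) q → ℂ) (v : Site L ⊕ Site L) : 0 ≤ dvn P ψ v := by
  have := dfo_nonneg hP ψ v
  unfold dvn
  positivity

theorem expv_cp1_le_one {P : Op (Site L) q} (hP : P.PosSemidef)
    {ψ : Conf (Site L ⊕ Site L) q → ℂ} (hψ : nsq ψ = 1) :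
    expv ψ (cp1 (1 - P) : Op (Site L ⊕ Site L) q) ≤ 1 := by
  have h1 := cp1_expv_nonneg (W := Site L) (fun v => expv_nonneg_of_psd hP v) ψ
  have h2 : (cp1 (1 - P) : Op (Site L ⊕ Site L) q) = 1 - cp1 P := by rw [cp1_sub, cp1_one]
  rw [h2, expv_sub, expv_one, hψ]
  linarith

theorem expv_cp2_le_one {P : Op (Site L) q} (hP : P.PosSemidef)
    {ψ : Conf (Site L ⊕ Site L) q → ℂ} (hψ : nsq ψ = 1) :
    expv ψ (cp2 (1 - P) : Op (Site L ⊕ Site L) q) ≤ 1 := by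
  have h1 := cp2_expv_nonneg (W := Site L) (fun v => expv_nonneg_of_psd hP v) ψ
  have h2 : (cp2 (1 - P) : Op (Site L ⊕ Site L) q) = 1 - cp2 P := by rw [cp2_sub, cp2_one]
  rw [h2, expv_sub, expv_one, hψ]
  linarith

/-- the deviations are at most five -/
theorem dvn_le_five {P : Site L → Op (Site L) q} (hP : ∀ z, (P z).PosSemidef)
    (hP' : ∀ z, (1 - P z).PosSemidef) {ψ : Conf (Site L ⊕ Site L) q → ℂ} (hψ : nsq ψ = 1)
    (v : Site L ⊕ Site L) : dvn P ψ v ≤ 5 := by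
  have h0 := dfo_nonneg hP' ψ v
  have h1 : expv ψ (dfo P v) ≤ 1 := by
    rcases v with z | z
    · exact expv_cp1_le_one (hP z) hψ
    · exact expv_cp2_le_one (hP z) hψ
  have h2 : Real.sqrt (expv ψ (dfo P v)) ≤ 1 := by
    rw [← Real.sqrt_one]
    exact Real.sqrt_le_sqrt h1
  unfold dvn
  linarith

theorem cp_windows {P : Site L → Op (Site L) q} {Ω : Conf (Site L) q → ℂ} {r : ℕ}
    (hP : ∀ z, (1 - P z).PosSemidef) (hΩ : nsq Ω = 1)
    (h : ∀ z (ψ : Conf (Site L) q → ℂ), nsq ψ = 1 → ∀ X : Op (Site L) q, ActsOn (ball z r) X →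
      ‖star ψ ⬝ᵥ (X *ᵥ ψ) - star Ω ⬝ᵥ (X *ᵥ Ω)‖ ≤
        (3 * expv ψ (1 - P z) + 2 * Real.sqrt (expv ψ (1 - P z))) * ‖X‖)
    {ψ : Conf (Site L ⊕ Site L) q → ℂ} (hψ : nsq ψ = 1) (v : Site L ⊕ Site L)
    (X : Op (Site L ⊕ Site L) q) (hX : ActsOn (lyr (fun z => ball z r) v) X) :
    ‖star ψ ⬝ᵥ (X *ᵥ ψ) - star (dbl Ω Ω) ⬝ᵥ (X *ᵥ dbl Ω Ω)‖ ≤ dvn P ψ v * ‖X‖ := by
  have hpos : ∀ z (v : Conf (Site L) q → ℂ), 0 ≤ expv v (1 - P z) := fun z v =>
    expv_nonneg_of_psd (hP z) v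
  have h1 := tw_dev (B := fun z => ball z r) (ψ := ψ) hΩ
    (dev1 := fun z => dvn P ψ (Sum.inl z)) (dev2 := fun z => dvn P ψ (Sum.inr z))
    (fun z => ⟨dvn_nonneg hP ψ _, dvn_nonneg hP ψ _⟩)
    (fun z Y hY => ⟨det_copy1 (W := Site L) (norm_nonneg Y) (hpos z)
      (fun φ hφ => h z φ hφ Y hY) ψ hψ, det_copy2 (V := Site L) (norm_nonneg Y) (hpos z)
        (fun φ hφ => h z φ hφ Y hY) ψ hψ⟩) v hX
  rcases v with z | z
  · exact h1
  · exact h1

/-- **The Hamiltonian with detectors on the two-layer lattice.** -/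
theorem det_sum {R : ℕ} {J Δ : ℝ} (hJ : 0 ≤ J) (hΔ : 0 < Δ) :
    ∃ C c : ℝ, 0 ≤ C ∧ 0 < c ∧ ∀ (L q : ℕ) (g : Finset (Site L) → Op (Site L) q),
      Terms L q R J g → ∀ (E : ℝ) (Ω : Conf (Site L) q → ℂ), GappedGround (∑ Z, g Z) Δ E Ω →
      ∀ (r N : ℕ) (Z : Finset (Site L)) (Λ : ℝ), 0 < Λ →
        Λ * (Z.card * detErr q C c r N) ≤ Δ / 2 →
        ∃ (P : Site L → Op (Site L) q) (E' : ℝ) (Ω' : Conf (Site L) q → ℂ),
          (∀ z, ActsOn (ball z (r + N)) (P z) ∧ (P z).PosSemidef ∧ (1 - P z).PosSemidef ∧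
            expv Ω (1 - P z) ≤ detErr q C c r N) ∧
          GappedGround (∑ Z, g Z + (Λ : ℂ) • ∑ z ∈ Z, (1 - P z)) (Δ / 2) E' Ω' ∧
          E ≤ E' ∧ E' ≤ E + Λ * (Z.card * detErr q C c r N) ∧
          nsq (Ω' - Ω) ≤ 2 * (Λ * (Z.card * detErr q C c r N) / Δ) ∧
          (∀ X : Op (Site L) q, ‖star Ω' ⬝ᵥ (X *ᵥ Ω') - star Ω ⬝ᵥ (X *ᵥ Ω)‖ ≤
            2 * Real.sqrt (2 * (Λ * (Z.card * detErr q C c r N) / Δ)) * ‖X‖) ∧
          GappedGround (cp1 (∑ Z, g Z + (Λ : ℂ) • ∑ z ∈ Z, (1 - P z)) +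
            cp2 (∑ Z, g Z + (Λ : ℂ) • ∑ z ∈ Z, (1 - P z)) : Op (Site L ⊕ Site L) q) (Δ / 2)
              (E' + E') (dbl Ω' Ω') ∧
          ∀ ψ : Conf (Site L ⊕ Site L) q → ℂ, nsq ψ = 1 →
            (∀ v, ∀ X : Op (Site L ⊕ Site L) q, ActsOn (lyr (fun z => ball z r) v) X →
              ‖star ψ ⬝ᵥ (X *ᵥ ψ) - star (dbl Ω Ω) ⬝ᵥ (X *ᵥ dbl Ω Ω)‖ ≤ dvn P ψ v * ‖X‖) ∧
            ∀ K : ℝ, expv ψ (cp1 (∑ Z, g Z + (Λ : ℂ) • ∑ z ∈ Z, (1 - P z)) +
                cp2 (∑ Z, g Z + (Λ : ℂ) • ∑ z ∈ Z, (1 - P z)) : Op (Site L ⊕ Site L) q) -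
                  (E' + E') ≤ K →
              ∑ v ∈ Z.disjSum Z, expv ψ (dfo P v) ≤
                K / Λ + 2 * (Z.card * detErr q C c r N) ∧
              ∑ v ∈ Z.disjSum Z, dvn P ψ v ≤
                3 * (K / Λ + 2 * (Z.card * detErr q C c r N)) +
                  2 * Real.sqrt (2 * Z.card * (K / Λ + 2 * (Z.card * detErr q C c r N))) := by
  obtain ⟨C, c, hC, hc, hdet⟩ := det_windows (R := R) hJ hΔ
  refine ⟨C, c, hC, hc, ?_⟩
  intro L q g hg E Ω hΩ r N Z Λ hΛ hsm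
  obtain ⟨P, hP, hPψ⟩ := hdet L q g hg E Ω hΩ r N
  have hH : (∑ X, g X).IsHermitian := by
    unfold Matrix.IsHermitian
    rw [Matrix.conjTranspose_sum]
    exact Finset.sum_congr rfl fun Y _ => hg.herm Y
  set δ := detErr q C c r N with hδ
  have hcard : Fintype.card {z // z ∈ Z} = Z.card := Fintype.card_coe Z
  have hsumP : detH Λ (fun z : {z // z ∈ Z} => P z) = (Λ : ℂ) • ∑ z ∈ Z, (1 - P z) := by
    unfold detH
    rw [← Finset.sum_coe_sort Z (fun z => 1 - P z)]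
  obtain ⟨E', Ω', h1, h2, h3, h4, h5, h6⟩ := det_ground (ι := {z // z ∈ Z}) hH hΩ hΛ
    (P := fun z => P z) (fun z => (hP z).2.1) (fun z => (hP z).2.2.1)
    (fun z => (hP z).2.2.2) (by rw [hcard]; exact hsm) hΔ
  rw [hsumP] at h1 h6
  rw [hcard] at h3 h4 h5 h6
  have hpos : ∀ z (v : Conf (Site L) q → ℂ), 0 ≤ expv v (1 - P z) := fun z v =>
    expv_nonneg_of_psd (hP z).2.2.1 v
  have hgd := gapped_double (by positivity : (0 : ℝ) ≤ Δ / 2) h1
  rw [two_mul] at hgd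
  refine ⟨P, E', Ω', hP, h1, h2, h3, h4, h5, hgd, ?_⟩
  intro ψ hψ
  refine ⟨fun v X hX => cp_windows (fun z => (hP z).2.2.1) hΩ.1 hPψ hψ v X hX, ?_⟩
  intro K hK
  rw [← two_mul] at hK
  have h7 := dbl_defect hΔ.le hΛ hΩ h3 Z (fun z => 1 - P z) hψ hK
  have h8 : ∑ v ∈ Z.disjSum Z, expv ψ (dfo P v) ≤ K / Λ + 2 * (Z.card * δ) := by
    rw [Finset.sum_disjSum, ← Finset.sum_add_distrib]
    exact h7
  refine ⟨h8, ?_⟩
  have h9 := det_dev_sum_finset (Z.disjSum Z) (e := fun v => expv ψ (dfo P v))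
    (x := fun v => dvn P ψ v) (fun v _ => dfo_nonneg (fun z => (hP z).2.2.1) ψ v)
    (fun v _ => le_rfl) h8
  have h10 : ((Z.disjSum Z).card : ℝ) = 2 * Z.card := by
    rw [Finset.card_disjSum]
    push_cast
    ring
  rw [h10] at h9
  exact h9

/-! ### numbers -/

/-- the size of the error of the detectors: if `N` is much larger than `r ^ 2` -/
theorem detErr_le {q : ℕ} {C c : ℝ} (hC : 0 ≤ C) (hc : 0 < c) {r N : ℕ} {B : ℝ}
    (h : (2 * Real.log q + 1) * (2 * r + 1) ^ 2 + 1 + B ≤ c * N) :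
    detErr q C c r N ≤ C * Real.exp (-B) := by
  unfold detErr
  have h1 : ((q : ℝ) ^ (2 * (2 * r + 1) ^ 2)) ≤ Real.exp (2 * Real.log q * (2 * r + 1) ^ 2) := by
    rcases Nat.eq_zero_or_pos q with h0 | h0
    · subst h0
      rw [Nat.cast_zero, zero_pow (by positivity)]
      positivity
    · have hq : (0 : ℝ) < q := by exact_mod_cast h0
      rw [← Real.exp_log (x := (q : ℝ) ^ (2 * (2 * r + 1) ^ 2)) (by positivity), Real.log_pow]
      refine Real.exp_le_exp.2 (le_of_eq ?_)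
      push_cast
      ring
  have h2 : ((2 * (r : ℝ) + 1) ^ 2 + 1) ≤ Real.exp ((2 * r + 1) ^ 2) := Real.add_one_le_exp _
  have h3 : (q : ℝ) ^ (2 * (2 * r + 1) ^ 2) * (C * ((2 * r + 1) ^ 2 + 1) * Real.exp (-(c * N))) ≤
      Real.exp (2 * Real.log q * (2 * r + 1) ^ 2) *
        (C * Real.exp ((2 * r + 1) ^ 2) * Real.exp (-(c * N))) := by
    gcongr
  refine h3.trans ?_
  have h4 : Real.exp (2 * Real.log q * (2 * r + 1) ^ 2) *
        (C * Real.exp ((2 * r + 1) ^ 2) * Real.exp (-(c * N))) =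
      C * Real.exp (2 * Real.log q * (2 * r + 1) ^ 2 + (2 * r + 1) ^ 2 + (-(c * N))) := by
    rw [Real.exp_add, Real.exp_add]
    ring
  rw [h4]
  refine mul_le_mul_of_nonneg_left (Real.exp_le_exp.2 ?_) hC
  nlinarith

/-- the sum of the deviations, in simple form -/
theorem dev_num {S A D : ℝ} (hS : 0 ≤ S) (hA : 0 ≤ A) (hSA : S ≤ 2 * A)
    (h : D ≤ 3 * S + 2 * Real.sqrt (2 * A * S)) : D ≤ 5 * Real.sqrt (2 * A * S) := by
  have h1 : S ≤ Real.sqrt (2 * A * S) := by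
    refine Real.le_sqrt_of_sq_le ?_
    rw [sq]
    exact mul_le_mul_of_nonneg_right hSA hS
  linarith

/-- a sum over finitely many objects, each with a window whose centre is used at most `m` times -/
theorem dev_fiber {ι V : Type*} [DecidableEq V] (s : Finset ι) (Z : Finset V) (f : ι → V)
    (hf : ∀ i ∈ s, f i ∈ Z) {m : ℕ} (hm : ∀ v ∈ Z, (s.filter fun i => f i = v).card ≤ m)
    {d : V → ℝ} (hd : ∀ v ∈ Z, 0 ≤ d v) : ∑ i ∈ s, d (f i) ≤ m * ∑ v ∈ Z, d v := by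
  rw [← Finset.sum_fiberwise_of_maps_to hf, Finset.mul_sum]
  refine Finset.sum_le_sum fun v hv => ?_
  have h1 : ∑ i ∈ s with f i = v, d (f i) = ((s.filter fun i => f i = v).card : ℝ) * d v := by
    rw [Finset.sum_congr rfl (fun i hi => by rw [(Finset.mem_filter.1 hi).2]), Finset.sum_const,
      nsmul_eq_mul]
  rw [h1]
  exact mul_le_mul_of_nonneg_right (by exact_mod_cast hm v hv) (hd v hv)

end Vale.Agent.P356.GA
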