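import Vale.Agent.P356.GA.NoiseA677
import Mathlib.Analysis.Matrix.HermitianFunctionalCalculus
import Mathlib.Analysis.SpecialFunctions.Exponential

/-!
# GA, block NOISE (helper677), part b: logarithms, flows and Klein inequalities of the noisy states
-/

set_option linter.all false

namespace Vale.Agent.P356.GA

open Matrix Finset Vale.Agent.P356 Vale.Agent.P356.SV Vale.Agent.P356.Path Vale.Agent.P356.PH
open scoped BigOperators ComplexOrder Kronecker Matrix.Norms.L2Operator MatrixOrder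

section cfcmat
variable {ι : Type*} [Fintype ι] [DecidableEq ι]

theorem nz_log_eq {σ : Matrix ι ι ℂ} (h : σ.IsHermitian) :
    CFC.log σ = (h.eigenvectorUnitary : Matrix ι ι ℂ) *
      diagonal (fun i => ((Real.log (h.eigenvalues i) : ℝ) : ℂ)) *
      (h.eigenvectorUnitary : Matrix ι ι ℂ)ᴴ := by
  rw [CFC.log, Matrix.IsHermitian.cfc_eq h, Matrix.IsHermitian.cfc]
  rfl

theorem nz_cfc_eq {σ : Matrix ι ι ℂ} (h : σ.IsHermitian) (f : ℝ → ℝ) :
    cfc f σ = (h.eigenvectorUnitary : Matrix ι ι ℂ) *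
      diagonal (fun i => ((f (h.eigenvalues i) : ℝ) : ℂ)) *
      (h.eigenvectorUnitary : Matrix ι ι ℂ)ᴴ := by
  rw [Matrix.IsHermitian.cfc_eq h, Matrix.IsHermitian.cfc]
  rfl

theorem nz_tr_nonneg {A B : Matrix ι ι ℂ} (hA : 0 ≤ A) (hB : 0 ≤ B) : 0 ≤ ((A * B).trace).re := by
  rw [Matrix.nonneg_iff_posSemidef] at hA hB
  obtain ⟨C, rfl⟩ := CStarAlgebra.nonneg_iff_eq_star_mul_self.1 (Matrix.nonneg_iff_posSemidef.2 hA)
  rw [Matrix.mul_assoc, Matrix.trace_mul_comm, Matrix.star_eq_conjTranspose]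
  have h := (hB.mul_mul_conjTranspose_same C).trace_nonneg
  rw [Complex.nonneg_iff] at h
  exact h.1

theorem nz_tr_mono {ρ A B : Matrix ι ι ℂ} (hρ : 0 ≤ ρ) (h : A ≤ B) :
    ((ρ * A).trace).re ≤ ((ρ * B).trace).re := by
  have h1 := nz_tr_nonneg hρ (sub_nonneg.2 h)
  rw [Matrix.mul_sub, Matrix.trace_sub, Complex.sub_re] at h1
  linarith

/-- `Tr ρ f(σ)` through the overlaps -/
theorem nz_tr_cfc {ρ σ : Matrix ι ι ℂ} (hρ : ρ.IsHermitian) (hσ : σ.IsHermitian) (f : ℝ → ℝ) :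
    (ρ * cfc f σ).trace = ((∑ j, f (hσ.eigenvalues j) * ∑ i, hρ.eigenvalues i *
      ‖((hσ.eigenvectorUnitary : Matrix ι ι ℂ)ᴴ * (hρ.eigenvectorUnitary : Matrix ι ι ℂ)) j i‖ ^ 2 :
        ℝ) : ℂ) := by
  rw [nz_cfc_eq hσ]
  set R := (hσ.eigenvectorUnitary : Matrix ι ι ℂ) with hR
  have e : (ρ * (R * diagonal (fun i => ((f (hσ.eigenvalues i) : ℝ) : ℂ)) * Rᴴ)).trace =
      (Rᴴ * ρ * R * diagonal (fun i => ((f (hσ.eigenvalues i) : ℝ) : ℂ))).trace := by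
    rw [← Matrix.mul_assoc, ← Matrix.mul_assoc, Matrix.trace_mul_comm]
    simp only [Matrix.mul_assoc]
  rw [e, Matrix.trace]
  push_cast
  refine Finset.sum_congr rfl fun j _ => ?_
  rw [Matrix.diag_apply, Matrix.mul_diagonal, b7_diag_entry hρ R j]
  push_cast
  ring

/-- Klein's inequality -/
theorem nz_klein {ρ σ : Matrix ι ι ℂ} (hρ : ρ.PosSemidef) (h1 : ρ.trace = 1) (hσ : σ.PosDef)
    (h2 : σ.trace = 1) : vnEntropy ρ ≤ -((ρ * CFC.log σ).trace).re := by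
  have hh := hρ.isHermitian
  have hs := hσ.isHermitian
  rw [vnEntropy, dif_pos hh, CFC.log, nz_tr_cfc hh hs, Complex.ofReal_re, ← Finset.sum_neg_distrib]
  have hT : ((hs.eigenvectorUnitary : Matrix ι ι ℂ)ᴴ * (hh.eigenvectorUnitary : Matrix ι ι ℂ)) *
      ((hs.eigenvectorUnitary : Matrix ι ι ℂ)ᴴ * (hh.eigenvectorUnitary : Matrix ι ι ℂ))ᴴ = 1 := by
    rw [conjTranspose_mul, conjTranspose_conjTranspose]
    calc (hs.eigenvectorUnitary : Matrix ι ι ℂ)ᴴ * (hh.eigenvectorUnitary : Matrix ι ι ℂ) *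
        ((hh.eigenvectorUnitary : Matrix ι ι ℂ)ᴴ * (hs.eigenvectorUnitary : Matrix ι ι ℂ)) =
        (hs.eigenvectorUnitary : Matrix ι ι ℂ)ᴴ * ((hh.eigenvectorUnitary : Matrix ι ι ℂ) *
        (hh.eigenvectorUnitary : Matrix ι ι ℂ)ᴴ) * (hs.eigenvectorUnitary : Matrix ι ι ℂ) := by
          simp only [Matrix.mul_assoc]
      _ = 1 := by
          rw [b7_unitary hh, Matrix.mul_one]
          exact mul_eq_one_comm.mp (b7_unitary hs)
  have h := b7_klein _ hT hh.eigenvalues hs.eigenvalues (fun i => hρ.eigenvalues_nonneg i)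
    (b7_sum_eig hh h1) (fun i => (hσ.eigenvalues_pos i).le) (b7_sum_eig hs h2).le
    (fun j hj => absurd hj (hσ.eigenvalues_pos j).ne')
  refine h.trans (le_of_eq ?_)
  refine Finset.sum_congr rfl fun j _ => ?_
  ring

/-- the entropy is a trace -/
theorem nz_tr_cfc_self {ρ : Matrix ι ι ℂ} (hρ : ρ.IsHermitian) (f : ℝ → ℝ) :
    (ρ * cfc f ρ).trace = ((∑ j, f (hρ.eigenvalues j) * hρ.eigenvalues j : ℝ) : ℂ) := by
  rw [nz_cfc_eq hρ]
  set R := (hρ.eigenvectorUnitary : Matrix ι ι ℂ) with hR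
  have e : (ρ * (R * diagonal (fun i => ((f (hρ.eigenvalues i) : ℝ) : ℂ)) * Rᴴ)).trace =
      (Rᴴ * ρ * R * diagonal (fun i => ((f (hρ.eigenvalues i) : ℝ) : ℂ))).trace := by
    rw [← Matrix.mul_assoc, ← Matrix.mul_assoc, Matrix.trace_mul_comm]
    simp only [Matrix.mul_assoc]
  rw [e, b7_diag hρ, Matrix.diagonal_mul_diagonal, Matrix.trace_diagonal]
  push_cast
  refine Finset.sum_congr rfl fun j _ => ?_
  ring

/-- the converse bound, for a state which dominates `c ρ` -/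
theorem nz_klein_ge {ρ σ : Matrix ι ι ℂ} (hρ : ρ.PosSemidef) (h1 : ρ.trace = 1) {c m : ℝ}
    (hc : 0 < c) (hm : 0 < m) (hσ : c • ρ ≤ σ) (hσ' : m • (1 : Matrix ι ι ℂ) ≤ σ) :
    -((ρ * CFC.log σ).trace).re ≤ vnEntropy ρ - Real.log c := by
  have hh := hρ.isHermitian
  have hρ0 : 0 ≤ ρ := Matrix.nonneg_iff_posSemidef.2 hρ
  have h0 := fun i => hρ.eigenvalues_nonneg i
  have hs1 := b7_sum_eig hh h1
  have key : ∀ s : ℝ, 0 < s → s < 1 →
      -((ρ * CFC.log σ).trace).re ≤ vnEntropy ρ - Real.log c - Real.log (1 - s) := by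
    intro s hs hs'
    have h1s : 0 < 1 - s := by linarith
    have e1 : cfc (fun x : ℝ => (1 - s) * c * x + s * m) ρ =
        ((1 - s) * c) • ρ + (s * m) • (1 : Matrix ι ι ℂ) := by
      rw [cfc_add ρ (fun x : ℝ => (1 - s) * c * x) (fun _ => s * m), cfc_const_mul_id _ ρ,
        cfc_const _ ρ, Algebra.algebraMap_eq_smul_one]
    have hW : ((1 - s) * c) • ρ + (s * m) • (1 : Matrix ι ι ℂ) ≤ σ := by
      calc ((1 - s) * c) • ρ + (s * m) • (1 : Matrix ι ι ℂ)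
          = (1 - s) • (c • ρ) + s • (m • (1 : Matrix ι ι ℂ)) := by rw [smul_smul, smul_smul]
        _ ≤ (1 - s) • σ + s • σ := add_le_add (smul_le_smul_of_nonneg_left hσ h1s.le)
            (smul_le_smul_of_nonneg_left hσ' hs.le)
        _ = σ := by rw [← add_smul]; norm_num
    have hpos : IsStrictlyPositive (((1 - s) * c) • ρ + (s * m) • (1 : Matrix ι ι ℂ)) := by
      rw [Matrix.isStrictlyPositive_iff_posDef]
      refine Matrix.PosDef.posSemidef_add ?_ ?_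
      · exact hρ.smul (by positivity)
      · exact Matrix.PosDef.one.smul (by positivity)
    have hl := CFC.log_le_log hW hpos
    have h2 := nz_tr_mono hρ0 hl
    rw [← e1, CFC.log, ← cfc_comp' Real.log (fun x : ℝ => (1 - s) * c * x + s * m) ρ ?_ ?_,
      nz_tr_cfc_self hh, Complex.ofReal_re] at h2
    · rw [vnEntropy, dif_pos hh]
      have h3 : ∑ j, (Real.log ((1 - s) * c) + Real.log (hh.eigenvalues j)) * hh.eigenvalues j ≤
          ∑ j, Real.log ((1 - s) * c * hh.eigenvalues j + s * m) * hh.eigenvalues j := by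
        refine Finset.sum_le_sum fun j _ => ?_
        rcases (h0 j).eq_or_lt with h | h
        · rw [← h]; simp
        · refine mul_le_mul_of_nonneg_right ?_ h.le
          rw [← Real.log_mul (by positivity) h.ne']
          refine Real.log_le_log (by positivity) ?_
          have : 0 < s * m := by positivity
          linarith
      have h4 : ∑ j, (Real.log ((1 - s) * c) + Real.log (hh.eigenvalues j)) * hh.eigenvalues j =
          Real.log ((1 - s) * c) - ∑ j, Real.negMulLog (hh.eigenvalues j) := by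
        simp only [add_mul, Finset.sum_add_distrib, ← Finset.mul_sum, hs1, mul_one]
        have h5 : ∑ j, Real.log (hh.eigenvalues j) * hh.eigenvalues j =
            -∑ j, Real.negMulLog (hh.eigenvalues j) := by
          rw [← Finset.sum_neg_distrib]
          refine Finset.sum_congr rfl fun j _ => ?_
          rw [Real.negMulLog]
          ring
        rw [h5]
        ring
      rw [h4, Real.log_mul h1s.ne' hc.ne'] at h3
      linarith
    · refine Real.continuousOn_log.mono ?_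
      rintro y ⟨x, hx, rfl⟩
      have hx0 : 0 ≤ x := spectrum_nonneg_of_nonneg hρ0 hx
      have : 0 < (1 - s) * c * x + s * m := by positivity
      exact this.ne'
    · fun_prop
  have hlim : Filter.Tendsto (fun s : ℝ => vnEntropy ρ - Real.log c - Real.log (1 - s))
      (nhdsWithin 0 (Set.Ioi 0)) (nhds (vnEntropy ρ - Real.log c - Real.log (1 - 0))) := by
    refine Filter.Tendsto.mono_left ?_ nhdsWithin_le_nhds
    refine ContinuousAt.tendsto ?_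
    refine ContinuousAt.sub continuousAt_const ?_
    refine ContinuousAt.log ?_ (by norm_num)
    fun_prop
  rw [sub_zero, Real.log_one, sub_zero] at hlim
  refine ge_of_tendsto hlim ?_
  filter_upwards [Ioo_mem_nhdsGT (zero_lt_one' ℝ)] with s hs
  exact key s hs.1 hs.2

end cfcmat

section region
variable {V : Type*} [Fintype V] [DecidableEq V] {q : ℕ}

/-- compression to the local algebra -/
theorem nz_submatrix (S : Finset V) (k : Op {x // x ∈ S} q) (e0 : {x // x ∉ S} → Fin q) :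
    (opOn S k).submatrix (fun i => (cut S q).symm (i, e0)) (fun i => (cut S q).symm (i, e0)) = k := by
  ext i j
  simp [opOn, opL, Matrix.kroneckerMap_apply]

theorem nz_opOn_nonneg {S : Finset V} (hne : Nonempty (Conf V q)) {k : Op {x // x ∈ S} q}
    (h : 0 ≤ opOn S k) : 0 ≤ k := by
  obtain ⟨s⟩ := hne
  rw [Matrix.nonneg_iff_posSemidef] at h ⊢
  rw [← nz_submatrix S k (fun x => s x.1)]
  exact h.submatrix _

theorem nz_opOn_le {S : Finset V} (hne : Nonempty (Conf V q)) {k k' : Op {x // x ∈ S} q}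
    (h : opOn S k ≤ opOn S k') : k ≤ k' := by
  rw [← sub_nonneg] at h ⊢
  rw [← opOn_sub] at h
  exact nz_opOn_nonneg hne h

theorem nz_conf_nonempty {Ω : Conf V q → ℂ} (hΩ : nsq Ω = 1) : Nonempty (Conf V q) := by
  by_contra h
  rw [not_nonempty_iff] at h
  rw [nsq, Finset.univ_eq_empty, Finset.sum_empty] at hΩ
  exact absurd hΩ zero_ne_one

theorem nz_const_pos {ε : ℝ} (h0 : 0 < ε) {Ω : Conf V q → ℂ} (hΩ : nsq Ω = 1) (b : Finset V) :
    0 < (ε / q : ℝ) ^ b.card := by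
  rcases b.eq_empty_or_nonempty with rfl | ⟨x, hx⟩
  · simp
  · have hq : (0 : ℝ) < q := by exact_mod_cast q_pos_of_unit hΩ (x := x)
    positivity

theorem nz_opOn_rsmul (S : Finset V) (c : ℝ) (k : Op {x // x ∈ S} q) :
    opOn S (c • k) = c • opOn S k := by
  have h1 : c • k = (c : ℂ) • k := by ext; simp
  have h2 : c • opOn S k = (c : ℂ) • opOn S k := by ext; simp
  rw [h1, h2]
  exact map_smul (phInclS S q) (c : ℂ) k

theorem nz_opOn_neg (S : Finset V) (k : Op {x // x ∈ S} q) : opOn S (-k) = -opOn S k :=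
  map_neg (phInclS S q) k

theorem nz_loc {ε : ℝ} (h0 : 0 < ε) (h1 : ε ≤ 1) {Ω : Conf V q → ℂ} (hΩ : nsq Ω = 1)
    (b : Finset V) : ∃ k : Op {x // x ∈ b} q, nz ε Ω b = opOn b k ∧ k.PosDef ∧ k.trace = 1 ∧
      ((ε / q : ℝ) ^ b.card) • (1 : Op {x // x ∈ b} q) ≤ k ∧
      ((1 - ε) ^ b.card : ℝ) • rdm b Ω ≤ k := by
  have hne := nz_conf_nonempty hΩ
  obtain ⟨k, hk⟩ := ph_acts_iff.1 (nz_acts ε Ω b)
  have hc := nz_const_pos h0 hΩ b
  have e1 : ((ε / q : ℝ) ^ b.card) • (1 : Op {x // x ∈ b} q) ≤ k := by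
    refine nz_opOn_le (S := b) hne ?_
    rw [← hk, nz_opOn_rsmul, opOn_one]
    exact nz_ge_const h0.le h1 hΩ b
  have e2 : ((1 - ε) ^ b.card : ℝ) • rdm b Ω ≤ k := by
    refine nz_opOn_le (S := b) hne ?_
    rw [← hk, nz_opOn_rsmul]
    exact rh_le_nz h0.le h1 Ω b
  have e3 : k.PosDef := by
    have h2 : (k - ((ε / q : ℝ) ^ b.card) • (1 : Op {x // x ∈ b} q)).PosSemidef :=
      Matrix.nonneg_iff_posSemidef.1 (sub_nonneg.2 e1)
    have h3 := Matrix.PosDef.posSemidef_add h2 ((Matrix.PosDef.one (n := {x // x ∈ b} → Fin q)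
      (R := ℂ)).smul hc)
    rwa [sub_add_cancel] at h3
  refine ⟨k, hk, e3, ?_, e1, e2⟩
  have h4 := nz_trace ε hΩ b
  rw [hk, trace_opOn] at h4
  obtain ⟨n, hn, hn'⟩ := dO_pos hΩ b
  have h5 : dO q b ≠ 0 := by
    rw [hn']
    exact_mod_cast hn.ne'
  exact mul_left_cancel₀ h5 (by rw [h4, mul_one])

theorem nz_log_opOn {S : Finset V} {k : Op {x // x ∈ S} q} (hk : k.PosDef) :
    CFC.log (opOn S k) = opOn S (CFC.log k) := by
  have h := StarAlgHom.map_cfc (phInclS S q) Real.log k ?_ ?_ hk.isHermitian ?_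
  · exact h.symm
  · refine Real.continuousOn_log.mono ?_
    intro x hx
    have : IsStrictlyPositive k := hk.isStrictlyPositive
    exact (this.spectrum_pos hx).ne'
  · exact (phInclS S q).toLinearMap.continuous_of_finiteDimensional
  · show IsSelfAdjoint (opOn S k)
    rw [isSelfAdjoint_iff, Matrix.star_eq_conjTranspose, opOn_conjTranspose, hk.isHermitian.eq]

/-- **The modular Hamiltonian of the noisy state** `-log ρ~_b`, an operator acting on `b`. -/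
noncomputable def Kt (ε : ℝ) (Ω : Conf V q → ℂ) (b : Finset V) : Op V q := -CFC.log (nz ε Ω b)

theorem Kt_herm (ε : ℝ) (Ω : Conf V q → ℂ) (b : Finset V) : (Kt ε Ω b).IsHermitian := by
  have h : IsSelfAdjoint (CFC.log (nz ε Ω b)) := IsSelfAdjoint.log
  have h2 : (CFC.log (nz ε Ω b)).IsHermitian := h
  exact h2.neg

theorem Kt_acts {ε : ℝ} (h0 : 0 < ε) (h1 : ε ≤ 1) {Ω : Conf V q → ℂ} (hΩ : nsq Ω = 1)
    (b : Finset V) : ActsOn b (Kt ε Ω b) := by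
  obtain ⟨k, hk, hpd, _⟩ := nz_loc h0 h1 hΩ b
  rw [Kt, hk, nz_log_opOn hpd, ← nz_opOn_neg]
  exact ph_acts_opOn b _

theorem nz_strict {ε : ℝ} (h0 : 0 < ε) (h1 : ε ≤ 1) {Ω : Conf V q → ℂ} (hΩ : nsq Ω = 1)
    (b : Finset V) : IsStrictlyPositive (nz ε Ω b) := by
  have hc := nz_const_pos h0 hΩ b
  rw [Matrix.isStrictlyPositive_iff_posDef]
  have h2 : (nz ε Ω b - ((ε / q : ℝ) ^ b.card) • (1 : Op V q)).PosSemidef :=
    Matrix.nonneg_iff_posSemidef.1 (sub_nonneg.2 (nz_ge_const h0.le h1 hΩ b))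
  have h3 := Matrix.PosDef.posSemidef_add h2 ((Matrix.PosDef.one (n := Conf V q)
    (R := ℂ)).smul hc)
  rwa [sub_add_cancel] at h3

theorem Kt_nonneg {ε : ℝ} (h0 : 0 < ε) (h1 : ε ≤ 1) {Ω : Conf V q → ℂ} (hΩ : nsq Ω = 1)
    (b : Finset V) : 0 ≤ Kt ε Ω b := by
  have h := CFC.log_le_log (nz_le_one h0.le h1 hΩ b) (nz_strict h0 h1 hΩ b)
  rw [CFC.log_one] at h
  rw [Kt]
  exact neg_nonneg.2 h

theorem Kt_le {ε : ℝ} (h0 : 0 < ε) (h1 : ε ≤ 1) {Ω : Conf V q → ℂ} (hΩ : nsq Ω = 1)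
    (b : Finset V) : Kt ε Ω b ≤ ((b.card : ℝ) * Real.log (q / ε)) • (1 : Op V q) := by
  have hc := nz_const_pos h0 hΩ b
  have hs : IsStrictlyPositive (((ε / q : ℝ) ^ b.card) • (1 : Op V q)) := by
    rw [Matrix.isStrictlyPositive_iff_posDef]
    exact Matrix.PosDef.one.smul hc
  have h := CFC.log_le_log (nz_ge_const h0.le h1 hΩ b) hs
  rw [← Algebra.algebraMap_eq_smul_one, CFC.log_algebraMap, Algebra.algebraMap_eq_smul_one,
    Real.log_pow] at h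
  rw [Kt]
  have h2 := neg_le_neg h
  refine h2.trans (le_of_eq ?_)
  rw [← neg_smul]
  congr 1
  have : Real.log (q / ε) = -Real.log (ε / q) := by
    rw [← Real.log_inv, inv_div]
  rw [this]
  ring

/-- **Klein, upper**: the noisy modular Hamiltonian dominates the entropy of every state -/
theorem entropy_le_Kt {ε : ℝ} (h0 : 0 < ε) (h1 : ε ≤ 1) {Ω : Conf V q → ℂ} (hΩ : nsq Ω = 1)
    (b : Finset V) {ψ : Conf V q → ℂ} (hψ : nsq ψ = 1) : 
    entropyOf b ψ ≤ (star ψ ⬝ᵥ (Kt ε Ω b *ᵥ ψ)).re := by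
  obtain ⟨k, hk, hpd, htr, _⟩ := nz_loc h0 h1 hΩ b
  rw [Kt, hk, nz_log_opOn hpd, ← nz_opOn_neg, expect_opOn, Matrix.mul_neg, Matrix.trace_neg,
    Complex.neg_re, entropyOf]
  exact nz_klein (b7_rdm_psd b ψ) (b7_rdm_trace b ψ hψ) hpd htr

/-- **Klein, lower**: in the state itself the noise costs `|b| log 1/(1-ε)` -/
theorem Kt_le_entropy {ε : ℝ} (h0 : 0 < ε) (h1 : ε < 1) {Ω : Conf V q → ℂ} (hΩ : nsq Ω = 1)
    (b : Finset V) :
    (star Ω ⬝ᵥ (Kt ε Ω b *ᵥ Ω)).re ≤ entropyOf b Ω + b.card * (-Real.log (1 - ε)) := by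
  obtain ⟨k, hk, hpd, htr, hm, hc⟩ := nz_loc h0 h1.le hΩ b
  rw [Kt, hk, nz_log_opOn hpd, ← nz_opOn_neg, expect_opOn, Matrix.mul_neg, Matrix.trace_neg,
    Complex.neg_re, entropyOf]
  have h := nz_klein_ge (b7_rdm_psd b Ω) (b7_rdm_trace b Ω hΩ) (pow_pos (by linarith : 0 < 1 - ε) b.card)
    (nz_const_pos h0 hΩ b) hc hm
  rw [Real.log_pow] at h
  linarith

/-- complex powers `ρ~_b ^ z` of the noisy state -/
noncomputable def SF (ε : ℝ) (Ω : Conf V q → ℂ) (b : Finset V) (z : ℂ) : Op V q :=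
  NormedSpace.exp (z • (-(Kt ε Ω b)))

theorem SF_zero (ε : ℝ) (Ω : Conf V q → ℂ) (b : Finset V) : SF ε Ω b 0 = 1 := by
  rw [SF, zero_smul, NormedSpace.exp_zero]

theorem SF_add (ε : ℝ) (Ω : Conf V q → ℂ) (b : Finset V) (z w : ℂ) :
    SF ε Ω b (z + w) = SF ε Ω b z * SF ε Ω b w := by
  letI : NormedAlgebra ℚ (Op V q) := NormedAlgebra.restrictScalars ℚ ℂ (Op V q)
  rw [SF, SF, SF, add_smul, NormedSpace.exp_add_of_commute]
  exact ((Commute.refl _).smul_left _).smul_right _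

theorem SF_mul_neg (ε : ℝ) (Ω : Conf V q → ℂ) (b : Finset V) (z : ℂ) :
    SF ε Ω b z * SF ε Ω b (-z) = 1 := by
  rw [← SF_add, add_neg_cancel, SF_zero]

theorem SF_neg_mul (ε : ℝ) (Ω : Conf V q → ℂ) (b : Finset V) (z : ℂ) :
    SF ε Ω b (-z) * SF ε Ω b z = 1 := by
  rw [← SF_add, neg_add_cancel, SF_zero]

theorem SF_star (ε : ℝ) (Ω : Conf V q → ℂ) (b : Finset V) (z : ℂ) :
    (SF ε Ω b z)ᴴ = SF ε Ω b (star z) := by
  rw [SF, SF, ← Matrix.star_eq_conjTranspose, NormedSpace.star_exp, star_smul, star_neg,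
    Matrix.star_eq_conjTranspose, (Kt_herm ε Ω b).eq]

theorem SF_one {ε : ℝ} (h0 : 0 < ε) (h1 : ε ≤ 1) {Ω : Conf V q → ℂ} (hΩ : nsq Ω = 1)
    (b : Finset V) : SF ε Ω b 1 = nz ε Ω b := by
  rw [SF, one_smul, Kt, neg_neg]
  exact CFC.exp_log _ (nz_strict h0 h1 hΩ b)

theorem SF_hasDerivAt (ε : ℝ) (Ω : Conf V q → ℂ) (b : Finset V) (z : ℂ) :
    HasDerivAt (SF ε Ω b) (-(SF ε Ω b z * Kt ε Ω b)) z := by
  have h := hasDerivAt_exp_smul_const (𝕂 := ℂ) (-(Kt ε Ω b)) z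
  rw [mul_neg] at h
  exact h

theorem SF_diff (ε : ℝ) (Ω : Conf V q → ℂ) (b : Finset V) : Differentiable ℂ (SF ε Ω b) :=
  fun z => (SF_hasDerivAt ε Ω b z).differentiableAt

theorem SF_commute (ε : ℝ) (Ω : Conf V q → ℂ) (b : Finset V) {P : Op V q}
    (h : Commute P (Kt ε Ω b)) (z : ℂ) : Commute P (SF ε Ω b z) := by
  rw [SF]
  exact ((h.neg_right).smul_right _).exp_right

theorem SF_acts {ε : ℝ} (h0 : 0 < ε) (h1 : ε ≤ 1) {Ω : Conf V q → ℂ} (hΩ : nsq Ω = 1)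
    (b : Finset V) (z : ℂ) : ActsOn b (SF ε Ω b z) := by
  rw [SF]
  exact ph_acts_exp (ph_acts_smul _ (ph_acts_neg (Kt_acts h0 h1 hΩ b)))

theorem nz_norm_one_le : ‖(1 : Op V q)‖ ≤ 1 := by
  rcases subsingleton_or_nontrivial (Op V q) with h | h
  · rw [Subsingleton.elim (1 : Op V q) 0, norm_zero]
    exact zero_le_one
  · exact CStarRing.norm_one.le

theorem SF_norm_re0 (ε : ℝ) (Ω : Conf V q → ℂ) (b : Finset V) {z : ℂ} (hz : z.re = 0) :
    ‖SF ε Ω b z‖ ≤ 1 := by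
  have h : SF ε Ω b z ∈ unitary (Op V q) := by
    rw [Unitary.mem_iff, Matrix.star_eq_conjTranspose, SF_star]
    have e : star z = -z := by
      apply Complex.ext
      · simp [hz]
      · simp
    rw [e]
    exact ⟨SF_neg_mul ε Ω b z, SF_mul_neg ε Ω b z⟩
  have h2 := CStarRing.norm_mem_unitary_mul (1 : Op V q) h
  rw [mul_one] at h2
  rw [h2]
  exact nz_norm_one_le

theorem SF_half_gen {ε : ℝ} {Ω : Conf V q → ℂ} {b c : Finset V} {κ : ℝ} (hκ : 0 ≤ κ)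
    (hb : 0 ≤ SF ε Ω b 1) (h : SF ε Ω b 1 ≤ κ • SF ε Ω c 1) :
    ‖SF ε Ω b (1 / 2) * SF ε Ω c (-(1 / 2))‖ ^ 2 ≤ κ := by
  have hs : star (1 / 2 : ℂ) = 1 / 2 := by
    apply Complex.ext <;> simp
  have hs' : star (-(1 / 2) : ℂ) = -(1 / 2) := by
    rw [star_neg, hs]
  have e1 : ‖SF ε Ω b (1 / 2) * SF ε Ω c (-(1 / 2))‖ ^ 2 =
      ‖SF ε Ω c (-(1 / 2)) * SF ε Ω b 1 * SF ε Ω c (-(1 / 2))‖ := by
    rw [sq, ← CStarRing.norm_star_mul_self, Matrix.star_eq_conjTranspose,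
      Matrix.conjTranspose_mul, SF_star, SF_star, hs, hs']
    congr 1
    rw [show (1 : ℂ) = 1 / 2 + 1 / 2 by norm_num, SF_add]
    simp only [Matrix.mul_assoc]
    norm_num
  have hst : star (SF ε Ω c (-(1 / 2))) = SF ε Ω c (-(1 / 2)) := by
    rw [Matrix.star_eq_conjTranspose, SF_star, hs']
  have e2 := star_left_conjugate_le_conjugate h (SF ε Ω c (-(1 / 2)))
  have e3 := star_left_conjugate_nonneg hb (SF ε Ω c (-(1 / 2)))
  rw [hst] at e2 e3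
  have e4 : SF ε Ω c (-(1 / 2)) * (κ • SF ε Ω c 1) * SF ε Ω c (-(1 / 2)) = κ • (1 : Op V q) := by
    rw [mul_smul_comm, smul_mul_assoc, ← SF_add, ← SF_add]
    congr 1
    rw [show -(1 / 2 : ℂ) + 1 + -(1 / 2) = 0 by norm_num, SF_zero]
  rw [e4] at e2
  rw [e1]
  calc ‖SF ε Ω c (-(1 / 2)) * SF ε Ω b 1 * SF ε Ω c (-(1 / 2))‖ ≤ ‖κ • (1 : Op V q)‖ :=
        CStarAlgebra.norm_le_norm_of_nonneg_of_le e3 e2
    _ ≤ κ := by
        rw [norm_smul, Real.norm_of_nonneg hκ]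
        exact mul_le_of_le_one_right hκ nz_norm_one_le

theorem SF_half_up {ε : ℝ} (h0 : 0 < ε) (h1 : ε ≤ 1) {Ω : Conf V q → ℂ} (hΩ : nsq Ω = 1)
    {M a : Finset V} (hd : Disjoint M a) :
    ‖SF ε Ω (M ∪ a) (1 / 2) * SF ε Ω M (-(1 / 2))‖ ^ 2 ≤ (q : ℝ) ^ a.card := by
  refine SF_half_gen (by positivity) ?_ ?_
  · rw [SF_one h0 h1 hΩ]
    exact nz_nonneg h0.le h1 Ω _
  · rw [SF_one h0 h1 hΩ, SF_one h0 h1 hΩ]
    exact nz_union_le h0.le h1 hΩ hd

theorem SF_half_down {ε : ℝ} (h0 : 0 < ε) (h1 : ε ≤ 1) {Ω : Conf V q → ℂ} (hΩ : nsq Ω = 1)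
    {M a : Finset V} (hd : Disjoint M a) :
    ‖SF ε Ω M (1 / 2) * SF ε Ω (M ∪ a) (-(1 / 2))‖ ^ 2 ≤ ((q : ℝ) / ε) ^ a.card := by
  refine SF_half_gen (by positivity) ?_ ?_
  · rw [SF_one h0 h1 hΩ]
    exact nz_nonneg h0.le h1 Ω _
  · rw [SF_one h0 h1 hΩ, SF_one h0 h1 hΩ]
    have h := smul_le_smul_of_nonneg_left (nz_union_ge h0.le h1 Ω hd)
      (show 0 ≤ ((q : ℝ) / ε) ^ a.card by positivity)
    rw [smul_smul, ← mul_pow] at h
    rcases a.eq_empty_or_nonempty with rfl | ⟨x, hx⟩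
    · simpa using h
    · have hq : (0 : ℝ) < q := by exact_mod_cast q_pos_of_unit hΩ (x := x)
      have e : (q : ℝ) / ε * (ε / q) = 1 := by field_simp
      rwa [e, one_pow, one_smul] at h

theorem SF_edge {ε : ℝ} (h0 : 0 < ε) (h1 : ε ≤ 1) {Ω : Conf V q → ℂ} (hΩ : nsq Ω = 1)
    {M a : Finset V} (hd : Disjoint M a) {P : Op V q} (hP : ActsOn Mᶜ P) {z : ℂ}
    (hz : z.re = 1 / 2) :
    ‖SF ε Ω (M ∪ a) z * P * SF ε Ω (M ∪ a) (-z)‖ ≤
      Real.sqrt (((q : ℝ) ^ 2 / ε) ^ a.card) * ‖P‖ := by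
  set b := M ∪ a with hb
  have hcomm : SF ε Ω M (-(1 / 2)) * P = P * SF ε Ω M (-(1 / 2)) := by
    refine ph_acts_comm (X := M) (Y := Mᶜ) ?_ (SF_acts h0 h1 hΩ M _) hP
    exact disjoint_compl_right
  have e : SF ε Ω b z * P * SF ε Ω b (-z) =
      SF ε Ω b (z - 1 / 2) * ((SF ε Ω b (1 / 2) * SF ε Ω M (-(1 / 2))) * P *
        (SF ε Ω M (1 / 2) * SF ε Ω b (-(1 / 2)))) * SF ε Ω b (-(z - 1 / 2)) := by
    have e1 : SF ε Ω b z = SF ε Ω b (z - 1 / 2) * SF ε Ω b (1 / 2) := by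
      rw [← SF_add]; congr 1; ring
    have e2 : SF ε Ω b (-z) = SF ε Ω b (-(1 / 2)) * SF ε Ω b (-(z - 1 / 2)) := by
      rw [← SF_add]; congr 1; ring
    have e3 : (SF ε Ω b (1 / 2) * SF ε Ω M (-(1 / 2))) * P * (SF ε Ω M (1 / 2) *
        SF ε Ω b (-(1 / 2))) = SF ε Ω b (1 / 2) * P * SF ε Ω b (-(1 / 2)) := by
      calc (SF ε Ω b (1 / 2) * SF ε Ω M (-(1 / 2))) * P * (SF ε Ω M (1 / 2) *
          SF ε Ω b (-(1 / 2))) = SF ε Ω b (1 / 2) * (SF ε Ω M (-(1 / 2)) * P) * (SF ε Ω M (1 / 2) *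
          SF ε Ω b (-(1 / 2))) := by simp only [Matrix.mul_assoc]
        _ = SF ε Ω b (1 / 2) * P * (SF ε Ω M (-(1 / 2)) * SF ε Ω M (1 / 2)) *
            SF ε Ω b (-(1 / 2)) := by rw [hcomm]; simp only [Matrix.mul_assoc]
        _ = _ := by rw [SF_neg_mul, Matrix.mul_one]
    rw [e3, e1, e2]
    simp only [Matrix.mul_assoc]
  have hre : (z - 1 / 2).re = 0 := by simp [hz]
  have hre' : (-(z - 1 / 2)).re = 0 := by simp [hz]
  have n1 := SF_norm_re0 ε Ω b hre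
  have n2 := SF_norm_re0 ε Ω b hre'
  have n3 := SF_half_up h0 h1 hΩ hd
  have n4 := SF_half_down h0 h1 hΩ hd
  rw [← hb] at n3 n4
  set X := SF ε Ω b (1 / 2) * SF ε Ω M (-(1 / 2)) with hX
  set Y := SF ε Ω M (1 / 2) * SF ε Ω b (-(1 / 2)) with hY
  rw [e]
  calc ‖SF ε Ω b (z - 1 / 2) * (X * P * Y) * SF ε Ω b (-(z - 1 / 2))‖
      ≤ ‖SF ε Ω b (z - 1 / 2)‖ * ‖X * P * Y‖ * ‖SF ε Ω b (-(z - 1 / 2))‖ :=
        (norm_mul_le _ _).trans (mul_le_mul_of_nonneg_right (norm_mul_le _ _) (norm_nonneg _))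
    _ ≤ 1 * ‖X * P * Y‖ * 1 := by gcongr
    _ = ‖X * P * Y‖ := by ring
    _ ≤ ‖X‖ * ‖P‖ * ‖Y‖ :=
        (norm_mul_le _ _).trans (mul_le_mul_of_nonneg_right (norm_mul_le _ _) (norm_nonneg _))
    _ = (‖X‖ * ‖Y‖) * ‖P‖ := by ring
    _ ≤ Real.sqrt (((q : ℝ) ^ 2 / ε) ^ a.card) * ‖P‖ := by
        refine mul_le_mul_of_nonneg_right ?_ (norm_nonneg _)
        refine Real.le_sqrt_of_sq_le ?_
        calc (‖X‖ * ‖Y‖) ^ 2 = ‖X‖ ^ 2 * ‖Y‖ ^ 2 := by ring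
          _ ≤ (q : ℝ) ^ a.card * ((q : ℝ) / ε) ^ a.card := by gcongr
          _ = ((q : ℝ) ^ 2 / ε) ^ a.card := by
              rw [← mul_pow]
              congr 1
              ring

/-- boundedness on vertical strips -/
theorem SF_bdd (ε : ℝ) (Ω : Conf V q → ℂ) (b : Finset V) (P : Op V q) (r : ℝ) :
    ∃ C, ∀ z : ℂ, |z.re| ≤ r → ‖SF ε Ω b z * P * SF ε Ω b (-z)‖ ≤ C := by
  have hcont : Continuous (fun x : ℝ => SF ε Ω b (x : ℂ) * P * SF ε Ω b (-(x : ℂ))) := by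
    have h := (SF_diff ε Ω b).continuous
    fun_prop
  obtain ⟨C, hC⟩ := (isCompact_Icc (a := -r) (b := r)).exists_bound_of_continuousOn
    hcont.continuousOn
  refine ⟨C, fun z hz => ?_⟩
  have hz' := abs_le.1 hz
  have h1 := hC z.re ⟨hz'.1, hz'.2⟩
  have e1 : SF ε Ω b z = SF ε Ω b ((z.im : ℂ) * Complex.I) * SF ε Ω b (z.re : ℂ) := by
    rw [← SF_add]
    congr 1
    rw [add_comm]
    exact (Complex.re_add_im z).symm
  have e2 : SF ε Ω b (-z) = SF ε Ω b (-(z.re : ℂ)) * SF ε Ω b (-((z.im : ℂ) * Complex.I)) := by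
    rw [← SF_add]
    congr 1
    rw [← neg_add]
    congr 1
    exact (Complex.re_add_im z).symm
  have n1 := SF_norm_re0 ε Ω b (z := (z.im : ℂ) * Complex.I) (by simp)
  have n2 := SF_norm_re0 ε Ω b (z := -((z.im : ℂ) * Complex.I)) (by simp)
  have e3 : SF ε Ω b z * P * SF ε Ω b (-z) = SF ε Ω b ((z.im : ℂ) * Complex.I) *
      (SF ε Ω b (z.re : ℂ) * P * SF ε Ω b (-(z.re : ℂ))) *
      SF ε Ω b (-((z.im : ℂ) * Complex.I)) := by
    rw [e1, e2]
    simp only [Matrix.mul_assoc]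
  rw [e3]
  calc _ ≤ ‖SF ε Ω b ((z.im : ℂ) * Complex.I)‖ *
        ‖SF ε Ω b (z.re : ℂ) * P * SF ε Ω b (-(z.re : ℂ))‖ *
        ‖SF ε Ω b (-((z.im : ℂ) * Complex.I))‖ :=
        (norm_mul_le _ _).trans (mul_le_mul_of_nonneg_right (norm_mul_le _ _) (norm_nonneg _))
    _ ≤ 1 * ‖SF ε Ω b (z.re : ℂ) * P * SF ε Ω b (-(z.re : ℂ))‖ * 1 := by gcongr
    _ ≤ C := by rw [one_mul, mul_one]; exact h1

/-- **The sandwich bound**, `0 ≤ Re z ≤ 1/2` -/
theorem SF_sandwich_pos {ε : ℝ} (h0 : 0 < ε) (h1 : ε ≤ 1) {Ω : Conf V q → ℂ} (hΩ : nsq Ω = 1)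
    {M a : Finset V} (hd : Disjoint M a) {P : Op V q} (hP : ActsOn Mᶜ P) {z : ℂ}
    (hz0 : 0 ≤ z.re) (hz1 : z.re ≤ 1 / 2) :
    ‖SF ε Ω (M ∪ a) z * P * SF ε Ω (M ∪ a) (-z)‖ ≤
      (((q : ℝ) ^ 2 / ε) ^ a.card) ^ z.re * ‖P‖ := by
  set b := M ∪ a with hb
  set Λ : ℝ := ((q : ℝ) ^ 2 / ε) ^ a.card with hΛ
  have hΛ0 : 0 ≤ Λ := by positivity
  have hd1 : Differentiable ℂ (fun z : ℂ => SF ε Ω b z * P * SF ε Ω b (-z)) := by
    have h := SF_diff ε Ω b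
    fun_prop
  obtain ⟨C, hC⟩ := SF_bdd ε Ω b P (1 / 2)
  have h := Complex.HadamardThreeLines.norm_le_interp_of_mem_verticalClosedStrip'
    (f := fun z : ℂ => SF ε Ω b z * P * SF ε Ω b (-z)) (z := z) (a := ‖P‖)
    (b := Real.sqrt Λ * ‖P‖) (l := 0) (u := 1 / 2) (by norm_num) ⟨hz0, hz1⟩ hd1.diffContOnCl
    ⟨C, by
      rintro _ ⟨w, hw, rfl⟩
      exact hC w (abs_le.2 ⟨by linarith [hw.1], hw.2⟩)⟩
    (fun w hw => by
      have hw' : w.re = 0 := hw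
      have n1 := SF_norm_re0 ε Ω b hw'
      have n2 := SF_norm_re0 ε Ω b (z := -w) (by simp [hw'])
      calc _ ≤ ‖SF ε Ω b w‖ * ‖P‖ * ‖SF ε Ω b (-w)‖ :=
            (norm_mul_le _ _).trans (mul_le_mul_of_nonneg_right (norm_mul_le _ _) (norm_nonneg _))
        _ ≤ 1 * ‖P‖ * 1 := by gcongr
        _ = ‖P‖ := by ring)
    (fun w hw => SF_edge h0 h1 hΩ hd hP hw)
  refine h.trans (le_of_eq ?_)
  have hx : (z.re - 0) / (1 / 2 - 0) = 2 * z.re := by ring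
  rw [hx, Real.mul_rpow (Real.sqrt_nonneg _) (norm_nonneg _), Real.sqrt_eq_rpow,
    ← Real.rpow_mul hΛ0, show 1 / 2 * (2 * z.re) = z.re by ring]
  calc ‖P‖ ^ (1 - 2 * z.re) * (Λ ^ z.re * ‖P‖ ^ (2 * z.re)) =
      Λ ^ z.re * (‖P‖ ^ (1 - 2 * z.re) * ‖P‖ ^ (2 * z.re)) := by ring
    _ = Λ ^ z.re * ‖P‖ := by
        rw [← Real.rpow_add_of_nonneg (norm_nonneg _) (by linarith) (by linarith), sub_add_cancel,
          Real.rpow_one]

/-- **The sandwich bound** -/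
theorem SF_sandwich {ε : ℝ} (h0 : 0 < ε) (h1 : ε ≤ 1) {Ω : Conf V q → ℂ} (hΩ : nsq Ω = 1)
    {M a : Finset V} (hd : Disjoint M a) {P : Op V q} (hP : ActsOn Mᶜ P) {z : ℂ}
    (hz : |z.re| ≤ 1 / 2) :
    ‖SF ε Ω (M ∪ a) z * P * SF ε Ω (M ∪ a) (-z)‖ ≤
      (((q : ℝ) ^ 2 / ε) ^ a.card) ^ |z.re| * ‖P‖ := by
  rcases le_total 0 z.re with h | h
  · rw [abs_of_nonneg h] at hz ⊢
    exact SF_sandwich_pos h0 h1 hΩ hd hP h hz
  · rw [abs_of_nonpos h] at hz ⊢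
    have hz' : (-star z).re = -z.re := by simp
    have h2 := SF_sandwich_pos h0 h1 hΩ hd (P := Pᴴ) (ph_acts_star hP) (z := -star z)
      (by rw [hz']; linarith) (by rw [hz']; exact hz)
    rw [hz'] at h2
    have e : SF ε Ω (M ∪ a) z * P * SF ε Ω (M ∪ a) (-z) =
        (SF ε Ω (M ∪ a) (-star z) * Pᴴ * SF ε Ω (M ∪ a) (-(-star z)))ᴴ := by
      rw [Matrix.conjTranspose_mul, Matrix.conjTranspose_mul, Matrix.conjTranspose_conjTranspose,
        SF_star, SF_star, star_neg, star_neg, star_star, neg_neg, Matrix.mul_assoc]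
    rw [e, Matrix.l2_opNorm_conjTranspose]
    rwa [Matrix.l2_opNorm_conjTranspose] at h2

/-- the difference of the modular Hamiltonians, upper bound -/
theorem Kt_union_le {ε : ℝ} (h0 : 0 < ε) (h1 : ε ≤ 1) {Ω : Conf V q → ℂ} (hΩ : nsq Ω = 1)
    {M a : Finset V} (hd : Disjoint M a) :
    Kt ε Ω (M ∪ a) - Kt ε Ω M ≤ ((a.card : ℝ) * Real.log (q / ε)) • (1 : Op V q) := by
  rcases a.eq_empty_or_nonempty with rfl | ⟨x, hx⟩
  · simp
  have hq : (0 : ℝ) < q := by exact_mod_cast q_pos_of_unit hΩ (x := x)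
  have hs := nz_strict h0 h1 hΩ M
  have hc : (0 : ℝ) < (ε / q) ^ a.card := by positivity
  have hs2 : IsStrictlyPositive (((ε / q : ℝ) ^ a.card) • nz ε Ω M) := by
    rw [Matrix.isStrictlyPositive_iff_posDef] at hs ⊢
    exact hs.smul hc
  have h := CFC.log_le_log (nz_union_ge h0.le h1 Ω hd) hs2
  rw [CFC.log_smul' _ hc hs, Real.log_pow, Algebra.algebraMap_eq_smul_one] at h
  have h2 : Real.log (q / ε) = -Real.log (ε / q) := by
    rw [← Real.log_inv, inv_div]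
  rw [Kt, Kt, h2, mul_neg, neg_smul, ← sub_nonneg]
  rw [← sub_nonneg] at h
  refine h.trans (le_of_eq ?_)
  abel

/-- the difference of the modular Hamiltonians, lower bound -/
theorem Kt_union_ge {ε : ℝ} (h0 : 0 < ε) (h1 : ε ≤ 1) {Ω : Conf V q → ℂ} (hΩ : nsq Ω = 1)
    {M a : Finset V} (hd : Disjoint M a) :
    Kt ε Ω M - Kt ε Ω (M ∪ a) ≤ ((a.card : ℝ) * Real.log q) • (1 : Op V q) := by
  rcases a.eq_empty_or_nonempty with rfl | ⟨x, hx⟩
  · simp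
  have hq : (0 : ℝ) < q := by exact_mod_cast q_pos_of_unit hΩ (x := x)
  have hs := nz_strict h0 h1 hΩ M
  have hc : (0 : ℝ) < (q : ℝ) ^ a.card := by positivity
  have h := CFC.log_le_log (nz_union_le h0.le h1 hΩ hd) (nz_strict h0 h1 hΩ _)
  rw [CFC.log_smul' _ hc hs, Real.log_pow, Algebra.algebraMap_eq_smul_one] at h
  rw [Kt, Kt, ← sub_nonneg]
  rw [← sub_nonneg] at h
  refine h.trans (le_of_eq ?_)
  abel

theorem nz_norm_le_of_bounds {A : Op V q} (hA : A.IsHermitian) {r : ℝ} (hr : 0 ≤ r)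
    (h1 : A ≤ r • (1 : Op V q)) (h2 : -A ≤ r • (1 : Op V q)) : ‖A‖ ≤ r := by
  rcases subsingleton_or_nontrivial (Op V q) with h | h
  · rw [Subsingleton.elim A 0, norm_zero]
    exact hr
  have hsa : IsSelfAdjoint A := hA
  rw [← Algebra.algebraMap_eq_smul_one] at h1 h2
  rcases CStarAlgebra.norm_or_neg_norm_mem_spectrum hsa with h3 | h3
  · exact (le_algebraMap_iff_spectrum_le hsa).1 h1 _ h3
  · have h4 : ‖A‖ ∈ spectrum ℝ (-A) := by
      rw [← spectrum.neg_eq, Set.mem_neg]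
      exact h3
    exact (le_algebraMap_iff_spectrum_le hsa.neg).1 h2 _ h4

/-- **the local difference of the noisy modular Hamiltonians is bounded** -/
theorem Kt_diff_norm {ε : ℝ} (h0 : 0 < ε) (h1 : ε ≤ 1) {Ω : Conf V q → ℂ} (hΩ : nsq Ω = 1)
    {M a : Finset V} (hd : Disjoint M a) :
    ‖Kt ε Ω (M ∪ a) - Kt ε Ω M‖ ≤ (a.card : ℝ) * Real.log (q / ε) := by
  rcases a.eq_empty_or_nonempty with rfl | ⟨x, hx⟩
  · simp
  have hq : (1 : ℝ) ≤ q := by exact_mod_cast q_pos_of_unit hΩ (x := x)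
  have hl : Real.log q ≤ Real.log (q / ε) :=
    Real.log_le_log (by linarith) (by rw [le_div_iff₀ h0]; nlinarith)
  have hl0 : 0 ≤ Real.log q := Real.log_nonneg hq
  refine nz_norm_le_of_bounds ((Kt_herm ε Ω (M ∪ a)).sub (Kt_herm ε Ω M))
    (mul_nonneg (by positivity) (hl0.trans hl)) (Kt_union_le h0 h1 hΩ hd) ?_
  rw [neg_sub]
  refine (Kt_union_ge h0 h1 hΩ hd).trans ?_
  refine smul_le_smul_of_nonneg_right ?_ zero_le_one
  gcongr

theorem Kt_empty (ε : ℝ) {Ω : Conf V q → ℂ} (hΩ : nsq Ω = 1) : Kt ε Ω (∅ : Finset V) = 0 := by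
  rw [Kt, nz_empty ε hΩ, CFC.log_one, neg_zero]

theorem Kt_norm {ε : ℝ} (h0 : 0 < ε) (h1 : ε ≤ 1) {Ω : Conf V q → ℂ} (hΩ : nsq Ω = 1)
    (b : Finset V) : ‖Kt ε Ω b‖ ≤ (b.card : ℝ) * Real.log (q / ε) := by
  have h := Kt_diff_norm h0 h1 hΩ (Finset.disjoint_empty_left b)
  rwa [Finset.empty_union, Kt_empty ε hΩ, sub_zero] at h

/-- commutators of the modular Hamiltonian with an operator away from `M` -/
theorem Kt_comm_norm {ε : ℝ} (h0 : 0 < ε) (h1 : ε ≤ 1) {Ω : Conf V q → ℂ} (hΩ : nsq Ω = 1)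
    {M a : Finset V} (hd : Disjoint M a) {P : Op V q} (hP : ActsOn Mᶜ P) :
    ‖Kt ε Ω (M ∪ a) * P - P * Kt ε Ω (M ∪ a)‖ ≤ 2 * ((a.card : ℝ) * Real.log (q / ε)) * ‖P‖ := by
  have hc : Kt ε Ω M * P = P * Kt ε Ω M :=
    ph_acts_comm disjoint_compl_right (Kt_acts h0 h1 hΩ M) hP
  have e : Kt ε Ω (M ∪ a) * P - P * Kt ε Ω (M ∪ a) =
      (Kt ε Ω (M ∪ a) - Kt ε Ω M) * P - P * (Kt ε Ω (M ∪ a) - Kt ε Ω M) := by
    rw [sub_mul, mul_sub, hc]
    abel
  rw [e]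
  refine (ph_comm_norm_le _ _).trans ?_
  gcongr
  exact Kt_diff_norm h0 h1 hΩ hd

end region

end Vale.Agent.P356.GA
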