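import Vale.Agent.P356.GA.Par227

/-!
# The scales of the construction (helper227)

`a ∈ (0,1]` is the exponent of the sub-volume law. All exponents are explicit multiples of
`e0 a = a / 10^10`; `l` is the side of the box and `w ≈ l^(1 - xom)` the width of the ring.
-/

set_option linter.all false

namespace Vale.Agent.P356.GA.Par

open Filter Asymptotics

/-! ### exponents -/

/-- base exponent -/
noncomputable def e0 (a : ℝ) : ℝ := a / 10 ^ 10
/-- `w = l^(1 - xom)` -/
noncomputable def xom (a : ℝ) : ℝ := e0 a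
/-- total exponent `U = l^xu` -/
noncomputable def xu (a : ℝ) : ℝ := 3 * e0 a
/-- gain -/
noncomputable def xc (a : ℝ) : ℝ := 3 * e0 a
/-- filter radius and core radius -/
noncomputable def xd (a : ℝ) : ℝ := e0 a / 1000
/-- tents -/
noncomputable def xs (a : ℝ) : ℝ := 20 * e0 a
/-- Markov windows, slab thickness -/
noncomputable def xr : ℝ := 1 / 10 ^ 8
/-- tile side -/
noncomputable def xm : ℝ := 3 / 10 ^ 8
/-- collar of the detectors -/
noncomputable def xn : ℝ := 12 / 10 ^ 8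
/-- strength of the detectors `l^(-xlam)` -/
noncomputable def xlam : ℝ := 1 / 10 ^ 3
/-- finite difference step `l^(-xy)` -/
noncomputable def xy (a : ℝ) : ℝ := 12 * e0 a

/-! ### scales -/

/-- filter radius -/
noncomputable def cF (a : ℝ) (l : ℕ) : ℕ := sc (xd a) l
/-- core radius -/
noncomputable def cD (a : ℝ) (l : ℕ) : ℕ := 4 * sc (xd a) l
/-- tent scale -/
noncomputable def cS (a : ℝ) (l : ℕ) : ℕ := 32 * sc (xs a) l
/-- Markov tiles; the windows are `bal z (3 ρ)` -/
noncomputable def cR (l : ℕ) : ℕ := 32 * sc xr l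
/-- slab thickness -/
noncomputable def cP (l : ℕ) : ℕ := 16 * cR l
/-- tile side -/
noncomputable def cM (l : ℕ) : ℕ := sc xm l
/-- radius of the detector windows -/
noncomputable def cB (l : ℕ) : ℕ := 8 * cM l
/-- collar of the detectors -/
noncomputable def cN (l : ℕ) : ℕ := sc xn l
/-- strength of the detectors -/
noncomputable def cLam (l : ℕ) : ℝ := (l : ℝ) ^ (-xlam)
/-- depolarising strength -/
noncomputable def cE (l : ℕ) : ℝ := (l : ℝ) ^ (-(50 : ℝ))
/-- finite difference step -/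
noncomputable def cY (a : ℝ) (l : ℕ) : ℝ := (l : ℝ) ^ (-(xy a))
/-- first level of `exists_level` -/
noncomputable def cA (a : ℝ) (l : ℕ) : ℕ := 2 * cS a l + 1
/-- number of lines in each layer -/
noncomputable def ln (a : ℝ) (l w : ℕ) : ℕ := (w - 4 * cS a l - 2 * cP l - 4) / 2
/-- index of the middle level -/
noncomputable def lm (a : ℝ) (l w : ℕ) : ℕ := ln a l w + cP l
/-- index of the last level -/
noncomputable def lN (a : ℝ) (l w : ℕ) : ℕ := 2 * (ln a l w + cP l)
/-- exponent of a single line -/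
noncomputable def cTh (a : ℝ) (l w : ℕ) : ℝ := (l : ℝ) ^ (xu a) / (2 * ln a l w)

section
variable {a : ℝ}

theorem e0_pos (ha : 0 < a) : 0 < e0 a := by unfold e0; positivity

theorem e0_le (ha1 : a ≤ 1) : e0 a ≤ 1 / 10 ^ 10 := by
  unfold e0; exact div_le_div_of_nonneg_right ha1 (by positivity)

theorem e0_mul (a : ℝ) : e0 a * 10 ^ 10 = a := by
  unfold e0; field_simp

theorem xom_pos (ha : 0 < a) : 0 < xom a := e0_pos ha
theorem xom_u (ha : 0 < a) : 2 * xom a < xu a := by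
  have := e0_pos ha; unfold xom xu; linarith
theorem xom_c (ha : 0 < a) : 2 * xom a < xc a := by
  have := e0_pos ha; unfold xom xc; linarith
theorem xc_lt (ha1 : a ≤ 1) : xc a < 1 / 10 := by
  have := e0_le ha1; unfold xc; norm_num at this ⊢; linarith

/-! ### sizes -/

theorem up_cF (ha : 0 < a) : Up (fun l => (cF a l : ℝ)) (xd a) :=
  Up.scale (by have := e0_pos ha; unfold xd; positivity)

theorem up_cD (ha : 0 < a) : Up (fun l => (cD a l : ℝ)) (xd a) := by
  have h := (up_cF ha).cmul 4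
  refine h.congr' (Eventually.of_forall fun l => ?_)
  simp [cD, cF]

theorem up_cS (ha : 0 < a) : Up (fun l => (cS a l : ℝ)) (xs a) := by
  have h := (Up.scale (e := xs a) (by have := e0_pos ha; unfold xs; positivity)).cmul 32
  refine h.congr' (Eventually.of_forall fun l => ?_)
  simp [cS]

theorem up_cS_inv (a : ℝ) : Up (fun l => ((cS a l : ℝ))⁻¹) (-(xs a)) := by
  have h := (Up.scale_inv (xs a)).cmul (32)⁻¹
  refine h.congr' (Eventually.of_forall fun l => ?_)
  simp only [cS, Nat.cast_mul, Nat.cast_ofNat, mul_inv]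

theorem up_cR : Up (fun l => (cR l : ℝ)) xr := by
  have h := (Up.scale (e := xr) (by unfold xr; positivity)).cmul 32
  refine h.congr' (Eventually.of_forall fun l => ?_)
  simp [cR]

theorem up_cR_inv : Up (fun l => ((cR l : ℝ))⁻¹) (-xr) := by
  have h := (Up.scale_inv xr).cmul (32)⁻¹
  refine h.congr' (Eventually.of_forall fun l => ?_)
  simp only [cR, Nat.cast_mul, Nat.cast_ofNat, mul_inv]

theorem up_cP : Up (fun l => (cP l : ℝ)) xr := by
  have h := up_cR.cmul 16
  refine h.congr' (Eventually.of_forall fun l => ?_)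
  simp [cP]

theorem up_cM : Up (fun l => (cM l : ℝ)) xm := Up.scale (by unfold xm; positivity)

theorem up_cM_inv : Up (fun l => ((cM l : ℝ))⁻¹) (-xm) := Up.scale_inv xm

theorem up_cB : Up (fun l => (cB l : ℝ)) xm := by
  have h := up_cM.cmul 8
  refine h.congr' (Eventually.of_forall fun l => ?_)
  simp [cB]

theorem up_cN : Up (fun l => (cN l : ℝ)) xn := Up.scale (by unfold xn; positivity)

theorem up_cLam : Up cLam (-xlam) := Up.pow_self _

theorem up_cLam_inv : Up (fun l => (cLam l)⁻¹) xlam := by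
  have h := Up.inv (f := cLam) (e := -xlam) (c := 1) one_pos
    (Eventually.of_forall fun l => by rw [one_mul]; rfl)
  simpa using h

theorem up_cY (a : ℝ) : Up (cY a) (-(xy a)) := Up.pow_self _

theorem up_cY_inv (a : ℝ) : Up (fun l => (cY a l)⁻¹) (xy a) := by
  have h := Up.inv (f := cY a) (e := -(xy a)) (c := 1) one_pos
    (Eventually.of_forall fun l => by rw [one_mul]; rfl)
  simpa using h

theorem up_cE : Up cE (-50) := Up.pow_self _

/-- `log (q² / ε)` is `O(l^e)` for every `e > 0` -/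
theorem up_logE (Q : ℝ) (hQ : 0 < Q) {e : ℝ} (he : 0 < e) :
    Up (fun l => Real.log (Q / cE l)) e := by
  have h1 : Up (fun l : ℕ => |Real.log Q| * 1 + 50 * (1 + Real.log l)) e :=
    ((Up.const (|Real.log Q| * 1)).mono he.le).add ((Up.one_add_log he).cmul 50)
  refine h1.of_le ?_
  filter_upwards [ev_one] with l hl
  have hl0 : (0 : ℝ) < l := by exact_mod_cast hl
  have h2 : 0 ≤ Real.log l := Real.log_nonneg (by exact_mod_cast hl)
  have h3 : Real.log (Q / cE l) = Real.log Q + 50 * Real.log l := by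
    rw [cE, Real.log_div hQ.ne' (Real.rpow_pos_of_pos hl0 _).ne', Real.log_rpow hl0]
    ring
  rw [h3]
  have h4 : |Real.log Q + 50 * Real.log l| ≤ |Real.log Q| + 50 * Real.log l := by
    refine (abs_add_le _ _).trans ?_
    rw [abs_of_nonneg (by positivity : (0:ℝ) ≤ 50 * Real.log l)]
  exact h4.trans (le_trans (by linarith) (le_abs_self _))

/-! ### order of the scales, geometry -/

theorem one_le_cF {l : ℕ} (hl : 1 ≤ l) : 1 ≤ cF a l := one_le_sc hl
theorem one_le_cD {l : ℕ} (hl : 1 ≤ l) : 1 ≤ cD a l := by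
  have := one_le_cF (a := a) hl; unfold cD cF at *; omega
theorem cD_eq (l : ℕ) : cD a l = 4 * cF a l := rfl

theorem cD_cS (ha : 0 < a) {l : ℕ} (hl : 1 ≤ l) : 8 * cD a l ≤ cS a l := by
  have h := sc_mono (e := xd a) (e' := xs a) (by
    have := e0_pos ha; unfold xd xs; linarith) hl
  unfold cD cS; omega

theorem cS_cR (ha : 0 < a) (ha1 : a ≤ 1) {l : ℕ} (hl : 1 ≤ l) : cS a l ≤ cR l := by
  have h := sc_mono (e := xs a) (e' := xr) (by
    have := e0_le ha1; unfold xs xr; norm_num at this ⊢; linarith) hl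
  unfold cS cR; omega

theorem cR_cP (l : ℕ) : cP l = 16 * cR l := rfl

/-- a constant (the range `R` of the interaction) is below the filter radius -/
theorem ev_const_cF (ha : 0 < a) (K : ℕ) : ∀ᶠ l : ℕ in atTop, K ≤ cF a l := by
  have h := ge_of_ge (f := fun l : ℕ => (cF a l : ℝ)) (e := xd a) (e' := 0) (c := K) (c' := 1)
    one_pos (Eventually.of_forall fun l => by rw [one_mul]; exact sc_ge _ _)
    (by have := e0_pos ha; unfold xd; positivity)
  filter_upwards [h] with l hl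
  have h2 : (K : ℝ) ≤ cF a l := by simpa using hl
  exact_mod_cast h2

theorem ev_nat {f g : ℕ → ℕ} {e e' : ℝ} (hf : Up (fun l => (f l : ℝ)) e) (h : e < e')
    (hg : ∀ᶠ l : ℕ in atTop, (l : ℝ) ^ e' ≤ g l) (K : ℕ) : ∀ᶠ l : ℕ in atTop, K * f l ≤ g l := by
  have h1 := hf.cmul (K : ℝ)
  filter_upwards [h1.le h one_pos, hg] with l hl hl'
  have h2 : ((K * f l : ℕ) : ℝ) ≤ g l := by
    push_cast
    refine ((le_abs_self _).trans hl).trans ?_
    rw [one_mul]; exact hl'
  exact_mod_cast h2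

/-- the tile is much larger than the slab thickness -/
theorem ev_cP_cM (K : ℕ) : ∀ᶠ l : ℕ in atTop, K * cP l ≤ cM l :=
  ev_nat up_cP (by unfold xr xm; norm_num) (Eventually.of_forall fun l => sc_ge _ _) K

theorem ev_cR_cM (K : ℕ) : ∀ᶠ l : ℕ in atTop, K * cR l ≤ cM l :=
  ev_nat up_cR (by unfold xr xm; norm_num) (Eventually.of_forall fun l => sc_ge _ _) K

theorem ev_cB_cN (K : ℕ) : ∀ᶠ l : ℕ in atTop, K * cB l ≤ cN l :=
  ev_nat up_cB (by unfold xm xn; norm_num) (Eventually.of_forall fun l => sc_ge _ _) K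

/-- lower bound of the width -/
theorem ev_width (K : ℝ) (hK : 1 < K) (ha1 : a ≤ 1) : ∀ᶠ l : ℕ in atTop, ∀ w : ℕ,
    (l : ℝ) ^ (1 - xom a) < (w : ℝ) + 1 → (l : ℝ) ^ (1 - xom a) ≤ K * w := by
  have h0 : 0 < 1 - xom a := by
    have := e0_le ha1; unfold xom; norm_num at this ⊢; linarith
  have h2 : Tendsto (fun l : ℕ => (l : ℝ) ^ (1 - xom a)) atTop atTop :=
    (tendsto_rpow_atTop h0).comp tendsto_natCast_atTop_atTop
  filter_upwards [h2.eventually_ge_atTop (K / (K - 1))] with l hl w hw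
  have h3 : 0 < K - 1 := by linarith
  rw [div_le_iff₀ h3] at hl
  nlinarith

/-- everything of width `K (s + m')` fits into the ring -/
theorem ev_fit (ha : 0 < a) (ha1 : a ≤ 1) (K : ℕ) : ∀ᶠ l : ℕ in atTop, ∀ w : ℕ,
    (l : ℝ) ^ (1 - xom a) < (w : ℝ) + 1 → K * (cS a l + cP l + 1) ≤ w := by
  have hx := e0_le ha1
  have hx0 := e0_pos ha
  have h1 : Up (fun l => (K : ℝ) * ((cS a l : ℝ) + (cP l : ℝ) + 1)) (1 / 2) := by
    refine Up.cmul _ (((((up_cS ha).mono ?_).add (up_cP.mono ?_)).add ((Up.const 1).mono ?_)))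
    · unfold xs; norm_num at hx ⊢; linarith
    · unfold xr; norm_num
    · norm_num
  filter_upwards [h1.le (e' := 1 - xom a) (c := 1 / 2) (by
    unfold xom; norm_num at hx ⊢; linarith) (by norm_num), ev_width 2 (by norm_num) ha1]
    with l hl hl' w hw
  have h3 := hl' w hw
  have h2 : ((K * (cS a l + cP l + 1) : ℕ) : ℝ) ≤ w := by
    push_cast
    refine ((le_abs_self _).trans hl).trans ?_
    linarith
  exact_mod_cast h2

/-- the geometric clauses: the zone of `exists_level` (first level `2 s + 1`, `N + 1` levels)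
lies in the ring -/
theorem lN_le {l w : ℕ} (h : 4 * cS a l + 2 * cP l + 4 ≤ w) :
    4 * cS a l + lN a l w + 4 ≤ w := by
  unfold lN ln; omega

theorem lm_eq (l w : ℕ) : ln a l w + cP l ≤ lm a l w := le_rfl
theorem lmN_eq (l w : ℕ) : lm a l w + ln a l w + cP l ≤ lN a l w := by
  unfold lm lN; omega
theorem lN_eq (l w : ℕ) : lN a l w = 2 * lm a l w := rfl

/-- the number of lines -/
theorem ev_ln (ha : 0 < a) (ha1 : a ≤ 1) : ∀ᶠ l : ℕ in atTop, ∀ w : ℕ,
    (l : ℝ) ^ (1 - xom a) < (w : ℝ) + 1 →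
      1 ≤ ln a l w ∧ (l : ℝ) ^ (1 - xom a) ≤ 4 * ln a l w ∧ 2 * ln a l w ≤ w ∧
      4 * cS a l + lN a l w + 4 ≤ w := by
  filter_upwards [ev_fit ha ha1 40, ev_width (5 / 4) (by norm_num) ha1] with l h1 h2 w hw
  have h3 := h1 w hw
  have h4 := h2 w hw
  have h5 : 5 * w ≤ 16 * ln a l w := by unfold ln; omega
  have h6 : (5 : ℝ) * w ≤ 16 * ln a l w := by exact_mod_cast h5
  have h7 : 4 * cS a l + 2 * cP l + 4 ≤ w := by omega
  refine ⟨by omega, by linarith, by unfold ln; omega, lN_le h7⟩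

/-- size of `θ` -/
theorem ev_cTh (ha : 0 < a) (ha1 : a ≤ 1) : ∀ᶠ l : ℕ in atTop, ∀ w : ℕ,
    (l : ℝ) ^ (1 - xom a) < (w : ℝ) + 1 →
      0 < cTh a l w ∧ cTh a l w ≤ 2 * (l : ℝ) ^ (xu a + xom a - 1) := by
  filter_upwards [ev_ln ha ha1, ev_one] with l h1 hl1 w hw
  obtain ⟨h2, h3, -, -⟩ := h1 w hw
  have hl0 : (0 : ℝ) < l := by exact_mod_cast hl1
  have h4 : (0 : ℝ) < ln a l w := by exact_mod_cast h2
  have h5 : 0 < (l : ℝ) ^ (xu a) := Real.rpow_pos_of_pos hl0 _
  refine ⟨by unfold cTh; positivity, ?_⟩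
  unfold cTh
  rw [div_le_iff₀ (by positivity)]
  have h6 : (l : ℝ) ^ (xu a) = (l : ℝ) ^ (xu a + xom a - 1) * (l : ℝ) ^ (1 - xom a) := by
    rw [← Real.rpow_add hl0]; congr 1; ring
  have h7 : 0 < (l : ℝ) ^ (xu a + xom a - 1) := Real.rpow_pos_of_pos hl0 _
  rw [h6]
  nlinarith

/-- size of `θ = l^u / (2 n)` for any number of lines `n ≥ l^(1-om) / K` -/
theorem theta_le {l n : ℕ} (hl : 1 ≤ l) {K : ℝ} (h : (l : ℝ) ^ (1 - xom a) ≤ K * n) :
    (1 ≤ n) ∧ 0 < (l : ℝ) ^ (xu a) / (2 * n) ∧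
      (l : ℝ) ^ (xu a) / (2 * n) ≤ K / 2 * (l : ℝ) ^ (xu a + xom a - 1) := by
  have hl0 : (0 : ℝ) < l := by exact_mod_cast hl
  have h0 : 0 < (l : ℝ) ^ (1 - xom a) := Real.rpow_pos_of_pos hl0 _
  have hn : n ≠ 0 := by
    rintro rfl
    simp at h
    linarith
  have hn0 : (0 : ℝ) < n := by exact_mod_cast Nat.pos_of_ne_zero hn
  have h5 : 0 < (l : ℝ) ^ (xu a) := Real.rpow_pos_of_pos hl0 _
  refine ⟨Nat.one_le_iff_ne_zero.2 hn, by positivity, ?_⟩
  rw [div_le_iff₀ (by positivity)]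
  have h6 : (l : ℝ) ^ (xu a) = (l : ℝ) ^ (xu a + xom a - 1) * (l : ℝ) ^ (1 - xom a) := by
    rw [← Real.rpow_add hl0]; congr 1; ring
  have h7 : 0 < (l : ℝ) ^ (xu a + xom a - 1) := Real.rpow_pos_of_pos hl0 _
  rw [h6]
  nlinarith

end

end Vale.Agent.P356.GA.Par
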