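import Vale.Agent.P356.GA.Gd551
import Vale.Agent.P356.GA.DetSum841
import Vale.Agent.P356.GA.NoiseB677
import Vale.Agent.P356.GA.Scales227
import Vale.Agent.P356.PH.Defs

/-!
# GA: all data of the analytic part at one scale

`CData` bundles the Hamiltonian, the region `X`, the geometric data, the local decomposition, the
detectors, the perturbed Hamiltonian and its ground state at the scale `l`, with everything which
is known about them. `EnP` (energy of the tilted states) and `GmP` (first order term) are the two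
statements about such data which imply `Core` (file Core551).
-/

set_option linter.all false

namespace Vale.Agent.P356.GA

open Matrix Finset Vale.Agent.P356 Vale.Agent.P356.SV Vale.Agent.P356.Path Vale.Agent.P356.NA
open Vale.Agent.P356.SA Vale.Agent.P356.PH Vale.Agent.P356.GA.Par
open Vale.Agent.P356.GA.Ring407 (dX)
open Vale.Agent.P356.GA.Level (bal lev)
open Vale.Agent.P356.GA.Theta (thC)
open scoped BigOperators ComplexOrder Kronecker Matrix.Norms.L2Operator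

/-- half width of the end bands -/
noncomputable def bw (a : ℝ) (l : ℕ) : ℕ := cP l + 8 * Par.cD a l + 8

/-- All data of the analytic part at the scale `l`. `C₁`: constant of the sub-volume law; `C₂`:
bound of the local terms. -/
structure CData (q R : ℕ) (J Δ a C₁ C₂ : ℝ) (L l : ℕ) where
  /-- width of the ring -/
  w : ℕ
  /-- interaction -/
  h : Finset (Site L) → Op (Site L) q
  E : ℝ
  Ω : Conf (Site L) q → ℂ
  X : Finset (Site L)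
  g : Gd L
  /-- exceptional cores -/
  Exc : Finset (Site L)
  /-- detectors -/
  P : Site L → Op (Site L) q
  /-- strictly local terms of `H - e` -/
  T : Site L → Op (Site L) q
  e : ℝ
  E' : ℝ
  Ω' : Conf (Site L) q → ℂ
  q1 : 1 ≤ q
  terms : Terms L q R J h
  gap : GappedGround (∑ B, h B) Δ E Ω
  wle : (w : ℝ) ≤ (l : ℝ) ^ (1 - xom a)
  wgt : (l : ℝ) ^ (1 - xom a) < (w : ℝ) + 1
  -- geometry
  mp : g.mp = cP l
  tl : g.tl = cM l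
  n8 : 8 * g.n ≤ w
  n16 : w ≤ 16 * g.n
  Nw : g.N ≤ w
  mid1 : g.n + g.mp ≤ g.m
  mid2 : g.m + g.n + g.mp ≤ g.N
  X0 : X ⊆ g.P 0
  Q0 : g.Q 0 ⊆ sa7_nb X w
  area : ((sa7_nb X w \ X).card : ℝ) ≤ 9 * (l : ℝ) ^ 2
  near : ∀ z, g.t0 - bw a l ≤ g.T z → g.T z ≤ g.t0 + g.N + bw a l → z ∈ sa7_nb X w \ X
  ends : ((endB g (bw a l)).card : ℝ) ≤ 32 * (2 * bw a l + 1) * (9 * (l : ℝ) ^ 2 / w)
  lip : ∀ x y, |g.T x - g.T y| ≤ 2 * dist1 x y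
  dist : ∀ x, (dX X x : ℝ) ≤ g.T x ∧ g.T x ≤ dX X x + cS a l / 2
  ties : ∀ x, ∀ k ≤ g.N, g.T x ≠ g.t0 + k
  /-- corners of a box which contains the ring -/
  x0 : ℕ
  x1 : ℕ
  y0 : ℕ
  y1 : ℕ
  hx : x1 ≤ x0 + 3 * l
  hy : y1 ≤ y0 + 3 * l
  box : sa7_nb X w ⊆ rect L x0 x1 y0 y1
  exc : Exc ⊆ sa7_nb X w \ X
  excC : (Exc.card : ℝ) ≤ 1536 * (9 * (l : ℝ) ^ 2) * (Par.cD a l / cS a l)
  markov : ∑ z ∈ Excᶜ, ∑ k ∈ range g.n,
      (thC (fun A => entropyOf A Ω) (bal z (Par.cD a l)) (bal z (3 * cR l)) (lev g.T (g.t0 + k)) +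
        thC (fun A => entropyOf A Ω) (bal z (Par.cD a l)) (bal z (3 * cR l))
          (lev g.T (g.t0 + g.N - k))) ≤
      2 * (9600 * Par.cD a l * (cS a l : ℝ) ^ 2 *
        (((3 * l / cR l + 7 : ℕ) : ℝ) ^ 2 * (C₁ * (cR l : ℝ) ^ (2 - a))))
  -- the local terms
  Tloc : ∀ z, (T z).IsHermitian ∧ ActsOn (ball z (Par.cD a l)) (T z) ∧ ‖T z‖ ≤ C₂ ∧
    nrm (T z *ᵥ Ω) ≤ (l : ℝ) ^ (-100 : ℝ)
  Tsum : ∑ z, T z = ∑ B, h B - (e : ℂ) • (1 : Op (Site L) q)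
  -- detectors
  areaZ : ((sa7_nb X (2 * w)).card : ℝ) ≤ 25 * (l : ℝ) ^ 2
  det : ∀ z, ActsOn (ball z (cB l + cN l)) (P z) ∧ (P z).PosSemidef ∧ (1 - P z).PosSemidef ∧
    expv Ω (1 - P z) ≤ (l : ℝ) ^ (-100 : ℝ)
  gap' : GappedGround (∑ B, h B + ((cLam l : ℝ) : ℂ) • ∑ z ∈ sa7_nb X (2 * w), (1 - P z))
    (Δ / 2) E' Ω'
  gap2 : GappedGround
    (cp1 (∑ B, h B + ((cLam l : ℝ) : ℂ) • ∑ z ∈ sa7_nb X (2 * w), (1 - P z)) +
      cp2 (∑ B, h B + ((cLam l : ℝ) : ℂ) • ∑ z ∈ sa7_nb X (2 * w), (1 - P z)) :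
        Op (Site L ⊕ Site L) q) (Δ / 2) (E' + E') (dbl Ω' Ω')
  E1 : E ≤ E'
  E2 : E' ≤ E + (l : ℝ) ^ (-50 : ℝ)
  close : nsq (Ω' - Ω) ≤ (l : ℝ) ^ (-40 : ℝ)
  expc : ∀ Y : Op (Site L) q, ‖star Ω' ⬝ᵥ (Y *ᵥ Ω') - star Ω ⬝ᵥ (Y *ᵥ Ω)‖ ≤
    (l : ℝ) ^ (-20 : ℝ) * ‖Y‖
  dev : ∀ ψ : Conf (Site L ⊕ Site L) q → ℂ, nsq ψ = 1 →
    (∀ v, ∀ Y : Op (Site L ⊕ Site L) q, ActsOn (lyr (fun z => ball z (cB l)) v) Y →
      ‖star ψ ⬝ᵥ (Y *ᵥ ψ) - star (dbl Ω Ω) ⬝ᵥ (Y *ᵥ dbl Ω Ω)‖ ≤ dvn P ψ v * ‖Y‖) ∧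
    ∀ K : ℝ, 1 ≤ K → K ≤ l →
      expv ψ (cp1 (∑ B, h B + ((cLam l : ℝ) : ℂ) • ∑ z ∈ sa7_nb X (2 * w), (1 - P z)) +
        cp2 (∑ B, h B + ((cLam l : ℝ) : ℂ) • ∑ z ∈ sa7_nb X (2 * w), (1 - P z)) :
          Op (Site L ⊕ Site L) q) - (E' + E') ≤ K →
      ∑ v ∈ (sa7_nb X (2 * w)).disjSum (sa7_nb X (2 * w)), expv ψ (dfo P v) ≤
        2 * (K / cLam l) ∧
      ∑ v ∈ (sa7_nb X (2 * w)).disjSum (sa7_nb X (2 * w)), dvn P ψ v ≤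
        50 * l * Real.sqrt (K / cLam l)

namespace CData

variable {q R : ℕ} {J Δ a C₁ C₂ : ℝ} {L l : ℕ} (d : CData q R J Δ a C₁ C₂ L l)

/-- centres of the detectors -/
noncomputable def Z : Finset (Site L) := sa7_nb d.X (2 * d.w)

/-- the Hamiltonian with detectors -/
noncomputable def H' : Op (Site L) q :=
  ∑ B, d.h B + ((cLam l : ℝ) : ℂ) • ∑ z ∈ sa7_nb d.X (2 * d.w), (1 - d.P z)

/-- the Hamiltonian of the two-layer system -/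
noncomputable def H2 : Op (Site L ⊕ Site L) q := cp1 d.H' + cp2 d.H'

/-- exponent of a line -/
noncomputable def θ : ℝ := (l : ℝ) ^ (xu a) / (2 * d.g.n)

/-- the reference family of modular Hamiltonians -/
noncomputable def K (b : Finset (Site L)) : Op (Site L) q := Kt (cE l) d.Ω b

/-- the tilted states -/
def St (M τ t : ℝ) (ψ : Conf (Site L ⊕ Site L) q → ℂ) : Prop := d.g.St d.θ M d.K d.Ω' τ t ψ

/-- strictly local decomposition of `H'` -/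
theorem H'_eq : d.H' = ∑ z, d.T z + ((cLam l : ℝ) : ℂ) • ∑ z ∈ d.Z, (1 - d.P z) +
    (d.e : ℂ) • (1 : Op (Site L) q) := by
  rw [H', Z, d.Tsum]
  abel

end CData

/-- **Energy of the tilted states.** -/
def EnP (q R : ℕ) (J Δ a C₁ C₂ : ℝ) : Prop :=
  ∃ n₀ : ℕ, ∀ (L l : ℕ) (d : CData q R J Δ a C₁ C₂ L l), n₀ ≤ l →
    ∃ M₁ : ℝ, ∀ M, M₁ ≤ M → ∀ τ : ℝ, |τ| ≤ 10 * Real.log l → ∀ t, 0 < t → t ≤ 1 →
      ∀ ψ, d.St M τ t ψ → expv ψ d.H2 - (d.E' + d.E') ≤ (l : ℝ) ^ (-(2 * xc a))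

/-- **First order term of the tilted states.** -/
def GmP (q R : ℕ) (J Δ a C₁ C₂ : ℝ) : Prop :=
  ∃ n₀ : ℕ, ∀ (L l : ℕ) (d : CData q R J Δ a C₁ C₂ L l), n₀ ≤ l →
    ∃ M₁ : ℝ, ∀ M, M₁ ≤ M → ∀ τ : ℝ, |τ| ≤ 10 * Real.log l → ∀ t, 0 < t → t ≤ 1 →
      ∀ ψ, d.St M τ t ψ → expv ψ d.H2 - (d.E' + d.E') ≤ 1 →
        ((1 + τ * Complex.I) * d.g.wkv d.θ M τ t ψ (d.g.Gm d.θ d.K)).re ≤
          expv (dbl d.Ω' d.Ω') (d.g.Gm d.θ d.K) + (l : ℝ) ^ (1 - xc a)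

end Vale.Agent.P356.GA
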