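import Vale.Agent.P356.GA.Num227

/-!
The detectors at the scale `l` (fields `det`, `gap'`, `gap2`, `E1`, `E2`, `close`, `expc`, `dev` of
`CData`).
-/

set_option linter.all false

namespace Vale.Agent.P356.GA

open Matrix Finset Filter Vale.Agent.P356 Vale.Agent.P356.SV Vale.Agent.P356.Path
open Vale.Agent.P356.NA Vale.Agent.P356.SA Vale.Agent.P356.PH Vale.Agent.P356.GA.Par
open scoped BigOperators ComplexOrder Kronecker Matrix.Norms.L2Operator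

theorem cdet_num {q : ℕ} {C c Δ : ℝ} (hC : 0 ≤ C) (hc : 0 < c) (hΔ : 0 < Δ) :
    ∀ᶠ l : ℕ in atTop, ∀ A : ℝ, 0 ≤ A → A ≤ 25 * (l : ℝ) ^ 2 →
      0 < cLam l ∧ detErr q C c (cB l) (cN l) ≤ (l : ℝ) ^ (-100 : ℝ) ∧
      cLam l * (A * detErr q C c (cB l) (cN l)) ≤ Δ / 2 ∧
      cLam l * (A * detErr q C c (cB l) (cN l)) ≤ (l : ℝ) ^ (-50 : ℝ) ∧
      2 * (cLam l * (A * detErr q C c (cB l) (cN l)) / Δ) ≤ (l : ℝ) ^ (-40 : ℝ) ∧
      2 * Real.sqrt (2 * (cLam l * (A * detErr q C c (cB l) (cN l)) / Δ)) ≤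
        (l : ℝ) ^ (-20 : ℝ) ∧
      ∀ K : ℝ, 1 ≤ K → K ≤ l →
        K / cLam l + 2 * (A * detErr q C c (cB l) (cN l)) ≤ 2 * (K / cLam l) ∧
        3 * (K / cLam l + 2 * (A * detErr q C c (cB l) (cN l))) +
          2 * Real.sqrt (2 * A * (K / cLam l + 2 * (A * detErr q C c (cB l) (cN l)))) ≤
            50 * l * Real.sqrt (K / cLam l) := by
  obtain ⟨n₁, hn₁⟩ := exists_nat_ge (2 / Δ)
  filter_upwards [ev_detErr q hC hc 100, eventually_ge_atTop 25, eventually_ge_atTop n₁]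
    with l h1 h2 h3 A hA0 hA
  have hl25 : (25 : ℝ) ≤ l := by exact_mod_cast h2
  have hl1 : 1 ≤ l := by omega
  have hl0 : (0 : ℝ) < l := by linarith
  have hlΔ : 2 / Δ ≤ l := hn₁.trans (by exact_mod_cast h3)
  have hE : 0 ≤ detErr q C c (cB l) (cN l) := by
    unfold detErr; positivity
  have hΛ := cLam_pos hl1
  have hΛ1 := cLam_le_one hl1
  set δ := detErr q C c (cB l) (cN l) with hδ
  have hη0 : 0 ≤ A * δ := mul_nonneg hA0 hE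
  have hη : A * δ ≤ (l : ℝ) ^ (-97 : ℝ) := by
    calc A * δ ≤ 25 * (l : ℝ) ^ 2 * (l : ℝ) ^ (-100 : ℝ) := mul_le_mul hA h1 hE (by positivity)
      _ ≤ l * (l : ℝ) ^ 2 * (l : ℝ) ^ (-100 : ℝ) := by gcongr
      _ = (l : ℝ) ^ (-97 : ℝ) := by
          rw [show (l : ℝ) * (l : ℝ) ^ 2 = (l : ℝ) ^ (3 : ℝ) by
            rw [show (3 : ℝ) = ((3 : ℕ) : ℝ) by norm_num, Real.rpow_natCast]; ring,
            ← Real.rpow_add hl0]
          norm_num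
  have hmono : ∀ {x y : ℝ}, x ≤ y → (l : ℝ) ^ x ≤ (l : ℝ) ^ y := fun {x y} h =>
    Real.rpow_le_rpow_of_exponent_le (by linarith) h
  have hΛη : cLam l * (A * δ) ≤ (l : ℝ) ^ (-97 : ℝ) :=
    (mul_le_of_le_one_left hη0 hΛ1).trans hη
  have hm1 : (l : ℝ) ^ (-1 : ℝ) = (l : ℝ)⁻¹ := Real.rpow_neg_one _
  have hinvΔ : (l : ℝ)⁻¹ ≤ Δ / 2 := by
    rw [inv_le_comm₀ hl0 (by positivity), inv_div]
    exact hlΔ
  have hinv2 : (l : ℝ)⁻¹ ≤ 1 / 25 := by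
    rw [inv_le_comm₀ hl0 (by norm_num)]
    rw [one_div, inv_inv]
    exact hl25
  have h4 : cLam l * (A * δ) ≤ Δ / 2 :=
    (hΛη.trans (hmono (by norm_num : (-97 : ℝ) ≤ -1))).trans (hm1 ▸ hinvΔ)
  have h5 : 2 * (cLam l * (A * δ) / Δ) ≤ (l : ℝ) ^ (-96 : ℝ) := by
    calc 2 * (cLam l * (A * δ) / Δ) = (2 / Δ) * (cLam l * (A * δ)) := by ring
      _ ≤ l * (l : ℝ) ^ (-97 : ℝ) :=
          mul_le_mul hlΔ hΛη (by positivity) hl0.le
      _ = (l : ℝ) ^ (-96 : ℝ) := by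
          nth_rewrite 1 [← Real.rpow_one (l : ℝ)]
          rw [← Real.rpow_add hl0]
          norm_num
  refine ⟨hΛ, h1, h4, hΛη.trans (hmono (by norm_num)), h5.trans (hmono (by norm_num)), ?_, ?_⟩
  · have h6 : Real.sqrt (2 * (cLam l * (A * δ) / Δ)) ≤ (l : ℝ) ^ (-21 : ℝ) := by
      rw [show (l : ℝ) ^ (-21 : ℝ) = Real.sqrt ((l : ℝ) ^ (-42 : ℝ)) by
        rw [Real.sqrt_eq_rpow, ← Real.rpow_mul hl0.le]; norm_num]
      exact Real.sqrt_le_sqrt (h5.trans (hmono (by norm_num)))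
    calc 2 * Real.sqrt (2 * (cLam l * (A * δ) / Δ)) ≤ l * (l : ℝ) ^ (-21 : ℝ) :=
          mul_le_mul (by linarith) h6 (Real.sqrt_nonneg _) hl0.le
      _ = (l : ℝ) ^ (-20 : ℝ) := by
          nth_rewrite 1 [← Real.rpow_one (l : ℝ)]
          rw [← Real.rpow_add hl0]
          norm_num
  · intro K hK1 hKl
    have hK0 : 0 ≤ K := by linarith
    have h7 : 2 * (A * δ) ≤ K / cLam l := by
      have h8 : A * δ ≤ 1 / 25 := (hη.trans (hmono (by norm_num : (-97 : ℝ) ≤ -1))).trans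
        (hm1 ▸ hinv2)
      have h9 : 1 ≤ K / cLam l := by
        rw [le_div_iff₀ hΛ]
        linarith
      linarith
    have h8 : K / cLam l + 2 * (A * δ) ≤ 2 * (K / cLam l) := by linarith
    refine ⟨h8, ?_⟩
    have hKΛ : 0 ≤ K / cLam l := by positivity
    set s := Real.sqrt (K / cLam l) with hs
    have hs0 : 0 ≤ s := Real.sqrt_nonneg _
    have hss : s * s = K / cLam l := Real.mul_self_sqrt hKΛ
    have hsl : s ≤ l := by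
      rw [hs, Real.sqrt_le_left hl0.le, div_le_iff₀ hΛ]
      have h10 : (l : ℝ) ^ 2 * cLam l = (l : ℝ) ^ ((2 : ℝ) - xlam) := by
        unfold cLam
        rw [← Real.rpow_natCast, ← Real.rpow_add hl0]
        norm_num
        rfl
      rw [h10]
      calc K ≤ (l : ℝ) ^ (1 : ℝ) := by rw [Real.rpow_one]; exact hKl
        _ ≤ _ := hmono (by unfold xlam; norm_num)
    have h11 : Real.sqrt (2 * A * (K / cLam l + 2 * (A * δ))) ≤ 10 * l * s := by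
      rw [Real.sqrt_le_left (by positivity)]
      calc 2 * A * (K / cLam l + 2 * (A * δ)) ≤ 2 * (25 * (l : ℝ) ^ 2) * (2 * (K / cLam l)) := by
            gcongr
        _ = (10 * l * s) ^ 2 := by
            rw [← hss]
            ring
    have h12 : 3 * (K / cLam l + 2 * (A * δ)) ≤ 6 * l * s := by
      calc 3 * (K / cLam l + 2 * (A * δ)) ≤ 3 * (2 * (K / cLam l)) := by linarith
        _ = 6 * (s * s) := by rw [hss]; ring
        _ ≤ 6 * (l * s) := by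
            have := mul_le_mul_of_nonneg_right hsl hs0
            linarith
        _ = _ := by ring
    have h13 : 0 ≤ l * s := by positivity
    nlinarith

/-- **The detectors at the scale `l`.** -/
theorem cdet749 {R : ℕ} {J Δ : ℝ} (hJ : 0 ≤ J) (hΔ : 0 < Δ) (q : ℕ) :
    ∃ n₀ : ℕ, ∀ (L l : ℕ) (h : Finset (Site L) → Op (Site L) q), PH.Terms L q R J h →
      ∀ (E : ℝ) (Ω : Conf (Site L) q → ℂ), GappedGround (∑ X, h X) Δ E Ω → n₀ ≤ l →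
      ∀ Z : Finset (Site L), (Z.card : ℝ) ≤ 25 * (l : ℝ) ^ 2 →
      ∃ (P : Site L → Op (Site L) q) (E' : ℝ) (Ω' : Conf (Site L) q → ℂ),
        (∀ z, ActsOn (ball z (cB l + cN l)) (P z) ∧ (P z).PosSemidef ∧ (1 - P z).PosSemidef ∧
          expv Ω (1 - P z) ≤ (l : ℝ) ^ (-100 : ℝ)) ∧
        GappedGround (∑ B, h B + ((cLam l : ℝ) : ℂ) • ∑ z ∈ Z, (1 - P z)) (Δ / 2) E' Ω' ∧
        GappedGround
          (cp1 (∑ B, h B + ((cLam l : ℝ) : ℂ) • ∑ z ∈ Z, (1 - P z)) +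
            cp2 (∑ B, h B + ((cLam l : ℝ) : ℂ) • ∑ z ∈ Z, (1 - P z)) :
              Op (Site L ⊕ Site L) q) (Δ / 2) (E' + E') (dbl Ω' Ω') ∧
        E ≤ E' ∧ E' ≤ E + (l : ℝ) ^ (-50 : ℝ) ∧
        nsq (Ω' - Ω) ≤ (l : ℝ) ^ (-40 : ℝ) ∧
        (∀ Y : Op (Site L) q, ‖star Ω' ⬝ᵥ (Y *ᵥ Ω') - star Ω ⬝ᵥ (Y *ᵥ Ω)‖ ≤
          (l : ℝ) ^ (-20 : ℝ) * ‖Y‖) ∧
        ∀ ψ : Conf (Site L ⊕ Site L) q → ℂ, nsq ψ = 1 →
          (∀ v, ∀ Y : Op (Site L ⊕ Site L) q, ActsOn (lyr (fun z => ball z (cB l)) v) Y →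
            ‖star ψ ⬝ᵥ (Y *ᵥ ψ) - star (dbl Ω Ω) ⬝ᵥ (Y *ᵥ dbl Ω Ω)‖ ≤ dvn P ψ v * ‖Y‖) ∧
          ∀ K : ℝ, 1 ≤ K → K ≤ l →
            expv ψ (cp1 (∑ B, h B + ((cLam l : ℝ) : ℂ) • ∑ z ∈ Z, (1 - P z)) +
              cp2 (∑ B, h B + ((cLam l : ℝ) : ℂ) • ∑ z ∈ Z, (1 - P z)) :
                Op (Site L ⊕ Site L) q) - (E' + E') ≤ K →
            ∑ v ∈ Z.disjSum Z, expv ψ (dfo P v) ≤ 2 * (K / cLam l) ∧
            ∑ v ∈ Z.disjSum Z, dvn P ψ v ≤ 50 * l * Real.sqrt (K / cLam l) := by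
  obtain ⟨C, c, hC, hc, hdet⟩ := det_sum (R := R) hJ hΔ
  obtain ⟨n₀, hn₀⟩ := Filter.eventually_atTop.1 (cdet_num (q := q) hC hc hΔ)
  refine ⟨n₀, ?_⟩
  intro L l h hh E Ω hΩ hl Z hZ
  obtain ⟨k1, k2, k3, k4, k5, k6, k7⟩ := hn₀ l hl Z.card (by positivity) hZ
  obtain ⟨P, E', Ω', h1, h2, h3, h4, h5, h6, h7, h8⟩ :=
    hdet L q h hh E Ω hΩ (cB l) (cN l) Z (cLam l) k1 k3
  refine ⟨P, E', Ω', fun z => ?_, h2, h7, h3, h4.trans (by linarith), h5.trans k5, ?_, ?_⟩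
  · obtain ⟨a1, a2, a3, a4⟩ := h1 z
    exact ⟨a1, a2, a3, a4.trans k2⟩
  · intro Y
    exact (h6 Y).trans (mul_le_mul_of_nonneg_right k6 (norm_nonneg _))
  · intro ψ hψ
    obtain ⟨b1, b2⟩ := h8 ψ hψ
    refine ⟨b1, ?_⟩
    intro K hK1 hKl hK
    obtain ⟨c1, c2⟩ := b2 K hK
    obtain ⟨d1, d2⟩ := k7 K hK1 hKl
    exact ⟨c1.trans d1, c2.trans d2⟩

end Vale.Agent.P356.GA
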