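import Vale.Agent.P356.GA.Tube107
import Vale.Agent.P356.GA.Taylor107
import Vale.Agent.P356.SV.Lattice

/-!
# GA, block TUBE-R (helper107): the tube bound for regions

Only the lines which cross the support of the operator count.
-/

set_option linter.all false

namespace Vale.Agent.P356.GA

open Matrix Finset Vale.Agent.P356 Vale.Agent.P356.SV Vale.Agent.P356.Path
open scoped BigOperators ComplexOrder Kronecker Matrix.Norms.L2Operator

section family
variable {N : Type*} [Fintype N] [DecidableEq N] {α β : ℕ → Type*} [∀ k, Fintype (α k)]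
  [∀ k, DecidableEq (α k)] [∀ k, Fintype (β k)] [∀ k, DecidableEq (β k)]
variable (e : ∀ k, N ≃ α k × β k) (ψ : N → ℂ) (g : ∀ k, α k → ℝ)

/-- scaling of the exponents -/
theorem sg_scale (θ : ℕ → ℝ) (k : ℕ) (z : ℂ) :
    sg e ψ (fun k i => θ k * g k i) k z = sg e ψ g k (z * θ k) := by
  rw [sg, sg]
  congr 2
  funext i
  congr 1
  push_cast
  ring

theorem FT_scale (θ : ℕ → ℝ) (n : ℕ) (X : Matrix N N ℂ) (z : ℕ → ℂ) :
    FT e ψ (fun k i => θ k * g k i) n X z = FT e ψ g n X (fun k => z k * θ k) := by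
  rw [FT, FT]
  have h1 : (fun k => sg e ψ (fun k i => θ k * g k i) k (z k)) =
      fun k => sg e ψ g k (z k * θ k) := by
    funext k
    exact sg_scale e ψ g θ k (z k)
  have h2 : (fun k => sg e ψ (fun k i => θ k * g k i) k (-(z k))) =
      fun k => sg e ψ g k (-(z k * θ k)) := by
    funext k
    rw [sg_scale, neg_mul]
  rw [h1, h2]

/-- inner factors which commute with `X` drop out -/
theorem FT_drop_inner (k m : ℕ) {X : Matrix N N ℂ} (z : ℕ → ℂ)
    (h : ∀ j, k ≤ j → j < k + m → ∀ Y : Matrix (α j) (α j) ℂ, opL (e j) Y * X = X * opL (e j) Y) :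
    FT e ψ g (k + m) X z = FT e ψ g k X z := by
  induction m with
  | zero => rfl
  | succ m ih =>
    rw [← ih (fun j hj hj' => h j hj (by omega)), FT, FT, ← Nat.add_assoc, prR, prL]
    have h1 : sg e ψ g (k + m) (z (k + m)) * X = X * sg e ψ g (k + m) (z (k + m)) :=
      h (k + m) (by omega) (by omega) _
    have h2 := sg_inv e ψ g (k + m) (z (k + m))
    congr 2
    calc prR (fun k => sg e ψ g k (z k)) (k + m) * sg e ψ g (k + m) (z (k + m)) * X *
          (sg e ψ g (k + m) (-(z (k + m))) * prL (fun k => sg e ψ g k (-(z k))) (k + m))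
        = prR (fun k => sg e ψ g k (z k)) (k + m) * (sg e ψ g (k + m) (z (k + m)) * X) *
          (sg e ψ g (k + m) (-(z (k + m))) * prL (fun k => sg e ψ g k (-(z k))) (k + m)) := by
            simp only [Matrix.mul_assoc]
      _ = prR (fun k => sg e ψ g k (z k)) (k + m) * X * (sg e ψ g (k + m) (z (k + m)) *
          sg e ψ g (k + m) (-(z (k + m)))) * prL (fun k => sg e ψ g k (-(z k))) (k + m) := by
            rw [h1]; simp only [Matrix.mul_assoc]
      _ = _ := by rw [h2, Matrix.mul_one]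

/-- transported factor -/
noncomputable def tg (k : ℕ) (z : ℂ) : Matrix N N ℂ :=
  opR (e k) (tOp (ψ ∘ (e k).symm) (fun i => Complex.exp (z * (g k i : ℂ))))

theorem tg_mulVec (k : ℕ) (z : ℂ) : tg e ψ g k z *ᵥ ψ = sg e ψ g k z *ᵥ ψ :=
  c_transport (e k) ψ _

theorem tg_inv (k : ℕ) (z : ℂ) : (tg e ψ g k (star z))ᴴ * tg e ψ g k (-z) = 1 := by
  rw [tg, tg, opR_conjTranspose, ← opR_mul, tOp_conjTranspose, tOp_mul]
  have h1 : (fun i => star (Complex.exp (star z * (g k i : ℂ))) *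
      Complex.exp (-z * (g k i : ℂ))) = fun _ => 1 := by
    funext i
    rw [RCLike.star_def, ← Complex.exp_conj, ← Complex.exp_add, map_mul, Complex.conj_ofReal,
      Complex.conj_conj]
    have h3 : z * (g k i : ℂ) + -z * (g k i : ℂ) = 0 := by ring
    rw [h3, Complex.exp_zero]
  rw [h1, tOp_one, opR_one]

/-- one outer factor drops out -/
theorem FT_drop_one (hcomm : ∀ j k, j ≤ k → ∀ (Y : Matrix (α k) (α k) ℂ)
      (S : Matrix (β j) (β j) ℂ), opL (e k) Y * opR (e j) S = opR (e j) S * opL (e k) Y)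
    (k n : ℕ) (hk : k < n) {X : Matrix N N ℂ} {z : ℕ → ℂ} (hz : ∀ j < k, z j = 0)
    (h : ∀ S : Matrix (β k) (β k) ℂ, X * opR (e k) S = opR (e k) S * X) :
    FT e ψ g n X z = FT e ψ g n X (fun j => if j = k then 0 else z j) := by
  obtain ⟨m, rfl⟩ := Nat.exists_eq_add_of_lt hk
  have e1 : k + m + 1 = k + 1 + m := by omega
  rw [FT_eq, FT_eq, e1]
  -- the products
  have key : ∀ w : ℕ → ℂ, (∀ j < k, w j = 0) →
      prL (fun j => sg e ψ g j (w j)) (k + 1 + m) *ᵥ ψ =
        tg e ψ g k (w k) *ᵥ (prL (fun j => sg e ψ g (k + 1 + j) (w (k + 1 + j))) m *ᵥ ψ) := by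
    intro w hw
    have h0 : prL (fun j => sg e ψ g j (w j)) k = 1 := by
      have : ∀ i ≤ k, prL (fun j => sg e ψ g j (w j)) i = 1 := by
        intro i
        induction i with
        | zero => intro _; rfl
        | succ i ih =>
          intro hi
          rw [prL, ih (by omega), hw i (by omega), sg_zero, Matrix.mul_one]
      exact this k le_rfl
    rw [prL_split, prL, h0, Matrix.mul_one, ← mulVec_mulVec, ← tg_mulVec, mulVec_mulVec,
      mulVec_mulVec]
    congr 1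
    exact prL_comm fun j _ => hcomm k _ (by omega) _ _
  have h1 : ∀ j < k, star (z j) = 0 := fun j hj => by rw [hz j hj, star_zero]
  have h2 : ∀ j < k, -(z j) = 0 := fun j hj => by rw [hz j hj, neg_zero]
  rw [key (fun j => star (z j)) h1, key (fun j => -(z j)) h2]
  have hz' : ∀ j < k, (if j = k then (0:ℂ) else z j) = 0 := fun j hj => by
    rw [if_neg (by omega), hz j hj]
  rw [key (fun j => star (if j = k then (0:ℂ) else z j)) (fun j hj => by rw [hz' j hj, star_zero]),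
    key (fun j => -(if j = k then (0:ℂ) else z j)) (fun j hj => by rw [hz' j hj, neg_zero])]
  have h3 : prL (fun j => sg e ψ g (k + 1 + j) (star (if k + 1 + j = k then (0:ℂ) else
      z (k + 1 + j)))) m = prL (fun j => sg e ψ g (k + 1 + j) (star (z (k + 1 + j)))) m :=
    prL_congr fun j _ => by rw [if_neg (by omega)]
  have h4 : prL (fun j => sg e ψ g (k + 1 + j) (-(if k + 1 + j = k then (0:ℂ) else
      z (k + 1 + j)))) m = prL (fun j => sg e ψ g (k + 1 + j) (-(z (k + 1 + j)))) m :=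
    prL_congr fun j _ => by rw [if_neg (by omega)]
  rw [h3, h4, if_pos rfl, star_zero, neg_zero]
  set u := prL (fun j => sg e ψ g (k + 1 + j) (star (z (k + 1 + j)))) m *ᵥ ψ with hu
  set v := prL (fun j => sg e ψ g (k + 1 + j) (-(z (k + 1 + j)))) m *ᵥ ψ with hv
  have h5 : ∀ w : ℂ, star (tg e ψ g k (star w) *ᵥ u) ⬝ᵥ (X *ᵥ (tg e ψ g k (-w) *ᵥ v)) =
      star u ⬝ᵥ (X *ᵥ v) := by
    intro w
    rw [ip_mulVec, mulVec_mulVec, mulVec_mulVec]
    have h6 : X * tg e ψ g k (-w) = tg e ψ g k (-w) * X := h _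
    rw [Matrix.mul_assoc, h6, ← Matrix.mul_assoc, tg_inv, Matrix.one_mul]
  have h7 := h5 0
  rw [star_zero, neg_zero] at h7
  rw [h5, h7]

/-- outer factors which contain the support of `X` drop out -/
theorem FT_drop_outer (hcomm : ∀ j k, j ≤ k → ∀ (Y : Matrix (α k) (α k) ℂ)
      (S : Matrix (β j) (β j) ℂ), opL (e k) Y * opR (e j) S = opR (e j) S * opL (e k) Y)
    (k n : ℕ) (hk : k ≤ n) {X : Matrix N N ℂ} (z : ℕ → ℂ)
    (h : ∀ j < k, ∀ S : Matrix (β j) (β j) ℂ, X * opR (e j) S = opR (e j) S * X) :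
    FT e ψ g n X z = FT e ψ g n X (fun j => if j < k then 0 else z j) := by
  induction k with
  | zero =>
    congr 1
  | succ k ih =>
    rw [ih (by omega) fun j hj => h j (by omega)]
    rw [FT_drop_one e ψ g hcomm k n (by omega) (z := fun j => if j < k then 0 else z j)
      (fun j hj => by simp only [if_pos hj]) (h k (by omega))]
    congr 1
    funext j
    by_cases h1 : j = k
    · rw [if_pos h1, if_pos (by omega)]
    · rw [if_neg h1]
      by_cases h2 : j < k
      · rw [if_pos h2, if_pos (by omega)]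
      · rw [if_neg h2, if_neg (by omega)]

/-- the interpolated tube bound -/
theorem FT_interp (hcomm : ∀ j k, j ≤ k → ∀ (Y : Matrix (α k) (α k) ℂ)
      (S : Matrix (β j) (β j) ℂ), opL (e k) Y * opR (e j) S = opR (e j) S * opL (e k) Y)
    (hψ : nsq ψ = 1) (n : ℕ) {K w a D : ℝ} (hK : 1 ≤ K) (hD : 1 ≤ D) (X : Matrix N N ℂ)
    (hXa : ‖X‖ ≤ a) (hX0 : ‖X‖ ≤ w) (hwa : w * Real.sqrt K ≤ a * D)
    (hg1 : ∀ k < n, ∀ i, eigp (ψ ∘ (e k).symm) i ≤ Real.exp (g k i))
    (hg2 : ∀ k < n, ∑ i, Real.exp (g k i) ≤ K)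
    (hX : ∀ k < n, SplitLe (e k) X w) {z : ℕ → ℂ} (hz : ∑ k ∈ range n, |(z k).re| ≤ 1 / 2) :
    ‖FT e ψ g n X z‖ ≤ a * D ^ (2 * ∑ k ∈ range n, |(z k).re|) := by
  have ha : 0 ≤ a := (norm_nonneg X).trans hXa
  have hD0 : 0 < D := by linarith
  set s := ∑ k ∈ range n, |(z k).re| with hs
  have hs0 : 0 ≤ s := Finset.sum_nonneg fun k _ => abs_nonneg _
  rcases hs0.lt_or_eq with hs1 | hs1
  · -- three lines
    set F := FT e ψ g n X with hF
    set L := Real.log D with hL
    have hL0 : 0 ≤ L := Real.log_nonneg hD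
    set x : ℕ → ℂ := fun k => (((z k).im : ℝ) : ℂ) * Complex.I with hx
    set y : ℕ → ℂ := fun k => (((z k).re / (2 * s) : ℝ) : ℂ) with hy
    have hyn : ∀ k, y k = (((z k).re / (2 * s) : ℝ) : ℂ) := fun k => rfl
    have hre : ∀ (ζ : ℂ) (k : ℕ), (x k + ζ * y k).re = ζ.re * ((z k).re / (2 * s)) := by
      intro ζ k
      have h2 : (x k).re = 0 := by simp [hx]
      rw [hyn, Complex.add_re, h2, Complex.mul_re, Complex.ofReal_re, Complex.ofReal_im, mul_zero,
        sub_zero, zero_add]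
    have hd : Differentiable ℂ (fun ζ : ℂ => F (fun k => x k + ζ * y k) *
        Complex.exp (-(ζ * L))) := by
      refine ((nice_FT e ψ g n X).diff x y).mul ?_
      fun_prop
    have hexp : ∀ ζ : ℂ, ‖Complex.exp (-(ζ * L))‖ = Real.exp (-(ζ.re * L)) := by
      intro ζ
      rw [Complex.norm_exp]
      congr 1
      simp
    have h1 := three_lines hd ?_ (C := a) ?_ ?_ (ζ := ((2 * s : ℝ) : ℂ))
      (by rw [Complex.ofReal_re]; positivity) (by rw [Complex.ofReal_re]; linarith)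
    · have h2 : (fun k => x k + ((2 * s : ℝ) : ℂ) * y k) = z := by
        funext k
        rw [hyn]
        apply Complex.ext
        · have : (x k).re = 0 := by simp [hx]
          rw [Complex.add_re, this, ← Complex.ofReal_mul, Complex.ofReal_re]
          field_simp
          ring
        · have : (x k).im = (z k).im := by simp [hx]
          rw [Complex.add_im, this, ← Complex.ofReal_mul, Complex.ofReal_im, add_zero]
      rw [h2, norm_mul, hexp, Complex.ofReal_re] at h1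
      have h3 : Real.exp (-(2 * s * L)) = (D ^ (2 * s))⁻¹ := by
        rw [Real.rpow_def_of_pos hD0, ← Real.exp_neg, ← hL]
        congr 1
        ring
      rw [h3] at h1
      have h4 : 0 < D ^ (2 * s) := Real.rpow_pos_of_pos hD0 _
      rw [← div_eq_mul_inv, div_le_iff₀ h4] at h1
      exact h1
    · -- boundedness
      obtain ⟨M, hM⟩ := (nice_FT e ψ g n X).bdd (∑ k ∈ range n, |(z k).re / (2 * s)|)
      refine ⟨M, fun ζ hζ0 hζ1 => ?_⟩
      rw [norm_mul, hexp]
      have h2 : ‖F (fun k => x k + ζ * y k)‖ ≤ M := by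
        refine hM _ fun k hk => ?_
        rw [hre, abs_mul, abs_of_nonneg hζ0]
        have h3 : |(z k).re / (2 * s)| ≤ ∑ k ∈ range n, |(z k).re / (2 * s)| :=
          Finset.single_le_sum (f := fun k => |(z k).re / (2 * s)|)
            (fun i _ => abs_nonneg _) (Finset.mem_range.2 hk)
        have h4 := abs_nonneg ((z k).re / (2 * s))
        nlinarith
      have h3 : Real.exp (-(ζ.re * L)) ≤ 1 := by
        rw [Real.exp_le_one_iff]
        have := mul_nonneg hζ0 hL0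
        linarith
      have h4 := norm_nonneg (F (fun k => x k + ζ * y k))
      calc _ ≤ M * 1 := mul_le_mul h2 h3 (Real.exp_pos _).le (h4.trans h2)
        _ = M := mul_one M
    · intro ζ hζ
      rw [norm_mul, hexp, hζ, zero_mul, neg_zero, Real.exp_zero, mul_one]
      refine (FT_imag e ψ g hψ n X _ fun j => ?_).trans hXa
      rw [hre, hζ, zero_mul]
    · intro ζ hζ
      rw [norm_mul, hexp, hζ, one_mul]
      have h2 : ‖F (fun k => x k + ζ * y k)‖ ≤ w * Real.sqrt K := by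
        refine FT_tube e ψ g hcomm hψ n hK X hX0 hg1 hg2 hX ?_
        have h3 : ∀ k, |(x k + ζ * y k).re| = |(z k).re| / (2 * s) := by
          intro k
          rw [hre, hζ, one_mul, abs_div, abs_of_pos (by positivity : (0:ℝ) < 2 * s)]
        simp only [h3]
        rw [← Finset.sum_div, ← hs]
        rw [div_le_iff₀ (by positivity)]
        linarith
      have h3 : Real.exp (-L) = D⁻¹ := by rw [Real.exp_neg, hL, Real.exp_log hD0]
      rw [h3, ← div_eq_mul_inv, div_le_iff₀ hD0]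
      exact h2.trans hwa
  · have hz0 : ∀ k < n, (z k).re = 0 := by
      intro k hk
      have h1 : |(z k).re| ≤ s :=
        Finset.single_le_sum (f := fun k => |(z k).re|) (fun i _ => abs_nonneg _)
          (Finset.mem_range.2 hk)
      rw [← hs1] at h1
      exact abs_nonpos_iff.1 h1
    rw [← hs1, mul_zero, Real.rpow_zero, mul_one]
    rw [FT_congr e ψ g n X (z' := fun k => if k < n then z k else 0) (fun k hk => by
      simp only [if_pos hk])]
    refine (FT_imag e ψ g hψ n X _ fun j => ?_).trans hXa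
    by_cases hj : j < n
    · simp only [if_pos hj, hz0 j hj]
    · simp only [if_neg hj, Complex.zero_re]

end family

section diff
variable {N : Type*} [Fintype N] [DecidableEq N] {α β : ℕ → Type*} [∀ k, Fintype (α k)]
  [∀ k, DecidableEq (α k)] [∀ k, Fintype (β k)] [∀ k, DecidableEq (β k)]
variable (e : ∀ k, N ≃ α k × β k) (ψ : N → ℂ) (g : ∀ k, α k → ℝ)

/-- one complex variable, with an analytic family of operators -/
theorem differentiable_FT (n : ℕ) {X : ℂ → Matrix N N ℂ}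
    (hX : ∀ i j, Differentiable ℂ (fun ζ => X ζ i j)) (θ : ℕ → ℂ) :
    Differentiable ℂ (fun ζ : ℂ => FT e ψ g n (X ζ) (fun k => ζ * θ k)) := by
  have h1 : (fun ζ : ℂ => FT e ψ g n (X ζ) (fun k => ζ * θ k)) = fun ζ => ∑ i, star (ψ i) * ∑ j,
      (∑ b, (∑ a, prR (fun k => sg e ψ g k (ζ * θ k)) n i a * X ζ a b) *
        prL (fun k => sg e ψ g k (-(ζ * θ k))) n b j) * ψ j := by
    funext ζ
    simp only [FT, dotProduct, mulVec, Pi.star_apply, Matrix.mul_apply]
  rw [h1]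
  have h2 : ∀ i a, Differentiable ℂ (fun ζ : ℂ => prR (fun k => sg e ψ g k (ζ * θ k)) n i a) := by
    intro i a
    have := (nice_prR e ψ g (n := n) le_rfl i a).diff (fun _ => 0) θ
    simpa only [zero_add] using this
  have h3 : ∀ b j, Differentiable ℂ
      (fun ζ : ℂ => prL (fun k => sg e ψ g k (-(ζ * θ k))) n b j) := by
    intro b j
    have := (nice_prL e ψ g (n := n) le_rfl b j).diff (fun _ => 0) θ
    simpa only [zero_add] using this
  refine Differentiable.fun_sum fun i _ => (differentiable_const _).mul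
    (Differentiable.fun_sum fun j _ => ?_)
  refine (Differentiable.fun_sum fun b _ => ?_).mul (differentiable_const _)
  exact (Differentiable.fun_sum fun a _ => (h2 i a).mul (hX a b)).mul (h3 b j)

end diff

section region
variable {V : Type*} [Fintype V] [DecidableEq V] {q : ℕ}

theorem norm_le_of_contr107 {n : Type*} [Fintype n] [DecidableEq n] {P : Matrix n n ℂ}
    (h : Contr P) : ‖P‖ ≤ 1 := by
  refine PH.ph_norm_le zero_le_one fun ψ => ?_
  rw [one_pow, one_mul]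
  exact h ψ

theorem norm_uOn_in (R A : Finset V) (u v : A → Fin q) :
    ‖opL (cut R q) (uOn (jIn R) A u v)‖ ≤ 1 := by
  refine norm_le_of_contr107 ?_
  have h := b5_contr R (P := uOn (jIn R) A u v) (uOn_contr _ _ _ _)
  exact h

theorem norm_uOn_out (R A : Finset V) (u v : A → Fin q) :
    ‖opR (cut R q) (uOn (jOut R) A u v)‖ ≤ 1 := by
  refine norm_le_of_contr107 ?_
  intro w
  have h1 := contr_kron (contr_one (n := {x // x ∈ R} → Fin q))
    (uOn_contr (jOut R) A u v) (w ∘ (cut R q).symm)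
  have h2 := opR_mulVec (cut R q) (uOn (jOut R) A u v) w
  rw [← h2] at h1
  have h3 : ∀ w : Conf V q → ℂ, ∑ i, ‖(w ∘ (cut R q).symm) i‖ ^ 2 = ∑ i, ‖w i‖ ^ 2 := fun w =>
    nsq_comp (cut R q) w
  rw [h3, h3] at h1
  exact h1

theorem splitLe_acts (R : Finset V) {A : Finset V} (hA : A.Nonempty) {X : Op V q}
    (hX : ActsOn A X) : SplitLe (cut R q) X (‖X‖ * (q : ℝ) ^ (2 * A.card)) := by
  classical
  obtain ⟨k, hk, hkJ, -⟩ := exists_kernel hX (PH.ph_opNormLe le_rfl) (fun _ => hA)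
  have h1 := b5_split R A X k hk
  set I := (A → Fin q) × (A → Fin q) with hI
  set E := (Fintype.equivFin I).symm with hE
  refine ⟨Fintype.card I, fun j => k (E j).1 (E j).2, fun j => uOn (jIn R) A (E j).1 (E j).2,
    fun j => uOn (jOut R) A (E j).1 (E j).2, ?_, fun j => norm_uOn_in _ _ _ _,
    fun j => norm_uOn_out _ _ _ _, ?_⟩
  · rw [h1]
    exact (E.sum_comp fun uv : I => k uv.1 uv.2 • (opL (cut R q) (uOn (jIn R) A uv.1 uv.2) *
      opR (cut R q) (uOn (jOut R) A uv.1 uv.2))).symm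
  · have hcard : Fintype.card I = q ^ (2 * A.card) := by
      have h2 : Fintype.card ((A → Fin q) × (A → Fin q)) = q ^ (2 * A.card) := by
        rw [Fintype.card_prod, Fintype.card_fun, Fintype.card_fin, Fintype.card_coe]
        ring
      exact h2
    calc ∑ j, ‖k (E j).1 (E j).2‖ ≤ ∑ j : Fin (Fintype.card I), ‖X‖ := by
          refine Finset.sum_le_sum fun j _ => ?_
          have := hkJ (E j).1 (E j).2
          rwa [abs_of_nonneg (norm_nonneg X)] at this
      _ = ‖X‖ * (q : ℝ) ^ (2 * A.card) := by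
          rw [Finset.sum_const, Finset.card_univ, Fintype.card_fin, nsmul_eq_mul, hcard]
          push_cast
          ring

/-- commutation of nested regions -/
theorem cut_nested {R : ℕ → Finset V} (hR : ∀ j k, j ≤ k → R k ⊆ R j) (j k : ℕ) (hjk : j ≤ k)
    (Y : Matrix (Conf {x // x ∈ R k} q) (Conf {x // x ∈ R k} q) ℂ)
    (S : Matrix (Conf {x // ¬ x ∈ R j} q) (Conf {x // ¬ x ∈ R j} q) ℂ) :
    opL (cut (R k) q) Y * opR (cut (R j) q) S = opR (cut (R j) q) S * opL (cut (R k) q) Y := by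
  obtain ⟨S', hS'⟩ := b5_opR (R j) S
  rw [hS']
  refine opOn_comm (R k) (R j)ᶜ ?_ Y S'
  rw [Finset.disjoint_left]
  intro x hx hx'
  exact (Finset.mem_compl.mp hx') (hR j k hjk hx)

theorem acts_comm_opL {A R : Finset V} (h : Disjoint A R) {X : Op V q} (hX : ActsOn A X)
    (Y : Matrix (Conf {x // x ∈ R} q) (Conf {x // x ∈ R} q) ℂ) :
    opL (cut R q) Y * X = X * opL (cut R q) Y := by
  obtain ⟨k, hk⟩ := b5_actsOn hX
  rw [hk]
  exact opOn_comm R A h.symm Y k

theorem acts_comm_opR {A R : Finset V} (h : A ⊆ R) {X : Op V q} (hX : ActsOn A X)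
    (S : Matrix (Conf {x // ¬ x ∈ R} q) (Conf {x // ¬ x ∈ R} q) ℂ) :
    X * opR (cut R q) S = opR (cut R q) S * X := by
  obtain ⟨k, hk⟩ := b5_actsOn hX
  obtain ⟨S', hS'⟩ := b5_opR R S
  rw [hS', hk]
  refine opOn_comm A Rᶜ ?_ k S'
  rw [Finset.disjoint_left]
  intro x hx hx'
  exact (Finset.mem_compl.mp hx') (h hx)

/-- the line `k` crosses `A` -/
def Crs (A : Finset V) (R : ℕ → Finset V) (k : ℕ) : Prop := ¬ A ⊆ R k ∧ ¬ Disjoint A (R k)

open Classical in
/-- the lines among the first `n` which cross `A` -/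
noncomputable def crs107 (A : Finset V) (R : ℕ → Finset V) (n : ℕ) : Finset ℕ :=
  (range n).filter fun k => Crs A R k

theorem one_le_q {ψ : Conf V q → ℂ} (hψ : nsq ψ = 1) {A : Finset V} (hA : A.Nonempty) :
    1 ≤ q := by
  obtain ⟨x, -⟩ := hA
  rcases Nat.eq_zero_or_pos q with h | h
  · exfalso
    subst h
    have h1 : IsEmpty (Conf V 0) := ⟨fun s => (s x).elim0⟩
    have h2 : nsq ψ = 0 := by
      unfold nsq
      exact Fintype.sum_empty _
    rw [h2] at hψ
    exact zero_ne_one hψ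
  · exact h

/-- reduction to the crossing lines -/
theorem FT_reduce {R : ℕ → Finset V} (hR : ∀ j k, j ≤ k → R k ⊆ R j) (ψ : Conf V q → ℂ)
    (g : ∀ k, Conf {x // x ∈ R k} q → ℝ) (n : ℕ) {A : Finset V} {X : Op V q} (hX : ActsOn A X) :
    ∃ k1 k0 : ℕ, k1 ≤ k0 ∧ k0 ≤ n ∧ (∀ j, j ∈ crs107 A R n ↔ k1 ≤ j ∧ j < k0) ∧
      ∀ z : ℕ → ℂ, FT (fun k => cut (R k) q) ψ g n X z =
        FT (fun k => cut (R k) q) ψ g k0 X (fun j => if j < k1 then 0 else z j) := by
  classical
  have hcomm := cut_nested (q := q) hR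
  have hex0 : ∃ k, k = n ∨ Disjoint A (R k) := ⟨n, Or.inl rfl⟩
  set k0 := Nat.find hex0 with hk0
  have hk0n : k0 ≤ n := Nat.find_min' hex0 (Or.inl rfl)
  have hk0' : ∀ j < k0, ¬ Disjoint A (R j) := fun j hj h => Nat.find_min hex0 hj (Or.inr h)
  have hex1 : ∃ k, k = k0 ∨ ¬ A ⊆ R k := ⟨k0, Or.inl rfl⟩
  set k1 := Nat.find hex1 with hk1
  have hk1k0 : k1 ≤ k0 := Nat.find_min' hex1 (Or.inl rfl)
  have hk1' : ∀ j < k1, A ⊆ R j := fun j hj => by
    by_contra h
    exact Nat.find_min hex1 hj (Or.inr h)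
  have hd0 : ∀ j, k0 ≤ j → j < n → Disjoint A (R j) := by
    intro j hj hjn
    rcases Nat.find_spec hex0 with h1 | h1
    · have h2 : k0 = n := h1
      omega
    · exact h1.mono_right (hR _ _ hj)
  refine ⟨k1, k0, hk1k0, hk0n, fun j => ⟨fun hj => ?_, fun hj => ?_⟩, fun z => ?_⟩
  · rw [crs107, Finset.mem_filter, Finset.mem_range] at hj
    obtain ⟨h1, h2, h3⟩ := hj
    constructor
    · by_contra h
      exact h2 (hk1' j (not_le.1 h))
    · by_contra h
      exact h3 (hd0 j (not_lt.1 h) h1)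
  · rw [crs107, Finset.mem_filter, Finset.mem_range]
    refine ⟨by omega, fun h => ?_, hk0' j hj.2⟩
    rcases Nat.find_spec hex1 with h1 | h1
    · have h2 : k1 = k0 := h1
      omega
    · exact h1 (h.trans (hR _ _ hj.1))
  · have e1 : FT (fun k => cut (R k) q) ψ g n X z = FT (fun k => cut (R k) q) ψ g k0 X z := by
      obtain ⟨m, hm⟩ := Nat.exists_eq_add_of_le hk0n
      rw [hm]
      refine FT_drop_inner _ ψ g k0 m z fun j hj hjn Y => ?_
      exact acts_comm_opL (hd0 j hj (by omega)) hX Y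
    rw [e1]
    exact FT_drop_outer _ ψ g hcomm k1 k0 hk1k0 (X := X) z
      (fun j hj S => acts_comm_opR (hk1' j hj) hX S)

/-- only the crossing lines matter -/
theorem FT_region_congr {R : ℕ → Finset V} (hR : ∀ j k, j ≤ k → R k ⊆ R j) (ψ : Conf V q → ℂ)
    (g : ∀ k, Conf {x // x ∈ R k} q → ℝ) (n : ℕ) {A : Finset V} {X : Op V q} (hX : ActsOn A X)
    {z z' : ℕ → ℂ} (h : ∀ k ∈ crs107 A R n, z k = z' k) :
    FT (fun k => cut (R k) q) ψ g n X z = FT (fun k => cut (R k) q) ψ g n X z' := by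
  obtain ⟨k1, k0, -, -, h1, h2⟩ := FT_reduce hR ψ g n hX
  rw [h2, h2]
  refine FT_congr _ ψ g k0 X fun k hk => ?_
  by_cases hk1 : k < k1
  · simp only [if_pos hk1]
  · simp only [if_neg hk1]
    exact h k ((h1 k).2 ⟨not_lt.1 hk1, hk⟩)

/-- no line crosses: expectation value -/
theorem FT_region_free {R : ℕ → Finset V} (hR : ∀ j k, j ≤ k → R k ⊆ R j) (ψ : Conf V q → ℂ)
    (g : ∀ k, Conf {x // x ∈ R k} q → ℝ) (n : ℕ) {A : Finset V} {X : Op V q} (hX : ActsOn A X)
    (h : crs107 A R n = ∅) (z : ℕ → ℂ) :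
    FT (fun k => cut (R k) q) ψ g n X z = star ψ ⬝ᵥ (X *ᵥ ψ) := by
  rw [FT_region_congr hR ψ g n hX (z' := fun _ => 0) (fun k hk => by simp [h] at hk), FT]
  have h1 : ∀ m, prR (fun k => sg (fun k => cut (R k) q) ψ g k 0) m = 1 := by
    intro m
    induction m with
    | zero => rfl
    | succ m ih => rw [prR, ih, sg_zero, Matrix.mul_one]
  have h2 : ∀ m, prL (fun k => sg (fun k => cut (R k) q) ψ g k (-(0:ℂ))) m = 1 := by
    intro m
    induction m with
    | zero => rfl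
    | succ m ih => rw [prL, ih, neg_zero, sg_zero, Matrix.mul_one]
  rw [h1, h2, Matrix.one_mul, Matrix.mul_one]

/-- **The tube bound for regions.**  Only the lines which cross the support count. -/
theorem FT_region {R : ℕ → Finset V} (hR : ∀ j k, j ≤ k → R k ⊆ R j) {ψ : Conf V q → ℂ}
    (hψ : nsq ψ = 1) (g : ∀ k, Conf {x // x ∈ R k} q → ℝ) (n : ℕ) {K : ℝ} (hK : 1 ≤ K)
    (hg1 : ∀ k < n, ∀ i, eigp (ψ ∘ (cut (R k) q).symm) i ≤ Real.exp (g k i))
    (hg2 : ∀ k < n, ∑ i, Real.exp (g k i) ≤ K) {A : Finset V} {X : Op V q} (hX : ActsOn A X)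
    {z : ℕ → ℂ} (hz : ∑ k ∈ crs107 A R n, |(z k).re| ≤ 1 / 2) :
    ‖FT (fun k => cut (R k) q) ψ g n X z‖ ≤
      ‖X‖ * ((max q 1 : ℕ) ^ (2 * A.card) * Real.sqrt K) ^
        (2 * ∑ k ∈ crs107 A R n, |(z k).re|) := by
  classical
  set e : ∀ k, Conf V q ≃ Conf {x // x ∈ R k} q × Conf {x // ¬ x ∈ R k} q :=
    fun k => cut (R k) q with he
  have hcomm := cut_nested (q := q) hR
  have hK1 : 1 ≤ Real.sqrt K := by
    rw [Real.one_le_sqrt]; exact hK
  set D : ℝ := ((max q 1 : ℕ) : ℝ) ^ (2 * A.card) * Real.sqrt K with hD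
  have hD1 : 1 ≤ D := by
    have h1 : (1:ℝ) ≤ ((max q 1 : ℕ) : ℝ) ^ (2 * A.card) :=
      one_le_pow₀ (by exact_mod_cast le_max_right q 1)
    nlinarith
  -- the first line which misses `A`
  have hex0 : ∃ k, k = n ∨ Disjoint A (R k) := ⟨n, Or.inl rfl⟩
  set k0 := Nat.find hex0 with hk0
  have hk0n : k0 ≤ n := Nat.find_min' hex0 (Or.inl rfl)
  have hk0' : ∀ j < k0, ¬ Disjoint A (R j) := fun j hj h => Nat.find_min hex0 hj (Or.inr h)
  -- the first line which does not contain `A`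
  have hex1 : ∃ k, k = k0 ∨ ¬ A ⊆ R k := ⟨k0, Or.inl rfl⟩
  set k1 := Nat.find hex1 with hk1
  have hk1k0 : k1 ≤ k0 := Nat.find_min' hex1 (Or.inl rfl)
  have hk1' : ∀ j < k1, A ⊆ R j := fun j hj => by
    by_contra h
    exact Nat.find_min hex1 hj (Or.inr h)
  have hcr : ∀ j, k1 ≤ j → j < k0 → j ∈ crs107 A R n := by
    intro j hj hj0
    rw [crs107, Finset.mem_filter, Finset.mem_range]
    refine ⟨by omega, fun h => ?_, hk0' j hj0⟩
    rcases Nat.find_spec hex1 with h1 | h1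
    · have h2 : k1 = k0 := h1
      omega
    · exact h1 (h.trans (hR _ _ hj))
  -- drop the inner factors
  have e1 : FT e ψ g n X z = FT e ψ g k0 X z := by
    obtain ⟨m, hm⟩ := Nat.exists_eq_add_of_le hk0n
    rw [hm]
    refine FT_drop_inner e ψ g k0 m z fun j hj hjn Y => ?_
    have hd : Disjoint A (R j) := by
      rcases Nat.find_spec hex0 with h1 | h1
      · have h2 : k0 = n := h1
        omega
      · exact h1.mono_right (hR _ _ hj)
    exact acts_comm_opL hd hX Y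
  -- drop the outer factors
  have e2 := FT_drop_outer e ψ g hcomm k1 k0 hk1k0 (X := X) z
    (fun j hj S => acts_comm_opR (hk1' j hj) hX S)
  rw [e1, e2]
  set z' : ℕ → ℂ := fun j => if j < k1 then 0 else z j with hz'
  have hs : ∑ k ∈ range k0, |(z' k).re| ≤ ∑ k ∈ crs107 A R n, |(z k).re| := by
    calc ∑ k ∈ range k0, |(z' k).re| = ∑ k ∈ (range k0).filter (fun k => k1 ≤ k), |(z k).re| := by
          rw [Finset.sum_filter]
          refine Finset.sum_congr rfl fun k _ => ?_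
          by_cases h : k1 ≤ k
          · simp only [hz', if_neg (not_lt.2 h), if_pos h]
          · simp only [hz', if_pos (not_le.1 h), if_neg h, Complex.zero_re, abs_zero]
      _ ≤ ∑ k ∈ crs107 A R n, |(z k).re| := by
          refine Finset.sum_le_sum_of_subset_of_nonneg ?_ fun i _ _ => abs_nonneg _
          intro k hk
          rw [Finset.mem_filter, Finset.mem_range] at hk
          exact hcr k hk.2 hk.1
  have h1 := FT_interp e ψ g hcomm hψ k0 (K := K) (w := ‖X‖ * (q : ℝ) ^ (2 * A.card))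
    (a := ‖X‖) (D := D) hK hD1 X le_rfl ?_ ?_ (fun k hk => hg1 k (by omega))
    (fun k hk => hg2 k (by omega)) ?_ (z := z') (hs.trans hz)
  · refine h1.trans (mul_le_mul_of_nonneg_left ?_ (norm_nonneg X))
    exact Real.rpow_le_rpow_of_exponent_le hD1 (by linarith)
  · by_cases hA : A.Nonempty
    · have h2 : (1:ℝ) ≤ (q : ℝ) ^ (2 * A.card) :=
        one_le_pow₀ (by exact_mod_cast one_le_q hψ hA)
      have := norm_nonneg X
      nlinarith
    · rw [Finset.not_nonempty_iff_eq_empty] at hA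
      rw [hA, Finset.card_empty, mul_zero, pow_zero, mul_one]
  · rw [hD, ← mul_assoc]
    refine mul_le_mul_of_nonneg_right (mul_le_mul_of_nonneg_left ?_ (norm_nonneg X))
      (Real.sqrt_nonneg _)
    exact pow_le_pow_left₀ (Nat.cast_nonneg _) (by exact_mod_cast le_max_left q 1) _
  · intro k hk
    have hA : A.Nonempty := by
      by_contra h
      rw [Finset.not_nonempty_iff_eq_empty] at h
      exact hk0' k hk (by rw [h]; exact Finset.disjoint_empty_left _)
    exact splitLe_acts (R k) hA hX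

/-- one variable: `|f(ζ)| ≤ e a` for `|ζ| ≤ r` -/
theorem FT_region_one {R : ℕ → Finset V} (hR : ∀ j k, j ≤ k → R k ⊆ R j) {ψ : Conf V q → ℂ}
    (hψ : nsq ψ = 1) (g : ∀ k, Conf {x // x ∈ R k} q → ℝ) (n : ℕ) {K : ℝ} (hK : 1 ≤ K)
    (hg1 : ∀ k < n, ∀ i, eigp (ψ ∘ (cut (R k) q).symm) i ≤ Real.exp (g k i))
    (hg2 : ∀ k < n, ∑ i, Real.exp (g k i) ≤ K) {A : Finset V} {X : ℂ → Op V q} {r a : ℝ}
    (hX : ∀ ζ : ℂ, ‖ζ‖ ≤ r → ActsOn A (X ζ)) (hXa : ∀ ζ : ℂ, ‖ζ‖ ≤ r → ‖X ζ‖ ≤ a) (ha : 0 ≤ a)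
    (θ : ℕ → ℝ) (h1 : r * ∑ k ∈ crs107 A R n, |θ k| ≤ 1 / 2)
    (h2 : r * (∑ k ∈ crs107 A R n, |θ k|) * (4 * A.card * Real.log ((max q 1 : ℕ) : ℝ) +
      Real.log K) ≤ 1) {ζ : ℂ} (hζ : ‖ζ‖ ≤ r) :
    ‖FT (fun k => cut (R k) q) ψ g n (X ζ) (fun k => ζ * θ k)‖ ≤ Real.exp 1 * a := by
  set Θ := ∑ k ∈ crs107 A R n, |θ k| with hΘ
  have hΘ0 : 0 ≤ Θ := Finset.sum_nonneg fun k _ => abs_nonneg _
  have hs : ∑ k ∈ crs107 A R n, |(ζ * (θ k : ℂ)).re| ≤ r * Θ := by
    rw [hΘ, Finset.mul_sum]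
    refine Finset.sum_le_sum fun k _ => ?_
    have h3 : (ζ * (θ k : ℂ)).re = ζ.re * θ k := by simp
    rw [h3, abs_mul]
    exact mul_le_mul_of_nonneg_right ((Complex.abs_re_le_norm ζ).trans hζ) (abs_nonneg _)
  have h3 := FT_region hR hψ g n hK hg1 hg2 (hX ζ hζ) (z := fun k => ζ * θ k) (hs.trans h1)
  refine h3.trans ?_
  have hK0 : (0:ℝ) < K := by linarith
  have hq1 : (1:ℝ) ≤ ((max q 1 : ℕ) : ℝ) := by exact_mod_cast le_max_right q 1
  have hD0 : (0:ℝ) < ((max q 1 : ℕ) : ℝ) ^ (2 * A.card) * Real.sqrt K := by positivity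
  rw [Real.rpow_def_of_pos hD0, mul_comm (Real.exp 1)]
  refine mul_le_mul (hXa ζ hζ) (Real.exp_le_exp.2 ?_) (Real.exp_pos _).le ha
  rw [Real.log_mul (by positivity) (by positivity), Real.log_pow, Real.log_sqrt hK0.le]
  push_cast
  have hL : 0 ≤ 4 * (A.card : ℝ) * Real.log ((max q 1 : ℕ) : ℝ) + Real.log K := by
    have := Real.log_nonneg hq1
    have := Real.log_nonneg hK
    positivity
  push_cast at hL h2
  calc _ = (∑ k ∈ crs107 A R n, |(ζ * (θ k : ℂ)).re|) *
        (4 * (A.card : ℝ) * Real.log (max (q:ℝ) 1) + Real.log K) := by ring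
    _ ≤ (r * Θ) * (4 * (A.card : ℝ) * Real.log (max (q:ℝ) 1) + Real.log K) :=
        mul_le_mul_of_nonneg_right hs hL
    _ ≤ 1 := h2

/-- Taylor remainder of the local functionals -/
theorem FT_region_taylor {R : ℕ → Finset V} (hR : ∀ j k, j ≤ k → R k ⊆ R j) {ψ : Conf V q → ℂ}
    (hψ : nsq ψ = 1) (g : ∀ k, Conf {x // x ∈ R k} q → ℝ) (n : ℕ) {K : ℝ} (hK : 1 ≤ K)
    (hg1 : ∀ k < n, ∀ i, eigp (ψ ∘ (cut (R k) q).symm) i ≤ Real.exp (g k i))
    (hg2 : ∀ k < n, ∑ i, Real.exp (g k i) ≤ K) {A : Finset V} {X : ℂ → Op V q} {r a : ℝ}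
    (hr : 0 < r) (hXd : ∀ i j, Differentiable ℂ (fun ζ => X ζ i j))
    (hX : ∀ ζ : ℂ, ‖ζ‖ ≤ r → ActsOn A (X ζ)) (hXa : ∀ ζ : ℂ, ‖ζ‖ ≤ r → ‖X ζ‖ ≤ a) (ha : 0 ≤ a)
    (θ : ℕ → ℝ) (h1 : r * ∑ k ∈ crs107 A R n, |θ k| ≤ 1 / 2)
    (h2 : r * (∑ k ∈ crs107 A R n, |θ k|) * (4 * A.card * Real.log ((max q 1 : ℕ) : ℝ) +
      Real.log K) ≤ 1) (p : ℕ) {ζ : ℂ} (hζ : ‖ζ‖ ≤ r / 2) :
    ‖FT (fun k => cut (R k) q) ψ g n (X ζ) (fun k => ζ * θ k) -
      ∑ m ∈ range p, (m.factorial : ℂ)⁻¹ * iteratedDeriv m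
        (fun ζ : ℂ => FT (fun k => cut (R k) q) ψ g n (X ζ) (fun k => ζ * θ k)) 0 * ζ ^ m‖ ≤
      2 * (Real.exp 1 * a) * (‖ζ‖ / r) ^ p :=
  taylor_rem (differentiable_FT (fun k => cut (R k) q) ψ g n hXd (fun k => (θ k : ℂ))) hr
    (fun z hz => FT_region_one hR hψ g n hK hg1 hg2 hX hXa ha θ h1 h2 hz) p hζ

end region

end Vale.Agent.P356.GA
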