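import Vale.Agent.P356.GA.Form980
import Vale.Agent.P356.GA.TubeR107
import Vale.Agent.P356.GA.TiltUp412

/-!
# GA (helper980): glue between the tilted states (412), the tube (107) and the form (FORM)

* `Gen e ψ g n K` : the generators; coefficient vectors are pairs (lines, tiles).
* `fQ_Gen` : `fQ` for these generators is 107's `FT` of the dressed observable.
* `TState.fQ_eig`, `energy_TState` : the energy identity for the tilted states of 412.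
-/

set_option linter.all false

namespace Vale.Agent.P356.GA

open Matrix Finset Vale.Agent.P356 Vale.Agent.P356.SV Vale.Agent.P356.Path
open scoped BigOperators ComplexOrder Kronecker Matrix.Norms.L2Operator

section form2
variable {N : Type*} [Fintype N] [DecidableEq N] {V : Type*} [AddCommGroup V] [Module ℝ V]

theorem fQ_sum (ψ : N → ℂ) (G : ℕ → V →ₗ[ℝ] Matrix N N ℂ) (n : ℕ) {ι : Type*} (s : Finset ι)
    (T : ι → Matrix N N ℂ) (c : V) (ζ : ℂ) :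
    fQ ψ G n (∑ i ∈ s, T i) c ζ = ∑ i ∈ s, fQ ψ G n (T i) c ζ := by
  simp only [fQ]
  exact fE_sum ψ (gA G c) n s T ζ

/-- the energy identity, from the value `E` of the flow at `t (1 + iτ)` -/
theorem energy_form' {ψ : N → ℂ} {G : ℕ → V →ₗ[ℝ] Matrix N N ℂ} {n : ℕ} {c : V}
    (hG : ∀ k < n, (G k c).IsHermitian) {ι : Type*} (s : Finset ι) {T : ι → Matrix N N ℂ}
    (hT : ∀ i ∈ s, (T i).IsHermitian) {E t τ : ℝ}
    (hE : fQ ψ G n (∑ i ∈ s, T i) c ((t : ℂ) * (1 + τ * Complex.I)) = (E : ℂ))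
    {R M : ι → ℝ} (hR : ∀ i ∈ s, 0 < R i)
    (hM : ∀ i ∈ s, ∀ z : ℂ, ‖z‖ ≤ R i → ‖fQ ψ G n (T i) c z‖ ≤ M i)
    (hs : ∀ i ∈ s, ‖(t : ℂ) * (1 + τ * Complex.I)‖ ≤ R i / 2) :
    |(star ψ ⬝ᵥ ((∑ i ∈ s, T i) *ᵥ ψ)).re - E -
        t ^ 2 * (1 + τ ^ 2) * QF ψ G n (∑ i ∈ s, T i) c| ≤
      (1 + |τ|) * ∑ i ∈ s, 2 * M i * (‖(t : ℂ) * (1 + τ * Complex.I)‖ / R i) ^ 3 := by
  have hsum : ∑ i ∈ s, fQ ψ G n (T i) c ((t : ℂ) * (1 + τ * Complex.I)) = (E : ℂ) := by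
    rw [← hE, fQ_sum]
  have h := energy_scalar s (f := fun i => fQ ψ G n (T i) c) (fun i _ => fQ_diff ψ G n (T i) c)
    (fun i hi y => fE_real ψ (G := gA G c) hG (hT i hi) y) hR hM hs hsum
  have e0 : ∑ i ∈ s, (fQ ψ G n (T i) c 0).re = (star ψ ⬝ᵥ ((∑ i ∈ s, T i) *ᵥ ψ)).re := by
    rw [← Complex.re_sum, ← fQ_zero ψ G n _ c, fQ_sum]
  have e2 : ∑ i ∈ s, (c2 (fQ ψ G n (T i) c)).re = -QF ψ G n (∑ i ∈ s, T i) c := by
    rw [QF_sum, ← Finset.sum_neg_distrib]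
    exact Finset.sum_congr rfl fun i _ => by rw [QF, neg_neg]
  rw [e0, e2] at h
  refine le_trans (le_of_eq ?_) h
  congr 1
  ring

end form2

section gen
variable {N : Type*} [Fintype N] [DecidableEq N] {α β : ℕ → Type*}
  [∀ k, Fintype (α k)] [∀ k, DecidableEq (α k)] [∀ k, Fintype (β k)] [∀ k, DecidableEq (β k)]
  {ι : Type*} [Fintype ι]

/-- combination of the tile generators -/
noncomputable def GamK (K : ι → Matrix N N ℂ) (γ : ι → ℝ) : Matrix N N ℂ := ∑ b, γ b • K b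

theorem GamK_herm {K : ι → Matrix N N ℂ} (hK : ∀ b, (K b).IsHermitian) (γ : ι → ℝ) :
    (GamK K γ).IsHermitian := by
  rw [Matrix.IsHermitian, GamK, conjTranspose_sum]
  refine Finset.sum_congr rfl fun b _ => ?_
  rw [conjTranspose_smul, (hK b).eq, star_trivial]

/-- the generators: `n` lines, then the tiles -/
noncomputable def Gen (e : ∀ k, N ≃ α k × β k) (ψ : N → ℂ) (g : ∀ k, α k → ℝ) (n : ℕ)
    (K : ι → Matrix N N ℂ) (k : ℕ) : ((ℕ → ℝ) × (ι → ℝ)) →ₗ[ℝ] Matrix N N ℂ :=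
  if k < n then
    { toFun := fun c => c.1 k • sgG e ψ g k
      map_add' := fun c d => by rw [Prod.fst_add, Pi.add_apply, add_smul]
      map_smul' := fun r c => by rw [Prod.smul_fst, Pi.smul_apply, smul_eq_mul, mul_smul]; rfl }
  else
    { toFun := fun c => GamK K c.2
      map_add' := fun c d => by
        simp only [GamK, Prod.snd_add, Pi.add_apply, add_smul, Finset.sum_add_distrib]
      map_smul' := fun r c => by
        simp only [GamK, Prod.smul_snd, Pi.smul_apply, smul_eq_mul, mul_smul, Finset.smul_sum,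
          RingHom.id_apply] }

theorem Gen_line (e : ∀ k, N ≃ α k × β k) (ψ : N → ℂ) (g : ∀ k, α k → ℝ) {n : ℕ}
    (K : ι → Matrix N N ℂ) {k : ℕ} (hk : k < n) (c : (ℕ → ℝ) × (ι → ℝ)) :
    Gen e ψ g n K k c = c.1 k • sgG e ψ g k := by
  rw [Gen, if_pos hk]; rfl

theorem Gen_tile (e : ∀ k, N ≃ α k × β k) (ψ : N → ℂ) (g : ∀ k, α k → ℝ) {n : ℕ}
    (K : ι → Matrix N N ℂ) {k : ℕ} (hk : ¬ k < n) (c : (ℕ → ℝ) × (ι → ℝ)) :
    Gen e ψ g n K k c = GamK K c.2 := by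
  rw [Gen, if_neg hk]; rfl

theorem Gen_herm (e : ∀ k, N ≃ α k × β k) (ψ : N → ℂ) (g : ∀ k, α k → ℝ) (n : ℕ)
    {K : ι → Matrix N N ℂ} (hK : ∀ b, (K b).IsHermitian) (k : ℕ) (c : (ℕ → ℝ) × (ι → ℝ)) :
    (Gen e ψ g n K k c).IsHermitian := by
  by_cases hk : k < n
  · rw [Gen_line e ψ g K hk, Matrix.IsHermitian, conjTranspose_smul, (sgG_herm e ψ g k).eq,
      star_trivial]
  · rw [Gen_tile e ψ g K hk]
    exact GamK_herm hK _

/-- **the flow of FORM is 107's `FT` of the dressed observable** -/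
theorem fQ_Gen (e : ∀ k, N ≃ α k × β k) (ψ : N → ℂ) (g : ∀ k, α k → ℝ) (n : ℕ)
    (K : ι → Matrix N N ℂ) (X : Matrix N N ℂ) (c : (ℕ → ℝ) × (ι → ℝ)) (ζ : ℂ) :
    fQ ψ (Gen e ψ g n K) (n + 1) X c ζ =
      FT e ψ g n (NormedSpace.exp (ζ • GamK K c.2) * X * NormedSpace.exp ((-ζ) • GamK K c.2))
        (fun k => ζ * (c.1 k : ℂ)) := by
  rw [FT_eq_fE_last, fQ]
  refine fE_congr ψ (fun k hk => ?_) X ζ
  rw [gA]
  split_ifs with h
  · rw [Gen_line e ψ g K h, Complex.coe_smul]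
  · rw [Gen_tile e ψ g K h]

end gen

section tstate
variable {N : Type} [Fintype N] [DecidableEq N] {α β : ℕ → Type}
  [∀ k, Fintype (α k)] [∀ k, DecidableEq (α k)] [∀ k, Fintype (β k)] [∀ k, DecidableEq (β k)]
  {ι : Type*} [Fintype ι]

/-- the clipped logarithms, without the weights -/
noncomputable def gC (e : ∀ k, N ≃ α k × β k) (ψ : N → ℂ) (M : ℝ) (k : ℕ) (i : α k) : ℝ :=
  lgm M (eigp (ψ ∘ (e k).symm) i)

theorem gL_eq_gC (e : ∀ k, N ≃ α k × β k) (ψ : N → ℂ) (θ : ℕ → ℝ) (M : ℝ) :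
    (gL e ψ θ M : ∀ k, α k → ℝ) = fun k i => θ k * gC e ψ M k i := rfl

/-- the tilted states have the flow value `E` -/
theorem TState.fQ_eig {e : ∀ k, N ≃ α k × β k} {θ : ℕ → ℝ} {M : ℝ} {Ω : N → ℂ}
    {c : ℂ} {n : ℕ} {t : ℝ} {ψ : N → ℂ} {K : ι → Matrix N N ℂ} {γ : ι → ℝ}
    (h : TState e θ M (GamK K γ) Ω c n t ψ) {X : Matrix N N ℂ} {E : ℂ} (hX : X *ᵥ Ω = E • Ω) :
    fQ ψ (Gen e ψ (gC e ψ M) n K) (n + 1) X (θ, γ) ((t : ℂ) * c) = E := by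
  rw [fQ_Gen]
  have h1 := h.eig' hX
  rw [gL_eq_gC, FT_scale] at h1
  exact h1

/-- a tilted state at the observable `Γ` (the term in 412's derivative) -/
theorem TState.fQ_gam {e : ∀ k, N ≃ α k × β k} {θ : ℕ → ℝ} {M : ℝ} {ψ : N → ℂ} {n : ℕ}
    {K : ι → Matrix N N ℂ} {γ : ι → ℝ} (ζ : ℂ) :
    FT e ψ (gL e ψ θ M) n (GamK K γ) (fun _ => ζ) =
      fQ ψ (Gen e ψ (gC e ψ M) n K) (n + 1) (GamK K γ) (θ, γ) ζ := by
  rw [fQ_Gen, gL_eq_gC, FT_scale]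
  congr 1
  show GamK K γ = NormedSpace.exp (ζ • GamK K γ) * GamK K γ * NormedSpace.exp ((-ζ) • GamK K γ)
  have hc : Commute (GamK K γ) (NormedSpace.exp (ζ • GamK K γ)) := by
    letI : NormedAlgebra ℚ (Matrix N N ℂ) := NormedAlgebra.restrictScalars ℚ ℝ (Matrix N N ℂ)
    exact ((Commute.refl (GamK K γ)).smul_right ζ).exp_right
  have h1 := exp_inv_neg (GamK K γ) (-ζ)
  rw [neg_neg] at h1
  rw [← hc.eq, Matrix.mul_assoc, h1, Matrix.mul_one]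

/-- **Energy identity for the tilted states**, `H = ∑ T_i`, `H Ω = E Ω`. -/
theorem energy_TState {e : ∀ k, N ≃ α k × β k} {θ : ℕ → ℝ} {M : ℝ} {Ω : N → ℂ}
    {n : ℕ} {t τ : ℝ} {ψ : N → ℂ} {K : ι → Matrix N N ℂ} (hK : ∀ b, (K b).IsHermitian)
    {γ : ι → ℝ} (h : TState e θ M (GamK K γ) Ω (1 + τ * Complex.I) n t ψ)
    {κ : Type*} (s : Finset κ) {T : κ → Matrix N N ℂ} (hT : ∀ i ∈ s, (T i).IsHermitian) {E : ℝ}
    (hE : (∑ i ∈ s, T i) *ᵥ Ω = (E : ℂ) • Ω) {R B : κ → ℝ} (hR : ∀ i ∈ s, 0 < R i)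
    (hB : ∀ i ∈ s, ∀ z : ℂ, ‖z‖ ≤ R i →
      ‖fQ ψ (Gen e ψ (gC e ψ M) n K) (n + 1) (T i) (θ, γ) z‖ ≤ B i)
    (hs : ∀ i ∈ s, ‖(t : ℂ) * (1 + τ * Complex.I)‖ ≤ R i / 2) :
    |(star ψ ⬝ᵥ ((∑ i ∈ s, T i) *ᵥ ψ)).re - E -
        t ^ 2 * (1 + τ ^ 2) * QF ψ (Gen e ψ (gC e ψ M) n K) (n + 1) (∑ i ∈ s, T i) (θ, γ)| ≤
      (1 + |τ|) * ∑ i ∈ s, 2 * B i * (‖(t : ℂ) * (1 + τ * Complex.I)‖ / R i) ^ 3 :=
  energy_form' (fun k _ => Gen_herm e ψ _ n hK k _) s hT (h.fQ_eig hE) hR hB hs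

end tstate

end Vale.Agent.P356.GA
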