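import Vale.Agent.P356.GA.Dress621
import Vale.Agent.P356.GA.Glue980
import Vale.Agent.P356.GA.Glue107

/-!
# GA, block DRESS/CRUDE (helper621): radii of the dressed local terms, crude energy bound

Generators `Gen (cut R) ψ (gC ψ M) n K` of 980 (lines `R 0 ⊇ R 1 ⊇ …` with clipped logarithms,
window operators `K w`), the windows being grouped in pairwise disjoint tiles `B (υ w)`.

* `gen_radius`: `‖fQ … X c z‖ ≤ 8 ‖X‖` for `‖z‖ ≤ r`, `r (Θ (4 |Z*| log q + 2) + 2 b) ≤ 1`, `X`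
  acting on `Z`, `Z* = star1 s B Z` = `Z` and the tiles which meet it, `Θ` = sum of `|c_k|` over the
  lines crossing `Z*`, `b` = sum of `|c_w| ‖K w‖` over the windows whose tile meets `Z`.
* `gen_free`: terms which meet no tile and cross no line.
* `energy_near`: energy identity with the sum over the terms which see a line or a tile.
* `crude_energy`: crude a priori bound; `gen_QF_le`, `gen_psd`, `gen_upper`.
-/

set_option linter.all false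

namespace Vale.Agent.P356.GA

open Matrix Finset Vale.Agent.P356 Vale.Agent.P356.SV Vale.Agent.P356.Path
open scoped BigOperators ComplexOrder Kronecker Matrix.Norms.L2Operator

section group
variable {V : Type*} [Fintype V] [DecidableEq V] {q : ℕ} {W : Type*} [Fintype W]
  {J : Type*} [DecidableEq J]

/-- the window operators grouped by tiles -/
noncomputable def grp (K : W → Op V q) (τ : W → J) (c : W → ℝ) (j : J) : Op V q :=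
  ∑ w with τ w = j, c w • K w

theorem grp_sum (K : W → Op V q) {τ : W → J} {s : Finset J}
    (hτ : ∀ w, τ w ∈ s) (c : W → ℝ) : GamK K c = ∑ j ∈ s, grp K τ c j :=
  (Finset.sum_fiberwise_of_maps_to (fun w _ => hτ w) _).symm

theorem grp_acts {K : W → Op V q} {τ : W → J} {B : J → Finset V}
    (hK : ∀ w, ActsOn (B (τ w)) (K w)) (c : W → ℝ) (j : J) : ActsOn (B j) (grp K τ c j) := by
  refine acts_sum _ fun w hw => PH.ph_acts_rsmul _ ?_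
  rw [← (Finset.mem_filter.1 hw).2]
  exact hK w

theorem grp_herm {K : W → Op V q} (hK : ∀ w, (K w).IsHermitian)
    (τ : W → J) (c : W → ℝ) (j : J) : (grp K τ c j).IsHermitian := by
  refine sum_herm _ fun w _ => ?_
  rw [Matrix.IsHermitian, Matrix.conjTranspose_smul, hK w]
  simp

theorem grp_norm (K : W → Op V q) (τ : W → J) (c : W → ℝ)
    (j : J) : ‖grp K τ c j‖ ≤ ∑ w with τ w = j, |c w| * ‖K w‖ := by
  refine (norm_sum_le _ _).trans (Finset.sum_le_sum fun w _ => ?_)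
  rw [norm_smul, Real.norm_eq_abs]

theorem grp_meet (K : W → Op V q) {τ : W → J} {s : Finset J}
    (hτ : ∀ w, τ w ∈ s) (B : J → Finset V) (Z : Finset V) (c : W → ℝ) :
    ∑ j ∈ meet s B Z, ‖grp K τ c j‖ ≤ ∑ w with ¬ Disjoint (B (τ w)) Z, |c w| * ‖K w‖ := by
  refine (Finset.sum_le_sum fun j _ => grp_norm K τ c j).trans (le_of_eq ?_)
  rw [← Finset.sum_fiberwise_of_maps_to (s := Finset.univ.filter fun w => ¬ Disjoint (B (τ w)) Z)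
    (t := meet s B Z) (g := τ)]
  · refine Finset.sum_congr rfl fun j hj => ?_
    congr 1
    ext w
    simp only [Finset.mem_filter, Finset.mem_univ, true_and]
    constructor
    · intro h
      exact ⟨h ▸ (Finset.mem_filter.1 hj).2, h⟩
    · exact fun h => h.2
  · intro w hw
    exact Finset.mem_filter.2 ⟨hτ w, (Finset.mem_filter.1 hw).2⟩

end group

section radius
variable {V : Type} [Fintype V] [DecidableEq V] {q : ℕ} {W : Type*} [Fintype W]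
  {R : ℕ → Finset V} {ψ Ω : Conf V q → ℂ} {M : ℝ} {n : ℕ}
  {J : Type*} [DecidableEq J] {s : Finset J} {B : J → Finset V} {K : W → Op V q} {υ : W → J}

/-- the generators in region form -/
noncomputable abbrev GenR (R : ℕ → Finset V) (ψ : Conf V q → ℂ) (M : ℝ) (n : ℕ)
    (K : W → Op V q) : ℕ → ((ℕ → ℝ) × (W → ℝ)) →ₗ[ℝ] Op V q :=
  Gen (fun k => cut (R k) q) ψ (gC (fun k => cut (R k) q) ψ M) n K

theorem fQ_GenR (R : ℕ → Finset V) (ψ : Conf V q → ℂ) (M : ℝ) (n : ℕ) (K : W → Op V q)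
    (X : Op V q) (c : (ℕ → ℝ) × (W → ℝ)) (ζ : ℂ) :
    fQ ψ (GenR R ψ M n K) (n + 1) X c ζ = FT (fun k => cut (R k) q) ψ
      (gC (fun k => cut (R k) q) ψ M) n (dr (GamK K c.2) X ζ) (fun k => ζ * (c.1 k : ℂ)) :=
  fQ_Gen _ _ _ _ _ _ _ _

/-- **Radius of a dressed local term**, for all coefficient vectors. -/
theorem gen_radius (hR : ∀ j k, j ≤ k → R k ⊆ R j) (hψ : nsq ψ = 1) (hq : 1 ≤ q)
    (hM : Fintype.card V * Real.log q ≤ M)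
    (hB : ∀ i ∈ s, ∀ j ∈ s, i ≠ j → Disjoint (B i) (B j))
    (hυ : ∀ w, υ w ∈ s) (hK : ∀ w, ActsOn (B (υ w)) (K w)) (hKH : ∀ w, (K w).IsHermitian)
    (c : (ℕ → ℝ) × (W → ℝ)) {Z : Finset V} {X : Op V q} (hX : ActsOn Z X) {b Θ r : ℝ}
    (hb : ∑ w with ¬ Disjoint (B (υ w)) Z, |c.2 w| * ‖K w‖ ≤ b)
    (hΘ : ∑ k ∈ crs107 (star1 s B Z) R n, |c.1 k| ≤ Θ) (hr0 : 0 ≤ r)
    (hr : r * (Θ * (4 * (star1 s B Z).card * Real.log q + 2) + 2 * b) ≤ 1)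
    {z : ℂ} (hz : ‖z‖ ≤ r) : ‖fQ ψ (GenR R ψ M n K) (n + 1) X c z‖ ≤ 8 * ‖X‖ := by
  have hb0 : 0 ≤ b := (Finset.sum_nonneg fun w _ => by positivity).trans hb
  have hΘ0 : 0 ≤ ∑ k ∈ crs107 (star1 s B Z) R n, |c.1 k| :=
    Finset.sum_nonneg fun k _ => abs_nonneg _
  have hΘ1 : 0 ≤ Θ := hΘ0.trans hΘ
  have hmax : max q 1 = q := max_eq_left hq
  have hq1 : (1:ℝ) ≤ (q : ℝ) := by exact_mod_cast hq
  have hl : 0 ≤ 4 * ((star1 s B Z).card : ℝ) * Real.log q := by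
    have := Real.log_nonneg hq1
    positivity
  set ℓ := 4 * ((star1 s B Z).card : ℝ) * Real.log q with hℓ
  have hrb : r * (2 * b) ≤ 1 := by
    nlinarith [mul_nonneg hr0 (mul_nonneg hΘ1 (by linarith : 0 ≤ ℓ + 2))]
  have hrt : r * (Θ * (ℓ + 2)) ≤ 1 := by
    nlinarith [mul_nonneg hr0 (mul_nonneg (by norm_num : (0:ℝ) ≤ 2) hb0)]
  have hrt2 : r * Θ ≤ 1 / 2 := by nlinarith [mul_nonneg (mul_nonneg hr0 hΘ1) hl]
  have hmeet : ∑ j ∈ meet s B Z, ‖grp K υ c.2 j‖ ≤ b := (grp_meet K hυ B Z c.2).trans hb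
  have hΓa : ∀ j ∈ s, ActsOn (B j) (grp K υ c.2 j) := fun j _ => grp_acts hK c.2 j
  rw [fQ_GenR, grp_sum K hυ]
  have hlog2 : Real.log 2 ≤ 1 := by
    have := Real.log_two_lt_d9
    linarith
  have h := FT_region_one hR hψ (gC (fun k => cut (R k) q) ψ M) n (K := 2) (by norm_num)
    (fun k _ i => eigp_le_exp_lgm _ M i) (fun k _ => sum_exp_lgm_le hψ (R k) hq hM)
    (A := star1 s B Z) (X := fun ζ => dr (∑ j ∈ s, grp K υ c.2 j) X ζ) (r := r)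
    (a := ‖X‖ * Real.exp 1)
    (fun ζ _ => dr_acts hB hΓa hX ζ) (fun ζ hζ => ?_) (by positivity) c.1 ?_ ?_ hz
  · refine h.trans ?_
    have h9 := Real.exp_one_lt_d9
    have h8 := Real.exp_pos 1
    have h10 : Real.exp 1 * Real.exp 1 ≤ 8 := by nlinarith
    calc Real.exp 1 * (‖X‖ * Real.exp 1) = (Real.exp 1 * Real.exp 1) * ‖X‖ := by ring
      _ ≤ 8 * ‖X‖ := mul_le_mul_of_nonneg_right h10 (norm_nonneg _)
  · refine (dr_tiles_norm hB hΓa (fun j _ => grp_herm hKH υ c.2 j) hX hmeet ζ).trans ?_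
    refine mul_le_mul_of_nonneg_left (Real.exp_le_exp.2 ?_) (norm_nonneg _)
    have h3 : |ζ.re| ≤ r := (Complex.abs_re_le_norm ζ).trans hζ
    calc 2 * b * |ζ.re| ≤ 2 * b * r := mul_le_mul_of_nonneg_left h3 (by positivity)
      _ ≤ 1 := by linarith
  · exact (mul_le_mul_of_nonneg_left hΘ hr0).trans hrt2
  · have h5 : r * (∑ k ∈ crs107 (star1 s B Z) R n, |c.1 k|) ≤ r * Θ :=
      mul_le_mul_of_nonneg_left hΘ hr0
    have h6 : 0 ≤ r * (∑ k ∈ crs107 (star1 s B Z) R n, |c.1 k|) := mul_nonneg hr0 hΘ0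
    rw [hmax, ← hℓ]
    calc r * (∑ k ∈ crs107 (star1 s B Z) R n, |c.1 k|) * (ℓ + Real.log 2)
        ≤ (r * Θ) * (ℓ + 2) := by
          refine mul_le_mul h5 (by linarith) ?_ (h6.trans h5)
          have := Real.log_nonneg (show (1:ℝ) ≤ 2 by norm_num)
          linarith
      _ = r * (Θ * (ℓ + 2)) := by ring
      _ ≤ 1 := hrt

/-- terms which meet no tile and no line: the flow is constant -/
theorem gen_free (hR : ∀ j k, j ≤ k → R k ⊆ R j) (M : ℝ) (n : ℕ)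
    (hB : ∀ i ∈ s, ∀ j ∈ s, i ≠ j → Disjoint (B i) (B j))
    (hυ : ∀ w, υ w ∈ s) (hK : ∀ w, ActsOn (B (υ w)) (K w))
    (c : (ℕ → ℝ) × (W → ℝ)) {Z : Finset V} {X : Op V q} (hX : ActsOn Z X)
    (h1 : meet s B Z = ∅) (h2 : crs107 Z R n = ∅) (z : ℂ) :
    fQ ψ (GenR R ψ M n K) (n + 1) X c z = star ψ ⬝ᵥ (X *ᵥ ψ) := by
  rw [fQ_GenR, grp_sum K hυ, dr_meet hB (fun j _ => grp_acts hK c.2 j) hX, h1, Finset.sum_empty]
  have h3 : dr 0 X z = X := by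
    rw [dr, smul_zero, smul_zero, NormedSpace.exp_zero, Matrix.mul_one, Matrix.one_mul]
  rw [h3]
  exact FT_region_free hR ψ _ n hX h2 _

theorem gen_free_QF (hR : ∀ j k, j ≤ k → R k ⊆ R j) (M : ℝ) (n : ℕ)
    (hB : ∀ i ∈ s, ∀ j ∈ s, i ≠ j → Disjoint (B i) (B j))
    (hυ : ∀ w, υ w ∈ s) (hK : ∀ w, ActsOn (B (υ w)) (K w))
    (c : (ℕ → ℝ) × (W → ℝ)) {Z : Finset V} {X : Op V q} (hX : ActsOn Z X)
    (h1 : meet s B Z = ∅) (h2 : crs107 Z R n = ∅) :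
    QF ψ (GenR R ψ M n K) (n + 1) X c = 0 :=
  QF_const fun z => gen_free hR M n hB hυ hK c hX h1 h2 z

theorem ip_real {X : Op V q} (hX : X.IsHermitian) :
    ((star ψ ⬝ᵥ (X *ᵥ ψ)).re : ℂ) = star ψ ⬝ᵥ (X *ᵥ ψ) := by
  have h := expL_herm hX ψ
  rw [expL_apply] at h
  exact Complex.ext (by simp) (by simp [h])

/-- **Energy identity** for a tilted state; only the terms which see a line or a tile are summed. -/
theorem energy_near (hR : ∀ j k, j ≤ k → R k ⊆ R j) (hq : 1 ≤ q)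
    (hM : Fintype.card V * Real.log q ≤ M)
    (hB : ∀ i ∈ s, ∀ j ∈ s, i ≠ j → Disjoint (B i) (B j))
    (hυ : ∀ w, υ w ∈ s) (hK : ∀ w, ActsOn (B (υ w)) (K w)) (hKH : ∀ w, (K w).IsHermitian)
    {θ : ℕ → ℝ} {γ : W → ℝ} {t τ : ℝ}
    (h : TState (fun k => cut (R k) q) θ M (GamK K γ) Ω (1 + τ * Complex.I) n t ψ)
    {ι : Type*} [DecidableEq ι] {s₀ near : Finset ι} (hn : near ⊆ s₀) {T : ι → Op V q}
    {Z : ι → Finset V} (hT : ∀ i ∈ s₀, (T i).IsHermitian) (hZ : ∀ i ∈ s₀, ActsOn (Z i) (T i))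
    {E : ℝ} (hE : (∑ i ∈ s₀, T i) *ᵥ Ω = (E : ℂ) • Ω)
    (hfar : ∀ i ∈ s₀ \ near, meet s B (Z i) = ∅ ∧ crs107 (Z i) R n = ∅)
    {r Θ b : ι → ℝ} (hr0 : ∀ i ∈ near, 0 < r i)
    (hb : ∀ i ∈ near, ∑ w with ¬ Disjoint (B (υ w)) (Z i), |γ w| * ‖K w‖ ≤ b i)
    (hΘ : ∀ i ∈ near, ∑ k ∈ crs107 (star1 s B (Z i)) R n, |θ k| ≤ Θ i)
    (hr : ∀ i ∈ near, r i * (Θ i * (4 * (star1 s B (Z i)).card * Real.log q + 2) + 2 * b i) ≤ 1)
    (hs : ∀ i ∈ near, ‖(t : ℂ) * (1 + τ * Complex.I)‖ ≤ r i / 2) :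
    |(star ψ ⬝ᵥ ((∑ i ∈ s₀, T i) *ᵥ ψ)).re - E -
        t ^ 2 * (1 + τ ^ 2) * ∑ i ∈ near, QF ψ (GenR R ψ M n K) (n + 1) (T i) (θ, γ)| ≤
      (1 + |τ|) * ∑ i ∈ near, 16 * ‖T i‖ * (‖(t : ℂ) * (1 + τ * Complex.I)‖ / r i) ^ 3 := by
  have hψ : nsq ψ = 1 := h.1
  set s0 : ℂ := (t : ℂ) * (1 + τ * Complex.I) with hs0
  have hsum : ∑ i ∈ s₀, fQ ψ (GenR R ψ M n K) (n + 1) (T i) (θ, γ) s0 = (E : ℂ) := by
    rw [← fQ_sum]
    exact h.fQ_eig hE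
  have hfar' : ∀ i ∈ s₀ \ near, fQ ψ (GenR R ψ M n K) (n + 1) (T i) (θ, γ) s0 =
      ((star ψ ⬝ᵥ (T i *ᵥ ψ)).re : ℂ) := by
    intro i hi
    have hi1 := (Finset.mem_sdiff.1 hi).1
    rw [gen_free hR M n hB hυ hK (θ, γ) (hZ i hi1) (hfar i hi).1 (hfar i hi).2,
      ip_real (hT i hi1)]
  have hnear : ∑ i ∈ near, fQ ψ (GenR R ψ M n K) (n + 1) (T i) (θ, γ) s0 =
      ((E - ∑ i ∈ s₀ \ near, (star ψ ⬝ᵥ (T i *ᵥ ψ)).re : ℝ) : ℂ) := by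
    rw [← Finset.sum_sdiff hn, Finset.sum_congr rfl hfar'] at hsum
    push_cast
    rw [← hsum]
    ring
  have hmain := energy_scalar (f := fun i => fQ ψ (GenR R ψ M n K) (n + 1) (T i) (θ, γ)) near
    (R := r) (M := fun i => 8 * ‖T i‖) (t := t) (τ := τ)
    (fun i _ => fQ_diff ψ _ (n + 1) (T i) _)
    (fun i hi y => fE_real ψ (G := gA (GenR R ψ M n K) (θ, γ))
      (fun k _ => Gen_herm _ ψ _ n hKH k (θ, γ)) (hT i (hn hi)) y) hr0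
    (fun i hi z hz => gen_radius hR hψ hq hM hB hυ hK hKH (θ, γ) (hZ i (hn hi)) (hb i hi)
      (hΘ i hi) (hr0 i hi).le (hr i hi) hz) hs hnear
  have e0 : ∑ i ∈ near, (fQ ψ (GenR R ψ M n K) (n + 1) (T i) (θ, γ) 0).re =
      (star ψ ⬝ᵥ ((∑ i ∈ s₀, T i) *ᵥ ψ)).re - ∑ i ∈ s₀ \ near, (star ψ ⬝ᵥ (T i *ᵥ ψ)).re := by
    have e1 : (star ψ ⬝ᵥ ((∑ i ∈ s₀, T i) *ᵥ ψ)).re = ∑ i ∈ s₀, (star ψ ⬝ᵥ (T i *ᵥ ψ)).re := by
      rw [← expL_apply, map_sum, Complex.re_sum]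
      rfl
    rw [e1, ← Finset.sum_sdiff hn]
    have e2 : ∀ i ∈ near, (fQ ψ (GenR R ψ M n K) (n + 1) (T i) (θ, γ) 0).re =
        (star ψ ⬝ᵥ (T i *ᵥ ψ)).re := by
      intro i _
      rw [fQ_zero]
    rw [Finset.sum_congr rfl e2]
    ring
  have e3 : ∑ i ∈ near, QF ψ (GenR R ψ M n K) (n + 1) (T i) (θ, γ) =
      -∑ i ∈ near, (c2 (fQ ψ (GenR R ψ M n K) (n + 1) (T i) (θ, γ))).re := by
    rw [← Finset.sum_neg_distrib]
    rfl
  rw [e3]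
  rw [e0] at hmain
  refine le_trans (le_of_eq ?_) (hmain.trans (le_of_eq ?_))
  · congr 1
    ring
  · congr 1
    refine Finset.sum_congr rfl fun i _ => ?_
    ring

/-- crude bound of the second order form of one local term -/
theorem gen_QF_le (hR : ∀ j k, j ≤ k → R k ⊆ R j) (hψ : nsq ψ = 1) (hq : 1 ≤ q)
    (hM : Fintype.card V * Real.log q ≤ M)
    (hB : ∀ i ∈ s, ∀ j ∈ s, i ≠ j → Disjoint (B i) (B j))
    (hυ : ∀ w, υ w ∈ s) (hK : ∀ w, ActsOn (B (υ w)) (K w)) (hKH : ∀ w, (K w).IsHermitian)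
    (c : (ℕ → ℝ) × (W → ℝ)) {Z : Finset V} {X : Op V q} (hX : ActsOn Z X) {b Θ r : ℝ}
    (hb : ∑ w with ¬ Disjoint (B (υ w)) Z, |c.2 w| * ‖K w‖ ≤ b)
    (hΘ : ∑ k ∈ crs107 (star1 s B Z) R n, |c.1 k| ≤ Θ) (hr0 : 0 < r)
    (hr : r * (Θ * (4 * (star1 s B Z).card * Real.log q + 2) + 2 * b) ≤ 1) :
    |QF ψ (GenR R ψ M n K) (n + 1) X c| ≤ 8 * ‖X‖ / r ^ 2 :=
  QF_cauchy hr0 fun z hz => gen_radius hR hψ hq hM hB hυ hK hKH c hX hb hΘ hr0.le hr hz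

/-- **Crude a priori bound** for the energy of every tilted state. -/
theorem crude_energy (hR : ∀ j k, j ≤ k → R k ⊆ R j) (hq : 1 ≤ q)
    (hM : Fintype.card V * Real.log q ≤ M)
    (hB : ∀ i ∈ s, ∀ j ∈ s, i ≠ j → Disjoint (B i) (B j))
    (hυ : ∀ w, υ w ∈ s) (hK : ∀ w, ActsOn (B (υ w)) (K w)) (hKH : ∀ w, (K w).IsHermitian)
    {θ : ℕ → ℝ} {γ : W → ℝ} {t τ : ℝ}
    (h : TState (fun k => cut (R k) q) θ M (GamK K γ) Ω (1 + τ * Complex.I) n t ψ)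
    {ι : Type*} [DecidableEq ι] {s₀ near : Finset ι} (hn : near ⊆ s₀) {T : ι → Op V q}
    {Z : ι → Finset V} (hT : ∀ i ∈ s₀, (T i).IsHermitian) (hZ : ∀ i ∈ s₀, ActsOn (Z i) (T i))
    {E : ℝ} (hE : (∑ i ∈ s₀, T i) *ᵥ Ω = (E : ℂ) • Ω)
    (hfar : ∀ i ∈ s₀ \ near, meet s B (Z i) = ∅ ∧ crs107 (Z i) R n = ∅)
    {r Θ b : ι → ℝ} (hr0 : ∀ i ∈ near, 0 < r i)
    (hb : ∀ i ∈ near, ∑ w with ¬ Disjoint (B (υ w)) (Z i), |γ w| * ‖K w‖ ≤ b i)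
    (hΘ : ∀ i ∈ near, ∑ k ∈ crs107 (star1 s B (Z i)) R n, |θ k| ≤ Θ i)
    (hr : ∀ i ∈ near, r i * (Θ i * (4 * (star1 s B (Z i)).card * Real.log q + 2) + 2 * b i) ≤ 1)
    (hs : ∀ i ∈ near, ‖(t : ℂ) * (1 + τ * Complex.I)‖ ≤ r i / 2) :
    (star ψ ⬝ᵥ ((∑ i ∈ s₀, T i) *ᵥ ψ)).re - E ≤
      16 * (1 + |τ|) * ∑ i ∈ near, ‖T i‖ * (‖(t : ℂ) * (1 + τ * Complex.I)‖ / r i) ^ 2 := by
  have h0 := energy_near hR hq hM hB hυ hK hKH h hn hT hZ hE hfar hr0 hb hΘ hr hs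
  have hψ : nsq ψ = 1 := h.1
  set s0 : ℂ := (t : ℂ) * (1 + τ * Complex.I) with hs0
  have hn2 : t ^ 2 * (1 + τ ^ 2) = ‖s0‖ ^ 2 := by
    rw [hs0, norm_mul, Complex.norm_real, mul_pow, Real.norm_eq_abs, sq_abs, Complex.sq_norm,
      Complex.normSq_apply]
    have e1 : (1 + (τ : ℂ) * Complex.I).re = 1 := by simp
    have e2 : (1 + (τ : ℂ) * Complex.I).im = τ := by simp
    rw [e1, e2]
    ring
  have h1 : t ^ 2 * (1 + τ ^ 2) * ∑ i ∈ near, QF ψ (GenR R ψ M n K) (n + 1) (T i) (θ, γ) ≤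
      ∑ i ∈ near, 8 * (‖T i‖ * (‖s0‖ / r i) ^ 2) := by
    rw [hn2, Finset.mul_sum]
    refine Finset.sum_le_sum fun i hi => ?_
    have h2 := gen_QF_le hR hψ hq hM hB hυ hK hKH (θ, γ) (hZ i (hn hi)) (hb i hi) (hΘ i hi)
      (hr0 i hi) (hr i hi)
    have h3 := (le_abs_self _).trans h2
    calc ‖s0‖ ^ 2 * QF ψ (GenR R ψ M n K) (n + 1) (T i) (θ, γ) ≤
          ‖s0‖ ^ 2 * (8 * ‖T i‖ / r i ^ 2) := mul_le_mul_of_nonneg_left h3 (by positivity)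
      _ = 8 * (‖T i‖ * (‖s0‖ / r i) ^ 2) := by
          rw [div_pow]; ring
  have h4 : ∑ i ∈ near, 16 * ‖T i‖ * (‖s0‖ / r i) ^ 3 ≤
      ∑ i ∈ near, 8 * (‖T i‖ * (‖s0‖ / r i) ^ 2) := by
    refine Finset.sum_le_sum fun i hi => ?_
    have h5 : ‖s0‖ / r i ≤ 1 / 2 := by
      rw [div_le_iff₀ (hr0 i hi)]
      have := hs i hi
      linarith
    have h6 : 0 ≤ ‖s0‖ / r i := div_nonneg (norm_nonneg _) (hr0 i hi).le
    have h7 : (‖s0‖ / r i) ^ 3 ≤ (‖s0‖ / r i) ^ 2 * (1 / 2) := by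
      rw [pow_succ]
      exact mul_le_mul_of_nonneg_left h5 (by positivity)
    nlinarith [norm_nonneg (T i)]
  have h8 := (abs_le.1 h0).2
  have h9 : 0 ≤ ∑ i ∈ near, ‖T i‖ * (‖s0‖ / r i) ^ 2 :=
    Finset.sum_nonneg fun i _ => mul_nonneg (norm_nonneg _) (by positivity)
  rw [← Finset.mul_sum] at h1
  rw [← Finset.mul_sum (a := (8:ℝ))] at h4
  have h10 := mul_le_mul_of_nonneg_left h4 (show 0 ≤ 1 + |τ| by positivity)
  nlinarith [mul_nonneg (abs_nonneg τ) h9]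

/-- almost positivity of the form of a positive local operator, with the radius built in -/
theorem gen_psd (hR : ∀ j k, j ≤ k → R k ⊆ R j) (hψ : nsq ψ = 1) (hq : 1 ≤ q)
    (hM : Fintype.card V * Real.log q ≤ M)
    (hB : ∀ i ∈ s, ∀ j ∈ s, i ≠ j → Disjoint (B i) (B j))
    (hυ : ∀ w, υ w ∈ s) (hK : ∀ w, ActsOn (B (υ w)) (K w)) (hKH : ∀ w, (K w).IsHermitian)
    (c : (ℕ → ℝ) × (W → ℝ)) {Z : Finset V} {P : Op V q} (hP : P.PosSemidef) (hX : ActsOn Z P)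
    {b Θ r y : ℝ} (hb : ∑ w with ¬ Disjoint (B (υ w)) Z, |c.2 w| * ‖K w‖ ≤ b)
    (hΘ : ∑ k ∈ crs107 (star1 s B Z) R n, |c.1 k| ≤ Θ) (hr0 : 0 < r)
    (hr : r * (Θ * (4 * (star1 s B Z).card * Real.log q + 2) + 2 * b) ≤ 1)
    (hy0 : 0 < y) (hy : y ≤ r / 2) :
    -psdErr (star ψ ⬝ᵥ (P *ᵥ ψ)).re (8 * ‖P‖) r y ≤ QF ψ (GenR R ψ M n K) (n + 1) P c :=
  QF_almost_psd hP (fun k _ => Gen_herm _ ψ _ n hKH k c) hr0
    (fun z hz => gen_radius hR hψ hq hM hB hυ hK hKH c hX hb hΘ hr0.le hr hz) hy0 hy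

end radius

end Vale.Agent.P356.GA
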