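import Mathlib

/-!
# P356, GA, block SUM, part A (helper770): the almost positive quadratic form at one local term

`Q` is the second order coefficient of one local term `z`, as a function of the coefficient vector
`c : Gn J → ℝ` of the generators: the lines `inl k` and the slabs `inr (k, j)` (slab between the
lines `k` and `k + m` in the tile `j`).  It is almost convex (`ConvE`).  The coefficient vector
`czero θ h Sl = θ (∑_{k < h} line k - ½ ∑_{Sl} slabs)` is decomposed at a core `a` into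
* the cutting lines, each with its two half slabs (`healed k`), if both slabs exist,
* the lines which do not cut the core (no contribution),
* slabs containing the core or off the core (small contribution `τ₁`),
* slabs without influence,
* at tile edges and ladder ends: cutting lines and slabs which meet the core, one by one (crude).
Main results: `one_term`, `term_inner`, `term_edge`, `sum_terms`.
-/

set_option linter.all false

namespace Vale.Agent.P356.GA.Sum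

open Finset
open scoped BigOperators

section conv

variable {G : Type*}

/-- almost convexity with error `τ` on the unit box -/
def ConvE (Q : (G → ℝ) → ℝ) (τ : ℝ) : Prop :=
  ∀ (n : ℕ) (w : Fin n → ℝ) (c : Fin n → G → ℝ), (∀ i, 0 ≤ w i) → (∀ i g, |c i g| ≤ 1) →
    Q (∑ i, w i • c i) ≤ (∑ i, w i) * ∑ i, w i * Q (c i) + (∑ i, w i) ^ 2 * τ

/-- the same for a finite set of indices and equal weights -/
theorem ConvE.sum {Q : (G → ℝ) → ℝ} {τ : ℝ} (h : ConvE Q τ) {ι : Type*} (s : Finset ι) {t : ℝ}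
    (ht : 0 ≤ t) (c : ι → G → ℝ) (hc : ∀ i ∈ s, ∀ g, |c i g| ≤ 1) :
    Q (t • ∑ i ∈ s, c i) ≤ t ^ 2 * (s.card * ∑ i ∈ s, Q (c i) + (s.card : ℝ) ^ 2 * τ) := by
  classical
  have h1 := h s.card (fun _ => t) (fun i => c (s.equivFin.symm i)) (fun _ => ht)
    (fun i g => hc _ (s.equivFin.symm i).2 g)
  have e1 : ∑ i : Fin s.card, t • c (s.equivFin.symm i) = t • ∑ i ∈ s, c i := by
    rw [← Finset.smul_sum]
    congr 1
    rw [Equiv.sum_comp s.equivFin.symm (fun i : s => c i), Finset.sum_coe_sort s c]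
  have e2 : ∑ i : Fin s.card, t * Q (c (s.equivFin.symm i)) = t * ∑ i ∈ s, Q (c i) := by
    rw [← Finset.mul_sum]
    congr 1
    rw [Equiv.sum_comp s.equivFin.symm (fun i : s => Q (c i)), Finset.sum_coe_sort s
      (fun i => Q (c i))]
  rw [e1, e2] at h1
  simp only [Finset.sum_const, Finset.card_univ, Fintype.card_fin, nsmul_eq_mul] at h1
  refine h1.trans (le_of_eq ?_)
  ring

/-- equal bounds for all members -/
theorem ConvE.sum_const {Q : (G → ℝ) → ℝ} {τ b : ℝ} (h : ConvE Q τ) {ι : Type*} (s : Finset ι)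
    {t : ℝ} (ht : 0 ≤ t) (ht1 : t ≤ 1) (hτ : 0 ≤ τ) (hb : 0 ≤ b) (c : ι → G → ℝ)
    (hc : ∀ i ∈ s, ∀ g, |c i g| ≤ 1) (hQ : ∀ i ∈ s, Q (c i) ≤ b) :
    Q (t • ∑ i ∈ s, c i) ≤ (s.card : ℝ) ^ 2 * b + (s.card : ℝ) ^ 2 * τ := by
  refine (h.sum s ht c hc).trans ?_
  have h' : ∑ i ∈ s, Q (c i) ≤ s.card * b := by
    refine (Finset.sum_le_sum hQ).trans (le_of_eq ?_)
    rw [Finset.sum_const, nsmul_eq_mul]
  have h'' : (s.card : ℝ) * ∑ i ∈ s, Q (c i) ≤ s.card * (s.card * b) :=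
    mul_le_mul_of_nonneg_left h' (Nat.cast_nonneg _)
  have n1 : 0 ≤ (s.card : ℝ) ^ 2 * b := by positivity
  have n2 : 0 ≤ (s.card : ℝ) ^ 2 * τ := by positivity
  have n3 : t ^ 2 ≤ 1 := pow_le_one₀ ht ht1
  calc t ^ 2 * ((s.card : ℝ) * ∑ i ∈ s, Q (c i) + (s.card : ℝ) ^ 2 * τ) ≤
        t ^ 2 * ((s.card : ℝ) ^ 2 * b + (s.card : ℝ) ^ 2 * τ) := by
          refine mul_le_mul_of_nonneg_left ?_ (sq_nonneg t)
          linarith
    _ ≤ 1 * ((s.card : ℝ) ^ 2 * b + (s.card : ℝ) ^ 2 * τ) :=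
        mul_le_mul_of_nonneg_right n3 (by positivity)
    _ = _ := one_mul _

end conv

/-- the generators: lines and slabs -/
abbrev Gn (J : Type*) := ℕ ⊕ ℕ × J

section decomp

variable {J : Type*} [DecidableEq J]

/-- the coefficient vector of one line -/
def ln (k : ℕ) : Gn J → ℝ := Pi.single (Sum.inl k) 1

/-- the coefficient vector of one slab -/
def sl (p : ℕ × J) : Gn J → ℝ := Pi.single (Sum.inr p) 1

theorem ln_inl (k k' : ℕ) : (ln k : Gn J → ℝ) (Sum.inl k') = if k = k' then 1 else 0 := by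
  unfold ln
  rw [Pi.single_apply]
  simp only [Sum.inl.injEq, eq_comm]

theorem ln_inr (k : ℕ) (p : ℕ × J) : (ln k : Gn J → ℝ) (Sum.inr p) = 0 := by
  unfold ln
  rw [Pi.single_apply, if_neg (by simp)]

theorem sl_inl (p : ℕ × J) (k : ℕ) : (sl p : Gn J → ℝ) (Sum.inl k) = 0 := by
  unfold sl
  rw [Pi.single_apply, if_neg (by simp)]

theorem sl_inr (p p' : ℕ × J) : (sl p : Gn J → ℝ) (Sum.inr p') = if p = p' then 1 else 0 := by
  unfold sl
  rw [Pi.single_apply]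
  simp only [Sum.inr.injEq, eq_comm]

theorem ln_le (k : ℕ) (g : Gn J) : |(ln k : Gn J → ℝ) g| ≤ 1 := by
  rcases g with g | g
  · rw [ln_inl]; split_ifs <;> simp
  · rw [ln_inr]; simp

theorem sl_le (p : ℕ × J) (g : Gn J) : |(sl p : Gn J → ℝ) g| ≤ 1 := by
  rcases g with g | g
  · rw [sl_inl]; simp
  · rw [sl_inr]; split_ifs <;> simp

theorem sl_neg_le (p : ℕ × J) (g : Gn J) : |(-sl p : Gn J → ℝ) g| ≤ 1 := by
  rw [Pi.neg_apply, abs_neg]; exact sl_le p g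

theorem sum_ln_inl (s : Finset ℕ) (k : ℕ) :
    (∑ i ∈ s, (ln i : Gn J → ℝ)) (Sum.inl k) = if k ∈ s then 1 else 0 := by
  rw [Finset.sum_apply]
  simp only [ln_inl]
  rw [Finset.sum_ite_eq' s k]

theorem sum_ln_inr (s : Finset ℕ) (p : ℕ × J) :
    (∑ i ∈ s, (ln i : Gn J → ℝ)) (Sum.inr p) = 0 := by
  rw [Finset.sum_apply]
  simp only [ln_inr, Finset.sum_const_zero]

theorem sum_sl_inl (s : Finset (ℕ × J)) (k : ℕ) :
    (∑ i ∈ s, (sl i : Gn J → ℝ)) (Sum.inl k) = 0 := by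
  rw [Finset.sum_apply]
  simp only [sl_inl, Finset.sum_const_zero]

theorem sum_sl_inr (s : Finset (ℕ × J)) (p : ℕ × J) :
    (∑ i ∈ s, (sl i : Gn J → ℝ)) (Sum.inr p) = if p ∈ s then 1 else 0 := by
  rw [Finset.sum_apply]
  simp only [sl_inr]
  rw [Finset.sum_ite_eq' s p]

theorem sum_ln_le (s : Finset ℕ) (g : Gn J) : |(∑ i ∈ s, (ln i : Gn J → ℝ)) g| ≤ 1 := by
  rcases g with g | g
  · rw [sum_ln_inl]; split_ifs <;> simp
  · rw [sum_ln_inr]; simp

theorem sum_sl_le (s : Finset (ℕ × J)) (g : Gn J) : |(∑ i ∈ s, (sl i : Gn J → ℝ)) g| ≤ 1 := by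
  rcases g with g | g
  · rw [sum_sl_inl]; simp
  · rw [sum_sl_inr]; split_ifs <;> simp

/-- a line with its two half slabs in the tile `j`, slabs of thickness `m` -/
noncomputable def healed (m : ℕ) (j : J) (k : ℕ) : Gn J → ℝ :=
  ln k - (1 / 2 : ℝ) • sl (k, j) - (1 / 2 : ℝ) • sl (k - m, j)

/-- the full coefficient vector -/
noncomputable def czero (θ : ℝ) (h : ℕ) (Sl : Finset (ℕ × J)) : Gn J → ℝ :=
  θ • (∑ k ∈ range h, ln k - (1 / 2 : ℝ) • ∑ p ∈ Sl, sl p)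

/-- the slabs used by the paired lines -/
def paired (m : ℕ) (j : J) (pr : Finset ℕ) : Finset (ℕ × J) :=
  (pr.image fun k => (k, j)) ∪ (pr.image fun k => (k - m, j))

theorem mem_paired {m : ℕ} {j : J} {pr : Finset ℕ} {p : ℕ × J} :
    p ∈ paired m j pr ↔ p.2 = j ∧ (p.1 ∈ pr ∨ ∃ k ∈ pr, k - m = p.1) := by
  unfold paired
  rw [mem_union, mem_image, mem_image]
  constructor
  · rintro (⟨k, hk, rfl⟩ | ⟨k, hk, rfl⟩)
    · exact ⟨rfl, Or.inl hk⟩
    · exact ⟨rfl, Or.inr ⟨k, hk, rfl⟩⟩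
  · rintro ⟨h1, h2 | ⟨k, hk, h2⟩⟩
    · exact Or.inl ⟨p.1, h2, by rw [← h1]⟩
    · exact Or.inr ⟨k, hk, by rw [h2, ← h1]⟩

theorem paired_sum {m : ℕ} {j : J} {pr : Finset ℕ} (hm : ∀ k ∈ pr, m ≤ k)
    (hdis : ∀ k ∈ pr, ∀ k' ∈ pr, k + m ≠ k') (f : ℕ × J → Gn J → ℝ) :
    ∑ p ∈ paired m j pr, f p = ∑ k ∈ pr, f (k, j) + ∑ k ∈ pr, f (k - m, j) := by
  unfold paired
  rw [Finset.sum_union, Finset.sum_image, Finset.sum_image]
  · intro s hs s' hs' h
    simp only [Prod.mk.injEq, and_true] at h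
    have h1 := hm s hs
    have h2 := hm s' hs'
    omega
  · intro s _ s' _ h
    simpa using h
  · rw [Finset.disjoint_left]
    intro k hk hk'
    rw [mem_image] at hk hk'
    obtain ⟨s, hs, rfl⟩ := hk
    obtain ⟨s', hs', h⟩ := hk'
    simp only [Prod.mk.injEq, and_true] at h
    have h2 := hm s' hs'
    exact hdis s hs s' hs' (by omega)

/-- the decomposition of the coefficient vector -/
theorem czero_decomp {θ : ℝ} {h : ℕ} {pr non rest : Finset ℕ} {Sl bad gd irr : Finset (ℕ × J)}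
    {m : ℕ} {j : J}
    (hL : range h = pr ∪ (non ∪ rest)) (h1 : Disjoint pr (non ∪ rest)) (h2 : Disjoint non rest)
    (hm : ∀ k ∈ pr, m ≤ k) (hdis : ∀ k ∈ pr, ∀ k' ∈ pr, k + m ≠ k')
    (hS : Sl = paired m j pr ∪ (bad ∪ (gd ∪ irr))) (h3 : Disjoint (paired m j pr) (bad ∪ (gd ∪ irr)))
    (h4 : Disjoint bad (gd ∪ irr)) (h5 : Disjoint gd irr) :
    (czero θ h Sl : Gn J → ℝ) = θ • (∑ k ∈ pr, healed m j k + ∑ k ∈ non, ln k +
      ∑ k ∈ rest, ln k + (1 / 2 : ℝ) • ∑ p ∈ bad, (-sl p) +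
      (1 / 2 : ℝ) • ∑ p ∈ gd, (-sl p) + (1 / 2 : ℝ) • ∑ p ∈ irr, (-sl p)) := by
  unfold czero
  congr 1
  rw [hL, hS, Finset.sum_union h1, Finset.sum_union h2, Finset.sum_union h3, Finset.sum_union h4,
    Finset.sum_union h5, paired_sum hm hdis (fun k => sl k)]
  have e : ∑ k ∈ pr, (healed m j k : Gn J → ℝ) = ∑ k ∈ pr, ln k -
      (1 / 2 : ℝ) • ∑ k ∈ pr, sl (k, j) - (1 / 2 : ℝ) • ∑ k ∈ pr, sl (k - m, j) := by
    unfold healed
    rw [Finset.sum_sub_distrib, Finset.sum_sub_distrib, Finset.smul_sum, Finset.smul_sum]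
  rw [e]
  simp only [Finset.sum_neg_distrib]
  module

theorem healed_le (m : ℕ) (hm : m ≠ 0) (j : J) {k : ℕ} (hk : m ≤ k) (g : Gn J) :
    |(healed m j k : Gn J → ℝ) g| ≤ 1 := by
  unfold healed
  simp only [Pi.sub_apply, Pi.smul_apply, smul_eq_mul]
  rcases g with g | g
  · rw [ln_inl, sl_inl, sl_inl]
    split_ifs <;> norm_num
  · rw [ln_inr, sl_inr, sl_inr]
    split_ifs <;> norm_num

/-- crude bound of a line with its two half slabs -/
theorem healed_crude {Q : (Gn J → ℝ) → ℝ} {τ C₂ : ℝ} (hQ : ConvE Q τ) {m : ℕ} {j : J} {k : ℕ}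
    (h1 : Q (ln k) ≤ C₂) (h2 : Q (-sl (k, j)) ≤ C₂) (h3 : Q (-sl (k - m, j)) ≤ C₂) :
    Q (healed m j k) ≤ 4 * C₂ + 4 * τ := by
  have h := hQ 3 ![1, 1 / 2, 1 / 2] ![ln k, -sl (k, j), -sl (k - m, j)]
    (fun i => by fin_cases i <;> norm_num)
    (fun i g => by
      fin_cases i
      · exact ln_le k g
      · exact sl_neg_le _ g
      · exact sl_neg_le _ g)
  simp only [Fin.sum_univ_three, Matrix.cons_val_zero, Matrix.cons_val_one, Matrix.cons_val] at h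
  have e : (1 : ℝ) • (ln k : Gn J → ℝ) + (1 / 2 : ℝ) • (-sl (k, j)) +
      (1 / 2 : ℝ) • (-sl (k - m, j)) = healed m j k := by
    unfold healed
    module
  rw [e] at h
  refine h.trans ?_
  have e2 : ((1 : ℝ) + 1 / 2 + 1 / 2) = 2 := by norm_num
  rw [e2]
  nlinarith

/-- **SUM-A**, one local term: almost convex `Q`; `pr` = the cutting lines which are healed by two
half slabs, `non` = lines without contribution, `rest` = other lines, `bad` = slabs with the crude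
bound, `gd` = slabs with a small contribution, `irr` = slabs without influence. -/
theorem one_term {Q : (Gn J → ℝ) → ℝ} {τ τ₁ C₂ θ : ℝ} {q : ℕ → ℝ} (hQ : ConvE Q τ)
    (hτ : 0 ≤ τ) (hτ₁ : 0 ≤ τ₁) (hC₂ : 0 ≤ C₂) (hθ : 0 ≤ θ) {h : ℕ} {pr non rest : Finset ℕ}
    {Sl bad gd irr : Finset (ℕ × J)} {m : ℕ} {j : J} (hm0 : m ≠ 0)
    (hL : range h = pr ∪ (non ∪ rest)) (h1 : Disjoint pr (non ∪ rest)) (h2 : Disjoint non rest)
    (hm : ∀ k ∈ pr, m ≤ k) (hdis : ∀ k ∈ pr, ∀ k' ∈ pr, k + m ≠ k')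
    (hS : Sl = paired m j pr ∪ (bad ∪ (gd ∪ irr))) (h3 : Disjoint (paired m j pr) (bad ∪ (gd ∪ irr)))
    (h4 : Disjoint bad (gd ∪ irr)) (h5 : Disjoint gd irr)
    (hirr : ∀ c c' : Gn J → ℝ, (∀ k, c (Sum.inl k) = c' (Sum.inl k)) →
      (∀ p, p ∉ irr → c (Sum.inr p) = c' (Sum.inr p)) → Q c = Q c')
    (hnon : Q (∑ k ∈ non, ln k) ≤ 0)
    (hpr : ∀ k ∈ pr, Q (healed m j k) ≤ q k)
    (hrest : ∀ k ∈ rest, Q (ln k) ≤ C₂)
    (hbad : ∀ p ∈ bad, Q (-sl p) ≤ C₂)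
    (hgd : ∀ p ∈ gd, Q (-sl p) ≤ τ₁) :
    Q (czero θ h Sl) ≤ 5 * θ ^ 2 * (pr.card * ∑ k ∈ pr, q k +
      (rest.card ^ 2 + bad.card ^ 2) * C₂ + gd.card ^ 2 * τ₁ +
      (pr.card ^ 2 + rest.card ^ 2 + bad.card ^ 2 + gd.card ^ 2 + 5) * τ) := by
  classical
  rw [czero_decomp hL h1 h2 hm hdis hS h3 h4 h5]
  set A : Gn J → ℝ := ∑ k ∈ pr, healed m j k with hA
  set B : Gn J → ℝ := ∑ k ∈ non, ln k with hB
  set C : Gn J → ℝ := ∑ k ∈ rest, ln k with hC
  set D : Gn J → ℝ := ∑ p ∈ bad, (-sl p) with hD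
  set E : Gn J → ℝ := ∑ p ∈ gd, (-sl p) with hE
  set F : Gn J → ℝ := ∑ p ∈ irr, (-sl p) with hF
  have e0 : Q (θ • (A + B + C + (1 / 2 : ℝ) • D + (1 / 2 : ℝ) • E + (1 / 2 : ℝ) • F)) =
      Q (θ • (A + B + C + (1 / 2 : ℝ) • D + (1 / 2 : ℝ) • E)) := by
    refine hirr _ _ (fun k => ?_) (fun p hp => ?_)
    · have hz : F (Sum.inl k) = 0 := by
        rw [hF, Finset.sum_neg_distrib, Pi.neg_apply, sum_sl_inl, neg_zero]
      simp only [Pi.smul_apply, Pi.add_apply, hz, smul_eq_mul, mul_zero, add_zero]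
    · have hz : F (Sum.inr p) = 0 := by
        rw [hF, Finset.sum_neg_distrib, Pi.neg_apply, sum_sl_inr, if_neg hp, neg_zero]
      simp only [Pi.smul_apply, Pi.add_apply, hz, smul_eq_mul, mul_zero, add_zero]
  rw [e0]
  -- unit boxes
  have bneg : ∀ (s : Finset (ℕ × J)) g, |(∑ i ∈ s, (-sl i : Gn J → ℝ)) g| ≤ 1 := fun s g => by
    rw [Finset.sum_neg_distrib, Pi.neg_apply, abs_neg]
    exact sum_sl_le s g
  have bA : ∀ g, |A g| ≤ 1 := by
    intro g
    have e : A = ∑ k ∈ pr, ln k - (1 / 2 : ℝ) • ∑ k ∈ pr, sl (k, j) -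
        (1 / 2 : ℝ) • ∑ k ∈ pr, sl (k - m, j) := by
      rw [hA]
      unfold healed
      rw [Finset.sum_sub_distrib, Finset.sum_sub_distrib, Finset.smul_sum, Finset.smul_sum]
    have i1 : ∑ k ∈ pr, (sl (k, j) : Gn J → ℝ) = ∑ p ∈ pr.image (fun k => (k, j)), sl p := by
      rw [Finset.sum_image]
      intro s _ s' _ hh
      simpa using hh
    have i2 : ∑ k ∈ pr, (sl (k - m, j) : Gn J → ℝ) = ∑ p ∈ pr.image (fun k => (k - m, j)), sl p := by
      rw [Finset.sum_image]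
      intro s hs s' hs' hh
      simp only [Prod.mk.injEq, and_true] at hh
      have g1 := hm s hs
      have g2 := hm s' hs'
      omega
    rw [e, i1, i2]
    simp only [Pi.sub_apply, Pi.smul_apply, smul_eq_mul]
    rcases g with g | g
    · rw [sum_sl_inl, sum_sl_inl]
      simpa using sum_ln_le (J := J) pr (Sum.inl g)
    · rw [sum_ln_inr]
      have b2 := sum_sl_le (pr.image (fun k => (k, j))) (Sum.inr g)
      have b3 := sum_sl_le (pr.image (fun k => (k - m, j))) (Sum.inr g)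
      rw [abs_le] at b2 b3 ⊢
      constructor <;> linarith [b2.1, b2.2, b3.1, b3.2]
  have half : ∀ (X : Gn J → ℝ), (∀ g, |X g| ≤ 1) → ∀ g, |((1 / 2 : ℝ) • X) g| ≤ 1 :=
    fun X hX g => by
    rw [Pi.smul_apply, smul_eq_mul, abs_mul, abs_of_nonneg (by norm_num : (0 : ℝ) ≤ 1 / 2)]
    linarith [hX g, abs_nonneg (X g)]
  -- the five parts
  let c : Fin 5 → Gn J → ℝ := ![A, B, C, (1 / 2 : ℝ) • D, (1 / 2 : ℝ) • E]
  have hc : ∀ i g, |c i g| ≤ 1 := by
    intro i g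
    fin_cases i
    · exact bA g
    · exact sum_ln_le non g
    · exact sum_ln_le rest g
    · exact half D (bneg bad) g
    · exact half E (bneg gd) g
  have hmain := hQ 5 (fun _ => θ) c (fun _ => hθ) hc
  have e1 : ∑ i, θ • c i = θ • (A + B + C + (1 / 2 : ℝ) • D + (1 / 2 : ℝ) • E) := by
    rw [Fin.sum_univ_five]
    simp only [c, Matrix.cons_val_zero, Matrix.cons_val_one, Matrix.cons_val]
    module
  have e2 : ∑ i, θ * Q (c i) = θ * (Q A + Q B + Q C + Q ((1 / 2 : ℝ) • D) +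
      Q ((1 / 2 : ℝ) • E)) := by
    rw [Fin.sum_univ_five]
    simp only [c, Matrix.cons_val_zero, Matrix.cons_val_one, Matrix.cons_val]
    ring
  have e3 : ∑ _i : Fin 5, θ = 5 * θ := by
    rw [Fin.sum_univ_five]; ring
  rw [e1, e2, e3] at hmain
  refine hmain.trans ?_
  -- the parts
  have q1 : Q A ≤ pr.card * ∑ k ∈ pr, q k + (pr.card : ℝ) ^ 2 * τ := by
    have hh := hQ.sum pr (t := 1) zero_le_one (healed m j)
      (fun s hs g => healed_le m hm0 j (hm s hs) g)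
    rw [one_smul, one_pow, one_mul] at hh
    refine hh.trans (add_le_add ?_ le_rfl)
    exact mul_le_mul_of_nonneg_left (Finset.sum_le_sum hpr) (Nat.cast_nonneg _)
  have q3 : Q C ≤ (rest.card : ℝ) ^ 2 * C₂ + (rest.card : ℝ) ^ 2 * τ := by
    have hh := hQ.sum_const rest (t := 1) zero_le_one le_rfl hτ hC₂ (fun k => ln k)
      (fun s _ g => ln_le _ _) hrest
    rwa [one_smul] at hh
  have q4 : Q ((1 / 2 : ℝ) • D) ≤ (bad.card : ℝ) ^ 2 * C₂ + (bad.card : ℝ) ^ 2 * τ :=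
    hQ.sum_const bad (by norm_num) (by norm_num) hτ hC₂ (fun p => -sl p)
      (fun p _ g => sl_neg_le p g) hbad
  have q5 : Q ((1 / 2 : ℝ) • E) ≤ (gd.card : ℝ) ^ 2 * τ₁ + (gd.card : ℝ) ^ 2 * τ :=
    hQ.sum_const gd (by norm_num) (by norm_num) hτ hτ₁ (fun p => -sl p)
      (fun p _ g => sl_neg_le p g) hgd
  have hsum : Q A + Q B + Q C + Q ((1 / 2 : ℝ) • D) + Q ((1 / 2 : ℝ) • E) ≤
      (pr.card * ∑ k ∈ pr, q k + (pr.card : ℝ) ^ 2 * τ) + 0 +
      ((rest.card : ℝ) ^ 2 * C₂ + (rest.card : ℝ) ^ 2 * τ) +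
      ((bad.card : ℝ) ^ 2 * C₂ + (bad.card : ℝ) ^ 2 * τ) +
      ((gd.card : ℝ) ^ 2 * τ₁ + (gd.card : ℝ) ^ 2 * τ) := by
    linarith
  have h7 : 5 * θ * (θ * (Q A + Q B + Q C + Q ((1 / 2 : ℝ) • D) + Q ((1 / 2 : ℝ) • E))) ≤
      5 * θ * (θ * ((pr.card * ∑ k ∈ pr, q k + (pr.card : ℝ) ^ 2 * τ) + 0 +
      ((rest.card : ℝ) ^ 2 * C₂ + (rest.card : ℝ) ^ 2 * τ) +
      ((bad.card : ℝ) ^ 2 * C₂ + (bad.card : ℝ) ^ 2 * τ) +
      ((gd.card : ℝ) ^ 2 * τ₁ + (gd.card : ℝ) ^ 2 * τ))) :=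
    mul_le_mul_of_nonneg_left (mul_le_mul_of_nonneg_left hsum hθ) (by positivity)
  calc 5 * θ * (θ * (Q A + Q B + Q C + Q ((1 / 2 : ℝ) • D) + Q ((1 / 2 : ℝ) • E))) +
        (5 * θ) ^ 2 * τ ≤ _ := add_le_add h7 le_rfl
    _ = _ := by ring

end decomp

section geom

variable {V : Type*} [DecidableEq V] {J : Type*} [DecidableEq J]

/-- the line `k` cuts the core -/
def Cuts (E : ℕ → Finset V) (a : Finset V) (k : ℕ) : Prop := ¬ a ⊆ E k ∧ ¬ Disjoint a (E k)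

/-- the lines which cut the core -/
noncomputable def cutL (E : ℕ → Finset V) (h : ℕ) (a : Finset V) : Finset ℕ :=
  open Classical in (range h).filter fun k => Cuts E a k

theorem mem_cutL {E : ℕ → Finset V} {h : ℕ} {a : Finset V} {k : ℕ} :
    k ∈ cutL E h a ↔ k < h ∧ Cuts E a k := by
  unfold cutL
  simp only [mem_filter, mem_range]

/-- the slab between the lines `k` and `k + m` in the tile `j` -/
def slab (E : ℕ → Finset V) (B : J → Finset V) (m : ℕ) (p : ℕ × J) : Finset V :=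
  (E p.1 \ E (p.1 + m)) ∩ B p.2

theorem mem_slab {E : ℕ → Finset V} {B : J → Finset V} {m : ℕ} {p : ℕ × J} {x : V} :
    x ∈ slab E B m p ↔ (x ∈ E p.1 ∧ x ∉ E (p.1 + m)) ∧ x ∈ B p.2 := by
  unfold slab
  rw [mem_inter, mem_sdiff]

/-- the facts about the second order form `Q` of one local term with the core `a`; `Rel` are the
slabs which have an influence -/
structure LF (Q : (Gn J → ℝ) → ℝ) (E : ℕ → Finset V) (B : J → Finset V) (m h : ℕ) (a : Finset V)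
    (Rel : Finset (ℕ × J)) (τ τ₁ C₂ : ℝ) : Prop where
  conv : ConvE Q τ
  non : ∀ s : Finset ℕ, (∀ k ∈ s, k < h ∧ ¬ Cuts E a k) → Q (∑ k ∈ s, ln k) ≤ 0
  good : ∀ p ∈ Rel, (a ⊆ slab E B m p ∨ Disjoint a (slab E B m p)) → Q (-sl p) ≤ τ₁
  irr : ∀ c c' : Gn J → ℝ, (∀ k, c (Sum.inl k) = c' (Sum.inl k)) →
      (∀ p ∈ Rel, c (Sum.inr p) = c' (Sum.inr p)) → Q c = Q c'
  lnC : ∀ k < h, Q (ln k) ≤ C₂
  slC : ∀ p ∈ Rel, Q (-sl p) ≤ C₂

variable {Q : (Gn J → ℝ) → ℝ} {E : ℕ → Finset V} {B : J → Finset V} {m h : ℕ} {a : Finset V}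
    {Rel : Finset (ℕ × J)} {τ τ₁ C₂ θ : ℝ}

/-- a slab which is not used by the healed lines contains the core or is off the core -/
theorem slab_cases {Js : Finset J} (hB : ∀ i ∈ Js, ∀ j ∈ Js, i ≠ j → Disjoint (B i) (B j)) {j : J}
    (hj : j ∈ Js) (ha : a ⊆ B j) (hlad : ∀ k < h + m, Cuts E a k → m ≤ k ∧ k < h) {p : ℕ × J}
    (hp : p ∈ range h ×ˢ Js)
    (hn : p ∉ paired m j (cutL E h a)) : a ⊆ slab E B m p ∨ Disjoint a (slab E B m p) := by
  classical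
  obtain ⟨k, j'⟩ := p
  rw [mem_product, mem_range] at hp
  simp only at hp
  by_cases hjj : j' = j
  · subst hjj
    by_contra hcon
    rw [not_or] at hcon
    obtain ⟨h1, h2⟩ := hcon
    rw [Finset.not_disjoint_iff] at h2
    obtain ⟨x, hxa, hx⟩ := h2
    rw [Finset.not_subset] at h1
    obtain ⟨y, hya, hy⟩ := h1
    rw [mem_slab] at hx hy
    simp only at hx hy
    apply hn
    rw [mem_paired]
    refine ⟨rfl, ?_⟩
    by_cases hyk : y ∈ E k
    · -- the upper line cuts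
      have hyk' : y ∈ E (k + m) := by
        by_contra hc
        exact hy ⟨⟨hyk, hc⟩, ha hya⟩
      right
      have hcut : Cuts E a (k + m) := ⟨fun hs => hx.1.2 (hs hxa),
        fun hd => Finset.disjoint_left.1 hd hya hyk'⟩
      exact ⟨k + m, mem_cutL.2 ⟨(hlad (k + m) (by omega) hcut).2, hcut⟩, by simp⟩
    · left
      refine mem_cutL.2 ⟨by omega, ?_, ?_⟩
      · exact fun hs => hyk (hs hya)
      · exact fun hd => Finset.disjoint_left.1 hd hxa hx.1.1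
  · right
    refine disjoint_of_subset_left ha (disjoint_of_subset_right (inter_subset_right) ?_)
    exact hB j hj j' hp.2 (fun e => hjj e.symm)

/-- **inner core**: the core is in one tile and every level `k < h + m` which cuts it is a line with
both slabs -/
theorem term_inner (hLF : LF Q E B m h a Rel τ τ₁ C₂) (hτ : 0 ≤ τ) (hτ₁ : 0 ≤ τ₁) (hC₂ : 0 ≤ C₂)
    (hθ : 0 ≤ θ) (hm0 : m ≠ 0) {Js : Finset J}
    (hB : ∀ i ∈ Js, ∀ j ∈ Js, i ≠ j → Disjoint (B i) (B j)) {j : J} (hj : j ∈ Js) (ha : a ⊆ B j)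
    (hRel : Rel ⊆ range h ×ˢ Js)
    (hlad : ∀ k < h + m, Cuts E a k → m ≤ k ∧ k < h)
    (hdis : ∀ k ∈ cutL E h a, ∀ k' ∈ cutL E h a, k + m ≠ k') {q : ℕ → ℝ}
    (hq : ∀ k ∈ cutL E h a, Q (healed m j k) ≤ q k) :
    Q (czero θ h (range h ×ˢ Js)) ≤ 5 * θ ^ 2 * ((cutL E h a).card * ∑ k ∈ cutL E h a, q k +
      (Rel.card : ℝ) ^ 2 * τ₁ + ((cutL E h a).card ^ 2 + (Rel.card : ℝ) ^ 2 + 5) * τ) := by
  classical
  set cu := cutL E h a with hcu
  have hsub : paired m j cu ⊆ range h ×ˢ Js := by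
    intro p hp
    rw [mem_paired] at hp
    obtain ⟨h1, h2⟩ := hp
    rw [mem_product, mem_range]
    refine ⟨?_, h1 ▸ hj⟩
    rcases h2 with h2 | ⟨k, hk, h2⟩
    · exact (mem_cutL.1 h2).1
    · have := (mem_cutL.1 hk).1
      omega
  have key := one_term (Q := Q) (q := q) hLF.conv hτ hτ₁ hC₂ hθ (h := h) (pr := cu)
    (non := range h \ cu) (rest := ∅) (Sl := range h ×ˢ Js) (bad := ∅)
    (gd := Rel \ paired m j cu) (irr := (range h ×ˢ Js) \ (Rel ∪ paired m j cu)) (m := m)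
    (j := j) hm0 ?_ ?_ (disjoint_empty_right _) (fun k hk => (hlad k (by have := (mem_cutL.1 hk).1; omega) (mem_cutL.1 hk).2).1) hdis ?_ ?_
    (disjoint_empty_left _) ?_ ?_ ?_ hq (by simp) (by simp) ?_
  · refine key.trans ?_
    refine mul_le_mul_of_nonneg_left ?_ (by positivity)
    simp only [card_empty, Nat.cast_zero]
    have hc : ((Rel \ paired m j cu).card : ℝ) ≤ Rel.card := by
      exact_mod_cast Finset.card_le_card sdiff_subset
    have hc2 : ((Rel \ paired m j cu).card : ℝ) ^ 2 ≤ (Rel.card : ℝ) ^ 2 :=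
      pow_le_pow_left₀ (Nat.cast_nonneg _) hc 2
    have i1 := mul_le_mul_of_nonneg_right hc2 hτ₁
    have i2 := mul_le_mul_of_nonneg_right hc2 hτ
    nlinarith
  · ext k
    simp only [mem_union, mem_sdiff, notMem_empty, or_false]
    constructor
    · intro hk
      by_cases h' : k ∈ cu
      · exact Or.inl h'
      · exact Or.inr ⟨hk, h'⟩
    · rintro (hk | hk)
      · rw [hcu, mem_cutL] at hk
        exact mem_range.2 hk.1
      · exact hk.1
  · rw [union_empty]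
    exact disjoint_sdiff
  · ext p
    simp only [mem_union, mem_sdiff, notMem_empty, false_or]
    constructor
    · intro hp
      by_cases h1 : p ∈ paired m j cu
      · exact Or.inl h1
      · right
        by_cases h2 : p ∈ Rel
        · exact Or.inl ⟨h2, h1⟩
        · exact Or.inr ⟨hp, fun h3 => h3.elim h2 h1⟩
    · rintro (hp | hp | hp)
      · exact hsub hp
      · exact hRel hp.1
      · exact hp.1
  · rw [Finset.disjoint_left]
    intro p hp hp'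
    simp only [mem_union, mem_sdiff, notMem_empty, false_or] at hp'
    rcases hp' with h' | h'
    · exact h'.2 hp
    · exact h'.2 (Or.inr hp)
  · rw [Finset.disjoint_left]
    intro p hp hp'
    simp only [mem_union, mem_sdiff] at hp hp'
    exact hp'.2 (Or.inl hp.1)
  · intro c c' h1 h2
    refine hLF.irr c c' h1 fun p hp => h2 p ?_
    simp only [mem_sdiff, mem_union, not_and, not_not]
    exact fun _ => Or.inl hp
  · refine hLF.non _ fun k hk => ?_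
    rw [mem_sdiff, mem_range] at hk
    refine ⟨hk.1, fun hc => hk.2 (mem_cutL.2 ⟨hk.1, hc⟩)⟩
  · intro p hp
    rw [mem_sdiff] at hp
    exact hLF.good p hp.1 (slab_cases hB hj ha hlad (hRel hp.1) hp.2)

/-- the relevant slabs which meet the core -/
noncomputable def meetR (E : ℕ → Finset V) (B : J → Finset V) (m : ℕ) (a : Finset V)
    (Rel : Finset (ℕ × J)) : Finset (ℕ × J) :=
  open Classical in Rel.filter fun p => ¬ Disjoint a (slab E B m p)

/-- **any core**, crude bound -/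
theorem term_edge (hLF : LF Q E B m h a Rel τ τ₁ C₂) (hτ : 0 ≤ τ) (hτ₁ : 0 ≤ τ₁) (hC₂ : 0 ≤ C₂)
    (hθ : 0 ≤ θ) (hm0 : m ≠ 0) {Js : Finset J} [Inhabited J]
    (hRel : Rel ⊆ range h ×ˢ Js) :
    Q (czero θ h (range h ×ˢ Js)) ≤ 5 * θ ^ 2 * (((cutL E h a).card ^ 2 +
      (meetR E B m a Rel).card ^ 2) * C₂ + (Rel.card : ℝ) ^ 2 * τ₁ +
      ((cutL E h a).card ^ 2 + 2 * (Rel.card : ℝ) ^ 2 + 5) * τ) := by
  classical
  set cu := cutL E h a with hcu
  set me := meetR E B m a Rel with hme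
  have hmeR : me ⊆ Rel := by
    rw [hme]
    unfold meetR
    exact Finset.filter_subset _ _
  have hpe : paired m (default : J) ∅ = ∅ := by
    unfold paired
    simp
  have key := one_term (Q := Q) (q := fun _ => 0) hLF.conv hτ hτ₁ hC₂ hθ (h := h) (pr := ∅)
    (non := range h \ cu) (rest := cu) (Sl := range h ×ˢ Js) (bad := me)
    (gd := Rel \ me) (irr := (range h ×ˢ Js) \ Rel) (m := m)
    (j := default) hm0 ?_ (disjoint_empty_left _) sdiff_disjoint (by simp) (by simp) ?_ ?_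
    ?_ ?_ ?_ ?_ (by simp) ?_ ?_ ?_
  · refine key.trans ?_
    refine mul_le_mul_of_nonneg_left ?_ (by positivity)
    simp only [card_empty, Nat.cast_zero]
    have hc : ((Rel \ me).card : ℝ) ≤ Rel.card := by
      exact_mod_cast Finset.card_le_card sdiff_subset
    have hc2 : ((Rel \ me).card : ℝ) ^ 2 ≤ (Rel.card : ℝ) ^ 2 :=
      pow_le_pow_left₀ (Nat.cast_nonneg _) hc 2
    have hd : (me.card : ℝ) ≤ Rel.card := by
      exact_mod_cast Finset.card_le_card hmeR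
    have hd2 : (me.card : ℝ) ^ 2 ≤ (Rel.card : ℝ) ^ 2 :=
      pow_le_pow_left₀ (Nat.cast_nonneg _) hd 2
    have i1 := mul_le_mul_of_nonneg_right hc2 hτ₁
    have i2 := mul_le_mul_of_nonneg_right hc2 hτ
    have i3 := mul_le_mul_of_nonneg_right hd2 hτ
    nlinarith
  · ext k
    simp only [mem_union, mem_sdiff, notMem_empty, false_or]
    constructor
    · intro hk
      by_cases h' : k ∈ cu
      · exact Or.inr h'
      · exact Or.inl ⟨hk, h'⟩
    · rintro (hk | hk)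
      · exact hk.1
      · rw [hcu, mem_cutL] at hk
        exact mem_range.2 hk.1
  · rw [hpe]
    ext p
    simp only [mem_union, mem_sdiff, notMem_empty, false_or]
    constructor
    · intro hp
      by_cases h1 : p ∈ me
      · exact Or.inl h1
      · right
        by_cases h2 : p ∈ Rel
        · exact Or.inl ⟨h2, h1⟩
        · exact Or.inr ⟨hp, h2⟩
    · rintro (hp | hp | hp)
      · exact hRel (hmeR hp)
      · exact hRel hp.1
      · exact hp.1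
  · rw [hpe]
    exact disjoint_empty_left _
  · rw [Finset.disjoint_left]
    intro p hp hp'
    simp only [mem_union, mem_sdiff] at hp'
    rcases hp' with h' | h'
    · exact h'.2 hp
    · exact h'.2 (hmeR hp)
  · rw [Finset.disjoint_left]
    intro p hp hp'
    simp only [mem_sdiff] at hp hp'
    exact hp'.2 hp.1
  · intro c c' h1 h2
    refine hLF.irr c c' h1 fun p hp => h2 p ?_
    simp only [mem_sdiff, not_and, not_not]
    exact fun _ => hp
  · refine hLF.non _ fun k hk => ?_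
    rw [mem_sdiff, mem_range] at hk
    exact ⟨hk.1, fun hc => hk.2 (mem_cutL.2 ⟨hk.1, hc⟩)⟩
  · intro k hk
    rw [hcu, mem_cutL] at hk
    exact hLF.lnC k hk.1
  · intro p hp
    exact hLF.slC p (hmeR hp)
  · intro p hp
    rw [mem_sdiff] at hp
    refine hLF.good p hp.1 (Or.inr ?_)
    by_contra hcon
    apply hp.2
    rw [hme]
    unfold meetR
    simp only [mem_filter]
    exact ⟨hp.1, hcon⟩

/-- **SUM-A**, the sum over the local terms.  `Zin` are the inner cores. -/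
theorem sum_terms {ζ : Type*} [DecidableEq ζ] (Z Zin : Finset ζ) (hZ : Zin ⊆ Z)
    {Q : ζ → (Gn J → ℝ) → ℝ} {a : ζ → Finset V} {Rel : ζ → Finset (ℕ × J)} {τ τ₁ : ζ → ℝ}
    {C₂ θ k₁ k₂ k₃ : ℝ} [Inhabited J]
    (hLF : ∀ z ∈ Z, LF (Q z) E B m h (a z) (Rel z) (τ z) (τ₁ z) C₂)
    (hτ : ∀ z ∈ Z, 0 ≤ τ z) (hτ₁ : ∀ z ∈ Z, 0 ≤ τ₁ z) (hC₂ : 0 ≤ C₂) (hθ : 0 ≤ θ) (hm0 : m ≠ 0)
    {Js : Finset J} (hB : ∀ i ∈ Js, ∀ j ∈ Js, i ≠ j → Disjoint (B i) (B j))
    (hRel : ∀ z ∈ Z, Rel z ⊆ range h ×ˢ Js)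
    (jt : ζ → J) (hj : ∀ z ∈ Zin, jt z ∈ Js) (ha : ∀ z ∈ Zin, a z ⊆ B (jt z))
    (hlad : ∀ z ∈ Zin, ∀ k < h + m, Cuts E (a z) k → m ≤ k ∧ k < h)
    (hdis : ∀ z ∈ Zin, ∀ k ∈ cutL E h (a z), ∀ k' ∈ cutL E h (a z), k + m ≠ k')
    {q : ζ → ℕ → ℝ} (hq0 : ∀ z ∈ Z, ∀ k ∈ cutL E h (a z), 0 ≤ q z k)
    (hq : ∀ z ∈ Zin, ∀ k ∈ cutL E h (a z), Q z (healed m (jt z) k) ≤ q z k)
    (hk₁ : ∀ z ∈ Z, ((cutL E h (a z)).card : ℝ) ≤ k₁)
    (hk₂ : ∀ z ∈ Z, ((meetR E B m (a z) (Rel z)).card : ℝ) ≤ k₂)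
    (hk₃ : ∀ z ∈ Z, ((Rel z).card : ℝ) ≤ k₃) :
    ∑ z ∈ Z, Q z (czero θ h (range h ×ˢ Js)) ≤ 5 * θ ^ 2 *
      (k₁ * ∑ z ∈ Z, ∑ k ∈ cutL E h (a z), q z k + (Z \ Zin).card * ((k₁ ^ 2 + k₂ ^ 2) * C₂) +
        k₃ ^ 2 * ∑ z ∈ Z, τ₁ z + (k₁ ^ 2 + 2 * k₃ ^ 2 + 5) * ∑ z ∈ Z, τ z) := by
  classical
  have hpt : ∀ z ∈ Z, Q z (czero θ h (range h ×ˢ Js)) ≤ 5 * θ ^ 2 *
      (k₁ * ∑ k ∈ cutL E h (a z), q z k + (if z ∈ Z \ Zin then (k₁ ^ 2 + k₂ ^ 2) * C₂ else 0) +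
        k₃ ^ 2 * τ₁ z + (k₁ ^ 2 + 2 * k₃ ^ 2 + 5) * τ z) := by
    intro z hz
    have c1 : (0 : ℝ) ≤ ((cutL E h (a z)).card : ℝ) := Nat.cast_nonneg _
    have c2 : (0 : ℝ) ≤ ((meetR E B m (a z) (Rel z)).card : ℝ) := Nat.cast_nonneg _
    have c3 : (0 : ℝ) ≤ ((Rel z).card : ℝ) := Nat.cast_nonneg _
    have s1 : ((cutL E h (a z)).card : ℝ) ^ 2 ≤ k₁ ^ 2 := pow_le_pow_left₀ c1 (hk₁ z hz) 2
    have s2 : ((meetR E B m (a z) (Rel z)).card : ℝ) ^ 2 ≤ k₂ ^ 2 :=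
      pow_le_pow_left₀ c2 (hk₂ z hz) 2
    have s3 : ((Rel z).card : ℝ) ^ 2 ≤ k₃ ^ 2 := pow_le_pow_left₀ c3 (hk₃ z hz) 2
    have t1 := mul_le_mul_of_nonneg_right s3 (hτ₁ z hz)
    have t2 := mul_le_mul_of_nonneg_right s1 (hτ z hz)
    have t3 := mul_le_mul_of_nonneg_right s3 (hτ z hz)
    have q0 : 0 ≤ ∑ k ∈ cutL E h (a z), q z k := Finset.sum_nonneg fun k hk => hq0 z hz k hk
    have t4 := mul_le_mul_of_nonneg_right (hk₁ z hz) q0
    by_cases hin : z ∈ Zin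
    · have hnin : z ∉ Z \ Zin := fun h' => (mem_sdiff.1 h').2 hin
      rw [if_neg hnin]
      refine (term_inner (hLF z hz) (hτ z hz) (hτ₁ z hz) hC₂ hθ hm0 hB (hj z hin) (ha z hin)
        (hRel z hz) (hlad z hin) (hdis z hin) (hq z hin)).trans ?_
      refine mul_le_mul_of_nonneg_left ?_ (by positivity)
      nlinarith [mul_nonneg (sq_nonneg ((Rel z).card : ℝ)) (hτ z hz)]
    · have hnin : z ∈ Z \ Zin := mem_sdiff.2 ⟨hz, hin⟩
      rw [if_pos hnin]
      refine (term_edge (hLF z hz) (hτ z hz) (hτ₁ z hz) hC₂ hθ hm0 (hRel z hz)).trans ?_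
      refine mul_le_mul_of_nonneg_left ?_ (by positivity)
      have k10 : 0 ≤ k₁ := c1.trans (hk₁ z hz)
      have t5 := mul_le_mul_of_nonneg_right s1 hC₂
      have t6 := mul_le_mul_of_nonneg_right s2 hC₂
      have t7 : 0 ≤ k₁ * ∑ k ∈ cutL E h (a z), q z k := mul_nonneg k10 q0
      nlinarith
  refine (Finset.sum_le_sum hpt).trans (le_of_eq ?_)
  rw [← Finset.mul_sum, Finset.sum_add_distrib, Finset.sum_add_distrib, Finset.sum_add_distrib,
    ← Finset.mul_sum, ← Finset.mul_sum, ← Finset.mul_sum, Finset.sum_ite_mem,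
    Finset.inter_eq_right.2 sdiff_subset, Finset.sum_const, nsmul_eq_mul]

end geom

end Vale.Agent.P356.GA.Sum
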