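import Vale.Agent.P356.GA.Defs341
import Vale.Agent.P356.GA.Crude621
import Vale.Agent.P356.GA.SumA770
import Vale.Agent.P356.GA.RefFam677
import Vale.Agent.P356.GA.SumA770
import Vale.Agent.P356.PH.Act

/-!
# Common objects of the energy theorem on the two-layer lattice

`V = Site L ⊕ Site L`. Generators: the lines `g.R k` (`k < g.n`) and the windows
`g.Wd (k, j) = (R k \ R (k + mp)) ∩ B j`, `j` a tile of one of the layers (index type of
helper770's SumA). The operator of a window is `- K (Wd (k, j))`, `K` a family of noisy modular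
Hamiltonians on the two-layer lattice; the coefficients are `(θ, -θ/2)`.
-/

set_option linter.all false

namespace Vale.Agent.P356.GA

open Matrix Finset Vale.Agent.P356 Vale.Agent.P356.SV Vale.Agent.P356.Path Vale.Agent.P356.NA
open Vale.Agent.P356.SA Vale.Agent.P356.PH
open scoped BigOperators ComplexOrder Kronecker Matrix.Norms.L2Operator

/-- the two-layer lattice -/
abbrev SS (L : ℕ) := Site L ⊕ Site L

variable {L q : ℕ}

/-- first layer -/
def inL (A : Finset (Site L)) : Finset (SS L) := A.map ⟨Sum.inl, Sum.inl_injective⟩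

/-- second layer -/
def inR (A : Finset (Site L)) : Finset (SS L) := A.map ⟨Sum.inr, Sum.inr_injective⟩

theorem mem_inL_inl {A : Finset (Site L)} {x : Site L} : (Sum.inl x : SS L) ∈ inL A ↔ x ∈ A := by
  simp [inL]

theorem mem_inL_inr {A : Finset (Site L)} {x : Site L} : ¬ (Sum.inr x : SS L) ∈ inL A := by
  simp [inL]

theorem mem_inR_inr {A : Finset (Site L)} {x : Site L} : (Sum.inr x : SS L) ∈ inR A ↔ x ∈ A := by
  simp [inR]

theorem mem_inR_inl {A : Finset (Site L)} {x : Site L} : ¬ (Sum.inl x : SS L) ∈ inR A := by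
  simp [inR]

/-- the layer of a site of the two-layer lattice: the same set in that layer -/
def lay (v : SS L) (A : Site L → Finset (Site L)) : Finset (SS L) :=
  Sum.elim (fun z => inL (A z)) (fun z => inR (A z)) v

theorem tileB_disj {M : ℕ} {i j : Site L} (h : i ≠ j) : Disjoint (tileB L M i) (tileB L M j) := by
  rw [Finset.disjoint_left]
  intro x hx hy
  simp only [tileB, mem_filter, mem_univ, true_and] at hx hy
  apply h
  ext
  · rw [← hx.1, hy.1]
  · rw [← hx.2, hy.2]

namespace Gd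

/-- the tiles of both layers -/
def tB (g : Gd L) (j : SS L) : Finset (SS L) := lay j (tileB L g.tl)

theorem tB_disj (g : Gd L) {i j : SS L} (h : i ≠ j) : Disjoint (g.tB i) (g.tB j) := by
  rw [Finset.disjoint_left]
  rintro (x | x) hx hy <;> rcases i with i | i <;> rcases j with j | j <;>
    simp only [tB, lay, Sum.elim_inl, Sum.elim_inr, mem_inL_inl, mem_inR_inr, mem_inL_inr,
      mem_inR_inl] at hx hy
  · exact Finset.disjoint_left.1 (tileB_disj (fun e => h (by rw [e]))) hx hy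
  · exact Finset.disjoint_left.1 (tileB_disj (fun e => h (by rw [e]))) hx hy

/-- the windows -/
noncomputable def Wd (g : Gd L) (p : ℕ × SS L) : Finset (SS L) := Sum.slab g.R g.tB g.mp p

theorem Wd_sub (g : Gd L) (p : ℕ × SS L) : g.Wd p ⊆ g.tB p.2 := Finset.inter_subset_right

theorem mem_R_inl {g : Gd L} {k : ℕ} {x : Site L} :
    (Sum.inl x : SS L) ∈ g.R k ↔ g.t0 + k < g.T x := by
  simp [R]

theorem mem_R_inr {g : Gd L} {k : ℕ} {x : Site L} :
    (Sum.inr x : SS L) ∈ g.R k ↔ g.T x ≤ g.t0 + g.N - k := by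
  simp [R]

theorem R_anti394 (g : Gd L) (j k : ℕ) (h : j ≤ k) : g.R k ⊆ g.R j := by
  have h' : (j : ℝ) ≤ k := by exact_mod_cast h
  rintro (x | x) hx
  · rw [mem_R_inl] at hx ⊢
    linarith
  · rw [mem_R_inr] at hx ⊢
    linarith

theorem Wd_inl (g : Gd L) (k : ℕ) (j : Site L) :
    g.Wd (k, Sum.inl j) = inL (g.s1 k ∩ tileB L g.tl j) := by
  ext (x | x)
  · rw [Wd, Sum.mem_slab, mem_inL_inl, mem_inter]
    simp only [tB, lay, Sum.elim_inl, mem_inL_inl, mem_R_inl, s1, slT, mem_filter, mem_univ,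
      true_and, not_lt]
    push_cast
    rw [← add_assoc]
  · rw [Wd, Sum.mem_slab]
    simp only [tB, lay, Sum.elim_inl]
    exact ⟨fun h => absurd h.2 mem_inL_inr, fun h => absurd h mem_inL_inr⟩

theorem Wd_inr (g : Gd L) (k : ℕ) (j : Site L) :
    g.Wd (k, Sum.inr j) = inR (g.s2 k ∩ tileB L g.tl j) := by
  ext (x | x)
  · rw [Wd, Sum.mem_slab]
    simp only [tB, lay, Sum.elim_inr]
    exact ⟨fun h => absurd h.2 mem_inR_inl, fun h => absurd h mem_inR_inl⟩
  · rw [Wd, Sum.mem_slab, mem_inR_inr, mem_inter]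
    simp only [tB, lay, Sum.elim_inr, mem_inR_inr, mem_R_inr, s2, slT, mem_filter, mem_univ,
      true_and, not_le]
    push_cast
    rw [← sub_sub]
    tauto

/-- the window operators -/
noncomputable def KV (g : Gd L) (K : Finset (SS L) → Op (SS L) q) (p : Fin g.n × SS L) :
    Op (SS L) q := -K (g.Wd (p.1, p.2))

theorem KV_acts (g : Gd L) {K : Finset (SS L) → Op (SS L) q} (hK : ∀ b, ActsOn b (K b))
    (p : Fin g.n × SS L) : ActsOn (g.tB p.2) (g.KV K p) := by
  exact act_neg (act_mono (g.Wd_sub (p.1, p.2)) (hK (g.Wd (p.1, p.2))))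

theorem KV_herm (g : Gd L) {K : Finset (SS L) → Op (SS L) q} (hK : ∀ b, (K b).IsHermitian)
    (p : Fin g.n × SS L) : (g.KV K p).IsHermitian := (hK _).neg

/-- the generators of the flow, in the form of Glue980 and Crude621 -/
noncomputable abbrev GN (g : Gd L) (ψ : Conf (SS L) q → ℂ) (M : ℝ)
    (K : Finset (SS L) → Op (SS L) q) :
    ℕ → ((ℕ → ℝ) × (Fin g.n × SS L → ℝ)) →ₗ[ℝ] Op (SS L) q :=
  GenR g.R ψ M g.n (g.KV K)

/-- from helper770's coefficients to helper980's coefficients -/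
def toC (g : Gd L) : (Sum.Gn (SS L) → ℝ) →ₗ[ℝ] (ℕ → ℝ) × (Fin g.n × SS L → ℝ) where
  toFun c := (fun k => c (Sum.inl k), fun p => c (Sum.inr ((p.1 : ℕ), p.2)))
  map_add' _ _ := rfl
  map_smul' _ _ := rfl

/-- the second order form of the observable `P`, in helper770's coefficients -/
noncomputable def QV (g : Gd L) (ψ : Conf (SS L) q → ℂ) (M : ℝ)
    (K : Finset (SS L) → Op (SS L) q) (P : Op (SS L) q) (c : Sum.Gn (SS L) → ℝ) : ℝ :=
  QF ψ (g.GN ψ M K) (g.n + 1) P (g.toC c)

/-- the healing generator as a combination of the window operators -/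
theorem GamK_KV (g : Gd L) (θ : ℝ) {K : Finset (SS L) → Op (SS L) q}
    {Kt : Finset (Site L) → Op (Site L) q} (h1 : ∀ b, K (inL b) = cp1 (Kt b))
    (h2 : ∀ b, K (inR b) = cp2 (Kt b)) :
    GamK (g.KV K) (fun _ => -θ / 2) = g.Gm θ Kt := by
  have hs1 : (cp1 (g.Gm1 θ Kt) : Op (SS L) q) =
      ∑ k ∈ range g.n, ∑ j : Site L, ((θ / 2 : ℝ) : ℂ) • K (inL (g.s1 k ∩ tileB L g.tl j)) := by
    rw [Gm1, cp1_sum]
    refine Finset.sum_congr rfl fun k _ => ?_
    rw [cp1_sum]
    refine Finset.sum_congr rfl fun j _ => ?_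
    rw [cp1_smul, h1]
  have hs2 : (cp2 (g.Gm2 θ Kt) : Op (SS L) q) =
      ∑ k ∈ range g.n, ∑ j : Site L, ((θ / 2 : ℝ) : ℂ) • K (inR (g.s2 k ∩ tileB L g.tl j)) := by
    rw [Gm2, cp2_sum]
    refine Finset.sum_congr rfl fun k _ => ?_
    rw [cp2_sum]
    refine Finset.sum_congr rfl fun j _ => ?_
    rw [cp2_smul, h2]
  rw [Gm, hs1, hs2, GamK, Fintype.sum_prod_type, Finset.sum_range, Finset.sum_range,
    ← Finset.sum_add_distrib]
  refine Finset.sum_congr rfl fun k _ => ?_
  rw [Fintype.sum_sum_type]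
  congr 1
  · refine Finset.sum_congr rfl fun j _ => ?_
    rw [KV, ← Wd_inl]
    ext s t
    simp only [Matrix.smul_apply, Matrix.neg_apply, Complex.real_smul, smul_eq_mul]
    push_cast
    ring
  · refine Finset.sum_congr rfl fun j _ => ?_
    rw [KV, ← Wd_inr]
    ext s t
    simp only [Matrix.smul_apply, Matrix.neg_apply, Complex.real_smul, smul_eq_mul]
    push_cast
    ring

/-- the full coefficient vector -/
theorem toC_czero (g : Gd L) (θ : ℝ) :
    g.toC (Sum.czero θ g.n (range g.n ×ˢ (univ : Finset (SS L)))) =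
      (fun k => if k < g.n then θ else 0, fun _ => -θ / 2) := by
  have h1 : ∀ k : ℕ, Sum.czero θ g.n (range g.n ×ˢ (univ : Finset (SS L))) (Sum.inl k) =
      if k < g.n then θ else 0 := by
    intro k
    rw [Sum.czero]
    simp only [Pi.smul_apply, Pi.sub_apply, smul_eq_mul]
    rw [Sum.sum_ln_inl, Sum.sum_sl_inl]
    by_cases hk : k < g.n
    · simp [hk]
    · simp [hk]
  have h2 : ∀ p : Fin g.n × SS L, Sum.czero θ g.n (range g.n ×ˢ (univ : Finset (SS L)))
      (Sum.inr ((p.1 : ℕ), p.2)) = -θ / 2 := by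
    intro p
    rw [Sum.czero]
    simp only [Pi.smul_apply, Pi.sub_apply, smul_eq_mul]
    rw [Sum.sum_ln_inr, Sum.sum_sl_inr, if_pos]
    · ring
    · simp
  exact Prod.ext (funext h1) (funext h2)

/-- the form at the coefficients of the tilted states -/
theorem QV_czero (g : Gd L) (ψ : Conf (SS L) q → ℂ) (M : ℝ) (K : Finset (SS L) → Op (SS L) q)
    (P : Op (SS L) q) (θ : ℝ) :
    g.QV ψ M K P (Sum.czero θ g.n (range g.n ×ˢ (univ : Finset (SS L)))) =
      QF ψ (g.GN ψ M K) (g.n + 1) P (fun _ => θ, fun _ => -θ / 2) := by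
  rw [QV, toC_czero]
  refine QF_congr fun ζ => ?_
  rw [fQ_GenR, fQ_GenR]
  refine FT_region_congr g.R_anti394 ψ _ g.n (A := univ) (X := _) ?_ ?_
  · exact ⟨fun s t => (dr (GamK (g.KV K) (fun _ => -θ / 2)) P ζ) (fun x => s ⟨x, mem_univ x⟩)
      (fun x => t ⟨x, mem_univ x⟩), fun s t => ⟨fun _ => rfl, fun h => by
        obtain ⟨x, hx, _⟩ := h
        exact absurd (mem_univ x) hx⟩⟩
  · intro k hk
    have : k < g.n := by
      classical
      exact mem_range.1 (Finset.filter_subset _ _ hk)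
    simp only [this, if_true]

end Gd

end Vale.Agent.P356.GA
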