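import Vale.Agent.P356.GA.Level795a
import Vale.Agent.P356.NA.Defs

/-!
# GA, block LEVEL, part 2 (helper795): tents on the square lattice

Balls in the sup distance, tents with centres on the grid of spacing `s`, tiles of side `ρ`.
-/

set_option linter.all false

namespace Vale.Agent.P356.GA.Level

open Finset Vale.Agent.P356 Vale.Agent.P356.SV Vale.Agent.P356.SA Vale.Agent.P356.GA
open Vale.Agent.P356.GA.Notch
open scoped BigOperators

variable {L : ℕ}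

/-! ### Balls -/

/-- the ball of radius `r` in the sup distance -/
def bal (z : Site L) (r : ℕ) : Finset (Site L) :=
  univ.filter fun x => (x.1 : ℕ) ≤ z.1 + r ∧ (z.1 : ℕ) ≤ x.1 + r ∧
    (x.2 : ℕ) ≤ z.2 + r ∧ (z.2 : ℕ) ≤ x.2 + r

theorem mem_bal {z x : Site L} {r : ℕ} : x ∈ bal z r ↔ (x.1 : ℕ) ≤ z.1 + r ∧ (z.1 : ℕ) ≤ x.1 + r ∧
    (x.2 : ℕ) ≤ z.2 + r ∧ (z.2 : ℕ) ≤ x.2 + r := by
  simp [bal]

theorem mem_rect {x0 x1 y0 y1 : ℕ} {x : Site L} : x ∈ rect L x0 x1 y0 y1 ↔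
    x0 ≤ (x.1 : ℕ) ∧ (x.1 : ℕ) < x1 ∧ y0 ≤ (x.2 : ℕ) ∧ (x.2 : ℕ) < y1 := by
  simp [rect]

theorem bal_eq_rect (z : Site L) (r : ℕ) :
    bal z r = rect L (z.1 - r) (z.1 + r + 1) (z.2 - r) (z.2 + r + 1) := by
  ext x
  rw [mem_bal, mem_rect]
  omega

theorem bal_comm {z x : Site L} {r : ℕ} : x ∈ bal z r ↔ z ∈ bal x r := by
  rw [mem_bal, mem_bal]
  omega

theorem self_mem_bal (z : Site L) (r : ℕ) : z ∈ bal z r := by
  rw [mem_bal]
  omega

theorem bal_mono (z : Site L) {r r' : ℕ} (h : r ≤ r') : bal z r ⊆ bal z r' := by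
  intro x hx
  rw [mem_bal] at hx ⊢
  omega

theorem bal_trans {x y z : Site L} {r r' : ℕ} (h : y ∈ bal x r) (h' : z ∈ bal y r') :
    z ∈ bal x (r + r') := by
  rw [mem_bal] at *
  omega

theorem dist1_le_of_bal {x y z : Site L} {r : ℕ} (hx : x ∈ bal z r) (hy : y ∈ bal z r) :
    dist1 x y ≤ 4 * r := by
  rw [mem_bal] at hx hy
  unfold dist1
  omega

theorem dist1_self_le {x z : Site L} {r : ℕ} (hx : x ∈ bal z r) : dist1 x z ≤ 2 * r := by
  rw [mem_bal] at hx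
  unfold dist1
  omega

theorem mem_bal_of_dist1 {x z : Site L} {r : ℕ} (h : dist1 x z ≤ r) : x ∈ bal z r := by
  unfold dist1 at h
  rw [mem_bal]
  omega

theorem card_bal (z : Site L) (r : ℕ) : (bal z r).card ≤ (2 * r + 1) ^ 2 := by
  classical
  have h1 : (bal z r).card ≤ (Finset.Icc (z.1 - r) (z.1 + r) ×ˢ Finset.Icc ((z.2 : ℕ) - r) (z.2 + r)).card := by
    refine Finset.card_le_card_of_injOn (fun p => ((p.1 : ℕ), (p.2 : ℕ))) ?_ ?_
    · intro p hp
      rw [Finset.mem_coe, mem_bal] at hp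
      rw [Finset.mem_coe, Finset.mem_product, Finset.mem_Icc, Finset.mem_Icc]
      show ((z.1 : ℕ) - r ≤ (p.1 : ℕ) ∧ (p.1 : ℕ) ≤ z.1 + r) ∧
        ((z.2 : ℕ) - r ≤ (p.2 : ℕ) ∧ (p.2 : ℕ) ≤ z.2 + r)
      omega
    · intro p _ p' _ h
      have h1 := congrArg Prod.fst h
      have h2 := congrArg Prod.snd h
      exact Prod.ext (Fin.ext h1) (Fin.ext h2)
  refine h1.trans ?_
  rw [Finset.card_product, Nat.card_Icc, Nat.card_Icc, sq]
  exact Nat.mul_le_mul (by omega) (by omega)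

/-! ### Tents -/

/-- the tent with centre `(s p, s q)` -/
noncomputable def tent (s : ℕ) (b : ℕ × ℕ) (x : Site L) : ℝ :=
  max 0 ((s : ℝ) - max |(x.1 : ℝ) - s * b.1| |(x.2 : ℝ) - s * b.2|) / 8

theorem tent_nonneg (s : ℕ) (b : ℕ × ℕ) (x : Site L) : 0 ≤ tent s b x := by
  unfold tent
  positivity

theorem tent_le (s : ℕ) (b : ℕ × ℕ) (x : Site L) : tent s b x ≤ s / 8 := by
  unfold tent
  have h : max 0 ((s : ℝ) - max |(x.1 : ℝ) - s * b.1| |(x.2 : ℝ) - s * b.2|) ≤ s := by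
    refine max_le (Nat.cast_nonneg _) ?_
    have : 0 ≤ max |(x.1 : ℝ) - s * b.1| |(x.2 : ℝ) - s * b.2| :=
      (abs_nonneg _).trans (le_max_left _ _)
    linarith
  linarith

theorem dist1_cast (x y : Site L) :
    (dist1 x y : ℝ) = |(x.1 : ℝ) - y.1| + |(x.2 : ℝ) - y.2| := by
  unfold dist1
  push_cast
  rw [Nat.cast_natAbs, Nat.cast_natAbs]
  push_cast
  rfl

theorem tent_sub_le (s : ℕ) (b : ℕ × ℕ) (x y : Site L) :
    tent s b x - tent s b y ≤ dist1 x y / 8 := by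
  have h1 : |(y.1 : ℝ) - s * b.1| ≤ |(x.1 : ℝ) - s * b.1| + |(x.1 : ℝ) - y.1| := by
    have : (y.1 : ℝ) - s * b.1 = ((x.1 : ℝ) - s * b.1) - ((x.1 : ℝ) - y.1) := by ring
    rw [this]
    exact abs_sub _ _
  have h2 : |(y.2 : ℝ) - s * b.2| ≤ |(x.2 : ℝ) - s * b.2| + |(x.2 : ℝ) - y.2| := by
    have : (y.2 : ℝ) - s * b.2 = ((x.2 : ℝ) - s * b.2) - ((x.2 : ℝ) - y.2) := by ring
    rw [this]
    exact abs_sub _ _
  have h3 := dist1_cast x y
  have h4 := abs_nonneg ((x.1 : ℝ) - y.1)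
  have h5 := abs_nonneg ((x.2 : ℝ) - y.2)
  have h6 : max |(y.1 : ℝ) - s * b.1| |(y.2 : ℝ) - s * b.2| ≤
      max |(x.1 : ℝ) - s * b.1| |(x.2 : ℝ) - s * b.2| + dist1 x y := by
    refine max_le ?_ ?_
    · have := le_max_left |(x.1 : ℝ) - s * b.1| |(x.2 : ℝ) - s * b.2|
      linarith
    · have := le_max_right |(x.1 : ℝ) - s * b.1| |(x.2 : ℝ) - s * b.2|
      linarith
  unfold tent
  have h7 : max 0 ((s : ℝ) - max |(x.1 : ℝ) - s * b.1| |(x.2 : ℝ) - s * b.2|) ≤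
      max 0 ((s : ℝ) - max |(y.1 : ℝ) - s * b.1| |(y.2 : ℝ) - s * b.2|) + dist1 x y := by
    refine max_le ?_ ?_
    · have := le_max_left 0 ((s : ℝ) - max |(y.1 : ℝ) - s * b.1| |(y.2 : ℝ) - s * b.2|)
      have h8 : (0 : ℝ) ≤ dist1 x y := Nat.cast_nonneg _
      linarith
    · have := le_max_right 0 ((s : ℝ) - max |(y.1 : ℝ) - s * b.1| |(y.2 : ℝ) - s * b.2|)
      linarith
  linarith

theorem dist1_symm (x y : Site L) : dist1 x y = dist1 y x := by
  unfold dist1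
  omega

theorem abs_tent_sub_le (s : ℕ) (b : ℕ × ℕ) (x y : Site L) :
    |tent s b x - tent s b y| ≤ dist1 x y / 8 := by
  rw [abs_le]
  have h1 := tent_sub_le s b x y
  have h2 := tent_sub_le s b y x
  rw [dist1_symm y x] at h2
  constructor <;> linarith

/-- the support of a tent -/
theorem tent_pos {s : ℕ} {b : ℕ × ℕ} {x : Site L} (h : 0 < tent s b x) :
    |(x.1 : ℝ) - s * b.1| < s ∧ |(x.2 : ℝ) - s * b.2| < s := by
  unfold tent at h
  have h1 : 0 < max 0 ((s : ℝ) - max |(x.1 : ℝ) - s * b.1| |(x.2 : ℝ) - s * b.2|) := by linarith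
  rcases lt_max_iff.1 h1 with h2 | h2
  · exact absurd h2 (lt_irrefl _)
  · have h3 := le_max_left |(x.1 : ℝ) - s * b.1| |(x.2 : ℝ) - s * b.2|
    have h4 := le_max_right |(x.1 : ℝ) - s * b.1| |(x.2 : ℝ) - s * b.2|
    constructor <;> linarith

/-- two grid points per coordinate -/
theorem grid_two {s p x : ℕ} (hs : 0 < s) (h : |(x : ℝ) - s * p| < s) : p = x / s ∨ p = x / s + 1 := by
  rw [abs_lt] at h
  have h1 : x < s * p + s := by
    have : (x : ℝ) < s * p + s := by linarith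
    exact_mod_cast this
  have h2 : s * p < x + s := by
    have : (s : ℝ) * p < x + s := by linarith
    exact_mod_cast this
  have h3 := Nat.div_add_mod x s
  have h4 := Nat.mod_lt x hs
  have h5 : p ≤ x / s + 1 := by
    by_contra hc
    push Not at hc
    have h6 : s * (x / s + 2) ≤ s * p := Nat.mul_le_mul_left s hc
    have h7 : s * (x / s + 2) = s * (x / s) + s + s := by ring
    omega
  have h6 : x / s ≤ p := by
    by_contra hc
    push Not at hc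
    have h7 : s * (p + 1) ≤ s * (x / s) := Nat.mul_le_mul_left s hc
    have h8 : s * (p + 1) = s * p + s := by ring
    omega
  omega

/-- index set of the tents -/
abbrev Bt (L : ℕ) := Fin (L + 2) × Fin (L + 2)

/-- the tent as a function of the index -/
noncomputable def tn (L s : ℕ) (b : Bt L) (x : Site L) : ℝ := tent s (b.1, b.2) x

/-- the tents which do not vanish at `x` -/
noncomputable def act (s : ℕ) (x : Site L) : Finset (Bt L) := univ.filter fun b => 0 < tn L s b x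

theorem card_act {s : ℕ} (hs : 0 < s) (x : Site L) : (act s x).card ≤ 4 := by
  classical
  have h1 : (act s x).card ≤ (({(x.1 : ℕ) / s, (x.1 : ℕ) / s + 1} : Finset ℕ) ×ˢ
      ({(x.2 : ℕ) / s, (x.2 : ℕ) / s + 1} : Finset ℕ)).card := by
    refine Finset.card_le_card_of_injOn (fun b => ((b.1 : ℕ), (b.2 : ℕ))) ?_ ?_
    · intro b hb
      rw [Finset.mem_coe, act, mem_filter] at hb
      obtain ⟨h1, h2⟩ := tent_pos hb.2
      rw [Finset.mem_coe, Finset.mem_product]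
      simp only [mem_insert, mem_singleton]
      exact ⟨grid_two hs h1, grid_two hs h2⟩
    · intro b _ b' _ h
      have h1 := congrArg Prod.fst h
      have h2 := congrArg Prod.snd h
      exact Prod.ext (Fin.ext h1) (Fin.ext h2)
  refine h1.trans ?_
  rw [Finset.card_product]
  exact Nat.mul_le_mul (Finset.card_le_two) (Finset.card_le_two)

theorem tn_nonneg (s : ℕ) (b : Bt L) (x : Site L) : 0 ≤ tn L s b x := tent_nonneg _ _ _

theorem tn_zero {s : ℕ} {b : Bt L} {x : Site L} (h : b ∉ act s x) : tn L s b x = 0 := by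
  rw [act, mem_filter, not_and] at h
  exact le_antisymm (not_lt.1 (h (mem_univ b))) (tn_nonneg s b x)

theorem noise_le {s : ℕ} (hs : 0 < s) {v : Bt L → ℝ} (hv : v ∈ cube (Bt L)) (x : Site L) :
    0 ≤ ∑ b, v b * tn L s b x ∧ ∑ b, v b * tn L s b x ≤ s / 2 := by
  constructor
  · exact Finset.sum_nonneg fun b _ => mul_nonneg (hv b (Set.mem_univ _)).1 (tn_nonneg s b x)
  · rw [← Finset.sum_subset (Finset.subset_univ (act s x)) fun b _ hb => by
      rw [tn_zero hb, mul_zero]]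
    calc ∑ b ∈ act s x, v b * tn L s b x ≤ ∑ b ∈ act s x, (s : ℝ) / 8 := by
          refine Finset.sum_le_sum fun b _ => ?_
          have h1 := (hv b (Set.mem_univ _)).2
          have h2 := (hv b (Set.mem_univ _)).1
          have h3 := tn_nonneg s b x
          have h4 : tn L s b x ≤ s / 8 := tent_le _ _ _
          nlinarith
      _ = (act s x).card * ((s : ℝ) / 8) := by rw [Finset.sum_const, nsmul_eq_mul]
      _ ≤ 4 * ((s : ℝ) / 8) := by
          refine mul_le_mul_of_nonneg_right ?_ (by positivity)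
          exact_mod_cast card_act hs x
      _ = s / 2 := by ring

theorem noise_lip {s : ℕ} (hs : 0 < s) {v : Bt L → ℝ} (hv : v ∈ cube (Bt L)) (x y : Site L) :
    |∑ b, v b * tn L s b x - ∑ b, v b * tn L s b y| ≤ dist1 x y := by
  classical
  rw [← Finset.sum_sub_distrib]
  have h1 : ∑ b, (v b * tn L s b x - v b * tn L s b y) =
      ∑ b ∈ act s x ∪ act s y, (v b * tn L s b x - v b * tn L s b y) := by
    symm
    refine Finset.sum_subset (Finset.subset_univ _) fun b _ hb => ?_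
    rw [mem_union, not_or] at hb
    rw [tn_zero hb.1, tn_zero hb.2]
    ring
  rw [h1]
  calc |∑ b ∈ act s x ∪ act s y, (v b * tn L s b x - v b * tn L s b y)| ≤
      ∑ b ∈ act s x ∪ act s y, |v b * tn L s b x - v b * tn L s b y| :=
        Finset.abs_sum_le_sum_abs _ _
    _ ≤ ∑ b ∈ act s x ∪ act s y, (dist1 x y : ℝ) / 8 := by
        refine Finset.sum_le_sum fun b _ => ?_
        rw [← mul_sub, abs_mul]
        have h2 : |v b| ≤ 1 := by
          rw [abs_of_nonneg (hv b (Set.mem_univ _)).1]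
          exact (hv b (Set.mem_univ _)).2
        have h3 : |tn L s b x - tn L s b y| ≤ dist1 x y / 8 := abs_tent_sub_le _ _ _ _
        have h4 := abs_nonneg (tn L s b x - tn L s b y)
        calc |v b| * |tn L s b x - tn L s b y| ≤ 1 * |tn L s b x - tn L s b y| :=
              mul_le_mul_of_nonneg_right h2 h4
          _ ≤ dist1 x y / 8 := by rw [one_mul]; exact h3
    _ = (act s x ∪ act s y).card * ((dist1 x y : ℝ) / 8) := by
        rw [Finset.sum_const, nsmul_eq_mul]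
    _ ≤ 8 * ((dist1 x y : ℝ) / 8) := by
        refine mul_le_mul_of_nonneg_right ?_ (by positivity)
        have h2 := Finset.card_union_le (act s x) (act s y)
        have h3 := card_act hs x
        have h4 := card_act hs y
        have h5 : (act s x ∪ act s y).card ≤ 8 := by omega
        exact_mod_cast h5
    _ = dist1 x y := by ring

theorem near_lt {s x : ℕ} (hx : x < L) : (x + s / 2) / s < L + 2 := by
  rcases Nat.eq_zero_or_pos s with h | h
  · subst h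
    simp
  · have h1 : (x + s / 2) / s < x + 2 := by
      refine Nat.div_lt_of_lt_mul ?_
      have h2 : x ≤ s * x := Nat.le_mul_of_pos_left _ h
      have h3 : s * (x + 2) = s * x + 2 * s := by ring
      omega
    omega

/-- the nearest centre -/
def near (s : ℕ) (z : Site L) : Bt L :=
  (⟨((z.1 : ℕ) + s / 2) / s, near_lt z.1.isLt⟩, ⟨((z.2 : ℕ) + s / 2) / s, near_lt z.2.isLt⟩)

theorem near_one {s x : ℕ} (hs : 0 < s) : |(x : ℝ) - s * ((x + s / 2) / s : ℕ)| ≤ s / 2 := by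
  have h1 := Nat.div_add_mod (x + s / 2) s
  have h2 := Nat.mod_lt (x + s / 2) hs
  set k := (x + s / 2) / s with hk
  have h3 : (s : ℝ) / 2 - 1 / 2 ≤ (s / 2 : ℕ) ∧ ((s / 2 : ℕ) : ℝ) ≤ s / 2 := by
    constructor
    · have : s ≤ 2 * (s / 2) + 1 := by omega
      have : (s : ℝ) ≤ 2 * (s / 2 : ℕ) + 1 := by exact_mod_cast this
      linarith
    · have : 2 * (s / 2) ≤ s := by omega
      have : 2 * ((s / 2 : ℕ) : ℝ) ≤ s := by exact_mod_cast this
      linarith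
  have h4 : (s : ℝ) * k + ((x + s / 2) % s : ℕ) = x + (s / 2 : ℕ) := by exact_mod_cast h1
  have h5 : (((x + s / 2) % s : ℕ) : ℝ) + 1 ≤ s := by exact_mod_cast h2
  have h6 : (0 : ℝ) ≤ (((x + s / 2) % s : ℕ) : ℝ) := Nat.cast_nonneg _
  rw [abs_le]
  constructor
  · linarith [h3.2]
  · linarith [h3.1]

/-- the tent of the nearest centre is high on the core -/
theorem tn_core {s D : ℕ} (hs : 0 < s) (hD : 8 * D ≤ s) {z x : Site L} (hx : x ∈ bal z D) :
    (s : ℝ) / 32 ≤ tn L s (near s z) x := by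
  have h1 := near_one (x := (z.1 : ℕ)) hs
  have h2 := near_one (x := (z.2 : ℕ)) hs
  rw [mem_bal] at hx
  have hD' : 8 * (D : ℝ) ≤ s := by exact_mod_cast hD
  have h3 : |(x.1 : ℝ) - z.1| ≤ D := by
    rw [abs_le]
    have a1 : (x.1 : ℝ) ≤ z.1 + D := by exact_mod_cast hx.1
    have a2 : (z.1 : ℝ) ≤ x.1 + D := by exact_mod_cast hx.2.1
    constructor <;> linarith
  have h4 : |(x.2 : ℝ) - z.2| ≤ D := by
    rw [abs_le]
    have a1 : (x.2 : ℝ) ≤ z.2 + D := by exact_mod_cast hx.2.2.1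
    have a2 : (z.2 : ℝ) ≤ x.2 + D := by exact_mod_cast hx.2.2.2
    constructor <;> linarith
  have h5 : |(x.1 : ℝ) - s * ((near s z).1 : ℕ)| ≤ D + s / 2 := by
    have e : (x.1 : ℝ) - s * ((near s z).1 : ℕ) =
      ((x.1 : ℝ) - z.1) + ((z.1 : ℝ) - s * (((z.1 : ℕ) + s / 2) / s : ℕ)) := by
      show (x.1 : ℝ) - s * ((((z.1 : ℕ) + s / 2) / s : ℕ) : ℝ) = _
      ring
    rw [e]
    exact (abs_add_le _ _).trans (add_le_add h3 h1)
  have h6 : |(x.2 : ℝ) - s * ((near s z).2 : ℕ)| ≤ D + s / 2 := by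
    have e : (x.2 : ℝ) - s * ((near s z).2 : ℕ) =
      ((x.2 : ℝ) - z.2) + ((z.2 : ℝ) - s * (((z.2 : ℕ) + s / 2) / s : ℕ)) := by
      show (x.2 : ℝ) - s * ((((z.2 : ℕ) + s / 2) / s : ℕ) : ℝ) = _
      ring
    rw [e]
    exact (abs_add_le _ _).trans (add_le_add h4 h2)
  unfold tn tent
  have h7 := max_le h5 h6
  have h8 := le_max_right 0 ((s : ℝ) - max |(x.1 : ℝ) - s * ((near s z).1 : ℕ)|
    |(x.2 : ℝ) - s * ((near s z).2 : ℕ)|)
  have h9 : (s : ℝ) / 4 ≤ max 0 ((s : ℝ) - max |(x.1 : ℝ) - s * ((near s z).1 : ℕ)|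
    |(x.2 : ℝ) - s * ((near s z).2 : ℕ)|) := by
    refine le_trans ?_ h8
    have hs' : (0 : ℝ) < s := by exact_mod_cast hs
    linarith
  linarith

/-- the support of the tent of the nearest centre -/
theorem tn_supp {s : ℕ} (hs : 0 < s) {z x : Site L} (h : 0 < tn L s (near s z) x) :
    x ∈ bal z (2 * s) := by
  have h1 := near_one (x := (z.1 : ℕ)) hs
  have h2 := near_one (x := (z.2 : ℕ)) hs
  obtain ⟨h3, h4⟩ := tent_pos h
  have h3' : |(x.1 : ℝ) - s * ((((z.1 : ℕ) + s / 2) / s : ℕ) : ℝ)| < s := h3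
  have h4' : |(x.2 : ℝ) - s * ((((z.2 : ℕ) + s / 2) / s : ℕ) : ℝ)| < s := h4
  rw [abs_lt] at h3' h4'
  rw [abs_le] at h1 h2
  have hs' : (0 : ℝ) < s := by exact_mod_cast hs
  rw [mem_bal]
  refine ⟨?_, ?_, ?_, ?_⟩
  · have : (x.1 : ℝ) ≤ z.1 + 2 * s := by linarith
    exact_mod_cast this
  · have : (z.1 : ℝ) ≤ x.1 + 2 * s := by linarith
    exact_mod_cast this
  · have : (x.2 : ℝ) ≤ z.2 + 2 * s := by linarith
    exact_mod_cast this
  · have : (z.2 : ℝ) ≤ x.2 + 2 * s := by linarith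
    exact_mod_cast this

/-! ### Tiles -/

/-- the tile of side `ρ` with index `j` -/
def tile (L ρ : ℕ) (j : ℕ × ℕ) : Finset (Site L) :=
  univ.filter fun x => (x.1 : ℕ) / ρ = j.1 ∧ (x.2 : ℕ) / ρ = j.2

theorem mem_tile {ρ : ℕ} {j : ℕ × ℕ} {x : Site L} :
    x ∈ tile L ρ j ↔ (x.1 : ℕ) / ρ = j.1 ∧ (x.2 : ℕ) / ρ = j.2 := by
  simp [tile]

/-- the index of the tile of `x` -/
def tix (ρ : ℕ) (x : Site L) : ℕ × ℕ := ((x.1 : ℕ) / ρ, (x.2 : ℕ) / ρ)

theorem tile_rect {ρ : ℕ} (hρ : 0 < ρ) (j : ℕ × ℕ) :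
    tile L ρ j = rect L (j.1 * ρ) (j.1 * ρ + ρ) (j.2 * ρ) (j.2 * ρ + ρ) := by
  ext x
  rw [mem_tile, mem_rect, Nat.div_eq_iff hρ, Nat.div_eq_iff hρ]
  omega

theorem tile_disj (ρ : ℕ) {i j : ℕ × ℕ} (h : i ≠ j) : Disjoint (tile L ρ i) (tile L ρ j) := by
  rw [Finset.disjoint_left]
  intro x hx hx'
  rw [mem_tile] at hx hx'
  exact h (Prod.ext (hx.1.symm.trans hx'.1) (hx.2.symm.trans hx'.2))

theorem tile_bal {ρ : ℕ} (hρ : 0 < ρ) {x y : Site L} (h : y ∈ tile L ρ (tix ρ x)) : y ∈ bal x ρ := by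
  rw [mem_tile] at h
  have h1 : (y.1 : ℕ) / ρ = (x.1 : ℕ) / ρ := h.1
  have h2 : (y.2 : ℕ) / ρ = (x.2 : ℕ) / ρ := h.2
  have a1 := Nat.div_add_mod (y.1 : ℕ) ρ
  have a2 := Nat.div_add_mod (x.1 : ℕ) ρ
  have a3 := Nat.mod_lt (y.1 : ℕ) hρ
  have a4 := Nat.mod_lt (x.1 : ℕ) hρ
  have b1 := Nat.div_add_mod (y.2 : ℕ) ρ
  have b2 := Nat.div_add_mod (x.2 : ℕ) ρ
  have b3 := Nat.mod_lt (y.2 : ℕ) hρ
  have b4 := Nat.mod_lt (x.2 : ℕ) hρ
  rw [h1] at a1
  rw [h2] at b1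
  rw [mem_bal]
  omega

/-- number of tile indices of a box -/
theorem card_tix {ρ l s x0 x1 y0 y1 : ℕ} (hρ : 0 < ρ) (hs : s ≤ ρ) (hx : x1 ≤ x0 + l)
    (hy : y1 ≤ y0 + l) (U : Finset (Site L))
    (hU : ∀ x ∈ U, ∃ z ∈ rect L x0 x1 y0 y1, x ∈ bal z (2 * s)) :
    (U.image (tix ρ)).card ≤ (l / ρ + 7) ^ 2 := by
  classical
  have key : ∀ a b x z : ℕ, b ≤ a + l → a ≤ z → z < b → x ≤ z + 2 * s → z ≤ x + 2 * s →
      (a - 2 * s) / ρ ≤ x / ρ ∧ x / ρ ≤ (a - 2 * s) / ρ + (l / ρ + 6) := by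
    intro a b x z h1 h2 h3 h4 h5
    refine ⟨Nat.div_le_div_right (by omega), ?_⟩
    have h6 : x ≤ (a - 2 * s) + (l + 4 * s) := by omega
    have h7 := Nat.div_add_mod (a - 2 * s) ρ
    have h8 := Nat.mod_lt (a - 2 * s) hρ
    have h9 := Nat.div_add_mod l ρ
    have h10 := Nat.mod_lt l hρ
    have h11 : x ≤ ρ * ((a - 2 * s) / ρ + (l / ρ + 6)) + (ρ - 1) := by
      have e : ρ * ((a - 2 * s) / ρ + (l / ρ + 6)) = ρ * ((a - 2 * s) / ρ) + ρ * (l / ρ) + 6 * ρ := by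
        ring
      rw [e]
      omega
    rw [← Nat.lt_succ_iff, Nat.div_lt_iff_lt_mul hρ]
    have e2 : ((a - 2 * s) / ρ + (l / ρ + 6)).succ * ρ = ρ * ((a - 2 * s) / ρ + (l / ρ + 6)) + ρ := by
      rw [Nat.succ_mul, mul_comm]
    rw [e2]
    omega
  have h1 : U.image (tix ρ) ⊆ Finset.Icc ((x0 - 2 * s) / ρ) ((x0 - 2 * s) / ρ + (l / ρ + 6)) ×ˢ
      Finset.Icc ((y0 - 2 * s) / ρ) ((y0 - 2 * s) / ρ + (l / ρ + 6)) := by
    intro j hj
    obtain ⟨x, hx', rfl⟩ := mem_image.1 hj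
    obtain ⟨z, hz, hxz⟩ := hU x hx'
    rw [mem_rect] at hz
    rw [mem_bal] at hxz
    rw [mem_product, mem_Icc, mem_Icc]
    exact ⟨key x0 x1 x.1 z.1 hx hz.1 hz.2.1 hxz.1 hxz.2.1,
      key y0 y1 x.2 z.2 hy hz.2.2.1 hz.2.2.2 hxz.2.2.1 hxz.2.2.2⟩
  refine (Finset.card_le_card h1).trans ?_
  rw [Finset.card_product, Nat.card_Icc, Nat.card_Icc, sq]
  generalize l / ρ = m
  generalize (x0 - 2 * s) / ρ = u
  generalize (y0 - 2 * s) / ρ = w
  exact Nat.mul_le_mul (by omega) (by omega)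

end Vale.Agent.P356.GA.Level
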