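import Vale.Agent.P356.GA.Terms412
import Vale.Agent.P356.GA.EnDefs394
import Vale.Agent.P356.GA.DetSum841
import Vale.Agent.P356.GA.Level795b

/-!
# GA, block E6, in the common objects of the energy theorem (helper412)

`SS L = Site L ⊕ Site L`, generators `g.GN ψ M K`, coefficients `(θ, -θ/2)`.

* `inZone_Wd`: the windows lie between the first and the last level.
* `e6_main`: `⟨H₂⟩_ψ - E₂ = t² (1 + τ²) (Cm ∑_{v ∈ Nr} QF (M v) + Λ ∑_{v ∈ Z ⊔ Z} QF (dfo P v))` up to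
  third order.
* `e6_upper`, `e6_K`.
-/

set_option linter.all false

namespace Vale.Agent.P356.GA

open Matrix Finset Vale.Agent.P356 Vale.Agent.P356.SV Vale.Agent.P356.Path Vale.Agent.P356.NA
open Vale.Agent.P356.SA Vale.Agent.P356.PH
open scoped BigOperators ComplexOrder Kronecker Matrix.Norms.L2Operator

namespace E6

open Terms412 (cpb T6 Hp Nn near zone mem_zone InZone Rad E6D off_zone crs_far win_far fQ_far
  cpb_norm cpb_acts e6_form e6_crude e6_QF norm_le_one_psd)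
open Level (bal mem_bal dist1_self_le)

variable {L q R : ℕ} {J Λ : ℝ}

/-- the window regions -/
noncomputable def WB (g : Gd L) (p : Fin g.n × SS L) : Finset (SS L) := g.Wd (p.1, p.2)

theorem KV_acts' (g : Gd L) {K : Finset (SS L) → Op (SS L) q} (hK : ∀ b, ActsOn b (K b))
    (p : Fin g.n × SS L) : ActsOn (WB g p) (g.KV K p) := act_neg (hK _)

theorem inZone_Wd (g : Gd L) (h : g.n + g.mp ≤ g.N) : InZone g (WB g) := by
  rintro ⟨k, j⟩ v hv
  have hk : (k : ℕ) < g.n := k.2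
  have h1 : ((k : ℕ) : ℝ) + g.mp ≤ g.N := by exact_mod_cast (by omega : (k : ℕ) + g.mp ≤ g.N)
  have h2 : (0 : ℝ) ≤ ((k : ℕ) : ℝ) := Nat.cast_nonneg _
  rcases j with j | j
  · rw [WB, g.Wd_inl] at hv
    rcases v with x | x
    · rw [mem_inL_inl, mem_inter, g.mem_s1] at hv
      exact ⟨by show g.t0 < g.T x; linarith [hv.1.1], by show g.T x ≤ _; linarith [hv.1.2]⟩
    · exact absurd hv mem_inL_inr
  · rw [WB, g.Wd_inr] at hv
    rcases v with x | x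
    · exact absurd hv mem_inR_inl
    · rw [mem_inR_inr, mem_inter, g.mem_s2] at hv
      exact ⟨by show g.t0 < g.T x; linarith [hv.1.1], by show g.T x ≤ _; linarith [hv.1.2]⟩

theorem inL_eq (A : Finset (Site L)) : (inL A : Finset (SS L)) = A.disjSum ∅ := by
  ext (x | x)
  · rw [mem_inL_inl, Finset.inl_mem_disjSum]
  · exact ⟨fun h => absurd h mem_inL_inr, fun h => absurd (Finset.inr_mem_disjSum.1 h)
      (Finset.notMem_empty _)⟩

theorem inR_eq (A : Finset (Site L)) : (inR A : Finset (SS L)) = (∅ : Finset (Site L)).disjSum A := by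
  ext (x | x)
  · exact ⟨fun h => absurd h mem_inR_inl, fun h => absurd (Finset.inl_mem_disjSum.1 h)
      (Finset.notMem_empty _)⟩
  · rw [mem_inR_inr, Finset.inr_mem_disjSum]

/-- the site of a point of the two-layer lattice -/
def pj (v : SS L) : Site L := Sum.elim id id v

theorem lay_eq (v : SS L) (A : Site L → Finset (Site L)) :
    lay v A = Terms412.lay v.isRight (A (pj v)) := by
  rcases v with z | z
  · exact inL_eq _
  · exact inR_eq _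

/-- cores centred off the zone do not see the levels -/
theorem core_off {g : Gd L} (hT : ∀ x y, |g.T x - g.T y| ≤ 2 * dist1 x y) {z : Site L} {D : ℕ}
    (hz : z ∉ zone g (4 * D)) :
    (∀ y ∈ bal z D, g.T y < g.t0) ∨ (∀ y ∈ bal z D, g.t0 + g.N < g.T y) := by
  rw [mem_zone, not_and_or, not_le, not_le] at hz
  have hb : ∀ y ∈ bal z D, |g.T y - g.T z| ≤ 4 * D := by
    intro y hy
    refine (hT y z).trans ?_
    have : (dist1 y z : ℝ) ≤ 2 * D := by exact_mod_cast dist1_self_le hy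
    linarith
  rcases hz with h | h
  · left
    intro y hy
    have := (abs_le.1 (hb y hy)).2
    linarith
  · right
    intro y hy
    have := (abs_le.1 (hb y hy)).1
    linarith

/-- a core centred off the zone contributes nothing -/
theorem core_QF_zero {g : Gd L} (hT : ∀ x y, |g.T x - g.T y| ≤ 2 * dist1 x y)
    (hN : g.n + g.mp ≤ g.N) {K : Finset (SS L) → Op (SS L) q} (hK : ∀ b, ActsOn b (K b))
    (ψ : Conf (SS L) q → ℂ) (M : ℝ) (c : (ℕ → ℝ) × (Fin g.n × SS L → ℝ)) {v : SS L} {D : ℕ}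
    {X : Op (SS L) q} (hX : ActsOn (lay v (fun z => bal z D)) X) (hv : pj v ∉ zone g (4 * D)) :
    QF ψ (g.GN ψ M K) (g.n + 1) X c = 0 := by
  have ho := core_off hT hv
  rw [lay_eq] at hX
  exact QF_const fun z => fQ_far (fun j k hjk => g.R_anti394 j k hjk) M g.n (KV_acts' g hK) c hX
    (win_far (inZone_Wd g hN) ho) (crs_far (le_trans (Nat.le_add_right _ _) hN) ho) z

/-- the data of the energy theorem: the doubled Hamiltonian with detectors, its decomposition into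
strictly local terms `Mv v` (cores of radius `D`) and the radius `r` of the flows of operators on
balls of radius `rr` -/
structure E6E (g : Gd L) (R : ℕ) (J Λ Cm E : ℝ) (h : Finset (Site L) → Op (Site L) q)
    (P : Site L → Op (Site L) q) (Z : Finset (Site L)) (K : Finset (SS L) → Op (SS L) q)
    (Mv : SS L → Op (SS L) q) (D rb rr : ℕ) (Nr : Finset (SS L)) : Prop where
  terms : PH.Terms L q R J h
  hJ : 0 ≤ J
  hΛ : 0 ≤ Λ
  hP : ∀ z, (P z).PosSemidef ∧ (1 - P z).PosSemidef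
  hPa : ∀ z ∈ Z, ActsOn (ball z rb) (P z)
  hT : ∀ x y, |g.T x - g.T y| ≤ 2 * dist1 x y
  hN : g.n + g.mp ≤ g.N
  herm : ∀ b, (K b).IsHermitian
  acts : ∀ b, ActsOn b (K b)
  hR : R ≤ rr
  hrb : rb ≤ rr
  hM : ∀ v, ActsOn (lay v (fun z => bal z D)) (Mv v)
  hsum : (Cm : ℂ) • ∑ v, Mv v = cp1 (∑ X, h X) + cp2 (∑ X, h X) -
    (((2 * E : ℝ)) : ℂ) • (1 : Op (SS L) q)
  hNr : ∀ v, pj v ∈ zone g (4 * D) → v ∈ Nr

variable {g : Gd L} {Cm E : ℝ} {h : Finset (Site L) → Op (Site L) q} {P : Site L → Op (Site L) q}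
  {Z : Finset (Site L)} {K : Finset (SS L) → Op (SS L) q} {Mv : SS L → Op (SS L) q}
  {D rb rr : ℕ} {Nr : Finset (SS L)}

theorem E6E.d (H : E6E g R J Λ Cm E h P Z K Mv D rb rr Nr) :
    E6D g R J Λ h P Z (g.KV K) (WB g) rb rr where
  terms := H.terms
  hJ := H.hJ
  hΛ := H.hΛ
  hP := H.hP
  hPa := H.hPa
  hT := H.hT
  hn := le_trans (Nat.le_add_right _ _) H.hN
  herm := fun p => g.KV_herm H.herm p
  acts := fun p => KV_acts' g H.acts p
  zone := inZone_Wd g H.hN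
  hR := H.hR
  hrb := H.hrb

/-- the second order form of the doubled Hamiltonian -/
theorem QF_split (H : E6E g R J Λ Cm E h P Z K Mv D rb rr Nr) {ψ : Conf (SS L) q → ℂ}
    (hψ : nsq ψ = 1) (M : ℝ) (c : (ℕ → ℝ) × (Fin g.n × SS L → ℝ)) :
    QF ψ (g.GN ψ M K) (g.n + 1) (cp1 (Hp h P Z Λ) + cp2 (Hp h P Z Λ)) c =
      Cm * ∑ v ∈ Nr, QF ψ (g.GN ψ M K) (g.n + 1) (Mv v) c +
        Λ * ∑ v ∈ Z.disjSum Z, QF ψ (g.GN ψ M K) (g.n + 1) (dfo P v) c := by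
  classical
  have e1 : (cp1 (Hp h P Z Λ) + cp2 (Hp h P Z Λ) : Op (SS L) q) =
      (cp1 (∑ X, h X) + cp2 (∑ X, h X) - (((2 * E : ℝ)) : ℂ) • (1 : Op (SS L) q)) +
        (((2 * E : ℝ)) : ℂ) • (1 : Op (SS L) q) + (Λ : ℂ) • ∑ v ∈ Z.disjSum Z, dfo P v := by
    have e2 : ∑ v ∈ Z.disjSum Z, dfo P v = (cp1 (∑ z ∈ Z, (1 - P z)) +
        cp2 (∑ z ∈ Z, (1 - P z)) : Op (SS L) q) := by
      rw [Finset.sum_disjSum, cp1_sum, cp2_sum]
      rfl
    rw [e2, Hp, cp1_add, cp2_add, cp1_smul, cp2_smul, smul_add]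
    abel
  rw [e1, QF_add, QF_add, ← H.hsum, QF_csmul, QF_csmul, QF_csmul, QF_one hψ, mul_zero, add_zero,
    QF_sum, QF_sum]
  congr 2
  refine (Finset.sum_subset (Finset.subset_univ Nr) fun v _ hv => ?_).symm
  exact core_QF_zero H.hT H.hN H.acts ψ M c (H.hM v) fun hz => hv (H.hNr v hz)

/-- the form of one detector -/
theorem QF_dfo (H : E6E g R J Λ Cm E h P Z K Mv D rb rr Nr) {ψ : Conf (SS L) q → ℂ} {M r : ℝ}
    {c : (ℕ → ℝ) × (Fin g.n × SS L → ℝ)} (hr : 0 < r) (hrad : Rad g ψ M (g.KV K) c rr r)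
    {v : SS L} (hv : v ∈ Z.disjSum Z) :
    |QF ψ (g.GN ψ M K) (g.n + 1) (dfo P v) c| ≤ 8 / r ^ 2 := by
  have hz : ∀ z ∈ Z, ActsOn (ball z rr) (1 - P z) := fun z hz =>
    PH.ph_acts_sub (PH.ph_acts_one _) (PH.ph_acts_mono (PH.ball_mono z H.hrb) (H.hPa z hz))
  have hn : ∀ z, ‖1 - P z‖ ≤ 1 := fun z => norm_le_one_psd (H.hP z).2 (by
    rw [sub_sub_cancel]; exact (H.hP z).1)
  rcases v with z | z
  · have hz' := Finset.inl_mem_disjSum.1 hv
    refine QF_cauchy hr fun ζ hζ => ?_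
    refine (hrad false z _ (hz z hz') ζ hζ).trans ?_
    have := (cpb_norm false (1 - P z)).trans (hn z)
    linarith
  · have hz' := Finset.inr_mem_disjSum.1 hv
    refine QF_cauchy hr fun ζ hζ => ?_
    refine (hrad true z _ (hz z hz') ζ hζ).trans ?_
    have := (cpb_norm true (1 - P z)).trans (hn z)
    linarith

/-- the first level regions are in the window form of the tilted states -/
theorem st_TState {θ M τ t : ℝ} {Kt : Finset (Site L) → Op (Site L) q}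
    {Ω' : Conf (Site L) q → ℂ} {ψ : Conf (SS L) q → ℂ} (h1 : ∀ b, K (inL b) = cp1 (Kt b))
    (h2 : ∀ b, K (inR b) = cp2 (Kt b)) (hS : g.St θ M Kt Ω' τ t ψ) :
    TState (fun k => cut (g.R k) q) (fun _ => θ) M (GamK (g.KV K) (fun _ => -θ / 2)) (dbl Ω' Ω')
      (1 + τ * Complex.I) g.n t ψ := by
  rw [Gd.GamK_KV g θ h1 h2]
  exact hS

variable {θ M τ t r E' : ℝ} {Kt : Finset (Site L) → Op (Site L) q} {Ω' : Conf (Site L) q → ℂ}
  {ψ : Conf (SS L) q → ℂ}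

theorem eig2 (hE : Hp h P Z Λ *ᵥ Ω' = (E' : ℂ) • Ω') :
    (cp1 (Hp h P Z Λ) + cp2 (Hp h P Z Λ) : Op (SS L) q) *ᵥ dbl Ω' Ω' =
      (((E' + E' : ℝ)) : ℂ) • dbl Ω' Ω' := by
  have hl : ∀ (c : ℂ), dbl (c • Ω') Ω' = c • dbl Ω' Ω' := by
    intro c
    funext s
    simp only [dbl, Pi.smul_apply, smul_eq_mul]
    ring
  have hr' : ∀ (c : ℂ), dbl Ω' (c • Ω') = c • dbl Ω' Ω' := by
    intro c
    funext s
    simp only [dbl, Pi.smul_apply, smul_eq_mul]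
    ring
  rw [add_mulVec, cp1_dbl, cp2_dbl, hE, hl, hr', ← add_smul]
  push_cast
  rfl

/-- **E6b**. -/
theorem e6_main (H : E6E g R J Λ Cm E h P Z K Mv D rb rr Nr) (h1 : ∀ b, K (inL b) = cp1 (Kt b))
    (h2 : ∀ b, K (inR b) = cp2 (Kt b)) (hE : Hp h P Z Λ *ᵥ Ω' = (E' : ℂ) • Ω')
    (hS : g.St θ M Kt Ω' τ t ψ) (hr : 0 < r)
    (hrad : Rad g ψ M (g.KV K) (fun _ => θ, fun _ => -θ / 2) rr r)
    (hs : ‖(t : ℂ) * (1 + τ * Complex.I)‖ ≤ r / 2) :
    |expv ψ (cp1 (Hp h P Z Λ) + cp2 (Hp h P Z Λ)) - (E' + E') - t ^ 2 * (1 + τ ^ 2) *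
        (Cm * ∑ v ∈ Nr, QF ψ (g.GN ψ M K) (g.n + 1) (Mv v) (fun _ => θ, fun _ => -θ / 2) +
        Λ * ∑ v ∈ Z.disjSum Z,
          QF ψ (g.GN ψ M K) (g.n + 1) (dfo P v) (fun _ => θ, fun _ => -θ / 2))| ≤
      (1 + |τ|) * (16 * Nn R J Λ g Z * (‖(t : ℂ) * (1 + τ * Complex.I)‖ / r) ^ 3) := by
  have hS' := st_TState h1 h2 hS
  have h3 := e6_form H.d hS' (eig2 hE) hr hrad hs
  rw [QF_split H hS'.1] at h3
  exact h3

/-- **E6b**, upper bound. -/
theorem e6_upper (H : E6E g R J Λ Cm E h P Z K Mv D rb rr Nr) (h1 : ∀ b, K (inL b) = cp1 (Kt b))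
    (h2 : ∀ b, K (inR b) = cp2 (Kt b)) (hE : Hp h P Z Λ *ᵥ Ω' = (E' : ℂ) • Ω')
    (hS : g.St θ M Kt Ω' τ t ψ) (hr : 0 < r)
    (hrad : Rad g ψ M (g.KV K) (fun _ => θ, fun _ => -θ / 2) rr r)
    (hs : ‖(t : ℂ) * (1 + τ * Complex.I)‖ ≤ r / 2) :
    expv ψ (cp1 (Hp h P Z Λ) + cp2 (Hp h P Z Λ)) - (E' + E') ≤ t ^ 2 * (1 + τ ^ 2) *
        (Cm * ∑ v ∈ Nr, QF ψ (g.GN ψ M K) (g.n + 1) (Mv v) (fun _ => θ, fun _ => -θ / 2) +
        Λ * (2 * Z.card * (8 / r ^ 2))) +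
      (1 + |τ|) * (16 * Nn R J Λ g Z * (‖(t : ℂ) * (1 + τ * Complex.I)‖ / r) ^ 3) := by
  have h3 := (abs_le.1 (e6_main H h1 h2 hE hS hr hrad hs)).2
  have h4 : ∑ v ∈ Z.disjSum Z,
      QF ψ (g.GN ψ M K) (g.n + 1) (dfo P v) (fun _ => θ, fun _ => -θ / 2) ≤
        2 * Z.card * (8 / r ^ 2) := by
    refine (Finset.sum_le_sum fun v hv => (le_abs_self _).trans (QF_dfo H hr hrad hv)).trans ?_
    rw [Finset.sum_const, Finset.card_disjSum, nsmul_eq_mul]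
    push_cast
    exact le_of_eq (by ring)
  have h5 := mul_le_mul_of_nonneg_left h4 H.hΛ
  have h6 : t ^ 2 * (1 + τ ^ 2) *
        (Cm * ∑ v ∈ Nr, QF ψ (g.GN ψ M K) (g.n + 1) (Mv v) (fun _ => θ, fun _ => -θ / 2) +
        Λ * ∑ v ∈ Z.disjSum Z,
          QF ψ (g.GN ψ M K) (g.n + 1) (dfo P v) (fun _ => θ, fun _ => -θ / 2)) ≤
      t ^ 2 * (1 + τ ^ 2) *
        (Cm * ∑ v ∈ Nr, QF ψ (g.GN ψ M K) (g.n + 1) (Mv v) (fun _ => θ, fun _ => -θ / 2) +
        Λ * (2 * Z.card * (8 / r ^ 2))) :=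
    mul_le_mul_of_nonneg_left (by linarith) (by positivity)
  linarith

/-- **E6a**, crude bound of the energy. -/
theorem e6_K (H : E6E g R J Λ Cm E h P Z K Mv D rb rr Nr) (h1 : ∀ b, K (inL b) = cp1 (Kt b))
    (h2 : ∀ b, K (inR b) = cp2 (Kt b)) (hE : Hp h P Z Λ *ᵥ Ω' = (E' : ℂ) • Ω')
    (hS : g.St θ M Kt Ω' τ t ψ) (hr : 0 < r)
    (hrad : Rad g ψ M (g.KV K) (fun _ => θ, fun _ => -θ / 2) rr r)
    (hs : ‖(t : ℂ) * (1 + τ * Complex.I)‖ ≤ r / 2) :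
    |expv ψ (cp1 (Hp h P Z Λ) + cp2 (Hp h P Z Λ)) - (E' + E')| ≤
      (2 + |τ|) * (t ^ 2 * (1 + τ ^ 2)) * (8 * Nn R J Λ g Z / r ^ 2) :=
  e6_crude H.d (st_TState h1 h2 hS) (eig2 hE) hr hrad hs

end E6

end Vale.Agent.P356.GA
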