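import Vale.Agent.P356.PH.DDLoc
import Vale.Agent.P356.PH.DDg
import Vale.Agent.P356.PH.Act
import Vale.Agent.P356.GA.AbsOp

/-!
Filtered operators: locality with an arbitrary power, for observables on a ball of any radius
(polynomial dependence on the radius), and the local terms which annihilate the ground state.
-/

set_option linter.all false

namespace Vale.Agent.P356.GA

open Matrix Finset Vale.Agent.P356 Vale.Agent.P356.SV Vale.Agent.P356.Path
open Vale.Agent.P356.PH MeasureTheory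
open scoped BigOperators ComplexOrder Kronecker Matrix.Norms.L2Operator

/-- power bound for the factorial tail -/
theorem fp_tail (p : ℕ) {x : ℝ} (hx : 0 ≤ x) {m : ℕ} (hm : 1 ≤ m) (h : Real.exp 2 * x ≤ m) :
    x ^ m / m.factorial ≤ (Nat.factorial p : ℝ) * 2 ^ p / ((m : ℝ) + 1) ^ p := by
  have hm0 : (0 : ℝ) < m := by exact_mod_cast hm
  have hf : (0 : ℝ) < m.factorial := by exact_mod_cast Nat.factorial_pos m
  have e2 : 0 < Real.exp 2 := Real.exp_pos 2
  have em : 0 < Real.exp m := Real.exp_pos _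
  have h1 : (m : ℝ) ^ m / m.factorial ≤ Real.exp m := Real.pow_div_factorial_le_exp _ hm0.le m
  have h2 : (Real.exp 2) ^ m * x ^ m ≤ (m : ℝ) ^ m := by
    rw [← mul_pow]
    exact pow_le_pow_left₀ (by positivity) h m
  have h6 : Real.exp m * (x ^ m / m.factorial) ≤ 1 := by
    have h4 : (Real.exp 2) ^ m * (x ^ m / m.factorial) ≤ Real.exp m := by
      refine le_trans ?_ h1
      rw [← mul_div_assoc]
      exact div_le_div_of_nonneg_right h2 hf.le
    have h5 : (Real.exp 2) ^ m = Real.exp m * Real.exp m := by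
      rw [← Real.exp_nat_mul, ← Real.exp_add]
      congr 1
      ring
    rw [h5] at h4
    have h7 : Real.exp m * (Real.exp m * (x ^ m / m.factorial)) ≤ Real.exp m * 1 := by
      rw [mul_one, ← mul_assoc]; exact h4
    exact le_of_mul_le_mul_left h7 em
  have h8 : ((m : ℝ)) ^ p / (Nat.factorial p : ℝ) ≤ Real.exp m :=
    Real.pow_div_factorial_le_exp _ hm0.le p
  have hy : 0 ≤ x ^ m / m.factorial := by positivity
  have h9 : (m : ℝ) ^ p / (Nat.factorial p : ℝ) * (x ^ m / m.factorial) ≤ 1 :=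
    le_trans (mul_le_mul_of_nonneg_right h8 hy) h6
  have hF : (0 : ℝ) < (Nat.factorial p : ℝ) := by exact_mod_cast Nat.factorial_pos p
  rw [le_div_iff₀ (by positivity)]
  have h10 : ((m : ℝ) + 1) ^ p ≤ 2 ^ p * (m : ℝ) ^ p := by
    rw [← mul_pow]
    refine pow_le_pow_left₀ (by positivity) ?_ p
    have : (1 : ℝ) ≤ m := by exact_mod_cast hm
    linarith
  calc x ^ m / m.factorial * ((m : ℝ) + 1) ^ p
      ≤ x ^ m / m.factorial * (2 ^ p * (m : ℝ) ^ p) := mul_le_mul_of_nonneg_left h10 hy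
    _ = (Nat.factorial p : ℝ) * 2 ^ p *
        ((m : ℝ) ^ p / (Nat.factorial p : ℝ) * (x ^ m / m.factorial)) := by
        field_simp
    _ ≤ (Nat.factorial p : ℝ) * 2 ^ p * 1 :=
        mul_le_mul_of_nonneg_left h9 (by positivity)
    _ = _ := by ring

section ev
variable {L q R : ℕ} {J : ℝ}

/-- reflection of a commutator with an evolved operator -/
theorem fp_reflect {N : Type*} [Fintype N] [DecidableEq N] {H : Matrix N N ℂ}
    (hH : H.IsHermitian) (t : ℝ) (A B : Matrix N N ℂ) :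
    ‖ev H t A * B - B * ev H t A‖ = ‖ev H (-t) B * A - A * ev H (-t) B‖ := by
  have h1 : ev H t A * B - B * ev H t A = ev H t (A * ev H (-t) B - ev H (-t) B * A) := by
    have h2 : ev H t (ev H (-t) B) = B := by
      rw [ev_eq, ev_eq, ← phTau_time_add, add_neg_cancel, phTau_zero_time]
    rw [ev_sub, ev_mul, ev_mul, h2]
  rw [h1, ev_norm hH, norm_sub_rev]

/-- the commutator with a term outside of the ball -/
theorem fp_term (hJ : 0 ≤ J) {g : Finset (Site L) → Op (Site L) q}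
    (hg : Terms L q R J g) (x : Site L) (r m ρ : ℕ) (hr : m * R + R + ρ ≤ r)
    (A : Op (Site L) q) (hA : ActsOn (ball x ρ) A) {s t : ℝ} (hs : |s| ≤ |t|)
    (Z : Finset (Site L)) (h3 : ¬ Z ⊆ ball x r) (h4 : g Z ≠ 0) :
    ‖ev (Hr g x r) s A * g Z - g Z * ev (Hr g x r) s A‖ ≤
      2 * J * ‖A‖ * ((kap R J * |t|) ^ m / m.factorial) := by
  have hkap : 0 ≤ kap R J := by rw [kap]; positivity
  have hfar : ∀ z ∈ Z, ∀ y ∈ ball x ρ, m * R < dist1 z y := fun z hz y hy => by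
    rw [Finset.not_subset] at h3
    obtain ⟨w, hw, hwr⟩ := h3
    have h5 : r < dist1 w x := by
      by_contra hc
      exact hwr (Finset.mem_filter.2 ⟨Finset.mem_univ w, by omega⟩)
    have h6 := (hg.range Z h4).2 w hw z hz
    have h7 := dist1_tri w z x
    have h8 : dist1 y x ≤ ρ := (Finset.mem_filter.1 hy).2
    have h9 := dist1_tri z y x
    omega
  have h11 := lieb_robinson hJ (lr_restrict hg (ball x r)) m Z (ball x ρ)
    (hg.range Z h4).2 hfar (g Z) A (hg.loc Z) hA (-s)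
  rw [← lr_HB_eq, abs_neg] at h11
  have hr0 : (Hr g x r).IsHermitian := lr_HB_herm hg (ball x r)
  rw [fp_reflect (H := Hr g x r) hr0 s A (g Z)]
  refine h11.trans ?_
  have h12 : (kap R J * |s|) ^ m ≤ (kap R J * |t|) ^ m :=
    pow_le_pow_left₀ (by positivity) (mul_le_mul_of_nonneg_left hs hkap) m
  have h13 : (kap R J * |s|) ^ m / (m.factorial : ℝ) ≤
      (kap R J * |t|) ^ m / (m.factorial : ℝ) :=
    div_le_div_of_nonneg_right h12 (by positivity)
  have h14 : 2 * ‖g Z‖ * ‖A‖ ≤ 2 * J * ‖A‖ :=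
    mul_le_mul_of_nonneg_right (mul_le_mul_of_nonneg_left (ph_norm_le hJ (hg.norm Z))
      (by norm_num)) (norm_nonneg _)
  exact mul_le_mul h14 h13 (by positivity) (by positivity)

/-- splitting of the Hamiltonian of a larger ball -/
theorem fp_split {g : Finset (Site L) → Op (Site L) q} (hg : Terms L q R J g) (x : Site L)
    (r : ℕ) : ∃ S : Finset (Finset (Site L)), Hr g x (r + 1) = Hr g x r + ∑ Z ∈ S, g Z ∧
      (S.card : ℝ) ≤ (2 * r + 3) ^ 2 * NR R ∧ ∀ Z ∈ S, ¬ Z ⊆ ball x r ∧ g Z ≠ 0 := by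
  classical
  refine ⟨(Finset.univ : Finset (Finset (Site L))).filter
    (fun Z => (Z ⊆ ball x (r + 1) ∧ ¬ Z ⊆ ball x r) ∧ g Z ≠ 0), ?_, ?_, ?_⟩
  · have hsub : ball x r ⊆ ball x (r + 1) := fun y hy => by
      rw [ball, Finset.mem_filter] at hy ⊢
      exact ⟨hy.1, by omega⟩
    rw [Hr, Hr, lr_HB_eq, lr_HB_eq, Finset.sum_filter, ← Finset.sum_add_distrib]
    refine Finset.sum_congr rfl fun Z _ => ?_
    by_cases h1 : Z ⊆ ball x r
    · rw [if_pos h1, if_pos (h1.trans hsub), if_neg (by tauto), add_zero]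
    · by_cases h2 : Z ⊆ ball x (r + 1)
      · by_cases h3 : g Z = 0
        · simp [h3]
        · rw [if_pos h2, if_neg h1, if_pos ⟨⟨h2, h1⟩, h3⟩, zero_add]
      · rw [if_neg h2, if_neg h1, if_neg (by tauto), zero_add]
  · have h1 : (Finset.univ : Finset (Finset (Site L))).filter
        (fun Z => (Z ⊆ ball x (r + 1) ∧ ¬ Z ⊆ ball x r) ∧ g Z ≠ 0) ⊆
        (Finset.univ : Finset (Finset (Site L))).filter
        (fun Z => (∀ x ∈ Z, ∀ y ∈ Z, dist1 x y ≤ R) ∧ ¬ Disjoint (ball x (r + 1)) Z) := by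
      intro Z hZ
      rw [Finset.mem_filter] at hZ ⊢
      obtain ⟨hu, ⟨h2, h3⟩, h4⟩ := hZ
      refine ⟨hu, (hg.range Z h4).2, ?_⟩
      rw [Finset.not_disjoint_iff]
      obtain ⟨z, hz⟩ := (hg.range Z h4).1
      exact ⟨z, h2 hz, hz⟩
    have h2 : ((Finset.univ : Finset (Finset (Site L))).filter
        (fun Z => (Z ⊆ ball x (r + 1) ∧ ¬ Z ⊆ ball x r) ∧ g Z ≠ 0)).card ≤
        (2 * r + 3) ^ 2 * NR R := by
      refine (Finset.card_le_card h1).trans ((lr_card_touch _).trans ?_)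
      refine Nat.mul_le_mul_right _ ((card_ball x (r + 1)).trans (le_of_eq ?_))
      ring
    exact_mod_cast h2
  · intro Z hZ
    rw [Finset.mem_filter] at hZ
    exact ⟨hZ.2.1.2, hZ.2.2⟩

/-- One step of enlargement of the ball, for an operator on a ball of radius `ρ`. -/
theorem fp_ev_step (hJ : 0 ≤ J) {g : Finset (Site L) → Op (Site L) q}
    (hg : Terms L q R J g) (x : Site L) (r m ρ : ℕ) (hr : m * R + R + ρ ≤ r)
    (A : Op (Site L) q) (hA : ActsOn (ball x ρ) A) (t : ℝ) :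
    ‖ev (Hr g x (r + 1)) t A - ev (Hr g x r) t A‖ ≤
      2 * J * NR R * (2 * r + 3) ^ 2 * ‖A‖ * |t| * ((kap R J * |t|) ^ m / m.factorial) := by
  obtain ⟨S, hsplit, hc, hS⟩ := fp_split hg x r
  have hV : IsSelfAdjoint (∑ Z ∈ S, g Z) := by
    rw [isSelfAdjoint_iff, star_sum]
    exact Finset.sum_congr rfl fun Z _ => hg.herm Z
  have hK : IsSelfAdjoint (Hr g x r) := lr_HB_herm hg (ball x r)
  have hkap : 0 ≤ kap R J := by rw [kap]; positivity
  set c0 : ℝ := 2 * J * ‖A‖ * ((kap R J * |t|) ^ m / m.factorial) with hc0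
  have hc00 : 0 ≤ c0 := by rw [hc0]; positivity
  have h1 : ‖phTau (Hr g x r + ∑ Z ∈ S, g Z) t A - phTau (Hr g x r) t A‖ ≤
      |t| * (S.card * c0) := by
    refine ph_duhamel_abs (A := A) hK hV t ?_
    intro s hs
    rw [Finset.mul_sum, Finset.sum_mul, ← Finset.sum_sub_distrib]
    refine (norm_sum_le _ _).trans ?_
    have hterm : ∀ Z ∈ S, ‖phTau (Hr g x r) s A * g Z - g Z * phTau (Hr g x r) s A‖ ≤ c0 :=
      fun Z hZ => by
        have h := fp_term hJ hg x r m ρ hr A hA hs Z (hS Z hZ).1 (hS Z hZ).2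
        rw [ev_eq] at h
        exact h
    refine (Finset.sum_le_sum hterm).trans (le_of_eq ?_)
    rw [Finset.sum_const, nsmul_eq_mul]
  rw [hsplit, ev_eq, ev_eq]
  refine h1.trans ?_
  calc |t| * (S.card * c0) ≤ |t| * ((2 * r + 3) ^ 2 * NR R * c0) := by
        refine mul_le_mul_of_nonneg_left ?_ (abs_nonneg t)
        exact mul_le_mul_of_nonneg_right hc hc00
    _ = _ := by rw [hc0]; ring

theorem fp_Hr_herm {g : Finset (Site L) → Op (Site L) q} (hg : Terms L q R J g) (x : Site L)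
    (s : ℕ) : (Hr g x s).IsHermitian := lr_HB_herm hg (ball x s)

/-- scalar bound for times up to the light cone -/
theorem fp_scal1 {κ a K : ℝ} (hκ : 0 ≤ κ) (ha1 : 1 ≤ a) (hK0 : 0 ≤ K) (p m ρ s : ℕ) {b u : ℝ}
    (hb : 0 ≤ b) (h0 : 1 ≤ m) (hmr : (1 : ℝ) + s ≤ ((m : ℝ) + 1) * a)
    (hc : Real.exp 2 * (κ * |u|) ≤ m) :
    K * (2 * ((ρ + s : ℕ) : ℝ) + 3) ^ 2 * b * |u| * ((κ * |u|) ^ m / m.factorial) ≤
      K * (25 * a ^ 2) * ((Nat.factorial (p + 2) : ℝ) * 2 ^ (p + 2)) *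
        ((1 + (ρ : ℝ)) ^ 2 * b) / ((m : ℝ) + 1) ^ p * (1 + |u| ^ (p + 1)) := by
  have hρ0 : (0 : ℝ) ≤ ρ := by positivity
  have hs0 : (0 : ℝ) ≤ s := by positivity
  have h2 := fp_tail (p + 2) (x := κ * |u|) (by positivity) h0 hc
  have h3 : (2 * ((ρ + s : ℕ) : ℝ) + 3) ^ 2 ≤
      25 * a ^ 2 * ((m : ℝ) + 1) ^ 2 * (1 + (ρ : ℝ)) ^ 2 := by
    have h4 : (2 * ((ρ + s : ℕ) : ℝ) + 3) ≤ 5 * ((((m : ℝ) + 1) * a) * (1 + (ρ : ℝ))) := by
      push_cast
      have e1 : (1 + (s : ℝ)) * (1 + (ρ : ℝ)) ≤ (((m : ℝ) + 1) * a) * (1 + (ρ : ℝ)) :=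
        mul_le_mul_of_nonneg_right hmr (by positivity)
      have e2 : 0 ≤ (s : ℝ) * ρ := by positivity
      nlinarith
    calc (2 * ((ρ + s : ℕ) : ℝ) + 3) ^ 2 ≤
        (5 * ((((m : ℝ) + 1) * a) * (1 + (ρ : ℝ)))) ^ 2 :=
          pow_le_pow_left₀ (by positivity) h4 2
      _ = _ := by ring
  have hu1 : |u| ≤ 1 + |u| ^ (p + 1) := by
    have hu8 : 0 ≤ |u| ^ (p + 1) := by positivity
    rcases le_or_gt (|u|) 1 with h | h
    · linarith
    · have : |u| ≤ |u| ^ (p + 1) := by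
        calc |u| = |u| ^ 1 := (pow_one _).symm
          _ ≤ |u| ^ (p + 1) := pow_le_pow_right₀ h.le (by omega)
      linarith
  have hp : (0 : ℝ) < (m : ℝ) + 1 := by positivity
  calc K * (2 * ((ρ + s : ℕ) : ℝ) + 3) ^ 2 * b * |u| * ((κ * |u|) ^ m / m.factorial)
      ≤ K * (25 * a ^ 2 * ((m : ℝ) + 1) ^ 2 * (1 + (ρ : ℝ)) ^ 2) * b *
        (1 + |u| ^ (p + 1)) *
        ((Nat.factorial (p + 2) : ℝ) * 2 ^ (p + 2) / ((m : ℝ) + 1) ^ (p + 2)) := by
        gcongr
    _ = _ := by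
        rw [pow_add ((m : ℝ) + 1) p 2]
        field_simp

/-- scalar bound for later times -/
theorem fp_scal2 {κ : ℝ} (hκ : 0 ≤ κ) (p m : ℕ) {u : ℝ} (h0 : 1 ≤ m)
    (hc : (m : ℝ) < Real.exp 2 * (κ * |u|)) :
    2 ≤ 2 * (Real.exp 2 * κ) ^ (p + 1) * 2 ^ (p + 1) / ((m : ℝ) + 1) ^ p *
      (1 + |u| ^ (p + 1)) := by
  have hm1 : (1 : ℝ) ≤ m := by exact_mod_cast h0
  have hp : (0 : ℝ) < (m : ℝ) + 1 := by positivity
  have h1 : ((m : ℝ) + 1) ^ (p + 1) ≤
      (Real.exp 2 * κ) ^ (p + 1) * 2 ^ (p + 1) * |u| ^ (p + 1) := by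
    rw [← mul_pow, ← mul_pow]
    refine pow_le_pow_left₀ hp.le ?_ (p + 1)
    nlinarith [hc, hm1]
  have h1' : ((m : ℝ) + 1) ^ p ≤
      (Real.exp 2 * κ) ^ (p + 1) * 2 ^ (p + 1) * |u| ^ (p + 1) := by
    refine le_trans ?_ h1
    exact pow_le_pow_right₀ (by linarith) (by omega)
  rw [div_mul_eq_mul_div, le_div_iff₀ (by positivity)]
  have h3 : 0 ≤ (Real.exp 2 * κ) ^ (p + 1) * 2 ^ (p + 1) := by positivity
  nlinarith [h1', h3]

/-- The pointwise bound with an arbitrary power. -/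
theorem fp_point {R : ℕ} {J : ℝ} (hJ : 0 ≤ J) (p : ℕ) : ∃ C : ℝ, 0 ≤ C ∧
    ∀ (L q : ℕ) (g : Finset (Site L) → Op (Site L) q), Terms L q R J g →
    ∀ (x : Site L) (ρ s : ℕ), ∀ v : Op (Site L) q, ActsOn (ball x ρ) v → ∀ u : ℝ,
    ‖ev (Hr g x (ρ + s + 1)) u v - ev (Hr g x (ρ + s)) u v‖ ≤
      C * (1 + (ρ : ℝ)) ^ 2 * ‖v‖ / (1 + (s : ℝ)) ^ p * (1 + |u| ^ (p + 1)) := by
  have hk : 0 ≤ kap R J := by unfold kap; positivity
  set κ := kap R J with hκ
  set a : ℝ := 3 * R + 1 with ha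
  have hR0 : (0 : ℝ) ≤ R := by positivity
  have ha1 : 1 ≤ a := by rw [ha]; linarith
  set K : ℝ := 2 * J * NR R with hK
  have hK0 : 0 ≤ K := by rw [hK]; positivity
  set C2 : ℝ := 2 * (Real.exp 2 * κ) ^ (p + 1) * 2 ^ (p + 1) with hC2
  have hC20 : 0 ≤ C2 := by rw [hC2]; positivity
  set C3 : ℝ := K * (25 * a ^ 2) * ((Nat.factorial (p + 2) : ℝ) * 2 ^ (p + 2)) with hC3
  have hC30 : 0 ≤ C3 := by rw [hC3]; positivity
  refine ⟨(2 + C2 + C3) * a ^ p, by positivity, ?_⟩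
  intro L q g hg x ρ s v hv u
  have hHr := fun s => fp_Hr_herm hg x s
  have hv0 := norm_nonneg v
  have hρ0 : (0 : ℝ) ≤ ρ := by positivity
  have hρ1 : 1 ≤ (1 + (ρ : ℝ)) ^ 2 := one_le_pow₀ (by linarith)
  have hu8 : 0 ≤ |u| ^ (p + 1) := by positivity
  have triv : ‖ev (Hr g x (ρ + s + 1)) u v - ev (Hr g x (ρ + s)) u v‖ ≤
      2 * ((1 + (ρ : ℝ)) ^ 2 * ‖v‖) := by
    refine (norm_sub_le _ _).trans ?_
    rw [ev_norm (hHr _), ev_norm (hHr _)]
    nlinarith
  set b : ℝ := (1 + (ρ : ℝ)) ^ 2 * ‖v‖ with hb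
  have hb0 : 0 ≤ b := by rw [hb]; positivity
  set m : ℕ := (s - R) / (R + 1) with hm
  have hmr : (1 : ℝ) + s ≤ ((m : ℝ) + 1) * a := by
    have h1 : s - R < (m + 1) * (R + 1) := by
      rw [hm]
      have := Nat.lt_mul_div_succ (s - R) (Nat.succ_pos R)
      rw [Nat.succ_eq_add_one] at this
      linarith [this, mul_comm (R + 1) ((s - R) / (R + 1) + 1)]
    have h2 : 1 + s ≤ (m + 1) * (3 * R + 1) := by
      have h3 : s + 1 ≤ (m + 1) * (R + 1) + R := by omega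
      have h4 : (m + 1) * (3 * R + 1) = (m + 1) * (R + 1) + R + (R + m * (2 * R)) := by ring
      rw [h4]
      omega
    rw [ha]
    exact_mod_cast h2
  have hr0 : (0 : ℝ) < 1 + s := by positivity
  have hm1 : (0 : ℝ) < (m : ℝ) + 1 := by positivity
  -- it suffices to bound by `C1 * b / (m+1)^p * (1 + |u|^(p+1))`
  have key : ‖ev (Hr g x (ρ + s + 1)) u v - ev (Hr g x (ρ + s)) u v‖ ≤
      (2 + C2 + C3) * b / ((m : ℝ) + 1) ^ p * (1 + |u| ^ (p + 1)) := by
    have hX : (0 : ℝ) ≤ b / ((m : ℝ) + 1) ^ p * (1 + |u| ^ (p + 1)) := by positivity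
    have e1 : (2 + C2 + C3) * b / ((m : ℝ) + 1) ^ p * (1 + |u| ^ (p + 1)) =
        (2 + C2 + C3) * (b / ((m : ℝ) + 1) ^ p * (1 + |u| ^ (p + 1))) := by ring
    rw [e1]
    rcases Nat.eq_zero_or_pos m with h0 | h0
    · refine triv.trans ?_
      rw [h0]
      simp only [Nat.cast_zero, zero_add, one_pow, div_one]
      nlinarith [mul_nonneg hC20 hb0, mul_nonneg hC30 hb0, mul_nonneg hb0 hu8,
        mul_nonneg (mul_nonneg hC20 hb0) hu8, mul_nonneg (mul_nonneg hC30 hb0) hu8]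
    · rcases le_or_gt (Real.exp 2 * (κ * |u|)) (m : ℝ) with hc | hc
      · have hmR : m * R + R ≤ s := by
          have h1 : m * (R + 1) ≤ s - R := Nat.div_mul_le_self _ _
          have h2 : m * (R + 1) = m * R + m := by ring
          omega
        have h1 := fp_ev_step hJ hg x (ρ + s) m ρ (by omega) v hv u
        have h2 := fp_scal1 hk ha1 hK0 p m ρ s hv0 h0 hmr hc
        refine (h1.trans h2).trans ?_
        rw [← hC3, ← hb]
        have e2 : C3 * b / ((m : ℝ) + 1) ^ p * (1 + |u| ^ (p + 1)) =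
          C3 * (b / ((m : ℝ) + 1) ^ p * (1 + |u| ^ (p + 1))) := by ring
        rw [e2]
        exact mul_le_mul_of_nonneg_right (by linarith) hX
      · refine triv.trans ?_
        have h2 := fp_scal2 hk p m h0 hc
        rw [← hC2] at h2
        have h3 := mul_le_mul_of_nonneg_right h2 hb0
        refine h3.trans ?_
        have e2 : C2 / ((m : ℝ) + 1) ^ p * (1 + |u| ^ (p + 1)) * b =
          C2 * (b / ((m : ℝ) + 1) ^ p * (1 + |u| ^ (p + 1))) := by ring
        rw [e2]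
        exact mul_le_mul_of_nonneg_right (by linarith) hX
  refine key.trans ?_
  have h1 : (1 + (s : ℝ)) ^ p ≤ (((m : ℝ) + 1) * a) ^ p := pow_le_pow_left₀ hr0.le hmr p
  have h2 : (2 + C2 + C3) * b / ((m : ℝ) + 1) ^ p ≤
      (2 + C2 + C3) * a ^ p * (1 + (ρ : ℝ)) ^ 2 * ‖v‖ / (1 + (s : ℝ)) ^ p := by
    rw [div_le_div_iff₀ (by positivity) (by positivity)]
    calc (2 + C2 + C3) * b * (1 + (s : ℝ)) ^ p ≤
        (2 + C2 + C3) * b * (((m : ℝ) + 1) * a) ^ p :=
          mul_le_mul_of_nonneg_left h1 (by positivity)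
      _ = _ := by rw [hb, mul_pow]; ring
  exact mul_le_mul_of_nonneg_right h2 (by positivity)

end ev

section FF
variable {N : Type*} [Fintype N] [DecidableEq N] {Δ : ℝ} {w : ℝ → ℝ}

theorem fp_w_int (hw : IsFilter Δ w) : Integrable (fun t : ℝ => |w t|) := by
  have h := hw.mom 0
  simpa only [pow_zero, one_mul] using h

theorem FF_norm (hw : IsFilter Δ w) {H : Matrix N N ℂ} (hH : H.IsHermitian) (V : Matrix N N ℂ) :
    ‖FF124 w H V‖ ≤ (∫ t : ℝ, |w t|) * ‖V‖ := by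
  have h := norm_integral_le_of_norm_le (f := fun t : ℝ => ((w t : ℝ) : ℂ) • ev H t V)
    (g := fun t : ℝ => |w t| * ‖V‖) ((fp_w_int hw).mul_const ‖V‖)
    (Filter.Eventually.of_forall fun t => by
      rw [norm_smul, Complex.norm_real, Real.norm_eq_abs, ev_norm hH])
  rw [integral_mul_const] at h
  exact h

theorem FF_herm (hw : IsFilter Δ w) {H V : Matrix N N ℂ} (hH : H.IsHermitian)
    (hV : V.IsHermitian) : (FF124 w H V).IsHermitian := by
  have h1 : ∀ t : ℝ, star (((w t : ℝ) : ℂ) • ev H t V) = ((w t : ℝ) : ℂ) • ev H t V := by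
    intro t
    rw [star_smul, RCLike.star_def, Complex.conj_ofReal]
    congr 1
    exact ev_herm hH hV t
  have h2 := ContinuousLinearEquiv.integral_comp_comm
    (starL' ℝ : Matrix N N ℂ ≃L[ℝ] Matrix N N ℂ)
    (fun t : ℝ => ((w t : ℝ) : ℂ) • ev H t V) (μ := volume)
  show star (FF124 w H V) = FF124 w H V
  have h3 : ∀ X : Matrix N N ℂ, (starL' ℝ : Matrix N N ℂ ≃L[ℝ] Matrix N N ℂ) X = star X :=
    fun X => rfl
  simp only [h3, h1] at h2
  exact h2.symm

theorem FF_add (hw : IsFilter Δ w) {H : Matrix N N ℂ} (hH : H.IsHermitian)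
    (A B : Matrix N N ℂ) : FF124 w H (A + B) = FF124 w H A + FF124 w H B := by
  unfold FF124
  rw [← integral_add (ff_int hw hH A) (ff_int hw hH B)]
  simp only [ev_add, smul_add]

theorem FF_sub (hw : IsFilter Δ w) {H : Matrix N N ℂ} (hH : H.IsHermitian)
    (A B : Matrix N N ℂ) : FF124 w H (A - B) = FF124 w H A - FF124 w H B := by
  unfold FF124
  rw [← integral_sub (ff_int hw hH A) (ff_int hw hH B)]
  simp only [ev_sub, smul_sub]

theorem FF_sum (hw : IsFilter Δ w) {H : Matrix N N ℂ} (hH : H.IsHermitian) {ι : Type*}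
    (s : Finset ι) (A : ι → Matrix N N ℂ) :
    FF124 w H (∑ i ∈ s, A i) = ∑ i ∈ s, FF124 w H (A i) := by
  unfold FF124
  rw [← integral_finset_sum s fun i _ => ff_int hw hH (A i)]
  simp only [ev_sum, Finset.smul_sum]

/-- an operator which commutes with the Hamiltonian is not changed -/
theorem FF_of_commute (hw : IsFilter Δ w) {H A : Matrix N N ℂ} (h : Commute A H) :
    FF124 w H A = A := by
  unfold FF124
  simp only [ev_of_commute h]
  rw [integral_smul_const]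
  have h6 : (∫ t : ℝ, ((w t : ℝ) : ℂ)) = 1 := by
    have h := integral_complex_ofReal (f := w) (μ := volume)
    rw [hw.int] at h
    rw [h, Complex.ofReal_one]
  rw [h6, one_smul]

theorem FF_actsOn {V : Type*} [Fintype V] [DecidableEq V] {q : ℕ} {S : Finset V} {H A : Op V q}
    (hH : ActsOn S H) (hA : ActsOn S A) (w : ℝ → ℝ) : ActsOn S (FF124 w H A) := by
  rw [← ph_mem_phSub]
  by_contra hcon
  obtain ⟨f, hf1, hf2⟩ := Submodule.exists_le_ker_of_notMem hcon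
  have hf4 : ∀ B : Op V q, ActsOn S B → (LinearMap.toContinuousLinearMap f) B = 0 := fun B hB =>
    hf2 (ph_mem_phSub.2 hB)
  apply hf1
  by_cases hi : Integrable (fun t : ℝ => ((w t : ℝ) : ℂ) • ev H t A)
  · have h := ContinuousLinearMap.integral_comp_comm (LinearMap.toContinuousLinearMap f) hi
    have h2 : ∀ t : ℝ, (LinearMap.toContinuousLinearMap f) (((w t : ℝ) : ℂ) • ev H t A) = 0 :=
      fun t => hf4 _ (ph_acts_smul _ (ev_actsOn hH hA t))
    simp only [h2, integral_zero] at h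
    exact h.symm
  · rw [FF124, integral_undef hi, map_zero]

end FF

section trunc

/-- One enlargement step of the filtered operator. -/
theorem FF_step_p {R : ℕ} {J Δ : ℝ} {w : ℝ → ℝ} (hJ : 0 ≤ J) (hw : IsFilter Δ w) (p : ℕ) :
    ∃ C : ℝ, 0 ≤ C ∧
    ∀ (L q : ℕ) (g : Finset (Site L) → Op (Site L) q), Terms L q R J g →
    ∀ (x : Site L) (ρ s : ℕ), ∀ v : Op (Site L) q, ActsOn (ball x ρ) v →
    ‖FF124 w (Hr g x (ρ + s + 1)) v - FF124 w (Hr g x (ρ + s)) v‖ ≤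
      C * (1 + (ρ : ℝ)) ^ 2 * ‖v‖ / (1 + (s : ℝ)) ^ p := by
  obtain ⟨C, hC0, hC⟩ := fp_point (R := R) hJ p
  set M : ℝ := ∫ t : ℝ, (|w t| + |t| ^ (p + 1) * |w t|) with hM
  have hMint : Integrable (fun t : ℝ => |w t| + |t| ^ (p + 1) * |w t|) :=
    (fp_w_int hw).add (hw.mom (p + 1))
  have hM0 : 0 ≤ M := integral_nonneg fun t => by positivity
  refine ⟨C * M, by positivity, ?_⟩
  intro L q g hg x ρ s v hv
  have hHr := fun s => fp_Hr_herm hg x s
  unfold FF124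
  rw [← integral_sub (ff_int hw (hHr _) v) (ff_int hw (hHr _) v)]
  set c : ℝ := C * (1 + (ρ : ℝ)) ^ 2 * ‖v‖ / (1 + (s : ℝ)) ^ p with hc
  have hc0 : 0 ≤ c := by rw [hc]; positivity
  have hint : Integrable (fun t : ℝ => c * (|w t| + |t| ^ (p + 1) * |w t|)) :=
    hMint.const_mul c
  refine (norm_integral_le_of_norm_le hint (Filter.Eventually.of_forall fun t => ?_)).trans ?_
  · rw [← smul_sub, norm_smul, Complex.norm_real, Real.norm_eq_abs]
    have h2 := hC L q g hg x ρ s v hv t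
    rw [← hc] at h2
    calc |w t| * ‖ev (Hr g x (ρ + s + 1)) t v - ev (Hr g x (ρ + s)) t v‖
        ≤ |w t| * (c * (1 + |t| ^ (p + 1))) := mul_le_mul_of_nonneg_left h2 (abs_nonneg _)
      _ = c * (|w t| + |t| ^ (p + 1) * |w t|) := by ring
  · rw [integral_const_mul, ← hM, hc]
    apply le_of_eq
    ring

/-- One enlargement step of the generator. -/
theorem DD_step_p {R : ℕ} {J Δ : ℝ} {w : ℝ → ℝ} (hJ : 0 ≤ J) (hw : IsFilter Δ w) (p : ℕ) :
    ∃ C : ℝ, 0 ≤ C ∧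
    ∀ (L q : ℕ) (g : Finset (Site L) → Op (Site L) q), Terms L q R J g →
    ∀ (x : Site L) (ρ s : ℕ), ∀ v : Op (Site L) q, ActsOn (ball x ρ) v →
    ‖PH.DD w (Hr g x (ρ + s + 1)) v - PH.DD w (Hr g x (ρ + s)) v‖ ≤
      C * (1 + (ρ : ℝ)) ^ 2 * ‖v‖ / (1 + (s : ℝ)) ^ p := by
  obtain ⟨C, hC0, hC⟩ := fp_point (R := R) hJ p
  set M : ℝ := ∫ t : ℝ, (|t| ^ 1 * |w t| + |t| ^ (p + 2) * |w t|) with hM
  have hMint : Integrable (fun t : ℝ => |t| ^ 1 * |w t| + |t| ^ (p + 2) * |w t|) :=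
    (hw.mom 1).add (hw.mom (p + 2))
  have hM0 : 0 ≤ M := integral_nonneg fun t => by positivity
  refine ⟨C * M, by positivity, ?_⟩
  intro L q g hg x ρ s v hv
  have hHr := fun s => fp_Hr_herm hg x s
  unfold PH.DD
  rw [← integral_sub (h160_integrable hw (hHr _) v) (h160_integrable hw (hHr _) v)]
  set c : ℝ := C * (1 + (ρ : ℝ)) ^ 2 * ‖v‖ / (1 + (s : ℝ)) ^ p with hc
  have hc0 : 0 ≤ c := by rw [hc]; positivity
  have hint : Integrable (fun t : ℝ => c * (|t| ^ 1 * |w t| + |t| ^ (p + 2) * |w t|)) :=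
    hMint.const_mul c
  refine (norm_integral_le_of_norm_le hint (Filter.Eventually.of_forall fun t => ?_)).trans ?_
  · rw [← smul_sub, norm_smul, Complex.norm_real, Real.norm_eq_abs,
      ← intervalIntegral.integral_sub ((ev_cont _ v).intervalIntegrable 0 t)
        ((ev_cont _ v).intervalIntegrable 0 t)]
    have h2 : ‖∫ u in (0 : ℝ)..t, (ev (Hr g x (ρ + s + 1)) u v - ev (Hr g x (ρ + s)) u v)‖ ≤
        (c * (1 + |t| ^ (p + 1))) * |t - 0| := by
      refine intervalIntegral.norm_integral_le_of_norm_le_const fun u hu => ?_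
      refine (hC L q g hg x ρ s v hv u).trans ?_
      rw [← hc]
      have hut : |u| ≤ |t| := by
        rw [Set.uIoc_eq_union] at hu
        rcases hu with hu | hu
        · rw [abs_of_pos hu.1]
          exact hu.2.trans (le_abs_self t)
        · rw [abs_of_nonpos hu.2]
          have := hu.1
          calc -u ≤ -t := by linarith
            _ ≤ |t| := neg_le_abs t
      have : |u| ^ (p + 1) ≤ |t| ^ (p + 1) := pow_le_pow_left₀ (abs_nonneg _) hut (p + 1)
      exact mul_le_mul_of_nonneg_left (by linarith) hc0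
    rw [sub_zero] at h2
    calc |w t| * ‖∫ u in (0 : ℝ)..t,
          (ev (Hr g x (ρ + s + 1)) u v - ev (Hr g x (ρ + s)) u v)‖
        ≤ |w t| * ((c * (1 + |t| ^ (p + 1))) * |t|) := mul_le_mul_of_nonneg_left h2 (abs_nonneg _)
      _ = c * (|t| ^ 1 * |w t| + |t| ^ (p + 2) * |w t|) := by ring
  · rw [integral_const_mul, ← hM, hc]
    apply le_of_eq
    ring

/-- telescoping of a sequence with summable steps -/
theorem fp_tele {E : Type*} [SeminormedAddCommGroup E] (F : ℕ → E) {c : ℝ} (hc : 0 ≤ c) (p : ℕ)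
    (hF : ∀ s, ‖F (s + 1) - F s‖ ≤ c / (1 + (s : ℝ)) ^ (p + 2)) (s k : ℕ) :
    ‖F (s + k) - F s‖ ≤ 2 * c / (1 + (s : ℝ)) ^ p := by
  have hs : (0 : ℝ) < 1 + s := by positivity
  set d : ℝ := c / (1 + (s : ℝ)) ^ p with hd
  have hd0 : 0 ≤ d := by rw [hd]; positivity
  have hstep : ∀ j : ℕ, ‖F (s + j + 1) - F (s + j)‖ ≤
      d * (2 / (1 + (j : ℝ)) - 2 / (1 + ((j + 1 : ℕ) : ℝ))) := by
    intro j
    have hj : (0 : ℝ) < 1 + j := by positivity
    have hj0 : (0 : ℝ) ≤ j := by positivity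
    have hs0 : (0 : ℝ) ≤ s := by positivity
    have h1 : (1 + (s : ℝ)) ^ p * (1 + (j : ℝ)) ^ 2 ≤ (1 + ((s + j : ℕ) : ℝ)) ^ (p + 2) := by
      rw [pow_add]
      push_cast
      refine mul_le_mul ?_ ?_ (by positivity) (by positivity)
      · exact pow_le_pow_left₀ (by positivity) (by linarith) p
      · exact pow_le_pow_left₀ (by positivity) (by linarith) 2
    have h2 : c / (1 + ((s + j : ℕ) : ℝ)) ^ (p + 2) ≤ d * (1 / (1 + (j : ℝ)) ^ 2) := by
      rw [hd, div_mul_div_comm, mul_one]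
      exact div_le_div_of_nonneg_left hc (by positivity) h1
    have h3 : 1 / (1 + (j : ℝ)) ^ 2 ≤ 2 / (1 + (j : ℝ)) - 2 / (1 + ((j + 1 : ℕ) : ℝ)) := by
      push_cast
      rw [div_sub_div _ _ (by positivity) (by positivity), div_le_div_iff₀ (by positivity)
        (by positivity)]
      nlinarith [mul_nonneg hj0 hj.le, mul_nonneg hj0 (mul_nonneg hj.le hj.le)]
    exact (hF (s + j)).trans (h2.trans (mul_le_mul_of_nonneg_left h3 hd0))
  have h1 : ∀ k : ℕ, ‖F (s + k) - F s‖ ≤ d * (2 - 2 / (1 + (k : ℝ))) := by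
    intro k
    induction k with
    | zero => simp
    | succ k ih =>
      have e : F (s + (k + 1)) - F s = (F (s + k + 1) - F (s + k)) + (F (s + k) - F s) := by
        rw [add_assoc]
        abel
      rw [e]
      refine (norm_add_le _ _).trans ((add_le_add (hstep k) ih).trans (le_of_eq ?_))
      ring
  refine (h1 k).trans ?_
  have h2 : 0 ≤ 2 / (1 + (k : ℝ)) := by positivity
  calc d * (2 - 2 / (1 + (k : ℝ))) ≤ d * 2 := mul_le_mul_of_nonneg_left (by linarith) hd0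
    _ = 2 * c / (1 + (s : ℝ)) ^ p := by rw [hd]; ring

/-- **The filtered operator is local**: comparison of the full Hamiltonian with the
Hamiltonian of the ball of radius `ρ + s`, for an operator on the ball of radius `ρ`. -/
theorem FF_trunc {R : ℕ} {J Δ : ℝ} {w : ℝ → ℝ} (hJ : 0 ≤ J) (hw : IsFilter Δ w) (p : ℕ) :
    ∃ C : ℝ, 0 ≤ C ∧
    ∀ (L q : ℕ) (g : Finset (Site L) → Op (Site L) q), Terms L q R J g →
    ∀ (x : Site L) (ρ s : ℕ), ∀ v : Op (Site L) q, ActsOn (ball x ρ) v →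
    ‖FF124 w (∑ X, g X) v - FF124 w (Hr g x (ρ + s)) v‖ ≤
      C * (1 + (ρ : ℝ)) ^ 2 * ‖v‖ / (1 + (s : ℝ)) ^ p := by
  obtain ⟨C, hC0, hC⟩ := FF_step_p (R := R) hJ hw (p + 2)
  refine ⟨2 * C, by positivity, ?_⟩
  intro L q g hg x ρ s v hv
  have h1 := fp_tele (fun s => FF124 w (Hr g x (ρ + s)) v)
    (c := C * (1 + (ρ : ℝ)) ^ 2 * ‖v‖) (by positivity) p
    (fun s => hC L q g hg x ρ s v hv) s (2 * L)
  rw [Hr_univ g x (r := ρ + (s + 2 * L)) (by omega)] at h1
  refine h1.trans (le_of_eq ?_)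
  ring

/-- **The generator is local**, same form. -/
theorem DD_trunc {R : ℕ} {J Δ : ℝ} {w : ℝ → ℝ} (hJ : 0 ≤ J) (hw : IsFilter Δ w) (p : ℕ) :
    ∃ C : ℝ, 0 ≤ C ∧
    ∀ (L q : ℕ) (g : Finset (Site L) → Op (Site L) q), Terms L q R J g →
    ∀ (x : Site L) (ρ s : ℕ), ∀ v : Op (Site L) q, ActsOn (ball x ρ) v →
    ‖PH.DD w (∑ X, g X) v - PH.DD w (Hr g x (ρ + s)) v‖ ≤
      C * (1 + (ρ : ℝ)) ^ 2 * ‖v‖ / (1 + (s : ℝ)) ^ p := by
  obtain ⟨C, hC0, hC⟩ := DD_step_p (R := R) hJ hw (p + 2)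
  refine ⟨2 * C, by positivity, ?_⟩
  intro L q g hg x ρ s v hv
  have h1 := fp_tele (fun s => PH.DD w (Hr g x (ρ + s)) v)
    (c := C * (1 + (ρ : ℝ)) ^ 2 * ‖v‖) (by positivity) p
    (fun s => hC L q g hg x ρ s v hv) s (2 * L)
  rw [Hr_univ g x (r := ρ + (s + 2 * L)) (by omega)] at h1
  refine h1.trans (le_of_eq ?_)
  ring

end trunc

section pos
open scoped MatrixOrder
variable {N : Type*} [Fintype N] [DecidableEq N]

/-- the positive portion of a Hermitian matrix -/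
noncomputable def posM (A : Matrix N N ℂ) : Matrix N N ℂ := (1 / 2 : ℂ) • (absM A + A)

theorem posM_psd {A : Matrix N N ℂ} (hA : A.IsHermitian) : (posM A).PosSemidef := by
  have h := neg_le_absM hA
  have h2 : (0 : ℂ) ≤ (1 / 2 : ℂ) := by
    have : ((1 / 2 : ℝ) : ℂ) = (1 / 2 : ℂ) := by push_cast; ring
    rw [← this]
    exact_mod_cast (by norm_num : (0 : ℝ) ≤ 1 / 2)
  exact h.smul h2

/-- the difference of the positive portion and the matrix is positive: it is the positive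
portion of the opposite matrix -/
theorem posM_sub (A : Matrix N N ℂ) : posM A - A = posM (-A) := by
  have h1 : absM (-A) = absM A := by
    unfold absM
    exact CFC.abs_neg A
  unfold posM
  rw [h1, smul_add, smul_add, smul_neg]
  have : A = (1 / 2 : ℂ) • A + (1 / 2 : ℂ) • A := by
    rw [← add_smul]; norm_num
  nth_rewrite 3 [this]
  abel

theorem posM_norm (A : Matrix N N ℂ) : ‖posM A‖ ≤ ‖A‖ := by
  unfold posM
  rw [norm_smul]
  have h1 : ‖(1 / 2 : ℂ)‖ = 1 / 2 := by norm_num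
  have h2 := norm_add_le (absM A) A
  rw [absM_norm] at h2
  rw [h1]
  linarith

theorem posM_nrm (A : Matrix N N ℂ) (u : N → ℂ) : nrm (posM A *ᵥ u) ≤ nrm (A *ᵥ u) := by
  have h1 : nrm (absM A *ᵥ u) = nrm (A *ᵥ u) := by
    have h2 := absM_norm_mulVec_sq A u
    have h3 : (nsq (absM A *ᵥ u) : ℂ) = (nsq (A *ᵥ u) : ℂ) := by
      rw [← ip_self, ← ip_self]
      exact h2
    have h4 : nsq (absM A *ᵥ u) = nsq (A *ᵥ u) := by exact_mod_cast h3
    unfold nrm
    rw [h4]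
  have h5 : posM A *ᵥ u = (1 / 2 : ℂ) • (absM A *ᵥ u + A *ᵥ u) := by
    unfold posM
    rw [Matrix.smul_mulVec, Matrix.add_mulVec]
  rw [h5, p5_nrm_eq, p5_nrm_eq]
  rw [p5_nrm_eq, p5_nrm_eq] at h1
  rw [WithLp.toLp_smul, norm_smul, WithLp.toLp_add]
  have h6 : ‖(1 / 2 : ℂ)‖ = 1 / 2 := by norm_num
  rw [h6]
  have h7 := norm_add_le (WithLp.toLp 2 (absM A *ᵥ u) : EuclideanSpace ℂ N)
    (WithLp.toLp 2 (A *ᵥ u))
  rw [h1] at h7
  linarith

theorem posM_actsOn {V : Type*} [Fintype V] [DecidableEq V] {q : ℕ} {X : Finset V}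
    {A : Op V q} (hA : ActsOn X A) : ActsOn X (posM A) :=
  ph_acts_smul _ (ph_acts_add (absM_actsOn hA) hA)

end pos

section local_terms
variable {L q R : ℕ} {J Δ : ℝ} {w : ℝ → ℝ}

/-- the filtered term minus its expectation -/
noncomputable def MF (w : ℝ → ℝ) (H : Op (Site L) q) (Ω : Conf (Site L) q → ℂ)
    (v : Op (Site L) q) : Op (Site L) q :=
  FF124 w H v - (((star Ω ⬝ᵥ (v *ᵥ Ω)).re : ℝ) : ℂ) • (1 : Op (Site L) q)

theorem MF_herm (hw : IsFilter Δ w) {H : Op (Site L) q} (hH : H.IsHermitian)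
    (Ω : Conf (Site L) q → ℂ) {v : Op (Site L) q} (hv : v.IsHermitian) :
    (MF w H Ω v).IsHermitian := by
  unfold MF
  refine (FF_herm hw hH hv).sub ?_
  unfold Matrix.IsHermitian
  rw [Matrix.conjTranspose_smul, Matrix.conjTranspose_one, RCLike.star_def, Complex.conj_ofReal]

theorem MF_acts {S : Finset (Site L)} {H : Op (Site L) q} (hH : ActsOn S H)
    (Ω : Conf (Site L) q → ℂ) {v : Op (Site L) q} (hv : ActsOn S v) :
    ActsOn S (MF w H Ω v) :=
  ph_acts_sub (FF_actsOn hH hv w) (ph_acts_smul _ (ph_acts_one S))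

theorem MF_ground (hΔ : 0 < Δ) (hw : IsFilter Δ w) {H : Op (Site L) q} (hH : H.IsHermitian)
    {v : Op (Site L) q} (hv : v.IsHermitian) {E : ℝ} {Ω : Conf (Site L) q → ℂ}
    (hg : GappedGround H Δ E Ω) : MF w H Ω v *ᵥ Ω = 0 := by
  unfold MF
  rw [Matrix.sub_mulVec, ff_ground hΔ hw hH v hg, Matrix.smul_mulVec, Matrix.one_mulVec,
    ← p5_real hv Ω, sub_self]

/-- expectations are bounded by the norm -/
theorem fp_exp_le (v : Op (Site L) q) {Ω : Conf (Site L) q → ℂ} (h1 : nsq Ω = 1) :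
    |(star Ω ⬝ᵥ (v *ᵥ Ω)).re| ≤ ‖v‖ := by
  have h := p5_form_le v Ω Ω
  rw [p5_nrm_one h1, mul_one, mul_one] at h
  exact (Complex.abs_re_le_norm _).trans h

theorem MF_norm (hw : IsFilter Δ w) {H : Op (Site L) q} (hH : H.IsHermitian)
    {Ω : Conf (Site L) q → ℂ} (h1 : nsq Ω = 1) (v : Op (Site L) q) :
    ‖MF w H Ω v‖ ≤ ((∫ t : ℝ, |w t|) + 1) * ‖v‖ := by
  unfold MF
  refine (norm_sub_le _ _).trans ?_
  have h2 := FF_norm hw hH v
  have h3 : ‖(((star Ω ⬝ᵥ (v *ᵥ Ω)).re : ℝ) : ℂ) • (1 : Op (Site L) q)‖ ≤ ‖v‖ := by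
    rw [norm_smul, Complex.norm_real, Real.norm_eq_abs]
    have h4 : ‖(1 : Op (Site L) q)‖ ≤ 1 := by
      rcases isEmpty_or_nonempty (Conf (Site L) q) with h | h
      · have : (1 : Op (Site L) q) = 0 := by
          ext i
          exact (h.false i).elim
        rw [this, norm_zero]
        norm_num
      · exact (CStarRing.norm_one).le
    calc |(star Ω ⬝ᵥ (v *ᵥ Ω)).re| * ‖(1 : Op (Site L) q)‖ ≤ ‖v‖ * 1 :=
          mul_le_mul (fp_exp_le v h1) h4 (norm_nonneg _) (norm_nonneg _)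
      _ = ‖v‖ := mul_one _
  nlinarith

/-- the sum of the local terms grouped by sites -/
theorem site_terms (hJ : 0 ≤ J) {g : Finset (Site L) → Op (Site L) q} (hg : Terms L q R J g) :
    ∃ v : Site L → Op (Site L) q, (∀ z, (v z).IsHermitian ∧ ActsOn (ball z R) (v z) ∧
      ‖v z‖ ≤ NR R * J) ∧ ∑ z, v z = ∑ X, g X := by
  classical
  let F : Site L → Finset (Finset (Site L)) := fun z =>
    (Finset.univ : Finset (Finset (Site L))).filter
      (fun X => g X ≠ 0 ∧ ∃ h : X.Nonempty, h.choose = z)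
  have hF : ∀ z, ∀ X ∈ F z, g X ≠ 0 ∧ z ∈ X ∧ X ⊆ ball z R := by
    intro z X hX
    obtain ⟨h1, h2, h3⟩ := (Finset.mem_filter.1 hX).2
    have h4 : z ∈ X := by rw [← h3]; exact h2.choose_spec
    refine ⟨h1, h4, fun y hy => ?_⟩
    rw [ball, Finset.mem_filter]
    exact ⟨Finset.mem_univ y, (hg.range X h1).2 y hy z h4⟩
  refine ⟨fun z => ∑ X ∈ F z, g X, fun z => ⟨?_, ?_, ?_⟩, ?_⟩
  · unfold Matrix.IsHermitian
    rw [Matrix.conjTranspose_sum]
    exact Finset.sum_congr rfl fun Y _ => hg.herm Y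
  · exact ph_acts_sum _ fun X hX => ph_acts_mono (hF z X hX).2.2 (hg.loc X)
  · refine (norm_sum_le _ _).trans ?_
    have h1 : (F z).card ≤ NR R := by
      refine le_trans (Finset.card_le_card (t := (ball z R).powerset) fun X hX => ?_)
        (card_local z R)
      exact Finset.mem_powerset.2 (hF z X hX).2.2
    calc ∑ X ∈ F z, ‖g X‖ ≤ ∑ X ∈ F z, J := Finset.sum_le_sum fun X _ => ph_norm_le hJ (hg.norm X)
      _ = (F z).card * J := by rw [Finset.sum_const, nsmul_eq_mul]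
      _ ≤ NR R * J := mul_le_mul_of_nonneg_right (by exact_mod_cast h1) hJ
  · simp only [F]
    simp_rw [Finset.sum_filter]
    rw [Finset.sum_comm]
    refine Finset.sum_congr rfl fun X _ => ?_
    by_cases h : g X = 0
    · simp [h]
    · have hne := (hg.range X h).1
      rw [Finset.sum_eq_single hne.choose]
      · rw [if_pos ⟨h, hne, rfl⟩]
      · intro z _ hz
        rw [if_neg]
        rintro ⟨_, _, h3⟩
        exact hz h3.symm
      · intro h3
        exact absurd (Finset.mem_univ _) h3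

/-- **Local terms which annihilate the ground state.**  For every choice of radii `s z` there are
operators `M z` with `M z Ω = 0` and sum `H - E`, which are approximated by operators `T z` on
the balls of radius `R + s z`. -/
theorem local_terms (hJ : 0 ≤ J) (hΔ : 0 < Δ) (hw : IsFilter Δ w) (p : ℕ) :
    ∃ C : ℝ, 0 ≤ C ∧
    ∀ (L q : ℕ) (g : Finset (Site L) → Op (Site L) q), Terms L q R J g →
    ∀ (E : ℝ) (Ω : Conf (Site L) q → ℂ), GappedGround (∑ X, g X) Δ E Ω →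
    ∃ M : Site L → Op (Site L) q, (∀ z, (M z).IsHermitian ∧ M z *ᵥ Ω = 0 ∧ ‖M z‖ ≤ C) ∧
      ∑ z, M z = ∑ X, g X - (E : ℂ) • (1 : Op (Site L) q) ∧
      ∀ s : Site L → ℕ, ∃ T : Site L → Op (Site L) q, ∀ z, (T z).IsHermitian ∧
        ActsOn (ball z (R + s z)) (T z) ∧ ‖T z‖ ≤ C ∧ ‖M z - T z‖ ≤ C / (1 + (s z : ℝ)) ^ p ∧
        nrm (T z *ᵥ Ω) ≤ C / (1 + (s z : ℝ)) ^ p := by
  obtain ⟨C, hC0, hC⟩ := FF_trunc (R := R) hJ hw p
  have hW : 0 ≤ ∫ t : ℝ, |w t| := integral_nonneg fun t => abs_nonneg _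
  set C1 : ℝ := ((∫ t : ℝ, |w t|) + 1) * (NR R * J) with hC1
  set C2 : ℝ := C * (1 + (R : ℝ)) ^ 2 * (NR R * J) with hC2
  have hC10 : 0 ≤ C1 := by rw [hC1]; positivity
  have hC20 : 0 ≤ C2 := by rw [hC2]; positivity
  refine ⟨C1 + C2, by positivity, ?_⟩
  intro L q g hg E Ω hΩ
  obtain ⟨v, hv, hsum⟩ := site_terms hJ hg
  have hH : (∑ X, g X).IsHermitian := by
    unfold Matrix.IsHermitian
    rw [Matrix.conjTranspose_sum]
    exact Finset.sum_congr rfl fun Y _ => hg.herm Y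
  have hvC : ∀ z, ((∫ t : ℝ, |w t|) + 1) * ‖v z‖ ≤ C1 + C2 := by
    intro z
    have := mul_le_mul_of_nonneg_left (hv z).2.2 (by linarith : 0 ≤ (∫ t : ℝ, |w t|) + 1)
    linarith
  refine ⟨fun z => MF w (∑ X, g X) Ω (v z), fun z => ⟨MF_herm hw hH Ω (hv z).1,
    MF_ground hΔ hw hH (hv z).1 hΩ, (MF_norm hw hH hΩ.1 (v z)).trans (hvC z)⟩, ?_, ?_⟩
  · unfold MF
    rw [Finset.sum_sub_distrib, ← FF_sum hw hH, hsum, FF_of_commute hw (Commute.refl _),
      ← Finset.sum_smul, ← Complex.ofReal_sum, ← Complex.re_sum, ← dotProduct_sum,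
      ← Matrix.sum_mulVec, hsum, hΩ.2.1, dotProduct_smul, ip_self, hΩ.1]
    simp
  · intro s
    refine ⟨fun z => MF w (Hr g z (R + s z)) Ω (v z), fun z => ?_⟩
    have hd : ‖MF w (∑ X, g X) Ω (v z) - MF w (Hr g z (R + s z)) Ω (v z)‖ ≤
        (C1 + C2) / (1 + (s z : ℝ)) ^ p := by
      unfold MF
      rw [sub_sub_sub_cancel_right]
      refine (hC L q g hg z R (s z) (v z) (hv z).2.1).trans ?_
      refine div_le_div_of_nonneg_right ?_ (by positivity)
      have : C * (1 + (R : ℝ)) ^ 2 * ‖v z‖ ≤ C2 :=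
        mul_le_mul_of_nonneg_left (hv z).2.2 (by positivity)
      linarith
    refine ⟨MF_herm hw (fp_Hr_herm hg z _) Ω (hv z).1,
      MF_acts (lr_HB_acts hg _) Ω (ph_acts_mono (ball_mono z (Nat.le_add_right _ _)) (hv z).2.1),
      (MF_norm hw (fp_Hr_herm hg z _) hΩ.1 (v z)).trans (hvC z), hd, ?_⟩
    have h0 := MF_ground hΔ hw hH (hv z).1 hΩ
    have h1 : MF w (Hr g z (R + s z)) Ω (v z) *ᵥ Ω =
        -((MF w (∑ X, g X) Ω (v z) - MF w (Hr g z (R + s z)) Ω (v z)) *ᵥ Ω) := by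
      rw [Matrix.sub_mulVec, h0, zero_sub, neg_neg]
    have h2 := p5_nrm_mulVec (MF w (∑ X, g X) Ω (v z) - MF w (Hr g z (R + s z)) Ω (v z)) Ω
    rw [p5_nrm_one hΩ.1, mul_one] at h2
    have h3 : nrm (-((MF w (∑ X, g X) Ω (v z) - MF w (Hr g z (R + s z)) Ω (v z)) *ᵥ Ω)) =
        nrm ((MF w (∑ X, g X) Ω (v z) - MF w (Hr g z (R + s z)) Ω (v z)) *ᵥ Ω) := by
      rw [p5_nrm_eq, p5_nrm_eq, WithLp.toLp_neg, norm_neg]
    rw [h1, h3]
    exact h2.trans hd

end local_terms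

end Vale.Agent.P356.GA
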