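import Vale.Agent.P356.GA.EnDefs394
import Vale.Agent.P356.GA.FilterPlus
import Vale.Agent.P356.GA.DetSum841

/-!
# EN: from the local terms to their positive portions

The error of almost positivity at the optimal step is `8 √π / r²`; the second order form of a local
term `M` is at most that of its positive portion plus this error.
-/

set_option linter.all false

namespace Vale.Agent.P356.GA

open Matrix Finset Vale.Agent.P356 Vale.Agent.P356.SV Vale.Agent.P356.Path Vale.Agent.P356.NA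
open Vale.Agent.P356.SA Vale.Agent.P356.PH
open scoped BigOperators ComplexOrder Kronecker Matrix.Norms.L2Operator

/-- the optimal step in almost positivity -/
theorem psd_opt394 {π r : ℝ} (h0 : 0 < π) (h1 : π ≤ 1) (hr : 0 < r) :
    ∃ y : ℝ, 0 < y ∧ y ≤ r / 2 ∧ psdErr π 8 r y = 8 * Real.sqrt π / r ^ 2 := by
  set s := Real.sqrt (Real.sqrt π) with hs
  have s0 : 0 < s := Real.sqrt_pos.2 (Real.sqrt_pos.2 h0)
  have s2 : s ^ 2 = Real.sqrt π := Real.sq_sqrt (Real.sqrt_nonneg _)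
  have s4 : s ^ 4 = π := by
    have : s ^ 4 = (s ^ 2) ^ 2 := by ring
    rw [this, s2, Real.sq_sqrt h0.le]
  have s1 : s ≤ 1 := by
    by_contra h
    push Not at h
    have : 1 < s ^ 4 := one_lt_pow₀ h (by norm_num)
    linarith
  refine ⟨r * s / 2, by positivity, ?_, ?_⟩
  · have : r * s ≤ r * 1 := mul_le_mul_of_nonneg_left s1 hr.le
    linarith
  · unfold psdErr
    rw [← s2, show π = s ^ 4 from s4.symm]
    have e1 : s ^ 4 / (r * s / 2) ^ 2 = 4 * s ^ 2 / r ^ 2 := by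
      field_simp
      ring
    have e2 : 2 * 8 * (r * s / 2) ^ 2 / r ^ 4 = 4 * s ^ 2 / r ^ 2 := by
      field_simp
      ring
    rw [e1, e2]
    ring

theorem psdErr_mono394 {π π' K K' r y : ℝ} (hπ : π ≤ π') (hK : K ≤ K') :
    psdErr π K r y ≤ psdErr π' K' r y := by
  unfold psdErr
  have h1 : π / y ^ 2 ≤ π' / y ^ 2 := div_le_div_of_nonneg_right hπ (sq_nonneg y)
  have h2 : 2 * K * y ^ 2 / r ^ 4 ≤ 2 * K' * y ^ 2 / r ^ 4 := by
    refine div_le_div_of_nonneg_right ?_ (by positivity)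
    have := mul_le_mul_of_nonneg_right hK (sq_nonneg y)
    nlinarith [this]
  linarith

/-- expectation of the positive portion in the reference state -/
theorem expv_posM_le {N : Type*} [Fintype N] [DecidableEq N] {A : Matrix N N ℂ}
    (hA : A.IsHermitian) {Ω : N → ℂ} (hΩ : nsq Ω = 1) :
    expv Ω (posM A) ≤ nrm (A *ᵥ Ω) := by
  have h1 : expv Ω (posM A) ≤ nrm Ω * nrm (posM A *ᵥ Ω) := by
    unfold expv
    exact (Complex.re_le_norm _).trans (norm_ip_le _ _)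
  have h2 : nrm Ω = 1 := by
    unfold nrm
    rw [hΩ, Real.sqrt_one]
  rw [h2, one_mul] at h1
  exact h1.trans (posM_nrm A Ω)

/-- expectation of the positive portion in a state which is close to the reference state on the
support -/
theorem expv_posM_dev {V : Type*} [Fintype V] [DecidableEq V] {q : ℕ} {A : Op V q}
    (hA : A.IsHermitian) {S : Finset V} (hS : ActsOn S A) (hA1 : ‖A‖ ≤ 1)
    {Ω ψ : Conf V q → ℂ} (hΩ : nsq Ω = 1) {δ ϖ : ℝ} (hδ : 0 ≤ δ)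
    (hd : ∀ X : Op V q, ActsOn S X →
      ‖star ψ ⬝ᵥ (X *ᵥ ψ) - star Ω ⬝ᵥ (X *ᵥ Ω)‖ ≤ δ * ‖X‖)
    (hϖ : nrm (A *ᵥ Ω) ≤ ϖ) : expv ψ (posM A) ≤ ϖ + δ := by
  have h1 := hd (posM A) (posM_actsOn hS)
  have h2 := expv_posM_le hA hΩ
  have h3 : ‖posM A‖ ≤ 1 := (posM_norm A).trans hA1
  have h4 : expv ψ (posM A) - expv Ω (posM A) ≤ δ * ‖posM A‖ := by
    unfold expv
    rw [← Complex.sub_re]
    exact (Complex.re_le_norm _).trans h1
  have h5 : δ * ‖posM A‖ ≤ δ * 1 := mul_le_mul_of_nonneg_left h3 hδ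
  linarith

variable {L q : ℕ}

/-- **The form of a local term** is at most the form of its positive portion plus the error of
almost positivity of the negative portion. -/
theorem QF_term394 (g : Gd L) {ψ : Conf (SS L) q → ℂ} (M : ℝ)
    {K : Finset (SS L) → Op (SS L) q} (hK : ∀ b, (K b).IsHermitian)
    {A : Op (SS L) q} (hA : A.IsHermitian) (hA1 : ‖A‖ ≤ 1) (θ : ℝ) {r π : ℝ} (hr : 0 < r)
    (hrad : ∀ z : ℂ, ‖z‖ ≤ r → ‖fQ ψ (g.GN ψ M K) (g.n + 1) (posM (-A))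
      ((fun _ => θ), (fun _ => -θ / 2)) z‖ ≤ 8) (h0 : 0 < π) (h1 : π ≤ 1)
    (hπ : expv ψ (posM (-A)) ≤ π) :
    QF ψ (g.GN ψ M K) (g.n + 1) A ((fun _ => θ), (fun _ => -θ / 2)) ≤
      g.QV ψ M K (posM A) (Sum.czero θ g.n (range g.n ×ˢ (univ : Finset (SS L)))) +
        8 * Real.sqrt π / r ^ 2 := by
  obtain ⟨y, hy0, hy1, hy2⟩ := psd_opt394 h0 h1 hr
  rw [Gd.QV_czero, ← hy2]
  have hG : ∀ k < g.n + 1, (g.GN ψ M K k ((fun _ => θ), (fun _ => -θ / 2))).IsHermitian :=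
    fun k _ => Gen_herm _ _ _ _ (g.KV_herm hK) k _
  exact QF_pos_part (M := A) (P := posM A) (P' := posM (-A))
    (by rw [← posM_sub]; abel) (posM_psd hA.neg) hG hr hrad hy0 hy1 hπ

/-- the sum over the local terms -/
theorem QF_sum394 (g : Gd L) {ψ : Conf (SS L) q → ℂ} (M : ℝ)
    {K : Finset (SS L) → Op (SS L) q} (hK : ∀ b, (K b).IsHermitian)
    {Mv : SS L → Op (SS L) q} {Nr : Finset (SS L)} (hA : ∀ v ∈ Nr, (Mv v).IsHermitian)
    (hA1 : ∀ v ∈ Nr, ‖Mv v‖ ≤ 1) (θ : ℝ) {r : ℝ} {π : SS L → ℝ} (hr : 0 < r)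
    (hrad : ∀ v ∈ Nr, ∀ z : ℂ, ‖z‖ ≤ r → ‖fQ ψ (g.GN ψ M K) (g.n + 1) (posM (-Mv v))
      ((fun _ => θ), (fun _ => -θ / 2)) z‖ ≤ 8) (h0 : ∀ v ∈ Nr, 0 < π v)
    (h1 : ∀ v ∈ Nr, π v ≤ 1) (hπ : ∀ v ∈ Nr, expv ψ (posM (-Mv v)) ≤ π v) {S₁ : ℝ}
    (hS : ∑ v ∈ Nr, g.QV ψ M K (posM (Mv v))
      (Sum.czero θ g.n (range g.n ×ˢ (univ : Finset (SS L)))) ≤ S₁) :
    ∑ v ∈ Nr, QF ψ (g.GN ψ M K) (g.n + 1) (Mv v) ((fun _ => θ), (fun _ => -θ / 2)) ≤
      S₁ + 8 / r ^ 2 * ∑ v ∈ Nr, Real.sqrt (π v) := by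
  have h := Finset.sum_le_sum fun v hv => QF_term394 g M hK (hA v hv) (hA1 v hv) θ hr
    (hrad v hv) (h0 v hv) (h1 v hv) (hπ v hv)
  rw [Finset.sum_add_distrib] at h
  have e : ∑ v ∈ Nr, 8 * Real.sqrt (π v) / r ^ 2 = 8 / r ^ 2 * ∑ v ∈ Nr, Real.sqrt (π v) := by
    rw [Finset.mul_sum]
    exact Finset.sum_congr rfl fun v _ => by ring
  rw [e] at h
  linarith

end Vale.Agent.P356.GA
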