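import Vale.Agent.P356.GA.Level795b
import Vale.Agent.P356.GA.Defs341

/-!
# GA (helper795): sites near the boundaries of the tiles

`edg L M e` is the set of sites within `e` of the boundary of their tile of side `M`. A ball of
radius `e` around a site outside `edg L M e` lies in one tile, and a box of side `l` contains at most
`4 (l / M + 2) e l` sites of `edg L M e`.
-/

set_option linter.all false

namespace Vale.Agent.P356.GA.Edge795

open Finset Vale.Agent.P356 Vale.Agent.P356.SV Vale.Agent.P356.SA Vale.Agent.P356.GA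
open Vale.Agent.P356.GA.Level
open scoped BigOperators

variable {L : ℕ}

theorem card_bad {M e l x0 x1 : ℕ} (hM : 0 < M) (hl : x1 ≤ x0 + l) :
    ((range x1).filter (fun a => x0 ≤ a ∧ (a % M < e ∨ M ≤ a % M + e))).card ≤
      (l / M + 2) * (2 * e) := by
  have h1 : ((range x1).filter (fun a => x0 ≤ a ∧ (a % M < e ∨ M ≤ a % M + e))).card ≤
      (Finset.Icc (x0 / M) (x0 / M + (l / M + 1)) ×ˢ (range e ∪ Finset.Ico (M - e) M)).card := by
    refine Finset.card_le_card_of_injOn (fun a => (a / M, a % M)) ?_ ?_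
    · intro a ha
      rw [Finset.mem_coe, mem_filter, mem_range] at ha
      obtain ⟨h0, h1, h2⟩ := ha
      rw [Finset.mem_coe, mem_product, mem_Icc, mem_union, mem_range, mem_Ico]
      have hm := Nat.mod_lt a hM
      refine ⟨⟨Nat.div_le_div_right h1, ?_⟩, ?_⟩
      · have h3 : a / M ≤ (x0 + l) / M := Nat.div_le_div_right (by omega)
        have h4 : (x0 + l) / M ≤ x0 / M + (l / M + 1) := by
          rw [Nat.add_div hM]
          split_ifs <;> omega
        exact h3.trans h4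
      · simp only
        omega
    · intro a _ b _ h
      have h1 := congrArg Prod.fst h
      have h2 := congrArg Prod.snd h
      simp only at h1 h2
      rw [← Nat.div_add_mod a M, ← Nat.div_add_mod b M, h1, h2]
  refine h1.trans ?_
  rw [card_product]
  refine Nat.mul_le_mul ?_ ?_
  · rw [Nat.card_Icc]
    generalize x0 / M = u
    generalize l / M = v
    omega
  · refine (card_union_le _ _).trans ?_
    rw [card_range, Nat.card_Ico]
    omega

/-- the sites within `e` of the boundary of their tile of side `M` -/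
def edg (L M e : ℕ) : Finset (Site L) :=
  univ.filter fun x => (x.1.val % M < e ∨ M ≤ x.1.val % M + e) ∨
    (x.2.val % M < e ∨ M ≤ x.2.val % M + e)

theorem mem_edg {M e : ℕ} {x : Site L} : x ∈ edg L M e ↔
    (x.1.val % M < e ∨ M ≤ x.1.val % M + e) ∨ (x.2.val % M < e ∨ M ≤ x.2.val % M + e) := by
  simp [edg]

theorem edg_mono {M e e' : ℕ} (h : e ≤ e') : edg L M e ⊆ edg L M e' := by
  intro x hx
  rw [mem_edg] at hx ⊢
  omega

theorem card_edg {M e l x0 x1 y0 y1 : ℕ} (hM : 0 < M) (hx : x1 ≤ x0 + l) (hy : y1 ≤ y0 + l) :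
    (edg L M e ∩ rect L x0 x1 y0 y1).card ≤ 4 * ((l / M + 2) * e * l) := by
  classical
  have hsub : edg L M e ∩ rect L x0 x1 y0 y1 ⊆
      ((rect L x0 x1 y0 y1).filter fun x => x.1.val % M < e ∨ M ≤ x.1.val % M + e) ∪
      ((rect L x0 x1 y0 y1).filter fun x => x.2.val % M < e ∨ M ≤ x.2.val % M + e) := by
    intro x hx
    rw [mem_inter, mem_edg] at hx
    rw [mem_union, mem_filter, mem_filter]
    rcases hx.1 with h | h
    · exact Or.inl ⟨hx.2, h⟩
    · exact Or.inr ⟨hx.2, h⟩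
  have h1 : ((rect L x0 x1 y0 y1).filter fun x => x.1.val % M < e ∨ M ≤ x.1.val % M + e).card ≤
      ((range x1).filter (fun a => x0 ≤ a ∧ (a % M < e ∨ M ≤ a % M + e)) ×ˢ
        Finset.Ico y0 y1).card := by
    refine Finset.card_le_card_of_injOn (fun p => ((p.1 : ℕ), (p.2 : ℕ))) ?_ ?_
    · intro p hp
      rw [Finset.mem_coe, mem_filter, mem_rect] at hp
      rw [Finset.mem_coe, mem_product, mem_filter, mem_range, mem_Ico]
      exact ⟨⟨hp.1.2.1, hp.1.1, hp.2⟩, hp.1.2.2.1, hp.1.2.2.2⟩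
    · intro p _ p' _ h
      have h1 := congrArg Prod.fst h
      have h2 := congrArg Prod.snd h
      simp only at h1 h2
      exact Prod.ext (Fin.ext h1) (Fin.ext h2)
  have h2 : ((rect L x0 x1 y0 y1).filter fun x => x.2.val % M < e ∨ M ≤ x.2.val % M + e).card ≤
      ((range y1).filter (fun a => y0 ≤ a ∧ (a % M < e ∨ M ≤ a % M + e)) ×ˢ
        Finset.Ico x0 x1).card := by
    refine Finset.card_le_card_of_injOn (fun p => ((p.2 : ℕ), (p.1 : ℕ))) ?_ ?_
    · intro p hp
      rw [Finset.mem_coe, mem_filter, mem_rect] at hp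
      rw [Finset.mem_coe, mem_product, mem_filter, mem_range, mem_Ico]
      exact ⟨⟨hp.1.2.2.2, hp.1.2.2.1, hp.2⟩, hp.1.1, hp.1.2.1⟩
    · intro p _ p' _ h
      have h1 := congrArg Prod.fst h
      have h2 := congrArg Prod.snd h
      simp only at h1 h2
      exact Prod.ext (Fin.ext h2) (Fin.ext h1)
  rw [card_product, Nat.card_Ico] at h1 h2
  have h3 := card_bad (e := e) hM hx
  have h4 := card_bad (e := e) hM hy
  have h5 : ((range x1).filter (fun a => x0 ≤ a ∧ (a % M < e ∨ M ≤ a % M + e))).card * (y1 - y0) ≤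
      (l / M + 2) * (2 * e) * l := Nat.mul_le_mul h3 (by omega)
  have h6 : ((range y1).filter (fun a => y0 ≤ a ∧ (a % M < e ∨ M ≤ a % M + e))).card * (x1 - x0) ≤
      (l / M + 2) * (2 * e) * l := Nat.mul_le_mul h4 (by omega)
  have h7 : 4 * ((l / M + 2) * e * l) = (l / M + 2) * (2 * e) * l + (l / M + 2) * (2 * e) * l := by
    ring
  rw [h7]
  exact (card_le_card hsub).trans ((card_union_le _ _).trans
    (Nat.add_le_add (h1.trans h5) (h2.trans h6)))

/-- real form: if `M ≤ l` the box has at most `12 l ^ 2 e / M` sites near the tile boundaries -/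
theorem card_edg_real {M e l x0 x1 y0 y1 : ℕ} (hM : 0 < M) (hMl : M ≤ l) (hx : x1 ≤ x0 + l)
    (hy : y1 ≤ y0 + l) : ((edg L M e ∩ rect L x0 x1 y0 y1).card : ℝ) ≤
      12 * ((l : ℝ) ^ 2 * (e / M)) := by
  have h1 : ((edg L M e ∩ rect L x0 x1 y0 y1).card : ℝ) ≤
      ((4 * ((l / M + 2) * e * l) : ℕ) : ℝ) := by
    exact_mod_cast card_edg hM hx hy
  have hM' : (0 : ℝ) < M := by exact_mod_cast hM
  have h2 : ((l / M : ℕ) : ℝ) ≤ (l : ℝ) / M := Nat.cast_div_le
  have h3 : (1 : ℝ) ≤ (l : ℝ) / M := by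
    rw [le_div_iff₀ hM']
    have : (M : ℝ) ≤ l := by exact_mod_cast hMl
    linarith
  push_cast at h1
  have h4 : (((l / M : ℕ) : ℝ) + 2) * e * l ≤ (3 * ((l : ℝ) / M)) * e * l := by
    have : (((l / M : ℕ) : ℝ) + 2) ≤ 3 * ((l : ℝ) / M) := by linarith
    gcongr
  have h5 : (3 * ((l : ℝ) / M)) * e * l = 3 * ((l : ℝ) ^ 2 * (e / M)) := by
    field_simp
  rw [h5] at h4
  push_cast at h4
  linarith

/-! ### The tile of a site -/

/-- index of the tile of a site -/
def tli (M : ℕ) (x : Site L) : Site L :=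
  (⟨x.1.val / M, lt_of_le_of_lt (Nat.div_le_self _ _) x.1.isLt⟩,
    ⟨x.2.val / M, lt_of_le_of_lt (Nat.div_le_self _ _) x.2.isLt⟩)

theorem mem_tileB {M : ℕ} {j x : Site L} : x ∈ tileB L M j ↔
    x.1.val / M = j.1.val ∧ x.2.val / M = j.2.val := by
  simp [tileB]

theorem mem_tileB_tli (M : ℕ) (x : Site L) : x ∈ tileB L M (tli M x) := by
  rw [mem_tileB]
  exact ⟨rfl, rfl⟩

theorem tileB_eq_of_mem {M : ℕ} {j x : Site L} (h : x ∈ tileB L M j) : j = tli M x := by
  rw [mem_tileB] at h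
  exact Prod.ext (Fin.ext h.1.symm) (Fin.ext h.2.symm)

theorem tileB_disj {M : ℕ} {j j' : Site L} (h : j ≠ j') : Disjoint (tileB L M j) (tileB L M j') := by
  rw [Finset.disjoint_left]
  intro x hx hx'
  exact h ((tileB_eq_of_mem hx).trans (tileB_eq_of_mem hx').symm)

theorem div_eq_of_near {M a b r : ℕ} (h1 : r ≤ a % M) (h2 : a % M + r < M) (h3 : b ≤ a + r)
    (h4 : a ≤ b + r) : b / M = a / M := by
  have hM : 0 < M := by omega
  have h5 := Nat.div_add_mod a M
  have h6 : M * (a / M) ≤ b := by omega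
  have h7 : b < M * (a / M) + M := by omega
  refine Nat.div_eq_of_lt_le ?_ ?_
  · rw [mul_comm]
    exact h6
  · calc b < M * (a / M) + M := h7
      _ = (a / M + 1) * M := by ring

/-- a ball of radius `r` around a site farther than `r` from the tile boundaries lies in its tile -/
theorem bal_sub_tile {M r : ℕ} {z : Site L} (h : z ∉ edg L M r) : bal z r ⊆ tileB L M (tli M z) := by
  intro x hx
  rw [mem_edg] at h
  rw [mem_bal] at hx
  push Not at h
  rw [mem_tileB]
  exact ⟨div_eq_of_near h.1.1 h.1.2 hx.1 hx.2.1, div_eq_of_near h.2.1 h.2.2 hx.2.2.1 hx.2.2.2⟩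

/-- only the own tile meets such a ball -/
theorem tile_eq_of_meet {M r : ℕ} {z j : Site L} (h : z ∉ edg L M r)
    (hj : (tileB L M j ∩ bal z r).Nonempty) : j = tli M z := by
  obtain ⟨x, hx⟩ := hj
  rw [mem_inter] at hx
  exact (tileB_eq_of_mem hx.1).trans (tileB_eq_of_mem (bal_sub_tile h hx.2)).symm

/-- at most four tiles meet a ball of radius at most half the side of the tiles -/
theorem card_tiles_meet {M r : ℕ} (hM : 0 < M) (hr : 2 * r ≤ M) (z : Site L) :
    (univ.filter fun j : Site L => (tileB L M j ∩ bal z r).Nonempty).card ≤ 4 := by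
  classical
  have hdiv : ∀ a : ℕ, (a + r) / M ≤ (a - r) / M + 1 := by
    intro a
    have h1 : (a + r) / M ≤ ((a - r) + M) / M := Nat.div_le_div_right (by omega)
    rw [Nat.add_div_right _ hM] at h1
    exact h1
  have h1 : (univ.filter fun j : Site L => (tileB L M j ∩ bal z r).Nonempty).card ≤
      (Finset.Icc ((z.1 - r) / M) ((z.1 - r) / M + 1) ×ˢ
        Finset.Icc (((z.2 : ℕ) - r) / M) ((z.2 - r) / M + 1)).card := by
    refine Finset.card_le_card_of_injOn (fun p => ((p.1 : ℕ), (p.2 : ℕ))) ?_ ?_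
    · intro j hj
      rw [Finset.mem_coe, mem_filter] at hj
      obtain ⟨x, hx⟩ := hj.2
      rw [mem_inter, mem_tileB, mem_bal] at hx
      obtain ⟨⟨e1, e2⟩, b1, b2, b3, b4⟩ := hx
      rw [Finset.mem_coe, mem_product, mem_Icc, mem_Icc]
      simp only
      rw [← e1, ← e2]
      refine ⟨⟨Nat.div_le_div_right (by omega), ?_⟩, Nat.div_le_div_right (by omega), ?_⟩
      · exact (Nat.div_le_div_right b1).trans (hdiv _)
      · exact (Nat.div_le_div_right b3).trans (hdiv _)
    · intro p _ p' _ h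
      have h1 := congrArg Prod.fst h
      have h2 := congrArg Prod.snd h
      simp only at h1 h2
      exact Prod.ext (Fin.ext h1) (Fin.ext h2)
  refine h1.trans ?_
  rw [card_product, Nat.card_Icc, Nat.card_Icc]
  have e1 : (z.1 - r) / M + 1 + 1 - (z.1 - r) / M = 2 := by omega
  have e2 : ((z.2 : ℕ) - r) / M + 1 + 1 - (z.2 - r) / M = 2 := by omega
  rw [e1, e2]

/-! ### Levels near a ball -/

/-- the natural numbers in a real interval of length `ℓ` -/
theorem card_levels (n : ℕ) (a b t₀ : ℝ) (c : ℕ) (h : b ≤ a + c) :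
    ((range n).filter fun k : ℕ => a ≤ t₀ + k ∧ t₀ + (k : ℝ) ≤ b).card ≤ c + 1 := by
  classical
  by_cases hne : ((range n).filter fun k : ℕ => a ≤ t₀ + k ∧ t₀ + (k : ℝ) ≤ b).Nonempty
  · obtain ⟨k0, hk0, hmin⟩ := exists_min_image _ (fun k : ℕ => k) hne
    have hsub : ((range n).filter fun k : ℕ => a ≤ t₀ + k ∧ t₀ + (k : ℝ) ≤ b) ⊆
        Finset.Icc k0 (k0 + c) := by
      intro k hk
      rw [mem_Icc]
      refine ⟨hmin k hk, ?_⟩
      rw [mem_filter] at hk hk0
      have h1 : ((k : ℕ) : ℝ) ≤ ((k0 + c : ℕ) : ℝ) := by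
        push_cast
        linarith [hk.2.2, hk0.2.1]
      exact_mod_cast h1
    refine (card_le_card hsub).trans ?_
    rw [Nat.card_Icc]
    omega
  · rw [not_nonempty_iff_eq_empty] at hne
    rw [hne]
    simp

/-- the lines which cut a ball of radius `D`: at most `8 D + 1` -/
theorem card_lines {T : Site L → ℝ} (hT : ∀ x y, |T x - T y| ≤ 2 * dist1 x y) (t₀ : ℝ) (n D : ℕ)
    (z : Site L) :
    ((range n).filter fun k : ℕ => (∃ x ∈ bal z D, T x ≤ t₀ + k) ∧
      ∃ y ∈ bal z D, t₀ + (k : ℝ) < T y).card ≤ 8 * D + 1 := by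
  classical
  have hsub : ((range n).filter fun k : ℕ => (∃ x ∈ bal z D, T x ≤ t₀ + k) ∧
      ∃ y ∈ bal z D, t₀ + (k : ℝ) < T y) ⊆
      (range n).filter fun k : ℕ => T z - 4 * D ≤ t₀ + k ∧ t₀ + (k : ℝ) ≤ T z + 4 * D := by
    intro k hk
    rw [mem_filter] at hk ⊢
    obtain ⟨h0, ⟨x, hx, hx1⟩, y, hy, hy1⟩ := hk
    have a1 := hT x z
    have a2 := hT y z
    have b1 : ((dist1 x z : ℕ) : ℝ) ≤ ((2 * D : ℕ) : ℝ) := by exact_mod_cast dist1_self_le hx
    have b2 : ((dist1 y z : ℕ) : ℝ) ≤ ((2 * D : ℕ) : ℝ) := by exact_mod_cast dist1_self_le hy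
    rw [abs_le] at a1 a2
    push_cast at b1 b2
    exact ⟨h0, by linarith [a1.1], by linarith [a2.2]⟩
  refine (card_le_card hsub).trans ?_
  refine card_levels n _ _ t₀ (8 * D) ?_
  push_cast
  linarith

/-- the slabs `{t₀ + k < T ≤ t₀ + k + m}` which meet a ball of radius `D`: at most `8 D + m + 1` -/
theorem card_slabs {T : Site L → ℝ} (hT : ∀ x y, |T x - T y| ≤ 2 * dist1 x y) (t₀ : ℝ)
    (n D m : ℕ) (z : Site L) :
    ((range n).filter fun k : ℕ => ∃ x ∈ bal z D, t₀ + (k : ℝ) < T x ∧ T x ≤ t₀ + k + m).card ≤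
      8 * D + m + 1 := by
  classical
  have hsub : ((range n).filter fun k : ℕ => ∃ x ∈ bal z D, t₀ + (k : ℝ) < T x ∧ T x ≤ t₀ + k + m) ⊆
      (range n).filter fun k : ℕ => T z - 4 * D - m ≤ t₀ + k ∧ t₀ + (k : ℝ) ≤ T z + 4 * D := by
    intro k hk
    rw [mem_filter] at hk ⊢
    obtain ⟨h0, x, hx, hx1, hx2⟩ := hk
    have a1 := hT x z
    have b1 : ((dist1 x z : ℕ) : ℝ) ≤ ((2 * D : ℕ) : ℝ) := by exact_mod_cast dist1_self_le hx
    rw [abs_le] at a1
    push_cast at b1
    exact ⟨h0, by linarith [a1.1], by linarith [a1.2]⟩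
  refine (card_le_card hsub).trans ?_
  refine card_levels n _ _ t₀ (8 * D + m) ?_
  push_cast
  linarith

end Vale.Agent.P356.GA.Edge795
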