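import Vale.Agent.P356.GA.EnDefs394
import Vale.Agent.P356.GA.Edge795

/-!
# P356, GA, block CLASS (helper407): lines and slabs seen by one core

Concrete facts for the nested regions `g.R` of the two-layer lattice, the tiles `g.tB` and the cores
`lay v (fun z => bal z D)`, in the form of the hypotheses of helper770's `sum_terms`:
the lines which cut a core, the slabs with influence (`Rel`), inner cores, and the windows of the
healed lines.
-/

set_option linter.all false

namespace Vale.Agent.P356.GA.Class407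

open Finset Vale.Agent.P356 Vale.Agent.P356.SV Vale.Agent.P356.SA Vale.Agent.P356.GA
open Vale.Agent.P356.GA.Level Vale.Agent.P356.GA.Edge795
open scoped BigOperators

variable {L : ℕ}

/-- the site of the square below a site of the two-layer lattice -/
def st (v : SS L) : Site L := Sum.elim id id v

/-- the core of radius `D` around a site of the two-layer lattice -/
def cor (D : ℕ) (v : SS L) : Finset (SS L) := lay v (fun z => bal z D)

theorem cor_inl (D : ℕ) (z : Site L) : cor D (Sum.inl z) = inL (bal z D) := rfl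
theorem cor_inr (D : ℕ) (z : Site L) : cor D (Sum.inr z) = inR (bal z D) := rfl

theorem cor_mono {D D' : ℕ} (h : D ≤ D') (v : SS L) : cor D v ⊆ cor D' v := by
  rcases v with z | z
  · rw [cor_inl, cor_inl]
    exact Finset.map_subset_map.2 (bal_mono z h)
  · rw [cor_inr, cor_inr]
    exact Finset.map_subset_map.2 (bal_mono z h)

theorem self_mem_cor (D : ℕ) (v : SS L) : v ∈ cor D v := by
  rcases v with z | z
  · rw [cor_inl, mem_inL_inl]
    exact self_mem_bal z D
  · rw [cor_inr, mem_inR_inr]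
    exact self_mem_bal z D

theorem card_cor (D : ℕ) (v : SS L) : (cor D v).card ≤ (2 * D + 1) ^ 2 := by
  rcases v with z | z
  · rw [cor_inl, inL, Finset.card_map]
    exact card_bal z D
  · rw [cor_inr, inR, Finset.card_map]
    exact card_bal z D

/-- distance bound inside a core -/
theorem near {T : Site L → ℝ} (hT : ∀ x y, |T x - T y| ≤ 2 * dist1 x y) {D : ℕ} {z x : Site L}
    (hx : x ∈ bal z D) : T z - 4 * D ≤ T x ∧ T x ≤ T z + 4 * D := by
  have a1 := hT x z
  have b1 : ((dist1 x z : ℕ) : ℝ) ≤ ((2 * D : ℕ) : ℝ) := by exact_mod_cast dist1_self_le hx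
  rw [abs_le] at a1
  push_cast at b1
  exact ⟨by linarith [a1.1], by linarith [a1.2]⟩

/-! ### Lines -/

variable (g : Gd L)

/-- the height of a site of the two-layer lattice: the line `k` is `{k < hgt}` in the first layer
and `{k ≤ hgt}` in the second layer -/
noncomputable def hgt (v : SS L) : ℝ :=
  Sum.elim (fun x => g.T x - g.t0) (fun x => g.t0 + g.N - g.T x) v

/-- the level of the line `k` in the layer of `v` -/
noncomputable def lvl (v : SS L) (k : ℝ) : ℝ :=
  Sum.elim (fun _ => g.t0 + k) (fun _ => g.t0 + g.N - k) v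

variable {g}

theorem cuts_inl {D : ℕ} {z : Site L} {k : ℕ} : Sum.Cuts g.R (cor D (Sum.inl z)) k ↔
    (∃ x ∈ bal z D, g.T x ≤ g.t0 + k) ∧ ∃ y ∈ bal z D, g.t0 + (k : ℝ) < g.T y := by
  rw [Sum.Cuts, cor_inl, Finset.not_subset, Finset.not_disjoint_iff]
  constructor
  · rintro ⟨⟨x, hx, hx'⟩, y, hy, hy'⟩
    rcases x with x | x
    · rcases y with y | y
      · rw [mem_inL_inl] at hx hy
        rw [Gd.mem_R_inl, not_lt] at hx'
        rw [Gd.mem_R_inl] at hy'
        exact ⟨⟨x, hx, hx'⟩, y, hy, hy'⟩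
      · exact absurd hy mem_inL_inr
    · exact absurd hx mem_inL_inr
  · rintro ⟨⟨x, hx, hx'⟩, y, hy, hy'⟩
    refine ⟨⟨Sum.inl x, mem_inL_inl.2 hx, ?_⟩, Sum.inl y, mem_inL_inl.2 hy, ?_⟩
    · rw [Gd.mem_R_inl, not_lt]
      exact hx'
    · rw [Gd.mem_R_inl]
      exact hy'

theorem cuts_inr {D : ℕ} {z : Site L} {k : ℕ} : Sum.Cuts g.R (cor D (Sum.inr z)) k ↔
    (∃ x ∈ bal z D, g.T x ≤ g.t0 + g.N - k) ∧ ∃ y ∈ bal z D, g.t0 + g.N - (k : ℝ) < g.T y := by
  rw [Sum.Cuts, cor_inr, Finset.not_subset, Finset.not_disjoint_iff]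
  constructor
  · rintro ⟨⟨x, hx, hx'⟩, y, hy, hy'⟩
    rcases x with x | x
    · exact absurd hx mem_inR_inl
    · rcases y with y | y
      · exact absurd hy mem_inR_inl
      · rw [mem_inR_inr] at hx hy
        rw [Gd.mem_R_inr, not_le] at hx'
        rw [Gd.mem_R_inr] at hy'
        exact ⟨⟨y, hy, hy'⟩, x, hx, hx'⟩
  · rintro ⟨⟨x, hx, hx'⟩, y, hy, hy'⟩
    refine ⟨⟨Sum.inr y, mem_inR_inr.2 hy, ?_⟩, Sum.inr x, mem_inR_inr.2 hx, ?_⟩
    · rw [Gd.mem_R_inr, not_le]
      exact hy'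
    · rw [Gd.mem_R_inr]
      exact hx'

/-- a line which cuts the core has its level near the height of the core -/
theorem cuts_near (hT : ∀ x y, |g.T x - g.T y| ≤ 2 * dist1 x y) {D : ℕ} {v : SS L} {k : ℕ}
    (h : Sum.Cuts g.R (cor D v) k) : hgt g v - 4 * D ≤ k ∧ (k : ℝ) ≤ hgt g v + 4 * D := by
  rcases v with z | z
  · rw [cuts_inl] at h
    obtain ⟨⟨x, hx, hx'⟩, y, hy, hy'⟩ := h
    have h1 := near hT hx
    have h2 := near hT hy
    simp only [hgt, Sum.elim_inl]
    exact ⟨by linarith, by linarith⟩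
  · rw [cuts_inr] at h
    obtain ⟨⟨x, hx, hx'⟩, y, hy, hy'⟩ := h
    have h1 := near hT hx
    have h2 := near hT hy
    simp only [hgt, Sum.elim_inr]
    exact ⟨by linarith, by linarith⟩

/-- natural numbers in a set of diameter at most `c` -/
theorem card_diam {s : Finset ℕ} {c : ℕ} (h : ∀ a ∈ s, ∀ b ∈ s, b ≤ a + c) : s.card ≤ c + 1 := by
  rcases s.eq_empty_or_nonempty with hs | hs
  · rw [hs]
    simp
  · obtain ⟨a, ha, hmin⟩ := Finset.exists_min_image s (fun k => k) hs
    have hsub : s ⊆ Finset.Icc a (a + c) := fun k hk => mem_Icc.2 ⟨hmin k hk, h a ha k hk⟩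
    refine (card_le_card hsub).trans ?_
    rw [Nat.card_Icc]
    omega

/-- two lines which cut the same core -/
theorem cuts_two (hT : ∀ x y, |g.T x - g.T y| ≤ 2 * dist1 x y) {D : ℕ} {v : SS L} {k k' : ℕ}
    (h : Sum.Cuts g.R (cor D v) k) (h' : Sum.Cuts g.R (cor D v) k') : k' ≤ k + 8 * D := by
  have h1 := cuts_near hT h
  have h2 := cuts_near hT h'
  have h3 : (k' : ℝ) ≤ ((k + 8 * D : ℕ) : ℝ) := by
    push_cast
    linarith [h1.1, h2.2]
  exact_mod_cast h3

/-- **number of cutting lines** -/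
theorem card_cutL (hT : ∀ x y, |g.T x - g.T y| ≤ 2 * dist1 x y) (h D : ℕ) (v : SS L) :
    (Sum.cutL g.R h (cor D v)).card ≤ 8 * D + 1 :=
  card_diam fun k hk k' hk' => cuts_two hT (Sum.mem_cutL.1 hk).2 (Sum.mem_cutL.1 hk').2

/-- **cutting lines are not at the distance of a slab** (`hdis` of `sum_terms`) -/
theorem cut_dis (hT : ∀ x y, |g.T x - g.T y| ≤ 2 * dist1 x y) {h D m : ℕ} (hm : 8 * D < m)
    {v : SS L} : ∀ k ∈ Sum.cutL g.R h (cor D v), ∀ k' ∈ Sum.cutL g.R h (cor D v), k + m ≠ k' := by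
  intro k hk k' hk'
  have := cuts_two hT (Sum.mem_cutL.1 hk).2 (Sum.mem_cutL.1 hk').2
  omega

/-- **the ends of the ladder** (`hlad` of `sum_terms`): if the height of the core is far from the
heights `0` and `h`, then all the lines which cut the core have both slabs -/
theorem cut_lad (hT : ∀ x y, |g.T x - g.T y| ≤ 2 * dist1 x y) {h D m : ℕ} {v : SS L}
    (h0 : (m : ℝ) + 4 * D < |hgt g v|) (h1 : (m : ℝ) + 4 * D < |hgt g v - h|) :
    ∀ k < h + m, Sum.Cuts g.R (cor D v) k → m ≤ k ∧ k < h := by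
  intro k hk hc
  have hn := cuts_near hT hc
  have hk' : (k : ℝ) < (h : ℝ) + m := by exact_mod_cast hk
  have hk0 : (0 : ℝ) ≤ k := Nat.cast_nonneg k
  have hD0 : (0 : ℝ) ≤ D := Nat.cast_nonneg D
  have hm0 : (0 : ℝ) ≤ m := Nat.cast_nonneg m
  constructor
  · by_contra hlt
    push Not at hlt
    have h2 : (k : ℝ) < m := by exact_mod_cast hlt
    have h3 : |hgt g v| ≤ m + 4 * D := by
      rw [abs_le]
      exact ⟨by linarith [hn.2], by linarith [hn.1]⟩
    linarith
  · by_contra hlt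
    push Not at hlt
    have h2 : (h : ℝ) ≤ k := by exact_mod_cast hlt
    have h3 : |hgt g v - h| ≤ m + 4 * D := by
      rw [abs_le]
      exact ⟨by linarith [hn.2], by linarith [hn.1]⟩
    linarith

/-- the distances to the ends of the ladder from the distances of `T` to the four end levels -/
theorem hgt_inl {z : Site L} : hgt g (Sum.inl z) = g.T z - g.t0 := rfl
theorem hgt_inr {z : Site L} : hgt g (Sum.inr z) = g.t0 + g.N - g.T z := rfl

theorem lad_of {r : ℝ} {v : SS L} (h1 : r < |g.T (st v) - g.t0|)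
    (h2 : r < |g.T (st v) - (g.t0 + g.n)|) (h3 : r < |g.T (st v) - (g.t0 + g.N)|)
    (h4 : r < |g.T (st v) - (g.t0 + g.N - g.n)|) : r < |hgt g v| ∧ r < |hgt g v - g.n| := by
  rcases v with z | z
  · rw [hgt_inl]
    refine ⟨h1, ?_⟩
    have e : g.T z - g.t0 - g.n = g.T z - (g.t0 + g.n) := by ring
    rw [e]
    exact h2
  · rw [hgt_inr]
    constructor
    · have e : g.t0 + g.N - g.T z = -(g.T z - (g.t0 + g.N)) := by ring
      rw [e, abs_neg]
      exact h3
    · have e : g.t0 + g.N - g.T z - g.n = -(g.T z - (g.t0 + g.N - g.n)) := by ring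
      rw [e, abs_neg]
      exact h4

/-! ### Tiles and slabs -/

/-- the tile of a site of the two-layer lattice -/
def tj (g : Gd L) (v : SS L) : SS L :=
  Sum.elim (fun z => Sum.inl (tli g.tl z)) (fun z => Sum.inr (tli g.tl z)) v

/-- a core which is not at the edge of a tile lies in one tile -/
theorem cor_sub_tile {D : ℕ} {v : SS L} (h : st v ∉ edg L g.tl D) : cor D v ⊆ g.tB (tj g v) := by
  rcases v with z | z
  · exact Finset.map_subset_map.2 (bal_sub_tile h)
  · exact Finset.map_subset_map.2 (bal_sub_tile h)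

/-- heights of the sites of a core -/
theorem hgt_cor (hT : ∀ x y, |g.T x - g.T y| ≤ 2 * dist1 x y) {D : ℕ} {v x : SS L}
    (hx : x ∈ cor D v) : |hgt g x - hgt g v| ≤ 4 * D := by
  rcases v with z | z
  · rcases x with x | x
    · rw [cor_inl, mem_inL_inl] at hx
      have := near hT hx
      rw [hgt_inl, hgt_inl, abs_le]
      exact ⟨by linarith [this.1], by linarith [this.2]⟩
    · exact absurd hx mem_inL_inr
  · rcases x with x | x
    · exact absurd hx mem_inR_inl
    · rw [cor_inr, mem_inR_inr] at hx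
      have := near hT hx
      rw [hgt_inr, hgt_inr, abs_le]
      exact ⟨by linarith [this.2], by linarith [this.1]⟩

theorem hgt_of_mem_R {v : SS L} {k : ℕ} (h : v ∈ g.R k) : (k : ℝ) ≤ hgt g v := by
  rcases v with z | z
  · rw [Gd.mem_R_inl] at h
    rw [hgt_inl]
    linarith
  · rw [Gd.mem_R_inr] at h
    rw [hgt_inr]
    linarith

theorem hgt_of_not_mem_R {v : SS L} {k : ℕ} (h : v ∉ g.R k) : hgt g v ≤ k := by
  rcases v with z | z
  · rw [Gd.mem_R_inl, not_lt] at h
    rw [hgt_inl]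
    linarith
  · rw [Gd.mem_R_inr, not_le] at h
    rw [hgt_inr]
    linarith

theorem mem_R_of_hgt {v : SS L} {k : ℕ} (h : (k : ℝ) < hgt g v) : v ∈ g.R k := by
  by_contra hc
  have := hgt_of_not_mem_R hc
  linarith

theorem not_mem_R_of_hgt {v : SS L} {k : ℕ} (h : hgt g v < k) : v ∉ g.R k := by
  intro hc
  have := hgt_of_mem_R hc
  linarith

/-- heights of the sites of a slab -/
theorem hgt_slab {k : ℕ} {j x : SS L} (hx : x ∈ g.Wd (k, j)) :
    (k : ℝ) ≤ hgt g x ∧ hgt g x ≤ k + g.mp := by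
  rw [Gd.Wd, Sum.mem_slab] at hx
  have h1 := hgt_of_mem_R hx.1.1
  have h2 := hgt_of_not_mem_R hx.1.2
  push_cast at h2
  exact ⟨h1, h2⟩

/-- same layer -/
def sameL (v w : SS L) : Prop := v.isLeft = w.isLeft

instance (v w : SS L) : Decidable (sameL v w) := by unfold sameL; infer_instance

theorem sameL_tB {j x : SS L} (hx : x ∈ g.tB j) : sameL j x := by
  rcases j with j | j <;> rcases x with x | x
  · rfl
  · exact absurd hx mem_inL_inr
  · exact absurd hx mem_inR_inl
  · rfl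

theorem sameL_cor {D : ℕ} {v x : SS L} (hx : x ∈ cor D v) : sameL v x := by
  rcases v with j | j <;> rcases x with x | x
  · rfl
  · exact absurd hx mem_inL_inr
  · exact absurd hx mem_inR_inl
  · rfl

/-- heights in one tile -/
theorem hgt_tile (hT : ∀ x y, |g.T x - g.T y| ≤ 2 * dist1 x y) (htl : 0 < g.tl) {j x y : SS L}
    (hx : x ∈ g.tB j) (hy : y ∈ g.tB j) : |hgt g x - hgt g y| ≤ 4 * g.tl := by
  have key : ∀ (i a b : Site L), a ∈ tileB L g.tl i → b ∈ tileB L g.tl i →
      |g.T a - g.T b| ≤ 4 * g.tl := by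
    intro i a b ha hb
    have h1 : a ∈ bal b g.tl := by
      rw [mem_bal]
      rw [Edge795.mem_tileB] at ha hb
      obtain ⟨a1, a2⟩ := ha
      obtain ⟨b1, b2⟩ := hb
      have m1 := Nat.div_add_mod a.1.val g.tl
      have m2 := Nat.div_add_mod a.2.val g.tl
      have m3 := Nat.div_add_mod b.1.val g.tl
      have m4 := Nat.div_add_mod b.2.val g.tl
      have l1 := Nat.mod_lt a.1.val htl
      have l2 := Nat.mod_lt a.2.val htl
      have l3 := Nat.mod_lt b.1.val htl
      have l4 := Nat.mod_lt b.2.val htl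
      rw [a1] at m1
      rw [a2] at m2
      rw [b1] at m3
      rw [b2] at m4
      refine ⟨?_, ?_, ?_, ?_⟩ <;> omega
    have h2 := near hT h1
    rw [abs_le]
    exact ⟨by linarith [h2.1], by linarith [h2.2]⟩
  rcases j with j | j <;> rcases x with x | x
  · rcases y with y | y
    · rw [Gd.tB, lay, Sum.elim_inl, mem_inL_inl] at hx hy
      rw [hgt_inl, hgt_inl]
      have := key j x y hx hy
      rw [abs_le] at this ⊢
      exact ⟨by linarith [this.1], by linarith [this.2]⟩
    · exact absurd hy mem_inL_inr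
  · exact absurd hx mem_inL_inr
  · exact absurd hx mem_inR_inl
  · rcases y with y | y
    · exact absurd hy mem_inR_inl
    · rw [Gd.tB, lay, Sum.elim_inr, mem_inR_inr] at hx hy
      rw [hgt_inr, hgt_inr]
      have := key j x y hx hy
      rw [abs_le] at this ⊢
      exact ⟨by linarith [this.2], by linarith [this.1]⟩

theorem st_inj {i j : SS L} (h : Sum.isLeft i = Sum.isLeft j) (h' : st i = st j) : i = j := by
  rcases i with i | i <;> rcases j with j | j
  · exact congrArg Sum.inl h'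
  · exact absurd h (by simp)
  · exact absurd h (by simp)
  · exact congrArg Sum.inr h'

/-- the tiles which meet the core -/
noncomputable def tls (g : Gd L) (D : ℕ) (v : SS L) : Finset (SS L) :=
  univ.filter fun j => (g.tB j ∩ cor D v).Nonempty

theorem mem_tls {D : ℕ} {v j : SS L} : j ∈ tls g D v ↔ (g.tB j ∩ cor D v).Nonempty := by
  simp [tls]

/-- **at most four tiles** -/
theorem card_tls {D : ℕ} (htl : 0 < g.tl) (hD : 2 * D ≤ g.tl) (v : SS L) : (tls g D v).card ≤ 4 := by
  classical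
  rcases v with z | z
  · refine le_trans ?_ (card_tiles_meet htl hD z)
    refine Finset.card_le_card_of_injOn (fun j => st j) ?_ ?_
    · intro j hj
      rw [Finset.mem_coe, mem_tls] at hj
      rw [Finset.mem_coe, mem_filter]
      refine ⟨mem_univ _, ?_⟩
      obtain ⟨x, hx⟩ := hj
      rw [mem_inter] at hx
      have s1 := sameL_tB hx.1
      have s2 := sameL_cor hx.2
      rcases x with x | x
      · rcases j with j | j
        · exact ⟨x, mem_inter.2 ⟨mem_inL_inl.1 hx.1, mem_inL_inl.1 hx.2⟩⟩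
        · exact absurd hx.1 mem_inR_inl
      · exact absurd hx.2 mem_inL_inr
    · intro i hi j hj hij
      rw [Finset.mem_coe, mem_tls] at hi hj
      obtain ⟨x, hx⟩ := hi
      obtain ⟨y, hy⟩ := hj
      rw [mem_inter] at hx hy
      have s1 := sameL_tB hx.1
      have s2 := sameL_cor hx.2
      have s3 := sameL_tB hy.1
      have s4 := sameL_cor hy.2
      have h5 : Sum.isLeft i = Sum.isLeft j := s1.trans (s2.symm.trans (s4.trans s3.symm))
      exact st_inj h5 hij
  · refine le_trans ?_ (card_tiles_meet htl hD z)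
    refine Finset.card_le_card_of_injOn (fun j => st j) ?_ ?_
    · intro j hj
      rw [Finset.mem_coe, mem_tls] at hj
      rw [Finset.mem_coe, mem_filter]
      refine ⟨mem_univ _, ?_⟩
      obtain ⟨x, hx⟩ := hj
      rw [mem_inter] at hx
      rcases x with x | x
      · exact absurd hx.2 mem_inR_inl
      · rcases j with j | j
        · exact absurd hx.1 mem_inL_inr
        · exact ⟨x, mem_inter.2 ⟨mem_inR_inr.1 hx.1, mem_inR_inr.1 hx.2⟩⟩
    · intro i hi j hj hij
      rw [Finset.mem_coe, mem_tls] at hi hj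
      obtain ⟨x, hx⟩ := hi
      obtain ⟨y, hy⟩ := hj
      rw [mem_inter] at hx hy
      have s1 := sameL_tB hx.1
      have s2 := sameL_cor hx.2
      have s3 := sameL_tB hy.1
      have s4 := sameL_cor hy.2
      have h5 : Sum.isLeft i = Sum.isLeft j := s1.trans (s2.symm.trans (s4.trans s3.symm))
      exact st_inj h5 hij

/-- **the slabs with influence on the core**: nonempty and in a tile which meets the core -/
noncomputable def Rel (g : Gd L) (D : ℕ) (v : SS L) : Finset (ℕ × SS L) :=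
  open Classical in (range g.n ×ˢ (univ : Finset (SS L))).filter
    fun p => (g.tB p.2 ∩ cor D v).Nonempty ∧ (g.Wd p).Nonempty

theorem mem_Rel {D : ℕ} {v : SS L} {p : ℕ × SS L} : p ∈ Rel g D v ↔
    p.1 < g.n ∧ (g.tB p.2 ∩ cor D v).Nonempty ∧ (g.Wd p).Nonempty := by
  classical
  simp [Rel]

theorem Rel_sub (D : ℕ) (v : SS L) : Rel g D v ⊆ range g.n ×ˢ (univ : Finset (SS L)) := by
  classical
  unfold Rel
  exact Finset.filter_subset _ _

/-- a slab outside `Rel` is empty or in a tile off the core -/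
theorem not_Rel {D : ℕ} {v : SS L} {p : ℕ × SS L} (hp : p.1 < g.n) (h : p ∉ Rel g D v) :
    g.Wd p = ∅ ∨ Disjoint (g.tB p.2) (cor D v) := by
  rw [mem_Rel] at h
  by_cases h1 : (g.tB p.2 ∩ cor D v).Nonempty
  · left
    rw [← Finset.not_nonempty_iff_eq_empty]
    exact fun h2 => h ⟨hp, h1, h2⟩
  · right
    rw [Finset.disjoint_iff_inter_eq_empty]
    exact Finset.not_nonempty_iff_eq_empty.1 h1

/-- a family of pairs over few indices with small fibres -/
theorem card_fib {ι : Type*} [DecidableEq ι] (S : Finset (ℕ × ι)) (A : Finset ι) (c : ℕ)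
    (h1 : ∀ p ∈ S, p.2 ∈ A) (h2 : ∀ p ∈ S, ∀ p' ∈ S, p.2 = p'.2 → p'.1 ≤ p.1 + c) :
    S.card ≤ A.card * (c + 1) := by
  classical
  have h3 := Finset.card_eq_sum_card_fiberwise (f := Prod.snd) (s := S) (t := A)
    (fun p hp => h1 p hp)
  rw [h3, ← smul_eq_mul, ← Finset.sum_const]
  refine Finset.sum_le_sum fun j _ => ?_
  have h4 : (S.filter fun p => p.2 = j).card ≤ ((S.filter fun p => p.2 = j).image Prod.fst).card := by
    rw [Finset.card_image_of_injOn]
    intro p hp p' hp' hpp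
    rw [Finset.mem_coe, mem_filter] at hp hp'
    exact Prod.ext hpp (hp.2.trans hp'.2.symm)
  refine h4.trans (card_diam ?_)
  intro a ha b hb
  rw [mem_image] at ha hb
  obtain ⟨p, hp, rfl⟩ := ha
  obtain ⟨p', hp', rfl⟩ := hb
  rw [mem_filter] at hp hp'
  exact h2 p hp.1 p' hp'.1 (hp.2.trans hp'.2.symm)

/-- **number of slabs with influence** -/
theorem card_Rel (hT : ∀ x y, |g.T x - g.T y| ≤ 2 * dist1 x y) (htl : 0 < g.tl) {D : ℕ}
    (hD : 2 * D ≤ g.tl) (v : SS L) : (Rel g D v).card ≤ 4 * (g.mp + 4 * g.tl + 1) := by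
  refine (card_fib (Rel g D v) (tls g D v) (g.mp + 4 * g.tl) ?_ ?_).trans ?_
  · intro p hp
    rw [mem_tls]
    exact (mem_Rel.1 hp).2.1
  · intro p hp p' hp' he
    obtain ⟨x, hx⟩ := (mem_Rel.1 hp).2.2
    obtain ⟨y, hy⟩ := (mem_Rel.1 hp').2.2
    have h1 := hgt_slab (k := p.1) (j := p.2) hx
    have h2 := hgt_slab (k := p'.1) (j := p'.2) hy
    have h3 : x ∈ g.tB p.2 := g.Wd_sub p hx
    have h4 : y ∈ g.tB p.2 := he ▸ g.Wd_sub p' hy
    have h5 := hgt_tile hT htl h3 h4
    rw [abs_le] at h5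
    have h6 : (p'.1 : ℝ) ≤ ((p.1 + (g.mp + 4 * g.tl) : ℕ) : ℝ) := by
      push_cast
      linarith [h1.2, h2.1, h5.1]
    exact_mod_cast h6
  · exact Nat.mul_le_mul_right _ (card_tls htl hD v)

/-- **number of slabs which meet the core** -/
theorem card_meetR (hT : ∀ x y, |g.T x - g.T y| ≤ 2 * dist1 x y) (htl : 0 < g.tl) {D : ℕ}
    (hD : 2 * D ≤ g.tl) (v : SS L) : (Sum.meetR g.R g.tB g.mp (cor D v) (Rel g D v)).card ≤
      4 * (g.mp + 8 * D + 1) := by
  classical
  have hm : ∀ p ∈ Sum.meetR g.R g.tB g.mp (cor D v) (Rel g D v),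
      p ∈ Rel g D v ∧ ∃ x ∈ cor D v, x ∈ g.Wd p := by
    intro p hp
    unfold Sum.meetR at hp
    rw [mem_filter, Finset.not_disjoint_iff] at hp
    obtain ⟨h1, x, h2, h3⟩ := hp
    exact ⟨h1, x, h2, h3⟩
  refine (card_fib _ (tls g D v) (g.mp + 8 * D) ?_ ?_).trans ?_
  · intro p hp
    rw [mem_tls]
    exact (mem_Rel.1 (hm p hp).1).2.1
  · intro p hp p' hp' he
    obtain ⟨-, x, hx, hx'⟩ := hm p hp
    obtain ⟨-, y, hy, hy'⟩ := hm p' hp'
    have h1 := hgt_slab (k := p.1) (j := p.2) hx'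
    have h2 := hgt_slab (k := p'.1) (j := p'.2) hy'
    have h3 := hgt_cor hT hx
    have h4 := hgt_cor hT hy
    rw [abs_le] at h3 h4
    have h6 : (p'.1 : ℝ) ≤ ((p.1 + (g.mp + 8 * D) : ℕ) : ℝ) := by
      push_cast
      linarith [h1.2, h2.1, h3.1, h4.2]
    exact_mod_cast h6
  · exact Nat.mul_le_mul_right _ (card_tls htl hD v)

/-! ### Windows -/

/-- **the window of a healed line, outer side** -/
theorem win_out (hT : ∀ x y, |g.T x - g.T y| ≤ 2 * dist1 x y) {D W k : ℕ} {v : SS L}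
    (hc : Sum.Cuts g.R (cor D v) k) (hW : 4 * D + 4 * W < g.mp) {j : SS L}
    (hj : cor W v ⊆ g.tB j) : cor W v ∩ g.R k ⊆ g.Wd (k, j) := by
  intro x hx
  rw [mem_inter] at hx
  rw [Gd.Wd, Sum.mem_slab]
  refine ⟨⟨hx.2, not_mem_R_of_hgt ?_⟩, hj hx.1⟩
  have h1 := hgt_cor hT hx.1
  have h2 := cuts_near hT hc
  rw [abs_le] at h1
  have h3 : ((4 * D + 4 * W : ℕ) : ℝ) < g.mp := by exact_mod_cast hW
  push_cast at h3 ⊢
  linarith [h1.2, h2.1]

/-- **the window of a healed line, inner side** -/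
theorem win_in (hT : ∀ x y, |g.T x - g.T y| ≤ 2 * dist1 x y) {D W k : ℕ} {v : SS L}
    (hc : Sum.Cuts g.R (cor D v) k) (hk : g.mp ≤ k) (hW : 4 * D + 4 * W < g.mp) {j : SS L}
    (hj : cor W v ⊆ g.tB j) : cor W v \ g.R k ⊆ g.Wd (k - g.mp, j) := by
  intro x hx
  rw [mem_sdiff] at hx
  rw [Gd.Wd, Sum.mem_slab]
  simp only
  have e : k - g.mp + g.mp = k := Nat.sub_add_cancel hk
  rw [e]
  refine ⟨⟨mem_R_of_hgt ?_, hx.2⟩, hj hx.1⟩
  have h1 := hgt_cor hT hx.1
  have h2 := cuts_near hT hc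
  rw [abs_le] at h1
  have h3 : ((4 * D + 4 * W : ℕ) : ℝ) < g.mp := by exact_mod_cast hW
  rw [Nat.cast_sub hk]
  push_cast at h3 ⊢
  linarith [h1.1, h2.2]

/-- the outer slab is in the line, the inner slab is off the line -/
theorem Wd_sub_R (k : ℕ) (j : SS L) : g.Wd (k, j) ⊆ g.R k := by
  intro x hx
  rw [Gd.Wd, Sum.mem_slab] at hx
  exact hx.1.1

theorem Wd_disj_R {k : ℕ} (hk : g.mp ≤ k) (j : SS L) : Disjoint (g.Wd (k - g.mp, j)) (g.R k) := by
  rw [Finset.disjoint_left]
  intro x hx hx'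
  rw [Gd.Wd, Sum.mem_slab] at hx
  simp only [Nat.sub_add_cancel hk] at hx
  exact hx.1.2 hx'

/-- the window is covered by the two slabs -/
theorem win_cover (hT : ∀ x y, |g.T x - g.T y| ≤ 2 * dist1 x y) {D W k : ℕ} {v : SS L}
    (hc : Sum.Cuts g.R (cor D v) k) (hk : g.mp ≤ k) (hW : 4 * D + 4 * W < g.mp) {j : SS L}
    (hj : cor W v ⊆ g.tB j) : cor W v ⊆ g.Wd (k, j) ∪ g.Wd (k - g.mp, j) := by
  intro x hx
  rw [mem_union]
  by_cases h : x ∈ g.R k
  · exact Or.inl (win_out hT hc hW hj (mem_inter.2 ⟨hx, h⟩))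
  · exact Or.inr (win_in hT hc hk hW hj (mem_sdiff.2 ⟨hx, h⟩))

end Vale.Agent.P356.GA.Class407
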