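import Vale.Agent.P356.GA.DetDbl841
import Vale.Agent.P356.GA.NoiseB677
import Vale.Agent.P356.SA.DblEnt

/-!
# GA, block TWOCOPY (helper841): glue between one-copy objects and the two-layer lattice

* `tw_desc1`, `tw_desc2`: an operator on a one-layer region is `cp1 Y` / `cp2 Y`;
* `tw_norm1`, `tw_norm2`: `cp1`, `cp2` are isometric;
* `tw_dev`: the window closeness of `det_lattice2` for all operators on a one-layer window;
* `rh_dbl1`, `nz_dbl1`: the (noisy) reduced states of a product vector on a one-layer region;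
* `log_cp1`: the logarithm commutes with `cp1`.
-/

set_option linter.all false

namespace Vale.Agent.P356.GA

open Matrix Finset Vale.Agent.P356 Vale.Agent.P356.SV Vale.Agent.P356.Path Vale.Agent.P356.NA
open Vale.Agent.P356.SA Vale.Agent.P356.PH
open scoped BigOperators ComplexOrder Kronecker Matrix.Norms.L2Operator MatrixOrder

variable {V W : Type} [Fintype V] [DecidableEq V] [Fintype W] [DecidableEq W] {q : ℕ}

/-! ### norms -/

theorem tw_nsq_single (w : Conf W q) : nsq (Pi.single w 1 : Conf W q → ℂ) = 1 := by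
  classical
  unfold nsq
  rw [Finset.sum_eq_single w]
  · simp
  · intro b _ hb
    simp [Pi.single_eq_of_ne hb]
  · intro h
    exact absurd (Finset.mem_univ _) h

theorem tw_norm1 (w : Conf W q) (Y : Op V q) : ‖(cp1 Y : Op (V ⊕ W) q)‖ = ‖Y‖ := by
  refine le_antisymm ((opNormLe_iff (norm_nonneg _)).1 (cp1_norm ((opNormLe_iff
    (norm_nonneg _)).2 le_rfl))) ?_
  refine (opNormLe_iff (norm_nonneg _)).1 fun v => ?_
  have h1 := (opNormLe_iff (M := (cp1 Y : Op (V ⊕ W) q)) (norm_nonneg _)).2 le_rfl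
    (dbl v (Pi.single w 1 : Conf W q → ℂ))
  rwa [cp1_dbl, nsq_dbl, nsq_dbl, tw_nsq_single, mul_one, mul_one] at h1

theorem tw_norm2 (v : Conf V q) (Y : Op W q) : ‖(cp2 Y : Op (V ⊕ W) q)‖ = ‖Y‖ := by
  refine le_antisymm ((opNormLe_iff (norm_nonneg _)).1 (cp2_norm ((opNormLe_iff
    (norm_nonneg _)).2 le_rfl))) ?_
  refine (opNormLe_iff (norm_nonneg _)).1 fun w => ?_
  have h1 := (opNormLe_iff (M := (cp2 Y : Op (V ⊕ W) q)) (norm_nonneg _)).2 le_rfl
    (dbl (Pi.single v 1 : Conf V q → ℂ) w)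
  rwa [cp2_dbl, nsq_dbl, nsq_dbl, tw_nsq_single, one_mul, one_mul] at h1

/-! ### descent -/

theorem tw_desc1 {B : Finset V} {X : Op (V ⊕ W) q} (h : ActsOn (B.disjSum ∅) X) :
    ∃ Y : Op V q, ActsOn B Y ∧ X = cp1 Y ∧ ‖Y‖ ≤ ‖X‖ ∧ (X.IsHermitian → Y.IsHermitian) ∧
      (X.PosSemidef → Y.PosSemidef) := by
  classical
  rcases isEmpty_or_nonempty (Conf W q) with hW | ⟨⟨w⟩⟩
  · have hE : IsEmpty (Conf (V ⊕ W) q) := ⟨fun s => hW.false (s ∘ Sum.inr)⟩
    refine ⟨0, ⟨0, fun s t => ⟨fun _ => rfl, fun _ => rfl⟩⟩, ?_, ?_, ?_, ?_⟩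
    · ext s
      exact (hE.false s).elim
    · rw [norm_zero]
      exact norm_nonneg _
    · intro _
      exact Matrix.isHermitian_zero
    · intro _
      exact Matrix.PosSemidef.zero
  · obtain ⟨k, hk⟩ := h
    set Y : Op V q := X.submatrix (fun a => Sum.elim a w) (fun a => Sum.elim a w) with hY
    have hX : X = cp1 Y := by
      ext s t
      change X s t = Y (s ∘ Sum.inl) (t ∘ Sum.inl) * (if s ∘ Sum.inr = t ∘ Sum.inr then 1 else 0)
      by_cases h1 : s ∘ Sum.inr = t ∘ Sum.inr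
      · rw [if_pos h1, mul_one, hY, Matrix.submatrix_apply]
        by_cases h2 : ∀ x, x ∉ B → s (Sum.inl x) = t (Sum.inl x)
        · rw [(hk s t).1, (hk _ _).1]
          · congr 1
            · funext x
              rcases x with ⟨x | x, hx⟩
              · rfl
              · exact absurd (Finset.inr_mem_disjSum.1 hx) (Finset.notMem_empty _)
            · funext x
              rcases x with ⟨x | x, hx⟩
              · rfl
              · exact absurd (Finset.inr_mem_disjSum.1 hx) (Finset.notMem_empty _)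
          · rintro (x | x) hx
            · exact h2 x fun hxB => hx (Finset.inl_mem_disjSum.2 hxB)
            · rfl
          · rintro (x | x) hx
            · exact h2 x fun hxB => hx (Finset.inl_mem_disjSum.2 hxB)
            · exact congrFun h1 x
        · push Not at h2
          obtain ⟨x, hx, hne⟩ := h2
          rw [(hk s t).2 ⟨Sum.inl x, fun h => hx (Finset.inl_mem_disjSum.1 h), hne⟩]
          exact ((hk (Sum.elim (s ∘ Sum.inl) w) (Sum.elim (t ∘ Sum.inl) w)).2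
            ⟨Sum.inl x, fun h => hx (Finset.inl_mem_disjSum.1 h), hne⟩).symm
      · rw [if_neg h1, mul_zero]
        have h2 : ∃ x, s (Sum.inr x) ≠ t (Sum.inr x) := by
          by_contra h3
          push Not at h3
          exact h1 (funext h3)
        obtain ⟨x, hx⟩ := h2
        exact (hk s t).2 ⟨Sum.inr x, fun h => absurd (Finset.inr_mem_disjSum.1 h)
          (Finset.notMem_empty _), hx⟩
    refine ⟨Y, ?_, hX, ?_, ?_, ?_⟩
    · refine ⟨fun a a' => k ((sa2b_in B (∅ : Finset W) q).symm (a, fun x => absurd x.2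
        (Finset.notMem_empty _))) ((sa2b_in B (∅ : Finset W) q).symm (a', fun x => absurd x.2
        (Finset.notMem_empty _))), fun s t => ⟨fun h1 => ?_, ?_⟩⟩
      · rw [hY, Matrix.submatrix_apply, (hk _ _).1]
        · congr 1
          · funext x
            rcases x with ⟨x | x, hx⟩
            · rfl
            · exact absurd (Finset.inr_mem_disjSum.1 hx) (Finset.notMem_empty _)
          · funext x
            rcases x with ⟨x | x, hx⟩
            · rfl
            · exact absurd (Finset.inr_mem_disjSum.1 hx) (Finset.notMem_empty _)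
        · rintro (x | x) hx
          · exact h1 x fun hxB => hx (Finset.inl_mem_disjSum.2 hxB)
          · rfl
      · rintro ⟨x, hx, hne⟩
        rw [hY, Matrix.submatrix_apply]
        exact (hk _ _).2 ⟨Sum.inl x, fun h => hx (Finset.inl_mem_disjSum.1 h), hne⟩
    · rw [← tw_norm1 w Y, ← hX]
    · intro hH
      exact hH.submatrix _
    · intro hP
      exact hP.submatrix _

theorem tw_desc2 {B : Finset W} {X : Op (V ⊕ W) q} (h : ActsOn ((∅ : Finset V).disjSum B) X) :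
    ∃ Y : Op W q, ActsOn B Y ∧ X = cp2 Y ∧ ‖Y‖ ≤ ‖X‖ ∧ (X.IsHermitian → Y.IsHermitian) ∧
      (X.PosSemidef → Y.PosSemidef) := by
  classical
  rcases isEmpty_or_nonempty (Conf V q) with hW | ⟨⟨w⟩⟩
  · have hE : IsEmpty (Conf (V ⊕ W) q) := ⟨fun s => hW.false (s ∘ Sum.inl)⟩
    refine ⟨0, ⟨0, fun s t => ⟨fun _ => rfl, fun _ => rfl⟩⟩, ?_, ?_, ?_, ?_⟩
    · ext s
      exact (hE.false s).elim
    · rw [norm_zero]
      exact norm_nonneg _
    · intro _
      exact Matrix.isHermitian_zero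
    · intro _
      exact Matrix.PosSemidef.zero
  · obtain ⟨k, hk⟩ := h
    set Y : Op W q := X.submatrix (fun a => Sum.elim w a) (fun a => Sum.elim w a) with hY
    have hX : X = cp2 Y := by
      ext s t
      change X s t = (if s ∘ Sum.inl = t ∘ Sum.inl then 1 else 0) * Y (s ∘ Sum.inr) (t ∘ Sum.inr)
      by_cases h1 : s ∘ Sum.inl = t ∘ Sum.inl
      · rw [if_pos h1, one_mul, hY, Matrix.submatrix_apply]
        by_cases h2 : ∀ x, x ∉ B → s (Sum.inr x) = t (Sum.inr x)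
        · rw [(hk s t).1, (hk _ _).1]
          · congr 1
            · funext x
              rcases x with ⟨x | x, hx⟩
              · exact absurd (Finset.inl_mem_disjSum.1 hx) (Finset.notMem_empty _)
              · rfl
            · funext x
              rcases x with ⟨x | x, hx⟩
              · exact absurd (Finset.inl_mem_disjSum.1 hx) (Finset.notMem_empty _)
              · rfl
          · rintro (x | x) hx
            · rfl
            · exact h2 x fun hxB => hx (Finset.inr_mem_disjSum.2 hxB)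
          · rintro (x | x) hx
            · exact congrFun h1 x
            · exact h2 x fun hxB => hx (Finset.inr_mem_disjSum.2 hxB)
        · push Not at h2
          obtain ⟨x, hx, hne⟩ := h2
          rw [(hk s t).2 ⟨Sum.inr x, fun h => hx (Finset.inr_mem_disjSum.1 h), hne⟩]
          exact ((hk (Sum.elim w (s ∘ Sum.inr)) (Sum.elim w (t ∘ Sum.inr))).2
            ⟨Sum.inr x, fun h => hx (Finset.inr_mem_disjSum.1 h), hne⟩).symm
      · rw [if_neg h1, zero_mul]
        have h2 : ∃ x, s (Sum.inl x) ≠ t (Sum.inl x) := by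
          by_contra h3
          push Not at h3
          exact h1 (funext h3)
        obtain ⟨x, hx⟩ := h2
        exact (hk s t).2 ⟨Sum.inl x, fun h => absurd (Finset.inl_mem_disjSum.1 h)
          (Finset.notMem_empty _), hx⟩
    refine ⟨Y, ?_, hX, ?_, ?_, ?_⟩
    · refine ⟨fun a a' => k ((sa2b_in (∅ : Finset V) B q).symm (fun x => absurd x.2
        (Finset.notMem_empty _), a)) ((sa2b_in (∅ : Finset V) B q).symm (fun x => absurd x.2
        (Finset.notMem_empty _), a')), fun s t => ⟨fun h1 => ?_, ?_⟩⟩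
      · rw [hY, Matrix.submatrix_apply, (hk _ _).1]
        · congr 1
          · funext x
            rcases x with ⟨x | x, hx⟩
            · exact absurd (Finset.inl_mem_disjSum.1 hx) (Finset.notMem_empty _)
            · rfl
          · funext x
            rcases x with ⟨x | x, hx⟩
            · exact absurd (Finset.inl_mem_disjSum.1 hx) (Finset.notMem_empty _)
            · rfl
        · rintro (x | x) hx
          · rfl
          · exact h1 x fun hxB => hx (Finset.inr_mem_disjSum.2 hxB)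
      · rintro ⟨x, hx, hne⟩
        rw [hY, Matrix.submatrix_apply]
        exact (hk _ _).2 ⟨Sum.inr x, fun h => hx (Finset.inr_mem_disjSum.1 h), hne⟩
    · rw [← tw_norm2 w Y, ← hX]
    · intro hH
      exact hH.submatrix _
    · intro hP
      exact hP.submatrix _

/-! ### windows -/

theorem tw_form1 (Y : Op V q) {Ω : Conf V q → ℂ} {Ω' : Conf W q → ℂ} (h : nsq Ω' = 1) :
    star (dbl Ω Ω') ⬝ᵥ ((cp1 Y : Op (V ⊕ W) q) *ᵥ dbl Ω Ω') = star Ω ⬝ᵥ (Y *ᵥ Ω) := by
  have h1 : star Ω' ⬝ᵥ Ω' = ((nsq Ω' : ℝ) : ℂ) := nsq_eq Ω'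
  rw [cp1_dbl, ip_dbl, h1, h, Complex.ofReal_one, mul_one]

theorem tw_form2 (Y : Op W q) {Ω : Conf V q → ℂ} {Ω' : Conf W q → ℂ} (h : nsq Ω = 1) :
    star (dbl Ω Ω') ⬝ᵥ ((cp2 Y : Op (V ⊕ W) q) *ᵥ dbl Ω Ω') = star Ω' ⬝ᵥ (Y *ᵥ Ω') := by
  have h1 : star Ω ⬝ᵥ Ω = ((nsq Ω : ℝ) : ℂ) := nsq_eq Ω
  rw [cp2_dbl, ip_dbl, h1, h, Complex.ofReal_one, one_mul]

theorem tw_expv1 (Y : Op V q) {Ω : Conf V q → ℂ} {Ω' : Conf W q → ℂ} (h : nsq Ω' = 1) :
    expv (dbl Ω Ω') (cp1 Y : Op (V ⊕ W) q) = expv Ω Y := by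
  rw [expv, expv, tw_form1 Y h]

theorem tw_expv2 (Y : Op W q) {Ω : Conf V q → ℂ} {Ω' : Conf W q → ℂ} (h : nsq Ω = 1) :
    expv (dbl Ω Ω') (cp2 Y : Op (V ⊕ W) q) = expv Ω' Y := by
  rw [expv, expv, tw_form2 Y h]

/-- one-layer windows of the two-layer lattice -/
def lyr (B : V → Finset V) : V ⊕ V → Finset (V ⊕ V) :=
  Sum.elim (fun z => (B z).disjSum ∅) (fun z => (∅ : Finset V).disjSum (B z))

/-- **window closeness for all operators on a one-layer window** -/
theorem tw_dev {B : V → Finset V} {ψ : Conf (V ⊕ V) q → ℂ} {Ω : Conf V q → ℂ} (hΩ : nsq Ω = 1)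
    {dev1 dev2 : V → ℝ} (h0 : ∀ z, 0 ≤ dev1 z ∧ 0 ≤ dev2 z)
    (h : ∀ z, ∀ X : Op V q, ActsOn (B z) X →
      ‖star ψ ⬝ᵥ ((cp1 X : Op (V ⊕ V) q) *ᵥ ψ) - star Ω ⬝ᵥ (X *ᵥ Ω)‖ ≤ dev1 z * ‖X‖ ∧
      ‖star ψ ⬝ᵥ ((cp2 X : Op (V ⊕ V) q) *ᵥ ψ) - star Ω ⬝ᵥ (X *ᵥ Ω)‖ ≤ dev2 z * ‖X‖)
    (v : V ⊕ V) {X : Op (V ⊕ V) q} (hX : ActsOn (lyr B v) X) :
    ‖star ψ ⬝ᵥ (X *ᵥ ψ) - star (dbl Ω Ω) ⬝ᵥ (X *ᵥ dbl Ω Ω)‖ ≤ Sum.elim dev1 dev2 v * ‖X‖ := by
  rcases v with z | z
  · obtain ⟨Y, h1, h2, h3, -, -⟩ := tw_desc1 (W := V) (B := B z) hX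
    have h4 := (h z Y h1).1
    rw [h2, tw_form1 Y hΩ, ← h2] 
    rw [← h2] at h4
    exact h4.trans (mul_le_mul_of_nonneg_left h3 (h0 z).1)
  · obtain ⟨Y, h1, h2, h3, -, -⟩ := tw_desc2 (V := V) (B := B z) hX
    have h4 := (h z Y h1).2
    rw [h2, tw_form2 Y hΩ, ← h2]
    rw [← h2] at h4
    exact h4.trans (mul_le_mul_of_nonneg_left h3 (h0 z).2)

/-! ### reduced states of a product vector -/

theorem cp12_apply (A : Op V q) (B : Op W q) (s t : Conf (V ⊕ W) q) :
    (cp1 A * cp2 B : Op (V ⊕ W) q) s t =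
      A (s ∘ Sum.inl) (t ∘ Sum.inl) * B (s ∘ Sum.inr) (t ∘ Sum.inr) := by
  rw [sa2_cp1, sa2_cp2, submatrix_mul_equiv, ← mul_kronecker_mul, mul_one, one_mul,
    submatrix_apply]
  rfl

theorem rh_dbl (A : Finset V) (B : Finset W) (Ω : Conf V q → ℂ) (Ω' : Conf W q → ℂ) :
    rh (A.disjSum B) (dbl Ω Ω') = cp1 (rh A Ω) * cp2 (rh B Ω') := by
  classical
  ext s t
  rw [cp12_apply, rh, rh, rh, opOn_apply, opOn_apply, opOn_apply]
  have h1 := congrFun (congrFun (sa2b_rdm A B Ω Ω') (sa2b_in A B q (fun x => s x)))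
    (sa2b_in A B q (fun x => t x))
  rw [Matrix.reindex_apply, Matrix.submatrix_apply, kronecker_apply, Equiv.symm_apply_apply,
    Equiv.symm_apply_apply] at h1
  rw [h1]
  have h2 : (∀ x, x ∉ A.disjSum B → s x = t x) ↔
      ((∀ x, x ∉ A → (s ∘ Sum.inl) x = (t ∘ Sum.inl) x) ∧
        ∀ x, x ∉ B → (s ∘ Sum.inr) x = (t ∘ Sum.inr) x) := by
    constructor
    · intro h
      exact ⟨fun x hx => h _ fun h' => hx (Finset.inl_mem_disjSum.1 h'),
        fun x hx => h _ fun h' => hx (Finset.inr_mem_disjSum.1 h')⟩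
    · rintro ⟨h, h'⟩ (x | x) hx
      · exact h x fun hA => hx (Finset.inl_mem_disjSum.2 hA)
      · exact h' x fun hA => hx (Finset.inr_mem_disjSum.2 hA)
  by_cases h3 : ∀ x, x ∉ A → (s ∘ Sum.inl) x = (t ∘ Sum.inl) x
  · by_cases h4 : ∀ x, x ∉ B → (s ∘ Sum.inr) x = (t ∘ Sum.inr) x
    · rw [if_pos (h2.2 ⟨h3, h4⟩), if_pos h3, if_pos h4, mul_one, mul_one, mul_one]
      rfl
    · rw [if_neg (fun h => h4 (h2.1 h).2), if_neg h4]
      simp
  · rw [if_neg (fun h => h3 (h2.1 h).1), if_neg h3]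
    simp

theorem rh_dbl1 (A : Finset V) (Ω : Conf V q → ℂ) {Ω' : Conf W q → ℂ} (h : nsq Ω' = 1) :
    rh (A.disjSum ∅) (dbl Ω Ω') = cp1 (rh A Ω) := by
  rw [rh_dbl, rh_empty h, cp2_one, mul_one]

theorem rh_dbl2 (B : Finset W) {Ω : Conf V q → ℂ} (Ω' : Conf W q → ℂ) (h : nsq Ω = 1) :
    rh ((∅ : Finset V).disjSum B) (dbl Ω Ω') = cp2 (rh B Ω') := by
  rw [rh_dbl, rh_empty h, cp1_one, one_mul]

theorem cp1_rsmul (c : ℝ) (A : Op V q) : (cp1 (c • A) : Op (V ⊕ W) q) = c • cp1 A := by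
  have h1 : (c • A : Op V q) = (c : ℂ) • A := (Complex.coe_smul c A).symm
  rw [h1, cp1_smul, Complex.coe_smul]

theorem cp2_rsmul (c : ℝ) (A : Op W q) : (cp2 (c • A) : Op (V ⊕ W) q) = c • cp2 A := by
  have h1 : (c • A : Op W q) = (c : ℂ) • A := (Complex.coe_smul c A).symm
  rw [h1, cp2_smul, Complex.coe_smul]

theorem tw_pow1 {M : Type*} [AddCommMonoid M] (b : Finset V) (F : Finset (V ⊕ W) → M) :
    ∑ C ∈ (b.disjSum (∅ : Finset W)).powerset, F C = ∑ B ∈ b.powerset, F (B.disjSum ∅) := by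
  symm
  refine Finset.sum_bij' (fun B _ => B.disjSum ∅) (fun C _ => C.toLeft) ?_ ?_ ?_ ?_ ?_
  · intro B hB
    rw [Finset.mem_powerset] at hB ⊢
    exact Finset.disjSum_mono hB (Finset.Subset.refl _)
  · intro C hC
    rw [Finset.mem_powerset] at hC ⊢
    intro x hx
    exact Finset.inl_mem_disjSum.1 (hC (Finset.mem_toLeft.1 hx))
  · intro B hB
    ext x
    rw [Finset.mem_toLeft, Finset.inl_mem_disjSum]
  · intro C hC
    rw [Finset.mem_powerset] at hC
    ext (x | x)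
    · simp
    · constructor
      · intro h
        exact absurd (Finset.inr_mem_disjSum.1 h) (Finset.notMem_empty _)
      · intro h
        exact absurd (Finset.inr_mem_disjSum.1 (hC h)) (Finset.notMem_empty _)
  · intro B hB
    rfl

theorem tw_pow2 {M : Type*} [AddCommMonoid M] (b : Finset W) (F : Finset (V ⊕ W) → M) :
    ∑ C ∈ ((∅ : Finset V).disjSum b).powerset, F C =
      ∑ B ∈ b.powerset, F ((∅ : Finset V).disjSum B) := by
  symm
  refine Finset.sum_bij' (fun B _ => (∅ : Finset V).disjSum B) (fun C _ => C.toRight) ?_ ?_ ?_ ?_ ?_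
  · intro B hB
    rw [Finset.mem_powerset] at hB ⊢
    exact Finset.disjSum_mono (Finset.Subset.refl _) hB
  · intro C hC
    rw [Finset.mem_powerset] at hC ⊢
    intro x hx
    exact Finset.inr_mem_disjSum.1 (hC (Finset.mem_toRight.1 hx))
  · intro B hB
    ext x
    rw [Finset.mem_toRight, Finset.inr_mem_disjSum]
  · intro C hC
    rw [Finset.mem_powerset] at hC
    ext (x | x)
    · constructor
      · intro h
        exact absurd (Finset.inl_mem_disjSum.1 h) (Finset.notMem_empty _)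
      · intro h
        exact absurd (Finset.inl_mem_disjSum.1 (hC h)) (Finset.notMem_empty _)
    · simp
  · intro B hB
    rfl

theorem tw_card1 (b : Finset V) : (b.disjSum (∅ : Finset W)).card = b.card := by
  rw [Finset.card_disjSum, Finset.card_empty, add_zero]

theorem tw_card2 (b : Finset W) : ((∅ : Finset V).disjSum b).card = b.card := by
  rw [Finset.card_disjSum, Finset.card_empty, zero_add]

/-- **noisy reduced states of a product vector on a one-layer region** -/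
theorem nz_dbl1 (ε : ℝ) (Ω : Conf V q → ℂ) {Ω' : Conf W q → ℂ} (h : nsq Ω' = 1) (b : Finset V) :
    nz ε (dbl Ω Ω') (b.disjSum ∅) = cp1 (nz ε Ω b) := by
  rw [nz, nz, tw_pow1, cp1_sum]
  refine Finset.sum_congr rfl fun B _ => ?_
  rw [rh_dbl1 B Ω h, cp1_rsmul, nzw, nzw, tw_card1, tw_card1]

theorem nz_dbl2 (ε : ℝ) {Ω : Conf V q → ℂ} (Ω' : Conf W q → ℂ) (h : nsq Ω = 1) (b : Finset W) :
    nz ε (dbl Ω Ω') ((∅ : Finset V).disjSum b) = cp2 (nz ε Ω' b) := by
  rw [nz, nz, tw_pow2, cp2_sum]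
  refine Finset.sum_congr rfl fun B _ => ?_
  rw [rh_dbl2 B Ω' h, cp2_rsmul, nzw, nzw, tw_card2, tw_card2]

/-! ### exponentials and logarithms -/

/-- `cp1` as a homomorphism of star algebras -/
def cp1Hom (V W : Type) [Fintype V] [DecidableEq V] [Fintype W] [DecidableEq W] (q : ℕ) :
    Op V q →⋆ₐ[ℝ] Op (V ⊕ W) q where
  toFun := cp1
  map_one' := cp1_one
  map_mul' := cp1_mul
  map_zero' := cp1_zero
  map_add' := cp1_add
  commutes' := fun c => by
    rw [Algebra.algebraMap_eq_smul_one, Algebra.algebraMap_eq_smul_one, cp1_rsmul, cp1_one]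
  map_star' := fun A => (cp1_ct A).symm

/-- `cp2` as a homomorphism of star algebras -/
def cp2Hom (V W : Type) [Fintype V] [DecidableEq V] [Fintype W] [DecidableEq W] (q : ℕ) :
    Op W q →⋆ₐ[ℝ] Op (V ⊕ W) q where
  toFun := cp2
  map_one' := cp2_one
  map_mul' := cp2_mul
  map_zero' := cp2_zero
  map_add' := cp2_add
  commutes' := fun c => by
    rw [Algebra.algebraMap_eq_smul_one, Algebra.algebraMap_eq_smul_one, cp2_rsmul, cp2_one]
  map_star' := fun A => (cp2_ct A).symm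

theorem cp1_cont : Continuous (cp1Hom V W q) :=
  LinearMap.continuous_of_finiteDimensional (cp1Hom V W q).toAlgHom.toLinearMap

theorem cp2_cont : Continuous (cp2Hom V W q) :=
  LinearMap.continuous_of_finiteDimensional (cp2Hom V W q).toAlgHom.toLinearMap

theorem cp1_exp (A : Op V q) :
    (cp1 (NormedSpace.exp A) : Op (V ⊕ W) q) = NormedSpace.exp (cp1 A) := by
  letI : NormedAlgebra ℚ (Op V q) := NormedAlgebra.restrictScalars ℚ ℝ _
  letI : Algebra ℚ (Op (V ⊕ W) q) := (NormedAlgebra.restrictScalars ℚ ℝ (Op (V ⊕ W) q)).toAlgebra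
  exact NormedSpace.map_exp (cp1Hom V W q) cp1_cont A

theorem cp2_exp (A : Op W q) :
    (cp2 (NormedSpace.exp A) : Op (V ⊕ W) q) = NormedSpace.exp (cp2 A) := by
  letI : NormedAlgebra ℚ (Op W q) := NormedAlgebra.restrictScalars ℚ ℝ _
  letI : Algebra ℚ (Op (V ⊕ W) q) := (NormedAlgebra.restrictScalars ℚ ℝ (Op (V ⊕ W) q)).toAlgebra
  exact NormedSpace.map_exp (cp2Hom V W q) cp2_cont A

theorem cp1_herm {A : Op V q} (h : A.IsHermitian) : (cp1 A : Op (V ⊕ W) q).IsHermitian := by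
  rw [Matrix.IsHermitian, cp1_ct, h.eq]

theorem cp2_herm {A : Op W q} (h : A.IsHermitian) : (cp2 A : Op (V ⊕ W) q).IsHermitian := by
  rw [Matrix.IsHermitian, cp2_ct, h.eq]

theorem log_cp1 {A : Op V q} (h : A.IsHermitian) :
    CFC.log (cp1 A : Op (V ⊕ W) q) = cp1 (CFC.log A) := by
  have h1 : IsSelfAdjoint A := h
  have h2 : IsSelfAdjoint (cp1 A : Op (V ⊕ W) q) := cp1_herm h
  have h3 := StarAlgHomClass.map_cfc (cp1Hom V W q) Real.log A
    ((Matrix.finite_real_spectrum (A := A)).continuousOn _) cp1_cont h1 h2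
  exact h3.symm

theorem log_cp2 {A : Op W q} (h : A.IsHermitian) :
    CFC.log (cp2 A : Op (V ⊕ W) q) = cp2 (CFC.log A) := by
  have h1 : IsSelfAdjoint A := h
  have h2 : IsSelfAdjoint (cp2 A : Op (V ⊕ W) q) := cp2_herm h
  have h3 := StarAlgHomClass.map_cfc (cp2Hom V W q) Real.log A
    ((Matrix.finite_real_spectrum (A := A)).continuousOn _) cp2_cont h1 h2
  exact h3.symm

/-- **the modular Hamiltonians of the noisy product vector on a one-layer region** -/
theorem Kt_dbl1 {ε : ℝ} (h0 : 0 ≤ ε) (h1 : ε ≤ 1) (Ω : Conf V q → ℂ) {Ω' : Conf W q → ℂ}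
    (h : nsq Ω' = 1) (b : Finset V) : Kt ε (dbl Ω Ω') (b.disjSum ∅) = cp1 (Kt ε Ω b) := by
  rw [Kt, Kt, nz_dbl1 ε Ω h, log_cp1 (nz_herm h0 h1 Ω b), cp1_neg]

theorem Kt_dbl2 {ε : ℝ} (h0 : 0 ≤ ε) (h1 : ε ≤ 1) {Ω : Conf V q → ℂ} (Ω' : Conf W q → ℂ)
    (h : nsq Ω = 1) (b : Finset W) :
    Kt ε (dbl Ω Ω') ((∅ : Finset V).disjSum b) = cp2 (Kt ε Ω' b) := by
  rw [Kt, Kt, nz_dbl2 ε Ω' h, log_cp2 (nz_herm h0 h1 Ω' b), cp2_neg]

/-! ### sums of local terms -/

theorem tw_sum {M : V → Op V q} (Z : Finset V) :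
    (cp1 (∑ z ∈ Z, M z) + cp2 (∑ z ∈ Z, M z) : Op (V ⊕ V) q) =
      ∑ v ∈ Z.disjSum Z, Sum.elim (fun z => cp1 (M z)) (fun z => cp2 (M z)) v := by
  rw [Finset.sum_disjSum, cp1_sum, cp2_sum]
  rfl

theorem tw_sum_univ {M : V → Op V q} :
    (cp1 (∑ z, M z) + cp2 (∑ z, M z) : Op (V ⊕ V) q) =
      ∑ v : V ⊕ V, Sum.elim (fun z => cp1 (M z)) (fun z => cp2 (M z)) v := by
  rw [Fintype.sum_sum_type, cp1_sum, cp2_sum]
  rfl

theorem tw_acts_elim {M : V → Op V q} {B : V → Finset V} (h : ∀ z, ActsOn (B z) (M z))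
    (v : V ⊕ V) : ActsOn (lyr B v)
      ((Sum.elim (fun z => cp1 (M z)) (fun z => cp2 (M z)) v : Op (V ⊕ V) q)) := by
  rcases v with z | z
  · exact cp1_acts (h z)
  · exact cp2_acts (h z)

end Vale.Agent.P356.GA
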