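import Vale.Agent.P356.GA.Edge795
import Vale.Agent.P356.GA.EnDefs394
import Vale.Agent.P356.GA.TwoCopy841

/-!
# GA (helper795): the sets of the single line estimate at a good window

For a site `v` of the two-layer lattice whose ball of radius `r` lies in one tile `j`, and a line `k`
which cuts its core, the window is split by the line into parts of the two slabs `(k, j)` and
`(k - mp, j)`.
-/

set_option linter.all false

namespace Vale.Agent.P356.GA.Win795

open Finset Vale.Agent.P356 Vale.Agent.P356.SV Vale.Agent.P356.SA Vale.Agent.P356.GA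
open Vale.Agent.P356.GA.Level Vale.Agent.P356.GA.Edge795
open scoped BigOperators

variable {L : ℕ}

/-- the site below `v` -/
def sit (v : SS L) : Site L := Sum.elim id id v

/-- the tile of `v` in its layer -/
def tlv (M : ℕ) (v : SS L) : SS L := Sum.map (tli M) (tli M) v

/-- the core (radius `D`) or window (radius `r`) of `v` -/
def cor (D : ℕ) (v : SS L) : Finset (SS L) := lay v (fun z => bal z D)

theorem mem_cor_inl {D : ℕ} {z x : Site L} : (Sum.inl x : SS L) ∈ cor D (Sum.inl z) ↔ x ∈ bal z D := by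
  simp only [cor, lay, Sum.elim_inl, mem_inL_inl]

theorem mem_cor_inr {D : ℕ} {z x : Site L} : (Sum.inr x : SS L) ∈ cor D (Sum.inr z) ↔ x ∈ bal z D := by
  simp only [cor, lay, Sum.elim_inr, mem_inR_inr]

theorem not_mem_cor_lr {D : ℕ} {z x : Site L} : ¬ (Sum.inr x : SS L) ∈ cor D (Sum.inl z) := by
  simp only [cor, lay, Sum.elim_inl, mem_inL_inr, not_false_eq_true]

theorem not_mem_cor_rl {D : ℕ} {z x : Site L} : ¬ (Sum.inl x : SS L) ∈ cor D (Sum.inr z) := by
  simp only [cor, lay, Sum.elim_inr, mem_inR_inl, not_false_eq_true]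

theorem cor_mono {D r : ℕ} (h : D ≤ r) (v : SS L) : cor D v ⊆ cor r v := by
  rcases v with z | z <;> rintro (x | x) hx
  · rw [mem_cor_inl] at hx ⊢
    exact bal_mono z h hx
  · exact absurd hx not_mem_cor_lr
  · exact absurd hx not_mem_cor_rl
  · rw [mem_cor_inr] at hx ⊢
    exact bal_mono z h hx

/-- the same sets in the notation of `TwoCopy841` -/
theorem cor_eq_lyr (D : ℕ) (v : SS L) : cor D v = lyr (fun z => bal z D) v := by
  rcases v with z | z
  · ext (x | x) <;> simp [cor, lay, lyr, inL]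
  · ext (x | x) <;> simp [cor, lay, lyr, inR]

theorem lay_eq_lyr (A : Site L → Finset (Site L)) (v : SS L) : lay v A = lyr A v := by
  rcases v with z | z
  · ext (x | x) <;> simp [lay, lyr, inL]
  · ext (x | x) <;> simp [lay, lyr, inR]

theorem card_cor (D : ℕ) (v : SS L) : (cor D v).card ≤ (2 * D + 1) ^ 2 := by
  rcases v with z | z
  · rw [cor, lay, Sum.elim_inl, inL, card_map]
    exact card_bal z D
  · rw [cor, lay, Sum.elim_inr, inR, card_map]
    exact card_bal z D

theorem cor_sub_tB {g : Gd L} {r : ℕ} {v : SS L} (h : sit v ∉ edg L g.tl r) :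
    cor r v ⊆ g.tB (tlv g.tl v) := by
  rcases v with z | z
  · rintro (x | x) hx
    · rw [mem_cor_inl] at hx
      have h1 := bal_sub_tile (L := L) (z := z) h hx
      simpa only [tlv, Sum.map_inl, Gd.tB, lay, Sum.elim_inl, mem_inL_inl] using h1
    · exact absurd hx not_mem_cor_lr
  · rintro (x | x) hx
    · exact absurd hx not_mem_cor_rl
    · rw [mem_cor_inr] at hx
      have h1 := bal_sub_tile (L := L) (z := z) h hx
      simpa only [tlv, Sum.map_inr, Gd.tB, lay, Sum.elim_inr, mem_inR_inr] using h1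

/-- the height of the cutting line at the centre -/
theorem cut_near {g : Gd L} (hT : ∀ x y, |g.T x - g.T y| ≤ 2 * dist1 x y) {D k : ℕ} {v : SS L}
    (hc : Sum.Cuts g.R (cor D v) k) :
    Sum.elim (fun z : Site L => |g.T z - (g.t0 + k)| ≤ 4 * D)
      (fun z : Site L => |g.T z - (g.t0 + g.N - k)| ≤ 4 * D) v := by
  obtain ⟨h1, h2⟩ := hc
  rw [Finset.not_subset] at h1
  rw [Finset.not_disjoint_iff] at h2
  obtain ⟨x, hx, hxR⟩ := h1
  obtain ⟨y, hy, hyR⟩ := h2
  rcases v with z | z
  · rw [Sum.elim_inl]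
    rcases x with x | x
    · rcases y with y | y
      · rw [mem_cor_inl] at hx hy
        rw [Gd.mem_R_inl] at hxR hyR
        have a1 := hT x z
        have a2 := hT y z
        have b1 : ((dist1 x z : ℕ) : ℝ) ≤ ((2 * D : ℕ) : ℝ) := by exact_mod_cast dist1_self_le hx
        have b2 : ((dist1 y z : ℕ) : ℝ) ≤ ((2 * D : ℕ) : ℝ) := by exact_mod_cast dist1_self_le hy
        push_cast at b1 b2
        rw [abs_le] at a1 a2 ⊢
        push Not at hxR
        constructor <;> linarith [a1.1, a1.2, a2.1, a2.2]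
      · exact absurd hy not_mem_cor_lr
    · exact absurd hx not_mem_cor_lr
  · rw [Sum.elim_inr]
    rcases x with x | x
    · exact absurd hx not_mem_cor_rl
    · rcases y with y | y
      · exact absurd hy not_mem_cor_rl
      · rw [mem_cor_inr] at hx hy
        rw [Gd.mem_R_inr] at hxR hyR
        have a1 := hT x z
        have a2 := hT y z
        have b1 : ((dist1 x z : ℕ) : ℝ) ≤ ((2 * D : ℕ) : ℝ) := by exact_mod_cast dist1_self_le hx
        have b2 : ((dist1 y z : ℕ) : ℝ) ≤ ((2 * D : ℕ) : ℝ) := by exact_mod_cast dist1_self_le hy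
        push_cast at b1 b2
        rw [abs_le] at a1 a2 ⊢
        push Not at hxR
        constructor <;> linarith [a1.1, a1.2, a2.1, a2.2]

theorem Wd_sub_R (g : Gd L) (k : ℕ) (j : SS L) : g.Wd (k, j) ⊆ g.R k := by
  intro x hx
  exact (Sum.mem_slab.1 hx).1.1

theorem Wd_disj_R (g : Gd L) {k : ℕ} (hk : g.mp ≤ k) (j : SS L) :
    Disjoint (g.Wd (k - g.mp, j)) (g.R k) := by
  rw [Finset.disjoint_left]
  intro x hx hx'
  have h := (Sum.mem_slab.1 hx).1.2
  simp only at h
  rw [Nat.sub_add_cancel hk] at h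
  exact h hx'

/-- **the window is split by the cutting line into parts of the two slabs** -/
theorem win_split {g : Gd L} (hT : ∀ x y, |g.T x - g.T y| ≤ 2 * dist1 x y) {D r k : ℕ}
    (hmp : 4 * D + 4 * r < g.mp) (hk : g.mp ≤ k) {v : SS L} (hv : sit v ∉ edg L g.tl r)
    (hc : Sum.Cuts g.R (cor D v) k) :
    g.R k ∩ cor r v ⊆ g.Wd (k, tlv g.tl v) ∧
      cor r v \ g.R k ⊆ g.Wd (k - g.mp, tlv g.tl v) := by
  have hn := cut_near hT hc
  have hsub := cor_sub_tB (g := g) hv
  have hmp' : (4 : ℝ) * D + 4 * r < g.mp := by exact_mod_cast hmp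
  have hcast : ((k - g.mp : ℕ) : ℝ) = (k : ℝ) - g.mp := by
    push_cast [Nat.cast_sub hk]
    ring
  constructor
  · intro x hx
    rw [mem_inter] at hx
    refine Sum.mem_slab.2 ⟨⟨hx.1, ?_⟩, hsub hx.2⟩
    obtain ⟨-, hx2⟩ := hx
    simp only
    rcases v with z | z
    · rw [Sum.elim_inl] at hn
      rcases x with x | x
      · rw [mem_cor_inl] at hx2
        rw [Gd.mem_R_inl]
        have a1 := hT x z
        have b1 : ((dist1 x z : ℕ) : ℝ) ≤ ((2 * r : ℕ) : ℝ) := by exact_mod_cast dist1_self_le hx2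
        push_cast at b1 ⊢
        rw [abs_le] at a1 hn
        linarith [a1.1, a1.2, hn.1, hn.2]
      · exact absurd hx2 not_mem_cor_lr
    · rw [Sum.elim_inr] at hn
      rcases x with x | x
      · exact absurd hx2 not_mem_cor_rl
      · rw [mem_cor_inr] at hx2
        rw [Gd.mem_R_inr]
        have a1 := hT x z
        have b1 : ((dist1 x z : ℕ) : ℝ) ≤ ((2 * r : ℕ) : ℝ) := by exact_mod_cast dist1_self_le hx2
        push_cast at b1 ⊢
        rw [abs_le] at a1 hn
        linarith [a1.1, a1.2, hn.1, hn.2]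
  · intro x hx
    rw [mem_sdiff] at hx
    obtain ⟨hx2, hxR⟩ := hx
    have hback : k - g.mp + g.mp = k := Nat.sub_add_cancel hk
    refine Sum.mem_slab.2 ⟨⟨?_, ?_⟩, hsub hx2⟩
    · simp only
      rcases v with z | z
      · rw [Sum.elim_inl] at hn
        rcases x with x | x
        · rw [mem_cor_inl] at hx2
          rw [Gd.mem_R_inl, hcast]
          have a1 := hT x z
          have b1 : ((dist1 x z : ℕ) : ℝ) ≤ ((2 * r : ℕ) : ℝ) := by
            exact_mod_cast dist1_self_le hx2
          push_cast at b1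
          rw [abs_le] at a1 hn
          linarith [a1.1, a1.2, hn.1, hn.2]
        · exact absurd hx2 not_mem_cor_lr
      · rw [Sum.elim_inr] at hn
        rcases x with x | x
        · exact absurd hx2 not_mem_cor_rl
        · rw [mem_cor_inr] at hx2
          rw [Gd.mem_R_inr, hcast]
          have a1 := hT x z
          have b1 : ((dist1 x z : ℕ) : ℝ) ≤ ((2 * r : ℕ) : ℝ) := by
            exact_mod_cast dist1_self_le hx2
          push_cast at b1
          rw [abs_le] at a1 hn
          linarith [a1.1, a1.2, hn.1, hn.2]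
    · simp only
      rw [hback]
      exact hxR

/-- all set hypotheses of `line_om` (helper228) for the core `cor D v`, the window `cor r v`, the
cut `g.R k` and the slabs `(k, j)`, `(k - mp, j)`, `j` the tile of `v`; `A` contains the tile -/
theorem line_sets {g : Gd L} (hT : ∀ x y, |g.T x - g.T y| ≤ 2 * dist1 x y) {D r k : ℕ}
    (hDr : D ≤ r) (hmp : 4 * D + 4 * r < g.mp) (hk : g.mp ≤ k) {v : SS L}
    (hv : sit v ∉ edg L g.tl r) (hc : Sum.Cuts g.R (cor D v) k) {A : Finset (SS L)}
    (hA : g.tB (tlv g.tl v) ⊆ A) :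
    g.Wd (k, tlv g.tl v) ⊆ g.R k ∧ Disjoint (g.Wd (k - g.mp, tlv g.tl v)) (g.R k) ∧
      cor D v ∩ g.R k ⊆ g.Wd (k, tlv g.tl v) ∧
      cor D v \ g.R k ⊆ g.Wd (k - g.mp, tlv g.tl v) ∧
      g.Wd (k, tlv g.tl v) ⊆ A ∧ g.Wd (k - g.mp, tlv g.tl v) ⊆ A ∧
      g.R k ∩ cor r v ⊆ g.Wd (k, tlv g.tl v) ∪ cor D v ∧
      cor r v \ g.R k ⊆ g.Wd (k - g.mp, tlv g.tl v) ∪ cor D v := by
  obtain ⟨h1, h2⟩ := win_split hT hmp hk hv hc
  refine ⟨Wd_sub_R g k _, Wd_disj_R g hk _, ?_, ?_, (g.Wd_sub _).trans hA, (g.Wd_sub _).trans hA,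
    h1.trans subset_union_left, h2.trans subset_union_left⟩
  · intro x hx
    rw [mem_inter] at hx
    exact h1 (mem_inter.2 ⟨hx.2, cor_mono hDr v hx.1⟩)
  · intro x hx
    rw [mem_sdiff] at hx
    exact h2 (mem_sdiff.2 ⟨cor_mono hDr v hx.1, hx.2⟩)

/-! ### Tiles inside the windows of the detectors -/

theorem tile_sub_bal {M : ℕ} (hM : 0 < M) {x z : Site L} (hx : x ∈ tileB L M (tli M z)) :
    x ∈ bal z M := by
  rw [mem_tileB] at hx
  obtain ⟨h1, h2⟩ := hx
  simp only [tli] at h1 h2
  have a1 := Nat.div_add_mod x.1.val M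
  have a2 := Nat.div_add_mod x.2.val M
  have b1 := Nat.div_add_mod z.1.val M
  have b2 := Nat.div_add_mod z.2.val M
  have c1 := Nat.mod_lt x.1.val hM
  have c2 := Nat.mod_lt x.2.val hM
  have d1 := Nat.mod_lt z.1.val hM
  have d2 := Nat.mod_lt z.2.val hM
  rw [h1] at a1
  rw [h2] at a2
  rw [mem_bal]
  omega

/-- the tiles which meet a ball are in the ball of radius `M + r` -/
theorem tile_meet_sub {M r : ℕ} (hM : 0 < M) {j z : Site L} (hj : (tileB L M j ∩ bal z r).Nonempty) :
    tileB L M j ⊆ bal z (M + r) := by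
  obtain ⟨y, hy⟩ := hj
  rw [mem_inter] at hy
  intro x hx
  rw [tileB_eq_of_mem hy.1] at hx
  have h1 := tile_sub_bal hM hx
  rw [add_comm]
  exact bal_trans hy.2 h1

theorem bal_sub_ball {z : Site L} {r s : ℕ} (h : 2 * r ≤ s) : bal z r ⊆ ball z s := by
  intro x hx
  have h1 := dist1_self_le hx
  unfold ball
  simp only [mem_filter, mem_univ, true_and]
  have h2 : dist1 z x = dist1 x z := by
    simp only [dist1]
    omega
  first
    | omega
    | (rw [h2]; omega)

/-- the tile of `v` is in the detector window of `v` -/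
theorem tB_sub_lyr {g : Gd L} {b : ℕ} (hM : 0 < g.tl) (hb : 2 * g.tl ≤ b) (v : SS L) :
    g.tB (tlv g.tl v) ⊆ lyr (fun z => ball z b) v := by
  rw [← lay_eq_lyr]
  rcases v with z | z
  · rintro (x | x) hx
    · simp only [tlv, Sum.map_inl, Gd.tB, lay, Sum.elim_inl, mem_inL_inl] at hx ⊢
      exact bal_sub_ball hb (tile_sub_bal hM hx)
    · simp only [tlv, Sum.map_inl, Gd.tB, lay, Sum.elim_inl, mem_inL_inr] at hx
  · rintro (x | x) hx
    · simp only [tlv, Sum.map_inr, Gd.tB, lay, Sum.elim_inr, mem_inR_inl] at hx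
    · simp only [tlv, Sum.map_inr, Gd.tB, lay, Sum.elim_inr, mem_inR_inr] at hx ⊢
      exact bal_sub_ball hb (tile_sub_bal hM hx)

end Vale.Agent.P356.GA.Win795
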