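import Vale.Agent.P356.GA.LFInst770
import Vale.Agent.P356.GA.E1_228
import Vale.Agent.P356.GA.Class407
import Vale.Agent.P356.GA.Win795

/-!
# GA, EN (helper770): the facts of `S1` for one site of the two-layer lattice

* `lf_v` : the hypotheses `Sum.LF` of `Sum.sum_terms` for the core `cor D v`.
* `line_v` : the form of one healed line which cuts the core, good window.
* `crude_v` : the form of one healed line, crude.
-/

set_option linter.all false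

namespace Vale.Agent.P356.GA.S1P

open Matrix Finset Vale.Agent.P356 Vale.Agent.P356.SV Vale.Agent.P356.Path Vale.Agent.P356.NA
open Vale.Agent.P356.SA Vale.Agent.P356.PH Vale.Agent.P356.GA.Class407
open Vale.Agent.P356.GA.Theta Vale.Agent.P356.GA.Level Vale.Agent.P356.GA.Edge795
open scoped BigOperators ComplexOrder Kronecker Matrix.Norms.L2Operator

variable {L q : ℕ} {g : Gd L}

theorem self_mem_tB (v : SS L) : v ∈ g.tB (Win795.tlv g.tl v) := by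
  rcases v with z | z
  · simp only [Win795.tlv, Sum.map_inl, Gd.tB, lay, Sum.elim_inl, mem_inL_inl]
    rw [Edge795.mem_tileB]
    exact ⟨rfl, rfl⟩
  · simp only [Win795.tlv, Sum.map_inr, Gd.tB, lay, Sum.elim_inr, mem_inR_inr]
    rw [Edge795.mem_tileB]
    exact ⟨rfl, rfl⟩

theorem tj_eq (v : SS L) : tj g v = Win795.tlv g.tl v := by
  rcases v with z | z <;> rfl

/-- the slabs which contain the core are in the detector window -/
theorem win_v {D rb : ℕ} {v : SS L} (htl : 0 < g.tl) (hrb : 2 * g.tl ≤ rb) {p : ℕ × SS L}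
    (h : cor D v ⊆ g.Wd p) : g.Wd p ⊆ lyr (fun z => ball z rb) v := by
  have h1 : v ∈ g.tB p.2 := g.Wd_sub p (h (self_mem_cor D v))
  have h2 : p.2 = Win795.tlv g.tl v := by
    by_contra hne
    exact Finset.disjoint_left.1 (g.tB_disj hne) h1 (self_mem_tB v)
  refine (g.Wd_sub p).trans ?_
  rw [h2]
  exact Win795.tB_sub_lyr htl hrb v

/-- the detector window is in a square -/
theorem card_lyr (rb : ℕ) (v : SS L) :
    ((lyr (fun z => ball z rb) v : Finset (SS L)).card : ℝ) ≤ (2 * rb + 1) ^ 2 := by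
  have h0 : ∀ z : Site L, (ball z rb).card ≤ (2 * rb + 1) ^ 2 := by
    intro z
    refine (Finset.card_le_card fun x hx => ?_).trans (card_bal z rb)
    rw [mem_bal]
    unfold ball dist1 at hx
    simp only [mem_filter, mem_univ, true_and] at hx
    omega
  have h1 : (lyr (fun z => ball z rb) v : Finset (SS L)).card ≤ (2 * rb + 1) ^ 2 := by
    rcases v with z | z
    · simp only [lyr, Sum.elim_inl, Finset.card_disjSum, Finset.card_empty, add_zero]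
      exact h0 z
    · simp only [lyr, Sum.elim_inr, Finset.card_disjSum, Finset.card_empty, zero_add]
      exact h0 z
  exact_mod_cast h1

theorem cor_sub_lyr {D rb : ℕ} (h : 2 * D ≤ rb) (v : SS L) :
    cor D v ⊆ lyr (fun z => ball z rb) v := by
  rw [← Win795.lay_eq_lyr]
  rcases v with z | z
  · exact Finset.map_subset_map.2 (Win795.bal_sub_ball h)
  · exact Finset.map_subset_map.2 (Win795.bal_sub_ball h)

/-- expectations of a positive observable on the core -/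
theorem expv_core {ψ Ω : Conf (SS L) q → ℂ} {D rb : ℕ} (hD : 2 * D ≤ rb) {v : SS L}
    {P : Op (SS L) q} (hP : ActsOn (cor D v) P) (hP1 : ‖P‖ ≤ 1) {δ π' : ℝ} (hδ : 0 ≤ δ)
    (hcl : ∀ X : Op (SS L) q, ActsOn (lyr (fun z => ball z rb) v) X →
      ‖star ψ ⬝ᵥ (X *ᵥ ψ) - star Ω ⬝ᵥ (X *ᵥ Ω)‖ ≤ δ * ‖X‖)
    (hπ' : (star Ω ⬝ᵥ (P *ᵥ Ω)).re ≤ π') : (star ψ ⬝ᵥ (P *ᵥ ψ)).re ≤ π' + δ := by
  have h1 := hcl P (PH.ph_acts_mono (cor_sub_lyr hD v) hP)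
  have h2 : (star ψ ⬝ᵥ (P *ᵥ ψ)).re - (star Ω ⬝ᵥ (P *ᵥ Ω)).re ≤ δ * ‖P‖ := by
    rw [← Complex.sub_re]
    exact (Complex.re_le_norm _).trans h1
  have h3 : δ * ‖P‖ ≤ δ * 1 := mul_le_mul_of_nonneg_left hP1 hδ
  linarith

/-- **(P1)** -/
theorem lf_v (g : Gd L) (hq : 1 ≤ q) {ψ : Conf (SS L) q → ℂ} {Ω : Conf (Site L) q → ℂ}
    (hψ : nsq ψ = 1) {M : ℝ} (hM : Fintype.card (SS L) * Real.log q ≤ M) {ε : ℝ} (h0 : 0 < ε)
    (h1 : ε ≤ 1 / 2) (hΩ : nsq Ω = 1) {P : Op (SS L) q} (hPs : P.PosSemidef) {D rb : ℕ}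
    {v : SS L} (hP : ActsOn (cor D v) P) (hP1 : ‖P‖ ≤ 1) {b₀ r y : ℝ}
    (hb : ∑ w : Fin g.n × SS L with ¬ Disjoint (g.tB w.2) (cor D v),
      ‖g.KV (Kt ε (dbl Ω Ω)) w‖ ≤ b₀)
    (hr0 : 0 < r)
    (hr : r * (2 * (crs107 (star1 univ g.tB (cor D v)) g.R g.n).card *
      (4 * (star1 univ g.tB (cor D v)).card * Real.log q + 2) + 4 * b₀) ≤ 1)
    (hy : 0 < y) (hyr : y ≤ r / 2) (htl : 0 < g.tl) (hrb : 2 * g.tl ≤ rb) (hD : 2 * D ≤ rb)
    {δ π' Λ h₁ : ℝ} (hδ : 0 ≤ δ)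
    (hcl : ∀ X : Op (SS L) q, ActsOn (lyr (fun z => ball z rb) v) X →
      ‖star ψ ⬝ᵥ (X *ᵥ ψ) - star (dbl Ω Ω) ⬝ᵥ (X *ᵥ dbl Ω Ω)‖ ≤ δ * ‖X‖)
    (hπ0 : 0 ≤ π') (hπ' : (star (dbl Ω Ω) ⬝ᵥ (P *ᵥ dbl Ω Ω)).re ≤ π')
    (hL : Real.log ((q : ℝ) ^ 2 / ε) * (2 * D + 1) ^ 2 ≤ Λ) (hh : 0 < h₁)
    (hhL : h₁ * (4 * (1 + Λ)) ≤ 1) :
    Sum.LF (g.QV ψ M (Kt ε (dbl Ω Ω)) P) g.R g.tB g.mp g.n (cor D v) (Rel g D v)
      (1 / 2 * psdErr (π' + δ) 8 r y) (Gd.slErr π' δ ε ((2 * rb + 1) ^ 2) Λ h₁)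
      (Real.exp 1 * (2 + 4 * Λ) ^ 2) := by
  have hΩ2 : nsq (dbl Ω Ω) = 1 := by rw [nsq_dbl, hΩ, one_mul]
  have hq1 : (1 : ℝ) ≤ q := by exact_mod_cast hq
  have hqe : (q : ℝ) ≤ (q : ℝ) ^ 2 / ε := by
    rw [le_div_iff₀ h0]
    nlinarith
  have hlq : 0 ≤ Real.log q := Real.log_nonneg hq1
  have hlog : Real.log q ≤ Real.log ((q : ℝ) ^ 2 / ε) :=
    Real.log_le_log (by linarith) hqe
  have hlog0 : 0 ≤ Real.log ((q : ℝ) ^ 2 / ε) := hlq.trans hlog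
  have hcard : ((cor D v).card : ℝ) ≤ (2 * D + 1) ^ 2 := by exact_mod_cast card_cor D v
  have hc0 : (0 : ℝ) ≤ (cor D v).card := Nat.cast_nonneg _
  have hLa : Real.log ((q : ℝ) ^ 2 / ε) * (cor D v).card ≤ Λ :=
    (mul_le_mul_of_nonneg_left hcard hlog0).trans hL
  have hΛ0 : 0 ≤ Λ := (mul_nonneg hlog0 hc0).trans hLa
  have he := Real.exp_pos 1
  refine g.lf_inst hq hψ hM h0 h1 hΩ2 hPs hP hP1 hb hr0 hr hy hyr
    (expv_core hD hP hP1 hδ hcl hπ') ?_ (fun p hp => (mem_Rel.1 hp).1)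
    (win := lyr (fun z => ball z rb) v) (fun p _ hsub => win_v htl hrb hsub) hcl hδ hπ0 hπ'
    (card_lyr rb v) hΛ0 hLa hh hhL ?_ ?_
  · intro p hp1 hp2 hp3
    refine mem_Rel.2 ⟨hp1, ?_, hp3⟩
    rw [Finset.disjoint_iff_inter_eq_empty] at hp2
    exact Finset.nonempty_iff_ne_empty.2 hp2
  · refine mul_le_mul_of_nonneg_left (pow_le_pow_left₀ (by positivity) ?_ 2) he.le
    have e1 : ((cor D v).card : ℝ) * Real.log q ≤ Λ := by
      refine le_trans (mul_le_mul_of_nonneg_left hlog hc0) ?_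
      rw [mul_comm]
      exact hLa
    nlinarith
  · refine mul_le_mul_of_nonneg_left (pow_le_pow_left₀ (by positivity) ?_ 2) he.le
    linarith

/-- the constant part of the line error -/
noncomputable def lnErr (q : ℕ) (π' δ ε mw Lc h N M : ℝ) : ℝ :=
  (π' + δ) / h ^ 2 + 32 * Real.pi * Real.cosh Real.pi ^ 2 *
    (4 * ε * mw + 4 * (mw * Real.log (q / ε)) * δ + 2 * N * Real.exp (-M)) / h +
    128 * Real.exp 1 * (1 + Lc) ^ 4 * h ^ 2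

/-- **(P2)** one healed line at a good window of radius `ρ` -/
theorem line_v (g : Gd L) (hq : 1 ≤ q) {ψ : Conf (SS L) q → ℂ} {Ω : Conf (Site L) q → ℂ}
    (hψ : nsq ψ = 1) {M : ℝ} (hM : Fintype.card (SS L) * Real.log q ≤ M) {ε : ℝ} (h0 : 0 < ε)
    (h1 : ε ≤ 1 / 2) (hΩ : nsq Ω = 1) {P : Op (SS L) q} (hPs : P.PosSemidef) {D ρ rb : ℕ}
    {v : SS L} (hP : ActsOn (cor D v) P) (hP1 : ‖P‖ ≤ 1)
    (hT : ∀ x y, |g.T x - g.T y| ≤ 2 * dist1 x y) (hDρ : D ≤ ρ) (hmp : 4 * D + 4 * ρ < g.mp)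
    (htl : 0 < g.tl) (hrb : 2 * g.tl ≤ rb) (hD : 2 * D ≤ rb)
    (hv : st v ∉ edg L g.tl ρ) {k : ℕ} (hk : g.mp ≤ k) (hkc : k ∈ Sum.cutL g.R g.n (cor D v))
    {δ π' Lc h : ℝ} (hδ : 0 ≤ δ)
    (hcl : ∀ X : Op (SS L) q, ActsOn (lyr (fun z => ball z rb) v) X →
      ‖star ψ ⬝ᵥ (X *ᵥ ψ) - star (dbl Ω Ω) ⬝ᵥ (X *ᵥ dbl Ω Ω)‖ ≤ δ * ‖X‖)
    (hπ' : (star (dbl Ω Ω) ⬝ᵥ (P *ᵥ dbl Ω Ω)).re ≤ π')
    (hL : 3 * Real.log (q / ε) * (2 * D + 1) ^ 2 + 1 ≤ Lc) (hh : 0 < h)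
    (hhL : h * (8 * (1 + Lc)) ≤ 1) :
    g.QV ψ M (Kt ε (dbl Ω Ω)) P (Sum.healed g.mp (tj g v) k) ≤
      lnErr q π' δ ε ((2 * rb + 1) ^ 2) Lc h ((q : ℝ) ^ Fintype.card (SS L)) M +
        32 * Real.pi * Real.cosh Real.pi ^ 2 / h *
          th (fun A => entropyOf A (dbl Ω Ω)) (cor D v) (cor ρ v) (g.R k) := by
  have hΩ2 : nsq (dbl Ω Ω) = 1 := by rw [nsq_dbl, hΩ, one_mul]
  have hε2 : ε ≤ 1 := by linarith
  obtain ⟨hkn, hcut⟩ := Sum.mem_cutL.1 hkc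
  have hvW : Win795.sit v ∉ edg L g.tl ρ := hv
  obtain ⟨s1, s2, s3, s4, s5, s6, s7, s8⟩ := Win795.line_sets (g := g) hT hDρ hmp hk (v := v)
    hvW hcut (A := lyr (fun z => ball z rb) v) (Win795.tB_sub_lyr htl hrb v)
  have hq1 : (1 : ℝ) ≤ q := by exact_mod_cast hq
  have hqe : (1 : ℝ) ≤ (q : ℝ) / ε := by
    rw [le_div_iff₀ h0]
    linarith
  have hlog : 0 ≤ Real.log (q / ε) := Real.log_nonneg hqe
  have hcard : ((cor D v).card : ℝ) ≤ (2 * D + 1) ^ 2 := by exact_mod_cast card_cor D v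
  have hmw := card_lyr (L := L) rb v
  have hLc : 3 * Real.log (q / ε) * (cor D v).card + 1 ≤ Lc := by
    refine le_trans ?_ hL
    have := mul_le_mul_of_nonneg_left hcard (by positivity : 0 ≤ 3 * Real.log (q / ε))
    linarith
  rw [tj_eq, e1_healed g ψ M (fun b => Kt_acts h0 hε2 hΩ2 b) P _ hk hkn]
  refine (line_om h0 h1 hΩ2 hψ s1 s2 s3 s4 s5 s6 s7 s8 hq hM hPs hP1 hP hδ hcl hLc hh hhL).trans ?_
  have hexp : expv ψ P ≤ π' + δ := expv_core hD hP hP1 hδ hcl hπ'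
  have hC : 0 ≤ 32 * Real.pi * Real.cosh Real.pi ^ 2 := by
    have := Real.pi_pos
    positivity
  set C := 32 * Real.pi * Real.cosh Real.pi ^ 2 with hCdef
  set t := th (fun A => entropyOf A (dbl Ω Ω)) (cor D v) (cor ρ v) (g.R k) with ht
  have ht' : th (fun A => entropyOf A (dbl Ω Ω)) (cor D v) (Win795.cor ρ v) (g.R k) = t := rfl
  unfold lnErr
  have e1 : expv ψ P / h ^ 2 ≤ (π' + δ) / h ^ 2 := div_le_div_of_nonneg_right hexp (by positivity)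
  set mc : ℝ := ((lyr (fun z => ball z rb) v : Finset (SS L)).card : ℝ) with hmc
  have e2 : 4 * ε * mc ≤ 4 * ε * (2 * rb + 1) ^ 2 :=
    mul_le_mul_of_nonneg_left hmw (by linarith)
  have e3 : 4 * (mc * Real.log (q / ε)) * δ ≤ 4 * ((2 * rb + 1) ^ 2 * Real.log (q / ε)) * δ :=
    mul_le_mul_of_nonneg_right (by
      have := mul_le_mul_of_nonneg_right hmw hlog
      linarith) hδ
  have e4 : C * (t + 4 * ε * mc + 4 * (mc * Real.log (q / ε)) * δ +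
      2 * (q : ℝ) ^ Fintype.card (SS L) * Real.exp (-M)) / h ≤
      C * (4 * ε * (2 * rb + 1) ^ 2 + 4 * ((2 * rb + 1) ^ 2 * Real.log (q / ε)) * δ +
        2 * (q : ℝ) ^ Fintype.card (SS L) * Real.exp (-M)) / h + C / h * t := by
    rw [div_mul_eq_mul_div, ← add_div]
    refine div_le_div_of_nonneg_right ?_ hh.le
    rw [← mul_add]
    refine mul_le_mul_of_nonneg_left ?_ hC
    linarith
  have e5 := add_le_add (add_le_add e1 e4)
    (le_refl (128 * Real.exp 1 * (1 + Lc) ^ 4 * h ^ 2))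
  refine e5.trans (le_of_eq ?_)
  ring

/-- **(P3)** one healed line, crude -/
theorem crude_v {ψ : Conf (SS L) q → ℂ} {M : ℝ} {K : Finset (SS L) → Op (SS L) q}
    {P : Op (SS L) q} {D : ℕ} {v : SS L} {τ τ₁ C₂ : ℝ} (hC : 0 ≤ C₂)
    (hLF : Sum.LF (g.QV ψ M K P) g.R g.tB g.mp g.n (cor D v) (Rel g D v) τ τ₁ C₂)
    (hirr : ∀ p : ℕ × SS L, p.1 < g.n → p ∉ Rel g D v → g.QV ψ M K P (-Sum.sl p) ≤ C₂)
    (j : SS L) {k : ℕ} (hk : k < g.n) :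
    g.QV ψ M K P (Sum.healed g.mp j k) ≤ 4 * C₂ + 4 * τ := by
  refine Sum.healed_crude hLF.conv (hLF.lnC k hk) ?_ ?_
  · by_cases h : (k, j) ∈ Rel g D v
    · exact hLF.slC _ h
    · exact hirr _ hk h
  · by_cases h : (k - g.mp, j) ∈ Rel g D v
    · exact hLF.slC _ h
    · exact hirr (k - g.mp, j) (by show k - g.mp < g.n; omega) h

end Vale.Agent.P356.GA.S1P
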