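import Vale.Agent.P356.GA.CData551
import Vale.Agent.P356.GA.CCount185
import Vale.Agent.P356.GA.E6_412
import Vale.Agent.P356.GA.En394
import Vale.Agent.P356.GA.S1Plug770

/-!
# Lattice facts of the energy theorem on `CData` (helper185)

`d.Cm = max C₂ 1`, `d.Mv v` the local term of `v` (norm at most one), `d.K2` the noisy modular
Hamiltonians of `Ω ⊗ Ω`, `d.Nr` the sites of both layers over the ring, `d.e6e` the data of E6.
-/

set_option linter.all false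

namespace Vale.Agent.P356.GA

open Matrix Finset Vale.Agent.P356 Vale.Agent.P356.SV Vale.Agent.P356.Path Vale.Agent.P356.NA
open Vale.Agent.P356.SA Vale.Agent.P356.PH Vale.Agent.P356.GA.Par
open Vale.Agent.P356.GA.Class407 (two mem_two card_two st)
open Vale.Agent.P356.GA.Level (bal lev mem_bal_of_dist1)
open Terms412 (Hp Nn Rad zone mem_zone)
open E6 (pj E6E)
open scoped BigOperators ComplexOrder Kronecker Matrix.Norms.L2Operator

/-- the normalisation of the local terms -/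
noncomputable def cmN185 (C₂ : ℝ) : ℝ := max C₂ 1

theorem cmN_pos185 (C₂ : ℝ) : 0 < cmN185 C₂ := lt_of_lt_of_le one_pos (le_max_right _ _)
theorem cmN_one185 (C₂ : ℝ) : 1 ≤ cmN185 C₂ := le_max_right _ _

namespace CData

variable {q R : ℕ} {J Δ a C₁ C₂ : ℝ} {L l : ℕ} (d : CData q R J Δ a C₁ C₂ L l)

/-- one normalised local term of one layer -/
noncomputable def Tn (z : Site L) : Op (Site L) q := (((cmN185 C₂)⁻¹ : ℝ) : ℂ) • d.T z

/-- the local terms of both layers, of norm at most one -/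
noncomputable def Mv (v : SS L) : Op (SS L) q := Sum.elim (fun z => cp1 (d.Tn z)) (fun z => cp2 (d.Tn z)) v

/-- the noisy modular Hamiltonians of the two-layer state -/
noncomputable def K2 (b : Finset (SS L)) : Op (SS L) q := Kt (cE l) (dbl d.Ω d.Ω) b

/-- the sites of both layers over the ring -/
noncomputable def Nr : Finset (SS L) := two (sa7_nb d.X d.w \ d.X)

theorem Tn_herm (z : Site L) : (d.Tn z).IsHermitian := by
  have h := (d.Tloc z).1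
  rw [Tn, Matrix.IsHermitian, conjTranspose_smul, h.eq]
  simp

theorem Tn_norm (z : Site L) : ‖d.Tn z‖ ≤ 1 := by
  have h := (d.Tloc z).2.2.1
  have h0 := cmN_pos185 C₂
  rw [Tn, norm_smul, Complex.norm_real, Real.norm_of_nonneg (inv_nonneg.2 h0.le)]
  rw [inv_mul_le_iff₀ h0, mul_one]
  exact h.trans (le_max_left _ _)

theorem Tn_acts (z : Site L) : ActsOn (ball z (Par.cD a l)) (d.Tn z) :=
  PH.ph_acts_smul _ (d.Tloc z).2.1

theorem Tn_nrm (z : Site L) : nrm (d.Tn z *ᵥ d.Ω) ≤ (l : ℝ) ^ (-100 : ℝ) := by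
  have h := (d.Tloc z).2.2.2
  have h0 := cmN_pos185 C₂
  have h1 := cmN_one185 C₂
  rw [Tn, smul_mulVec, nrm, nsq_smul, Real.sqrt_mul (sq_nonneg _), Real.sqrt_sq (norm_nonneg _),
    Complex.norm_real, Real.norm_of_nonneg (inv_nonneg.2 h0.le)]
  have h2 : (cmN185 C₂)⁻¹ ≤ 1 := inv_le_one_of_one_le₀ h1
  have h3 : 0 ≤ nrm (d.T z *ᵥ d.Ω) := Real.sqrt_nonneg _
  calc (cmN185 C₂)⁻¹ * nrm (d.T z *ᵥ d.Ω) ≤ 1 * nrm (d.T z *ᵥ d.Ω) :=
        mul_le_mul_of_nonneg_right h2 h3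
    _ = nrm (d.T z *ᵥ d.Ω) := one_mul _
    _ ≤ _ := h

theorem Mv_herm (v : SS L) : (d.Mv v).IsHermitian := by
  rcases v with z | z
  · show (cp1 (d.Tn z))ᴴ = _
    rw [cp1_ct, (d.Tn_herm z).eq]; rfl
  · show (cp2 (d.Tn z))ᴴ = _
    rw [cp2_ct, (d.Tn_herm z).eq]; rfl

theorem Mv_norm (v : SS L) : ‖d.Mv v‖ ≤ 1 := by
  rcases v with z | z
  · exact (dg_norm_one _).trans (d.Tn_norm z)
  · exact (dg_norm_two _).trans (d.Tn_norm z)

theorem ball_bal185 (z : Site L) (r : ℕ) : ball z r ⊆ bal z r := by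
  intro x hx
  simp only [ball, Finset.mem_filter, Finset.mem_univ, true_and] at hx
  exact mem_bal_of_dist1 hx

theorem Mv_acts (v : SS L) : ActsOn (lay v (fun z => bal z (Par.cD a l))) (d.Mv v) := by
  rcases v with z | z
  · have h := cp1_acts (W := Site L) (d.Tn_acts z)
    refine PH.ph_acts_mono ?_ h
    show _ ⊆ inL (bal z (Par.cD a l))
    rw [E6.inL_eq]
    exact Finset.disjSum_mono (ball_bal185 z _) (Finset.Subset.refl _)
  · have h := cp2_acts (V := Site L) (d.Tn_acts z)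
    refine PH.ph_acts_mono ?_ h
    show _ ⊆ inR (bal z (Par.cD a l))
    rw [E6.inR_eq]
    exact Finset.disjSum_mono (Finset.Subset.refl _) (ball_bal185 z _)

/-- the cores are in the detector windows -/
theorem Mv_lyr {r : ℕ} (hr : Par.cD a l ≤ r) (v : SS L) :
    ActsOn (lyr (fun z => ball z r) v) (d.Mv v) := by
  rcases v with z | z
  · refine PH.ph_acts_mono ?_ (cp1_acts (W := Site L) (d.Tn_acts z))
    exact Finset.disjSum_mono (PH.ball_mono z hr) (Finset.Subset.refl _)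
  · refine PH.ph_acts_mono ?_ (cp2_acts (V := Site L) (d.Tn_acts z))
    exact Finset.disjSum_mono (Finset.Subset.refl _) (PH.ball_mono z hr)

theorem Mv_nrm (v : SS L) : nrm (d.Mv v *ᵥ dbl d.Ω d.Ω) ≤ (l : ℝ) ^ (-100 : ℝ) := by
  have hΩ : nsq d.Ω = 1 := d.gap.1
  rcases v with z | z
  · show nrm (cp1 (d.Tn z) *ᵥ dbl d.Ω d.Ω) ≤ _
    rw [cp1_dbl, nrm, nsq_dbl, hΩ, mul_one]
    exact d.Tn_nrm z
  · show nrm (cp2 (d.Tn z) *ᵥ dbl d.Ω d.Ω) ≤ _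
    rw [cp2_dbl, nrm, nsq_dbl, hΩ, one_mul]
    exact d.Tn_nrm z

/-- the local terms sum up to the Hamiltonian -/
theorem Mv_sum : ((cmN185 C₂ : ℝ) : ℂ) • ∑ v, d.Mv v =
    cp1 (∑ B, d.h B) + cp2 (∑ B, d.h B) - (((2 * d.e : ℝ)) : ℂ) • (1 : Op (SS L) q) := by
  have h0 := (cmN_pos185 C₂).ne'
  have h1 : ((cmN185 C₂ : ℝ) : ℂ) • ∑ z, d.Tn z =
      ∑ B, d.h B - (d.e : ℂ) • (1 : Op (Site L) q) := by
    rw [← d.Tsum, Finset.smul_sum]
    refine Finset.sum_congr rfl fun z _ => ?_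
    rw [Tn, smul_smul, ← Complex.ofReal_mul, mul_inv_cancel₀ h0, Complex.ofReal_one, one_smul]
  have h2 : ∑ v, d.Mv v = cp1 (∑ z, d.Tn z) + cp2 (∑ z, d.Tn z) := by
    rw [Fintype.sum_sum_type, cp1_sum, cp2_sum]
    rfl
  rw [h2, smul_add, ← cp1_smul, ← cp2_smul, h1, cp1_sub, cp2_sub, cp1_smul, cp2_smul, cp1_one,
    cp2_one]
  push_cast
  rw [two_mul, add_smul]
  abel

/-- **expectation of the positive portions** of the local terms -/
theorem posM185 {ψ : Conf (SS L) q → ℂ} (hψ : nsq ψ = 1) {v : SS L} (hD : Par.cD a l ≤ cB l) :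
    expv ψ (posM (d.Mv v)) ≤ (l : ℝ) ^ (-100 : ℝ) + dvn d.P ψ v ∧
      expv ψ (posM (-d.Mv v)) ≤ (l : ℝ) ^ (-100 : ℝ) + dvn d.P ψ v := by
  have hΩ2 : nsq (dbl d.Ω d.Ω) = 1 := by
    rw [nsq_dbl, d.gap.1, one_mul]
  have hdv := dvn_nonneg (fun z => (d.det z).2.2.1) ψ v
  obtain ⟨hdev, -⟩ := d.dev ψ hψ
  constructor
  · exact expv_posM_dev (d.Mv_herm v) (d.Mv_lyr hD v) (d.Mv_norm v) hΩ2 hdv (hdev v) (d.Mv_nrm v)
  · refine expv_posM_dev (d.Mv_herm v).neg (PH.ph_acts_neg (d.Mv_lyr hD v)) ?_ hΩ2 hdv (hdev v) ?_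
    · rw [norm_neg]; exact d.Mv_norm v
    · rw [neg_mulVec]
      have h : nrm (-(d.Mv v *ᵥ dbl d.Ω d.Ω)) = nrm (d.Mv v *ᵥ dbl d.Ω d.Ω) := by
        rw [nrm, nrm]
        congr 1
        unfold nsq
        exact Finset.sum_congr rfl fun i _ => by rw [Pi.neg_apply, norm_neg]
      rw [h]
      exact d.Mv_nrm v

/-! ### the modular Hamiltonians -/

theorem cE_pos185 {l : ℕ} (hl : 1 ≤ l) : 0 < cE l :=
  Real.rpow_pos_of_pos (by exact_mod_cast hl) _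

theorem cE_le_one185 {l : ℕ} (hl : 1 ≤ l) : cE l ≤ 1 :=
  Real.rpow_le_one_of_one_le_of_nonpos (by exact_mod_cast hl) (by norm_num)

theorem nsq_dbl185 : nsq (dbl d.Ω d.Ω) = 1 := by
  rw [nsq_dbl, d.gap.1, one_mul]

theorem K2_herm (b : Finset (SS L)) : (d.K2 b).IsHermitian := Kt_herm _ _ b

theorem K2_acts (hl : 1 ≤ l) (b : Finset (SS L)) : ActsOn b (d.K2 b) :=
  Kt_acts (cE_pos185 hl) (cE_le_one185 hl) d.nsq_dbl185 b

theorem K2_norm (hl : 1 ≤ l) (b : Finset (SS L)) :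
    ‖d.K2 b‖ ≤ Real.log (q / cE l) * b.card := by
  rw [mul_comm]
  exact Kt_norm (cE_pos185 hl) (cE_le_one185 hl) d.nsq_dbl185 b

theorem K2_inL (hl : 1 ≤ l) (b : Finset (Site L)) : d.K2 (inL b) = cp1 (d.K b) := by
  rw [E6.inL_eq]
  exact Kt_dbl1 (cE_pos185 hl).le (cE_le_one185 hl) d.Ω d.gap.1 b

theorem K2_inR (hl : 1 ≤ l) (b : Finset (Site L)) : d.K2 (inR b) = cp2 (d.K b) := by
  rw [E6.inR_eq]
  exact Kt_dbl2 (cE_pos185 hl).le (cE_le_one185 hl) d.Ω d.gap.1 b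

/-! ### the near sites -/

theorem mem_Nr {v : SS L} : v ∈ d.Nr ↔ st v ∈ sa7_nb d.X d.w \ d.X := mem_two

theorem zone_ring {D : ℝ} (hD : D ≤ bw a l) : zone d.g D ⊆ sa7_nb d.X d.w \ d.X := by
  intro z hz
  rw [mem_zone] at hz
  exact d.near z (by linarith [hz.1]) (by linarith [hz.2])

theorem card_zone {D : ℝ} (hD : D ≤ bw a l) : ((zone d.g D).card : ℝ) ≤ 9 * (l : ℝ) ^ 2 := by
  refine le_trans ?_ d.area
  exact_mod_cast Finset.card_le_card (d.zone_ring hD)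

theorem hNr (v : SS L) (hv : pj v ∈ zone d.g (4 * Par.cD a l)) : v ∈ d.Nr := by
  rw [mem_Nr]
  have h1 : (4 * Par.cD a l : ℝ) ≤ bw a l := by
    have : 4 * Par.cD a l ≤ bw a l := by
      unfold bw
      omega
    exact_mod_cast this
  have h2 := d.zone_ring h1 hv
  rcases v with z | z <;> exact h2

theorem card_Nr : (d.Nr.card : ℝ) ≤ 18 * (l : ℝ) ^ 2 := d.card_two_ring185

theorem Nr_sub : d.Nr ⊆ d.Z.disjSum d.Z := by
  have h : sa7_nb d.X d.w \ d.X ⊆ sa7_nb d.X (2 * d.w) :=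
    Finset.sdiff_subset.trans (sa7_nb_mono d.X (by omega))
  exact Finset.disjSum_mono h h

theorem card_Z : (d.Z.card : ℝ) ≤ 25 * (l : ℝ) ^ 2 := d.areaZ

/-- bound of the norms of the near terms -/
theorem Nn_le (hJ : 0 ≤ J) (hl : 1 ≤ l) (hR : 2 * R ≤ bw a l) :
    Nn R J (cLam l) d.g d.Z ≤ 2 * (NR R * J * (9 * (l : ℝ) ^ 2) + 25 * (l : ℝ) ^ 2) := by
  have hl' : (1 : ℝ) ≤ l := by exact_mod_cast hl
  unfold Nn
  have h1 : ((zone d.g (2 * R)).card : ℝ) ≤ 9 * (l : ℝ) ^ 2 :=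
    d.card_zone (by exact_mod_cast hR)
  have h2 : cLam l ≤ 1 :=
    Real.rpow_le_one_of_one_le_of_nonpos hl' (by unfold xlam; norm_num)
  have h3 : 0 ≤ cLam l := Real.rpow_nonneg (by linarith) _
  have h4 : cLam l * d.Z.card ≤ 1 * (25 * (l : ℝ) ^ 2) :=
    mul_le_mul h2 d.card_Z (Nat.cast_nonneg _) zero_le_one
  have h5 : (NR R * J) * ((zone d.g (2 * R)).card : ℝ) ≤ (NR R * J) * (9 * (l : ℝ) ^ 2) :=
    mul_le_mul_of_nonneg_left h1 (by positivity)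
  linarith

/-! ### the data of E6 -/

theorem e6e (hJ : 0 ≤ J) (hl : 1 ≤ l) {rr : ℕ} (hR : R ≤ rr) (hrr : cB l + cN l ≤ rr) :
    E6E d.g R J (cLam l) (cmN185 C₂) d.e d.h d.P d.Z d.K2 d.Mv (Par.cD a l) (cB l + cN l) rr
      d.Nr where
  terms := d.terms
  hJ := hJ
  hΛ := Real.rpow_nonneg (Nat.cast_nonneg l) _
  hP := fun z => ⟨(d.det z).2.1, (d.det z).2.2.1⟩
  hPa := fun z _ => (d.det z).1
  hT := d.lip
  hN := by
    have h1 := d.mid1
    have h2 := d.mid2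
    omega
  herm := d.K2_herm
  acts := d.K2_acts hl
  hR := hR
  hrb := hrr
  hM := d.Mv_acts
  hsum := d.Mv_sum
  hNr := d.hNr

theorem H2_eq185 : d.H2 = cp1 (Hp d.h d.P d.Z (cLam l)) + cp2 (Hp d.h d.P d.Z (cLam l)) := rfl

theorem eig185 : Hp d.h d.P d.Z (cLam l) *ᵥ d.Ω' = (d.E' : ℂ) • d.Ω' := d.gap'.2.1

/-- **sum of the deviations** over the near sites -/
theorem sum_dvn185 (hl : 1 ≤ l) {ψ : Conf (SS L) q → ℂ} (hψ : nsq ψ = 1) {K : ℝ} (hK1 : 1 ≤ K)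
    (hKl : K ≤ l) (hE : expv ψ d.H2 - (d.E' + d.E') ≤ K) :
    ∑ v ∈ d.Nr, dvn d.P ψ v ≤ 50 * l * Real.sqrt (K / cLam l) := by
  have h1 := ((d.dev ψ hψ).2 K hK1 hKl hE).2
  refine le_trans ?_ h1
  exact Finset.sum_le_sum_of_subset_of_nonneg d.Nr_sub fun v _ _ =>
    dvn_nonneg (fun z => (d.det z).2.2.1) ψ v

/-- **crude bound of the energy** (E6a) -/
theorem crude185 (hJ : 0 ≤ J) (hl : 1 ≤ l) {rr : ℕ} (hR : R ≤ rr) (hrr : cB l + cN l ≤ rr)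
    {M τ t r : ℝ} {ψ : Conf (SS L) q → ℂ} (hS : d.St M τ t ψ) (hr : 0 < r)
    (hrad : Rad d.g ψ M (d.g.KV d.K2) (fun _ => d.θ, fun _ => -d.θ / 2) rr r)
    (hs : ‖(t : ℂ) * (1 + τ * Complex.I)‖ ≤ r / 2) :
    |expv ψ d.H2 - (d.E' + d.E')| ≤
      (2 + |τ|) * (t ^ 2 * (1 + τ ^ 2)) * (8 * Nn R J (cLam l) d.g d.Z / r ^ 2) :=
  E6.e6_K (d.e6e hJ hl hR hrr) (d.K2_inL hl) (d.K2_inR hl) d.eig185 hS hr hrad hs

/-- **upper bound of the energy** (E6b) -/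
theorem upper185 (hJ : 0 ≤ J) (hl : 1 ≤ l) {rr : ℕ} (hR : R ≤ rr) (hrr : cB l + cN l ≤ rr)
    {M τ t r : ℝ} {ψ : Conf (SS L) q → ℂ} (hS : d.St M τ t ψ) (hr : 0 < r)
    (hrad : Rad d.g ψ M (d.g.KV d.K2) (fun _ => d.θ, fun _ => -d.θ / 2) rr r)
    (hs : ‖(t : ℂ) * (1 + τ * Complex.I)‖ ≤ r / 2) :
    expv ψ d.H2 - (d.E' + d.E') ≤ t ^ 2 * (1 + τ ^ 2) *
        (cmN185 C₂ * ∑ v ∈ d.Nr, QF ψ (d.g.GN ψ M d.K2) (d.g.n + 1) (d.Mv v)
          (fun _ => d.θ, fun _ => -d.θ / 2) +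
        cLam l * (2 * d.Z.card * (8 / r ^ 2))) +
      (1 + |τ|) * (16 * Nn R J (cLam l) d.g d.Z *
        (‖(t : ℂ) * (1 + τ * Complex.I)‖ / r) ^ 3) :=
  E6.e6_upper (d.e6e hJ hl hR hrr) (d.K2_inL hl) (d.K2_inR hl) d.eig185 hS hr hrad hs

end CData

end Vale.Agent.P356.GA
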