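import Vale.Agent.P356.GA.NumTot960
import Vale.Agent.P356.GA.CData551
import Vale.Agent.P356.GA.CCount185

/-!
# Uniform power bounds for the data of the analytic part (helper960)
-/

set_option linter.all false

namespace Vale.Agent.P356.GA.Par

open Matrix Finset Vale.Agent.P356 Vale.Agent.P356.SV Vale.Agent.P356.Path Vale.Agent.P356.NA
open Vale.Agent.P356.SA Vale.Agent.P356.PH Vale.Agent.P356.GA
open Vale.Agent.P356.GA.Class407 Vale.Agent.P356.GA.Level Vale.Agent.P356.GA.Edge795
open Filter Asymptotics

theorem UpD.comp {ι ι' : ℕ → Type*} {F : ∀ l, ι' l → ℝ} {e : ℝ} (h : UpD F e)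
    (f : ∀ l, ι l → ι' l) : UpD (fun l i => F l (f l i)) e := by
  obtain ⟨C, hC, h1⟩ := h
  exact ⟨C, hC, h1.mono fun l hl i => hl (f l i)⟩

/-- the data at the scale `l` -/
structure ID (q R : ℕ) (J Δ a C₁ C₂ : ℝ) (l : ℕ) where
  L : ℕ
  d : CData q R J Δ a C₁ C₂ L l

/-- the data together with the parameters of a tilted state -/
structure Ix (q R : ℕ) (J Δ a C₁ C₂ : ℝ) (l : ℕ) where
  L : ℕ
  d : CData q R J Δ a C₁ C₂ L l
  M : ℝ
  τ : ℝ
  t : ℝ
  ψ : Conf (SS L) q → ℂ
  hM : Fintype.card (SS L) * Real.log q ≤ M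
  hM' : (q : ℝ) ^ Fintype.card (SS L) * Real.exp (-M) ≤ (l : ℝ) ^ (-100 : ℝ)
  hτ : |τ| ≤ 10 * Real.log l
  ht0 : 0 < t
  ht1 : t ≤ 1
  st : d.St M τ t ψ

variable {q R : ℕ} {J Δ a C₁ C₂ : ℝ}

/-- abbreviation for the family of all data with a tilted state -/
abbrev IX (q R : ℕ) (J Δ a C₁ C₂ : ℝ) : ℕ → Type := fun l => Ix q R J Δ a C₁ C₂ l

/-- abbreviation for the family of all data -/
abbrev IDs (q R : ℕ) (J Δ a C₁ C₂ : ℝ) : ℕ → Type := fun l => ID q R J Δ a C₁ C₂ l

theorem lines960 (ha1 : a ≤ 1) : ∀ᶠ l : ℕ in atTop, ∀ i : IDs q R J Δ a C₁ C₂ l,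
    1 ≤ i.d.g.n ∧ (l : ℝ) ^ (1 - xom a) ≤ 32 * i.d.g.n ∧ (l : ℝ) ^ (1 - xom a) ≤ 2 * i.d.w := by
  filter_upwards [ev_width 2 (by norm_num) ha1, ev_one] with l h1 hl1 i
  have h2 := h1 i.d.w i.d.wgt
  have h3 : (i.d.w : ℝ) ≤ 16 * i.d.g.n := by exact_mod_cast i.d.n16
  have h4 : (l : ℝ) ^ (1 - xom a) ≤ 32 * i.d.g.n := by linarith
  exact ⟨(theta_le hl1 h4).1, h4, h2⟩

theorem up_th960 (ha1 : a ≤ 1) :
    UpD (ι := IDs q R J Δ a C₁ C₂) (fun l i => i.d.θ) (xu a + xom a - 1) := by
  refine UpD.intro (C := 16) ?_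
  filter_upwards [lines960 ha1, ev_one] with l h1 hl1 i
  have h2 := theta_le hl1 (h1 i).2.1
  have h3 : i.d.θ = (l : ℝ) ^ (xu a) / (2 * i.d.g.n) := rfl
  rw [h3, abs_of_pos h2.2.1]
  linarith [h2.2.2]

theorem up_w960 (ha1 : a ≤ 1) :
    UpD (ι := IDs q R J Δ a C₁ C₂) (fun l i => ((i.d.w : ℝ))⁻¹) (-(1 - xom a)) := by
  refine UpD.inv (c := 1 / 2) (by norm_num) ?_
  filter_upwards [lines960 ha1] with l h1 i
  have := (h1 i).2.2
  linarith

theorem up_tau960 (ha : 0 < a) :
    UpD (ι := IX q R J Δ a C₁ C₂) (fun l i => |i.τ|) (xd a) := by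
  refine UpD.of_le' (UpD.of ((up_log_xd ha).cmul 10)) (Eventually.of_forall fun l i => ?_)
  exact ⟨abs_nonneg _, i.hτ⟩

theorem up_log10 (ha : 0 < a) :
    UpD (ι := IX q R J Δ a C₁ C₂) (fun l i => 10 * Real.log l) (xd a) :=
  UpD.of ((up_log_xd ha).cmul 10)

theorem up_t960 (ha : 0 < a) : UpD (ι := IX q R J Δ a C₁ C₂) (fun l i => i.t) 0 := by
  refine UpD.intro (C := 1) (Eventually.of_forall fun l i => ?_)
  rw [abs_of_pos i.ht0, Real.rpow_zero, mul_one]
  exact i.ht1

theorem up_ring960 : UpD (ι := IDs q R J Δ a C₁ C₂)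
    (fun l i => (((sa7_nb i.d.X i.d.w \ i.d.X).card : ℕ) : ℝ)) 2 := by
  refine UpD.intro (C := 9) (Eventually.of_forall fun l i => ?_)
  rw [abs_of_nonneg (Nat.cast_nonneg _), Real.rpow_two]
  exact i.d.area

theorem up_Z960 : UpD (ι := IDs q R J Δ a C₁ C₂) (fun l i => ((i.d.Z.card : ℕ) : ℝ)) 2 := by
  refine UpD.intro (C := 25) (Eventually.of_forall fun l i => ?_)
  rw [abs_of_nonneg (Nat.cast_nonneg _), Real.rpow_two]
  exact i.d.areaZ

theorem up_two960 : UpD (ι := IDs q R J Δ a C₁ C₂)
    (fun l i => (((two (sa7_nb i.d.X i.d.w \ i.d.X)).card : ℕ) : ℝ)) 2 := by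
  refine UpD.intro (C := 18) (Eventually.of_forall fun l i => ?_)
  rw [abs_of_nonneg (Nat.cast_nonneg _), Real.rpow_two]
  exact i.d.card_two_ring185

/-- `cR l ^ (2 - a)` -/
theorem up_cRp (ha1 : a ≤ 1) : Up (fun l => (cR l : ℝ) ^ (2 - a)) ((2 - a) * xr) :=
  up_cR.rpow (by linarith) (Eventually.of_forall fun l => Nat.cast_nonneg _)

theorem up_bw (ha : 0 < a) (ha1 : a ≤ 1) : Up (fun l => (bw a l : ℝ)) xr := by
  have h0 := e0_pos ha
  have h1 := e0_le ha1
  have h2 : Up (fun l => (cP l : ℝ) + 8 * (cD a l : ℝ) + 8) xr := by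
    refine Up.mono (by
      repeat' (first
            | with_reducible exact Up.const _
            | with_reducible exact Up.self
            | with_reducible exact Up.inv_self
            | with_reducible exact Up.pow_self _
            | with_reducible exact Up.pow_self_nat _
            | with_reducible exact Up.inv_pow_self _
            | with_reducible exact up_cF ha
            | with_reducible exact up_cD ha
            | with_reducible exact up_cS ha
            | with_reducible exact up_cS_inv _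
            | with_reducible exact up_cR
            | with_reducible exact up_cR_inv
            | with_reducible exact up_cP
            | with_reducible exact up_cM
            | with_reducible exact up_cM_inv
            | with_reducible exact up_cB
            | with_reducible exact up_cN
            | with_reducible exact up_cLam
            | with_reducible exact up_cLam_inv
            | with_reducible exact up_cY _
            | with_reducible exact up_cY_inv _
            | with_reducible exact up_cE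
            | with_reducible exact up_cE_inv
            | with_reducible exact up_log_xd ha
            | with_reducible exact up_logE_xd ha (by positivity)
            | with_reducible assumption
            | with_reducible apply Up.sub'
            | with_reducible apply Up.neg
            | with_reducible apply Up.add'
            | with_reducible apply Up.inv_mul
            | with_reducible apply Up.mul
            | with_reducible apply Up.inv_div
            | with_reducible apply Up.inv_pow
            | with_reducible apply Up.pow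
            | with_reducible apply Up.inv_inv
            | with_reducible apply Up.div
            | with_reducible apply Up.sqrt
            | with_reducible apply Up.abs
            | with_reducible apply Up.max)) (by
      (
            try simp only [mul_add, add_mul, Nat.cast_ofNat,
              mul_max_of_nonneg _ _ (show (0:ℝ) ≤ 2 by norm_num),
              mul_max_of_nonneg _ _ (show (0:ℝ) ≤ 3 by norm_num),
              mul_max_of_nonneg _ _ (show (0:ℝ) ≤ 4 by norm_num),
              ← max_add_add_right, ← max_add_add_left, max_lt_iff, max_le_iff,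
              ← max_div_div_right (show (0:ℝ) ≤ 2 by norm_num), max_self]
            try and_intros
            all_goals (
              try simp only [xd, xs, xr, xm, xn, xlam, xy, xom, xu, xc]
              first | linarith | (norm_num; done) | (norm_num; linarith))))
  refine h2.congr' (Eventually.of_forall fun l => ?_)
  simp [bw]

/-- `⌊3 l / cR⌋ + 7` -/
theorem up_tiles : Up (fun l : ℕ => (((3 * l / cR l + 7 : ℕ) : ℕ) : ℝ)) (1 - xr) := by
  have h2 : Up (fun l : ℕ => 3 * (l : ℝ) * ((cR l : ℝ))⁻¹ + 7) (1 - xr) := by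
    refine Up.mono (((((Up.const 3).mul Up.self).mul up_cR_inv)).add' (Up.const 7)) ?_
    unfold xr
    norm_num
  refine h2.of_le (Eventually.of_forall fun l => ?_)
  have h3 : (0 : ℝ) ≤ 3 * (l : ℝ) * ((cR l : ℝ))⁻¹ + 7 := by positivity
  rw [abs_of_nonneg (Nat.cast_nonneg _), abs_of_nonneg h3]
  push_cast
  have h4 : ((3 * l / cR l : ℕ) : ℝ) ≤ ((3 * l : ℕ) : ℝ) / (cR l : ℝ) := Nat.cast_div_le
  push_cast at h4
  rw [div_eq_mul_inv] at h4
  linarith

end Vale.Agent.P356.GA.Par
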