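import Vale.Agent.P356.GA.LocalEx749
import Vale.Agent.P356.GA.Scales227
import Vale.Agent.P356.PH.Filter

/-!
The strictly local terms at the scale `l` (fields `Tloc`, `Tsum` of `CData`).
-/

set_option linter.all false

namespace Vale.Agent.P356.GA

open Matrix Finset Vale.Agent.P356 Vale.Agent.P356.SV Vale.Agent.P356.Path Vale.Agent.P356.NA
open Vale.Agent.P356.PH Vale.Agent.P356.GA.Par
open scoped BigOperators ComplexOrder Kronecker Matrix.Norms.L2Operator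

/-- **`Tloc` and `Tsum` of `CData`.** -/
theorem ctloc749 {R : ℕ} {J Δ a : ℝ} (hJ : 0 ≤ J) (hΔ : 0 < Δ) (ha : 0 < a) :
    ∃ C₂ : ℝ, 0 ≤ C₂ ∧ ∃ n₀ : ℕ, ∀ (L q l : ℕ) (h : Finset (Site L) → Op (Site L) q),
      PH.Terms L q R J h → ∀ (E : ℝ) (Ω : Conf (Site L) q → ℂ),
      GappedGround (∑ X, h X) Δ E Ω → n₀ ≤ l →
      ∃ (T : Site L → Op (Site L) q) (e : ℝ),
        (∀ z, (T z).IsHermitian ∧ ActsOn (ball z (Par.cD a l)) (T z) ∧ ‖T z‖ ≤ C₂ ∧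
          nrm (T z *ᵥ Ω) ≤ (l : ℝ) ^ (-100 : ℝ)) ∧
        ∑ z, T z = ∑ B, h B - (e : ℂ) • (1 : Op (Site L) q) := by
  obtain ⟨w, hw⟩ := exists_filter Δ hΔ
  have hxd : 0 < xd a := by
    have := e0_pos ha
    unfold xd
    positivity
  obtain ⟨p, hp⟩ := exists_nat_ge (101 / xd a)
  obtain ⟨C, hC0, hC⟩ := local_exact (R := R) hJ hΔ hw p
  obtain ⟨n₁, hn₁⟩ := Filter.eventually_atTop.1 (ev_const_cF ha (R + 1))
  obtain ⟨n₂, hn₂⟩ := exists_nat_ge C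
  refine ⟨C, hC0, max n₁ (max n₂ 1), ?_⟩
  intro L q l h hh E Ω hΩ hl
  have hl1 : 1 ≤ l := le_trans (le_trans (le_max_right _ _) (le_max_right _ _)) hl
  have hlR : (1 : ℝ) ≤ l := by exact_mod_cast hl1
  have hl0 : (0 : ℝ) < l := by linarith
  have hl2 : n₂ ≤ l := le_trans (le_trans (le_max_left _ _) (le_max_right _ _)) hl
  have hlC : C ≤ l := hn₂.trans (by exact_mod_cast hl2)
  have hF := hn₁ l (le_trans (le_max_left _ _) hl)
  obtain ⟨T, e, hT, hs⟩ := hC L q h hh E Ω hΩ (cF a l) (by omega) (by omega)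
  refine ⟨T, e, fun z => ?_, hs⟩
  obtain ⟨t1, t2, t3, t4⟩ := hT z
  refine ⟨t1, t2, t3, t4.trans ?_⟩
  have h1 : (l : ℝ) ^ (101 : ℝ) ≤ (1 + (cF a l : ℝ)) ^ p := by
    have h2 : (l : ℝ) ^ xd a ≤ 1 + (cF a l : ℝ) := by
      have := sc_ge (xd a) l
      unfold cF
      linarith
    calc (l : ℝ) ^ (101 : ℝ) ≤ (l : ℝ) ^ (xd a * p) := by
          apply Real.rpow_le_rpow_of_exponent_le hlR
          rw [div_le_iff₀ hxd] at hp
          linarith [mul_comm (xd a) (p : ℝ)]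
      _ = ((l : ℝ) ^ xd a) ^ p := by rw [Real.rpow_mul hl0.le, Real.rpow_natCast]
      _ ≤ _ := pow_le_pow_left₀ (by positivity) h2 p
  calc C / (1 + (cF a l : ℝ)) ^ p ≤ l / (l : ℝ) ^ (101 : ℝ) :=
        div_le_div₀ hl0.le hlC (by positivity) h1
    _ = (l : ℝ) ^ (-100 : ℝ) := by
        nth_rewrite 1 [← Real.rpow_one (l : ℝ)]
        rw [← Real.rpow_sub hl0]
        norm_num

end Vale.Agent.P356.GA
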