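import Vale.Agent.P356.Defs
import Mathlib.Analysis.Complex.CauchyIntegral
import Mathlib.Analysis.Complex.RemovableSingularity
import Mathlib.Analysis.SpecialFunctions.Trigonometric.Deriv
import Mathlib.Analysis.SpecialFunctions.Trigonometric.DerivHyp

/-!
A strip inequality: a bounded analytic function on the strip `0 ≤ Re z ≤ 1/2` which takes the
value one at the origin with a small derivative is close to one on the imaginary axis.
-/

set_option linter.all false

namespace Vale.Agent.P356.GA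

open MeasureTheory Set
open scoped Real Interval


theorem st_sin (x y : ℝ) : Complex.sin (π * ((x : ℂ) + y * Complex.I)) =
    ((Real.sin (π * x) * Real.cosh (π * y) : ℝ) : ℂ) +
      ((Real.cos (π * x) * Real.sinh (π * y) : ℝ) : ℂ) * Complex.I := by
  have h : (π : ℂ) * ((x : ℂ) + y * Complex.I) = ((π * x : ℝ) : ℂ) + ((π * y : ℝ) : ℂ) * Complex.I := by
    push_cast; ring
  rw [h, Complex.sin_add_mul_I]
  push_cast
  ring

theorem st_cos (x y : ℝ) : Complex.cos (π * ((x : ℂ) + y * Complex.I)) =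
    ((Real.cos (π * x) * Real.cosh (π * y) : ℝ) : ℂ) -
      ((Real.sin (π * x) * Real.sinh (π * y) : ℝ) : ℂ) * Complex.I := by
  have h : (π : ℂ) * ((x : ℂ) + y * Complex.I) = ((π * x : ℝ) : ℂ) + ((π * y : ℝ) : ℂ) * Complex.I := by
    push_cast; ring
  rw [h, Complex.cos_add_mul_I]
  push_cast
  ring

theorem st_normSq_sin (x y : ℝ) : ‖Complex.sin (π * ((x : ℂ) + y * Complex.I))‖ ^ 2 =
    Real.sin (π * x) ^ 2 + Real.sinh (π * y) ^ 2 := by
  rw [st_sin, ← Complex.normSq_eq_norm_sq, Complex.normSq_add_mul_I]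
  have h1 := Real.sin_sq_add_cos_sq (π * x)
  have h2 := Real.cosh_sq (π * y)
  nlinarith [h1, h2]

theorem st_sin_ge (x y : ℝ) : |Real.sinh (π * y)| ≤ ‖Complex.sin (π * ((x : ℂ) + y * Complex.I))‖ := by
  have h := st_normSq_sin x y
  rw [← sq_le_sq₀ (abs_nonneg _) (norm_nonneg _), h, sq_abs]
  nlinarith [sq_nonneg (Real.sin (π * x))]

theorem st_sin_ne {z : ℂ} (h0 : 0 ≤ z.re) (h1 : z.re ≤ 1 / 2) (hz : z ≠ 0) :
    Complex.sin (π * z) ≠ 0 := by
  intro h
  have hz' : z = (z.re : ℂ) + z.im * Complex.I := (Complex.re_add_im z).symm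
  have h2 := st_normSq_sin z.re z.im
  rw [← hz', h, norm_zero] at h2
  have e1 := sq_nonneg (Real.sin (π * z.re))
  have e2 := sq_nonneg (Real.sinh (π * z.im))
  have h3 : Real.sin (π * z.re) ^ 2 = 0 := by nlinarith
  have h4 : Real.sinh (π * z.im) ^ 2 = 0 := by nlinarith
  have h5 : Real.sinh (π * z.im) = 0 := by simpa using h4
  have h6 : Real.sin (π * z.re) = 0 := by simpa using h3
  rw [Real.sinh_eq_zero] at h5
  have h7 : z.im = 0 := by
    rcases mul_eq_zero.1 h5 with h | h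
    · exact absurd h Real.pi_ne_zero
    · exact h
  have h8 : π * z.re = 0 := by
    have hpi := Real.pi_pos
    by_contra hne
    have hpos : 0 < π * z.re := lt_of_le_of_ne (by positivity) (Ne.symm hne)
    have hlt : π * z.re < π := by nlinarith
    exact absurd h6 (Real.sin_pos_of_pos_of_lt_pi hpos hlt).ne'
  have h9 : z.re = 0 := by
    rcases mul_eq_zero.1 h8 with h | h
    · exact absurd h Real.pi_ne_zero
    · exact h
  exact hz (Complex.ext h9 h7)

theorem st_dslope_diff {f : ℂ → ℂ} (hf : Differentiable ℂ f) (c : ℂ) :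
    Differentiable ℂ (dslope f c) := by
  rw [← differentiableOn_univ] at *
  exact (Complex.differentiableOn_dslope Filter.univ_mem).2 hf

/-- numerator -/
noncomputable def stN (φ : ℂ → ℂ) (c : ℂ) (z : ℂ) : ℂ :=
  1 - φ z + c / π * (Complex.sin (π * z) * Complex.cos (π * z))

/-- `(1 - φ(z)) / sin²(πz) + (c/π) cot(πz)`, extended over the origin -/
noncomputable def stG (φ : ℂ → ℂ) (c : ℂ) (z : ℂ) : ℂ :=
  dslope (dslope (stN φ c) 0) 0 z / (dslope (fun z : ℂ => Complex.sin (π * z)) 0 z) ^ 2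

section
variable {φ : ℂ → ℂ} {c : ℂ}

theorem st_sin_deriv (z : ℂ) :
    HasDerivAt (fun z : ℂ => Complex.sin (π * z)) (Complex.cos (π * z) * π) z := by
  have h : HasDerivAt (fun z : ℂ => (π : ℂ) * z) (π : ℂ) z := by
    simpa using (hasDerivAt_id z).const_mul (π : ℂ)
  exact h.csin

theorem st_cos_deriv (z : ℂ) :
    HasDerivAt (fun z : ℂ => Complex.cos (π * z)) (-Complex.sin (π * z) * π) z := by
  have h : HasDerivAt (fun z : ℂ => (π : ℂ) * z) (π : ℂ) z := by
    simpa using (hasDerivAt_id z).const_mul (π : ℂ)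
  exact h.ccos

theorem stN_diff (hφ : Differentiable ℂ φ) : Differentiable ℂ (stN φ c) := by
  intro z
  have h1 := ((st_sin_deriv z).mul (st_cos_deriv z)).const_mul (c / π)
  exact (((hφ z).hasDerivAt.const_sub 1).add h1).differentiableAt

theorem stN_zero (h1 : φ 0 = 1) : stN φ c 0 = 0 := by
  simp [stN, h1]

theorem stN_deriv (hφ : Differentiable ℂ φ) (hc : deriv φ 0 = c) : deriv (stN φ c) 0 = 0 := by
  have h1 : HasDerivAt φ c 0 := hc ▸ (hφ 0).hasDerivAt
  have h2 := ((st_sin_deriv 0).mul (st_cos_deriv 0)).const_mul (c / π)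
  have h3 := (h1.const_sub 1).add h2
  have h4 : HasDerivAt (stN φ c) (-c + c / π * (Complex.cos (π * 0) * π * Complex.cos (π * 0) +
      Complex.sin (π * 0) * (-Complex.sin (π * 0) * π))) 0 := h3
  rw [h4.deriv]
  have hpi : (π : ℂ) ≠ 0 := by exact_mod_cast Real.pi_ne_zero
  simp

theorem stG_eq (hφ : Differentiable ℂ φ) (h1 : φ 0 = 1) (hc : deriv φ 0 = c) {z : ℂ}
    (hz : z ≠ 0) : stG φ c z = stN φ c z / Complex.sin (π * z) ^ 2 := by
  rw [stG, dslope_of_ne _ hz, dslope_of_ne _ hz, slope_def_field, slope_def_field,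
    dslope_of_ne _ hz, slope_def_field, dslope_same, stN_zero h1, stN_deriv hφ hc]
  simp only [sub_zero, mul_zero, Complex.sin_zero]
  have : z ≠ 0 := hz
  by_cases hs : Complex.sin (π * z) = 0
  · simp [hs]
  · field_simp

theorem st_S_ne {z : ℂ} (h0 : 0 ≤ z.re) (h1 : z.re ≤ 1 / 2) :
    dslope (fun z : ℂ => Complex.sin (π * z)) 0 z ≠ 0 := by
  have hpi : (π : ℂ) ≠ 0 := by exact_mod_cast Real.pi_ne_zero
  by_cases hz : z = 0
  · subst hz
    rw [dslope_same, (st_sin_deriv 0).deriv]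
    simp [hpi]
  · rw [dslope_of_ne _ hz, slope_def_field]
    simp only [sub_zero, mul_zero, Complex.sin_zero]
    exact div_ne_zero (st_sin_ne h0 h1 hz) hz

theorem stG_diff (hφ : Differentiable ℂ φ) {z : ℂ} (h0 : 0 ≤ z.re) (h1 : z.re ≤ 1 / 2) :
    DifferentiableAt ℂ (stG φ c) z := by
  have hs : Differentiable ℂ (fun z : ℂ => Complex.sin (π * z)) := fun z =>
    (st_sin_deriv z).differentiableAt
  unfold stG
  exact ((st_dslope_diff (st_dslope_diff (stN_diff hφ) 0) 0) z).div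
    ((st_dslope_diff hs 0 z).pow 2) (pow_ne_zero 2 (st_S_ne h0 h1))

end

section main
variable {φ : ℂ → ℂ} {K : ℝ}

/-- real part on the right edge -/
theorem st_right (hφ : Differentiable ℂ φ) (hb : ∀ z : ℂ, 0 ≤ z.re → z.re ≤ 1 / 2 → ‖φ z‖ ≤ 1)
    (h1 : φ 0 = 1) (hd : deriv φ 0 = ((-K : ℝ) : ℂ)) (y : ℝ) :
    0 ≤ (stG φ ((-K : ℝ) : ℂ) (((1 / 2 : ℝ) : ℂ) + y * Complex.I)).re := by
  have hz : (((1 / 2 : ℝ) : ℂ) + y * Complex.I) ≠ 0 := by
    intro h
    have := congrArg Complex.re h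
    norm_num at this
  rw [stG_eq hφ h1 hd hz, stN, st_sin, st_cos]
  have e1 : π * (1 / 2 : ℝ) = π / 2 := by ring
  rw [e1, Real.sin_pi_div_two, Real.cos_pi_div_two]
  have hc : 0 < Real.cosh (π * y) := Real.cosh_pos _
  have hn := hb (((1 / 2 : ℝ) : ℂ) + y * Complex.I) (by norm_num) (by norm_num)
  have hre : (φ (((1 / 2 : ℝ) : ℂ) + y * Complex.I)).re ≤ 1 := (Complex.re_le_norm _).trans hn
  set w := φ (((1 / 2 : ℝ) : ℂ) + y * Complex.I) with hw
  have e2 : (1 - w + ((-K : ℝ) : ℂ) / (π : ℂ) *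
      ((((1 : ℝ) * Real.cosh (π * y) : ℝ) + ((0 * Real.sinh (π * y) : ℝ) : ℂ) * Complex.I) *
      (((0 * Real.cosh (π * y) : ℝ) : ℂ) - (((1 : ℝ) * Real.sinh (π * y) : ℝ) : ℂ) * Complex.I))) /
      (((1 * Real.cosh (π * y) : ℝ) : ℂ) + ((0 * Real.sinh (π * y) : ℝ) : ℂ) * Complex.I) ^ 2 =
      ((1 - w.re) / Real.cosh (π * y) ^ 2 : ℝ) +
      ((-w.im + K / π * (Real.cosh (π * y) * Real.sinh (π * y))) / Real.cosh (π * y) ^ 2 : ℝ) *
        Complex.I := by
    have hc' : (Real.cosh (π * y) : ℂ) ≠ 0 := by exact_mod_cast hc.ne'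
    have hpi : (π : ℂ) ≠ 0 := by exact_mod_cast Real.pi_ne_zero
    conv_lhs => rw [← Complex.re_add_im w]
    push_cast
    push_cast at hc'
    have h2 : ((1 * Complex.cosh (↑π * ↑y) + 0 * Complex.sinh (↑π * ↑y) * Complex.I) ^ 2 : ℂ) =
        (Complex.cosh (↑π * ↑y)) ^ 2 := by
      ring
    rw [h2]
    field_simp
    ring_nf
    try simp only [Complex.I_sq]
    try ring
  rw [e2, Complex.add_re, Complex.ofReal_re, Complex.re_ofReal_mul, Complex.I_re, mul_zero,
    add_zero]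
  exact div_nonneg (by linarith) (by positivity)

/-- real part on the left edge -/
theorem st_left (hφ : Differentiable ℂ φ)
    (h1 : φ 0 = 1) (hd : deriv φ 0 = ((-K : ℝ) : ℂ)) {y : ℝ} (hy : y ≠ 0) :
    (stG φ ((-K : ℝ) : ℂ) (((0 : ℝ) : ℂ) + y * Complex.I)).re =
      -((1 - (φ (((0 : ℝ) : ℂ) + y * Complex.I)).re) / Real.sinh (π * y) ^ 2) := by
  have hz : (((0 : ℝ) : ℂ) + y * Complex.I) ≠ 0 := by
    intro h
    have := congrArg Complex.im h
    simp at this
    exact hy this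
  rw [stG_eq hφ h1 hd hz, stN, st_sin, st_cos]
  rw [mul_zero, Real.sin_zero, Real.cos_zero]
  have hs : Real.sinh (π * y) ≠ 0 := by
    rw [Ne, Real.sinh_eq_zero]
    exact mul_ne_zero Real.pi_ne_zero hy
  set w := φ (((0 : ℝ) : ℂ) + y * Complex.I) with hw
  have e2 : (1 - w + ((-K : ℝ) : ℂ) / (π : ℂ) *
      ((((0 : ℝ) * Real.cosh (π * y) : ℝ) + ((1 * Real.sinh (π * y) : ℝ) : ℂ) * Complex.I) *
      (((1 * Real.cosh (π * y) : ℝ) : ℂ) - (((0 : ℝ) * Real.sinh (π * y) : ℝ) : ℂ) * Complex.I))) /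
      (((0 * Real.cosh (π * y) : ℝ) : ℂ) + ((1 * Real.sinh (π * y) : ℝ) : ℂ) * Complex.I) ^ 2 =
      ((-((1 - w.re) / Real.sinh (π * y) ^ 2) : ℝ) : ℂ) +
      (((w.im + K / π * (Real.cosh (π * y) * Real.sinh (π * y))) / Real.sinh (π * y) ^ 2 : ℝ) : ℂ) *
        Complex.I := by
    have hc' : (Real.sinh (π * y) : ℂ) ≠ 0 := by exact_mod_cast hs
    have hpi : (π : ℂ) ≠ 0 := by exact_mod_cast Real.pi_ne_zero
    conv_lhs => rw [← Complex.re_add_im w]
    push_cast
    push_cast at hc'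
    have h2 : ((0 * Complex.cosh (↑π * ↑y) + 1 * Complex.sinh (↑π * ↑y) * Complex.I) ^ 2 : ℂ) =
        -(Complex.sinh (↑π * ↑y)) ^ 2 := by
      ring_nf
      simp only [Complex.I_sq]
      ring
    rw [h2]
    field_simp
    ring_nf
    try simp only [Complex.I_sq]
    try ring
  rw [e2, Complex.add_re, Complex.ofReal_re, Complex.re_ofReal_mul, Complex.I_re, mul_zero,
    add_zero]

/-- decomposition of the kernel, upper half -/
theorem st_up (hφ : Differentiable ℂ φ) (h1 : φ 0 = 1) (hd : deriv φ 0 = ((-K : ℝ) : ℂ))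
    {z : ℂ} (hz : z ≠ 0) (hs : Complex.sin (π * z) ≠ 0) :
    stG φ ((-K : ℝ) : ℂ) z = (1 - φ z) / Complex.sin (π * z) ^ 2 + ((K / π : ℝ) : ℂ) * Complex.I
      + ((-K / π : ℝ) : ℂ) * (Complex.exp (π * z * Complex.I) / Complex.sin (π * z)) := by
  rw [stG_eq hφ h1 hd hz, stN]
  have h2 := Complex.cos_add_sin_I (π * z)
  have h3 : Complex.cos (π * z) = Complex.exp (π * z * Complex.I) -
      Complex.sin (π * z) * Complex.I := by rw [← h2]; ring
  rw [h3]
  have hpi : (π : ℂ) ≠ 0 := by exact_mod_cast Real.pi_ne_zero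
  push_cast
  field_simp
  ring

/-- decomposition of the kernel, lower half -/
theorem st_dn (hφ : Differentiable ℂ φ) (h1 : φ 0 = 1) (hd : deriv φ 0 = ((-K : ℝ) : ℂ))
    {z : ℂ} (hz : z ≠ 0) (hs : Complex.sin (π * z) ≠ 0) :
    stG φ ((-K : ℝ) : ℂ) z = (1 - φ z) / Complex.sin (π * z) ^ 2 - ((K / π : ℝ) : ℂ) * Complex.I
      + ((-K / π : ℝ) : ℂ) * (Complex.exp (-(π * z) * Complex.I) / Complex.sin (π * z)) := by
  rw [stG_eq hφ h1 hd hz, stN]
  have h2 := Complex.cos_add_sin_I (-(π * z))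
  rw [Complex.cos_neg, Complex.sin_neg] at h2
  have h3 : Complex.cos (π * z) = Complex.exp (-(π * z) * Complex.I) +
      Complex.sin (π * z) * Complex.I := by rw [← h2]; ring
  rw [h3]
  have hpi : (π : ℂ) ≠ 0 := by exact_mod_cast Real.pi_ne_zero
  push_cast
  field_simp
  ring

/-- error on the horizontal edges -/
noncomputable def stE (K Y : ℝ) : ℝ := 2 / Real.sinh (π * Y) ^ 2 + |K| / π / Real.sinh (π * Y)

theorem st_top (hφ : Differentiable ℂ φ) (hb : ∀ z : ℂ, 0 ≤ z.re → z.re ≤ 1 / 2 → ‖φ z‖ ≤ 1)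
    (h1 : φ 0 = 1) (hd : deriv φ 0 = ((-K : ℝ) : ℂ)) {x Y : ℝ} (hY : 0 < Y) (hx0 : 0 ≤ x)
    (hx1 : x ≤ 1 / 2) :
    (stG φ ((-K : ℝ) : ℂ) ((x : ℂ) + Y * Complex.I)).im ≤ K / π + stE K Y := by
  have hsh : 0 < Real.sinh (π * Y) := Real.sinh_pos_iff.2 (by positivity)
  have hge := st_sin_ge x Y
  rw [abs_of_pos hsh] at hge
  have hz : ((x : ℂ) + Y * Complex.I) ≠ 0 := by
    intro h
    have := congrArg Complex.im h
    simp at this
    exact hY.ne' this
  have hs : Complex.sin (π * ((x : ℂ) + Y * Complex.I)) ≠ 0 := by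
    intro h
    rw [h, norm_zero] at hge
    linarith
  have hn := hb ((x : ℂ) + Y * Complex.I) (by simpa using hx0) (by simpa using hx1)
  rw [st_up hφ h1 hd hz hs, Complex.add_im, Complex.add_im]
  have t1 : ((1 - φ ((x : ℂ) + Y * Complex.I)) /
      Complex.sin (π * ((x : ℂ) + Y * Complex.I)) ^ 2).im ≤ 2 / Real.sinh (π * Y) ^ 2 := by
    refine (Complex.abs_im_le_norm _ |> (le_abs_self _).trans).trans ?_
    rw [norm_div, norm_pow]
    apply div_le_div₀ (by norm_num) _ (by positivity) (pow_le_pow_left₀ hsh.le hge 2)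
    calc ‖1 - φ ((x : ℂ) + Y * Complex.I)‖ ≤ ‖(1 : ℂ)‖ + ‖φ ((x : ℂ) + Y * Complex.I)‖ :=
          norm_sub_le _ _
      _ ≤ 2 := by rw [norm_one]; linarith
  have t2 : (((K / π : ℝ) : ℂ) * Complex.I).im = K / π := by
    rw [Complex.im_ofReal_mul, Complex.I_im, mul_one]
  have t3 : (((-K / π : ℝ) : ℂ) * (Complex.exp (π * ((x : ℂ) + Y * Complex.I) * Complex.I) /
      Complex.sin (π * ((x : ℂ) + Y * Complex.I)))).im ≤ |K| / π / Real.sinh (π * Y) := by
    refine (Complex.abs_im_le_norm _ |> (le_abs_self _).trans).trans ?_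
    rw [norm_mul, norm_div, Complex.norm_real, Complex.norm_exp]
    have e1 : (π * ((x : ℂ) + Y * Complex.I) * Complex.I).re = -(π * Y) := by
      simp
    have e2 : Real.exp (-(π * Y)) ≤ 1 := Real.exp_le_one_iff.2 (by
      have : 0 < π * Y := by positivity
      linarith)
    rw [e1, Real.norm_eq_abs, abs_div, abs_neg, abs_of_pos Real.pi_pos]
    calc |K| / π * (Real.exp (-(π * Y)) / ‖Complex.sin (π * ((x : ℂ) + Y * Complex.I))‖) ≤
        |K| / π * (1 / Real.sinh (π * Y)) := by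
          refine mul_le_mul_of_nonneg_left ?_ (by positivity)
          exact div_le_div₀ (by norm_num) e2 hsh hge
      _ = _ := by ring
  rw [t2, stE]
  linarith

theorem st_bot (hφ : Differentiable ℂ φ) (hb : ∀ z : ℂ, 0 ≤ z.re → z.re ≤ 1 / 2 → ‖φ z‖ ≤ 1)
    (h1 : φ 0 = 1) (hd : deriv φ 0 = ((-K : ℝ) : ℂ)) {x Y : ℝ} (hY : 0 < Y) (hx0 : 0 ≤ x)
    (hx1 : x ≤ 1 / 2) :
    -(stG φ ((-K : ℝ) : ℂ) ((x : ℂ) + ((-Y : ℝ) : ℂ) * Complex.I)).im ≤ K / π + stE K Y := by
  have hsh : 0 < Real.sinh (π * Y) := Real.sinh_pos_iff.2 (by positivity)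
  have hge := st_sin_ge x (-Y)
  rw [mul_neg, Real.sinh_neg, abs_neg, abs_of_pos hsh] at hge
  have hz : ((x : ℂ) + ((-Y : ℝ) : ℂ) * Complex.I) ≠ 0 := by
    intro h
    have := congrArg Complex.im h
    simp at this
    exact hY.ne' this
  have hs : Complex.sin (π * ((x : ℂ) + ((-Y : ℝ) : ℂ) * Complex.I)) ≠ 0 := by
    intro h
    rw [h, norm_zero] at hge
    linarith
  have hn := hb ((x : ℂ) + ((-Y : ℝ) : ℂ) * Complex.I) (by simpa using hx0) (by simpa using hx1)
  rw [st_dn hφ h1 hd hz hs, Complex.add_im, Complex.sub_im]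
  have t1 : -((1 - φ ((x : ℂ) + ((-Y : ℝ) : ℂ) * Complex.I)) /
      Complex.sin (π * ((x : ℂ) + ((-Y : ℝ) : ℂ) * Complex.I)) ^ 2).im ≤
      2 / Real.sinh (π * Y) ^ 2 := by
    refine (Complex.abs_im_le_norm _ |> (neg_le_abs _).trans).trans ?_
    rw [norm_div, norm_pow]
    apply div_le_div₀ (by norm_num) _ (by positivity) (pow_le_pow_left₀ hsh.le hge 2)
    calc ‖1 - φ ((x : ℂ) + ((-Y : ℝ) : ℂ) * Complex.I)‖ ≤
        ‖(1 : ℂ)‖ + ‖φ ((x : ℂ) + ((-Y : ℝ) : ℂ) * Complex.I)‖ := norm_sub_le _ _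
      _ ≤ 2 := by rw [norm_one]; linarith
  have t2 : (((K / π : ℝ) : ℂ) * Complex.I).im = K / π := by
    rw [Complex.im_ofReal_mul, Complex.I_im, mul_one]
  have t3 : -(((-K / π : ℝ) : ℂ) * (Complex.exp (-(π * ((x : ℂ) + ((-Y : ℝ) : ℂ) * Complex.I)) *
      Complex.I) / Complex.sin (π * ((x : ℂ) + ((-Y : ℝ) : ℂ) * Complex.I)))).im ≤
      |K| / π / Real.sinh (π * Y) := by
    refine (Complex.abs_im_le_norm _ |> (neg_le_abs _).trans).trans ?_
    rw [norm_mul, norm_div, Complex.norm_real, Complex.norm_exp]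
    have e1 : (-(π * ((x : ℂ) + ((-Y : ℝ) : ℂ) * Complex.I)) * Complex.I).re = -(π * Y) := by
      simp
    have e2 : Real.exp (-(π * Y)) ≤ 1 := Real.exp_le_one_iff.2 (by
      have : 0 < π * Y := by positivity
      linarith)
    rw [e1, Real.norm_eq_abs, abs_div, abs_neg, abs_of_pos Real.pi_pos]
    calc |K| / π * (Real.exp (-(π * Y)) /
        ‖Complex.sin (π * ((x : ℂ) + ((-Y : ℝ) : ℂ) * Complex.I))‖) ≤
        |K| / π * (1 / Real.sinh (π * Y)) := by
          refine mul_le_mul_of_nonneg_left ?_ (by positivity)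
          exact div_le_div₀ (by norm_num) e2 hsh hge
      _ = _ := by ring
  rw [t2, stE]
  linarith

theorem st_tendsto (K : ℝ) : Filter.Tendsto (stE K) Filter.atTop (nhds 0) := by
  have h0 : Filter.Tendsto (fun Y : ℝ => π * Y) Filter.atTop Filter.atTop :=
    Filter.tendsto_id.const_mul_atTop Real.pi_pos
  have h1 : Filter.Tendsto (fun Y : ℝ => Real.sinh (π * Y)) Filter.atTop Filter.atTop := by
    refine Filter.tendsto_atTop_mono' _ ?_ h0
    filter_upwards [Filter.eventually_ge_atTop 0] with Y hY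
    exact Real.self_le_sinh_iff.2 (by positivity)
  have h2 : Filter.Tendsto (fun Y : ℝ => (Real.sinh (π * Y))⁻¹) Filter.atTop (nhds 0) :=
    h1.inv_tendsto_atTop
  have h3 : Filter.Tendsto (fun Y : ℝ => 2 * ((Real.sinh (π * Y))⁻¹) ^ 2 +
      |K| / π * (Real.sinh (π * Y))⁻¹) Filter.atTop (nhds (2 * 0 ^ 2 + |K| / π * 0)) :=
    ((h2.pow 2).const_mul 2).add (h2.const_mul _)
  have h4 : (2 * 0 ^ 2 + |K| / π * 0 : ℝ) = 0 := by ring
  rw [h4] at h3
  refine h3.congr fun Y => ?_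
  rw [stE, inv_pow]
  ring

/-- **Strip inequality.** -/
theorem strip_ineq (hφ : Differentiable ℂ φ)
    (hb : ∀ z : ℂ, 0 ≤ z.re → z.re ≤ 1 / 2 → ‖φ z‖ ≤ 1)
    (h1 : φ 0 = 1) (hd : deriv φ 0 = ((-K : ℝ) : ℂ)) {h : ℝ} (h0 : 0 < h) (hh : h ≤ 1) :
    ∃ y ∈ Icc (h / 2) h, (1 - (φ ((y : ℂ) * Complex.I)).re) +
      (1 - (φ (((-y : ℝ) : ℂ) * Complex.I)).re) ≤ 2 * π * Real.cosh π ^ 2 * h * K := by
  -- continuity of the kernel on the closed strip
  set G := stG φ ((-K : ℝ) : ℂ) with hG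
  have hGd : ∀ z : ℂ, 0 ≤ z.re → z.re ≤ 1 / 2 → DifferentiableAt ℂ G z := fun z a b =>
    stG_diff hφ a b
  have hline : ∀ x : ℝ, 0 ≤ x → x ≤ 1 / 2 →
      Continuous (fun y : ℝ => G ((x : ℂ) + y * Complex.I)) := fun x hx0 hx1 =>
    continuous_iff_continuousAt.2 fun y => by
      have h2 : ContinuousAt G ((x : ℂ) + y * Complex.I) :=
        (hGd _ (by simpa using hx0) (by simpa using hx1)).continuousAt
      exact ContinuousAt.comp (f := fun y : ℝ => ((x : ℂ) + y * Complex.I)) h2 (by fun_prop)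
  have hrow : ∀ Y : ℝ, ContinuousOn (fun x : ℝ => G ((x : ℂ) + Y * Complex.I)) (Icc 0 (1 / 2)) :=
    fun Y x hx => by
      have h2 : ContinuousAt G ((x : ℂ) + Y * Complex.I) :=
        (hGd _ (by simpa using hx.1) (by simpa using hx.2)).continuousAt
      exact (ContinuousAt.comp (f := fun x : ℝ => ((x : ℂ) + Y * Complex.I)) h2
        (by fun_prop)).continuousWithinAt
  -- the left edge weight
  let l : ℝ → ℝ := fun y => -(G (((0 : ℝ) : ℂ) + y * Complex.I)).re
  have hlc : Continuous l := (Complex.continuous_re.comp (hline 0 le_rfl (by norm_num))).neg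
  have hl : ∀ y : ℝ, y ≠ 0 → l y = (1 - (φ (((0 : ℝ) : ℂ) + y * Complex.I)).re) /
      Real.sinh (π * y) ^ 2 := fun y hy => by
    simp only [l]
    rw [st_left hφ h1 hd hy, neg_neg]
  have hφre : ∀ y : ℝ, (φ (((0 : ℝ) : ℂ) + y * Complex.I)).re ≤ 1 := fun y =>
    (Complex.re_le_norm _).trans (hb _ (by simp) (by simp))
  have hl0 : ∀ y : ℝ, 0 ≤ l y := by
    intro y
    have hclosed : IsClosed {y : ℝ | 0 ≤ l y} := isClosed_le continuous_const hlc
    have hsub : ({0}ᶜ : Set ℝ) ⊆ {y : ℝ | 0 ≤ l y} := fun y hy => by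
      rw [mem_setOf_eq, hl y hy]
      exact div_nonneg (by linarith [hφre y]) (by positivity)
    have hdense : Dense ({0}ᶜ : Set ℝ) := dense_compl_singleton 0
    have := hclosed.closure_subset_iff.2 hsub
    exact this (hdense y)
  -- bound for finite height
  have key : ∀ Y : ℝ, 1 ≤ Y → (∫ y in (h / 2)..h, (l y + l (-y))) ≤ K / π + stE K Y := by
    intro Y hY
    have hY0 : 0 < Y := by linarith
    have hrect := Complex.integral_boundary_rect_eq_zero_of_differentiableOn G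
      (((0 : ℝ) : ℂ) + ((-Y : ℝ) : ℂ) * Complex.I) (((1 / 2 : ℝ) : ℂ) + ((Y : ℝ) : ℂ) * Complex.I)
      (fun z hz => (hGd z (by
          have := hz.1
          simp only [Complex.add_re, Complex.ofReal_re, Complex.mul_re, Complex.I_re, mul_zero,
            Complex.ofReal_im, Complex.I_im, mul_one, sub_zero, add_zero, zero_add, mem_preimage]
            at this
          rw [uIcc_of_le (by norm_num)] at this
          exact this.1) (by
          have := hz.1
          simp only [Complex.add_re, Complex.ofReal_re, Complex.mul_re, Complex.I_re, mul_zero,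
            Complex.ofReal_im, Complex.I_im, mul_one, sub_zero, add_zero, zero_add, mem_preimage]
            at this
          rw [uIcc_of_le (by norm_num)] at this
          exact this.2)).differentiableWithinAt)
    have r1 : (((0 : ℝ) : ℂ) + ((-Y : ℝ) : ℂ) * Complex.I).re = 0 := by simp
    have r2 : (((0 : ℝ) : ℂ) + ((-Y : ℝ) : ℂ) * Complex.I).im = -Y := by simp
    have r3 : (((1 / 2 : ℝ) : ℂ) + ((Y : ℝ) : ℂ) * Complex.I).re = 1 / 2 := by simp
    have r4 : (((1 / 2 : ℝ) : ℂ) + ((Y : ℝ) : ℂ) * Complex.I).im = Y := by simp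
    rw [r1, r2, r3, r4] at hrect
    -- imaginary part
    have him := congrArg Complex.im hrect
    rw [Complex.sub_im, Complex.add_im, Complex.sub_im, smul_eq_mul, smul_eq_mul,
      Complex.I_mul_im, Complex.I_mul_im, Complex.zero_im] at him
    have iY : ∀ Y' : ℝ, IntervalIntegrable (fun x : ℝ => G ((x : ℂ) + Y' * Complex.I)) volume 0
        (1 / 2) := fun Y' => by
      refine ContinuousOn.intervalIntegrable ?_
      rw [uIcc_of_le (by norm_num)]
      exact hrow Y'
    have iX : ∀ x : ℝ, 0 ≤ x → x ≤ 1 / 2 → ∀ a b : ℝ,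
        IntervalIntegrable (fun y : ℝ => G ((x : ℂ) + y * Complex.I)) volume a b :=
      fun x a b c d => (hline x a b).intervalIntegrable c d
    have c1 : (∫ x in (0 : ℝ)..(1 / 2), G ((x : ℂ) + ((-Y : ℝ) : ℂ) * Complex.I)).im =
        ∫ x in (0 : ℝ)..(1 / 2), (G ((x : ℂ) + ((-Y : ℝ) : ℂ) * Complex.I)).im :=
      (Complex.imCLM.intervalIntegral_comp_comm (iY (-Y))).symm
    have c2 : (∫ x in (0 : ℝ)..(1 / 2), G ((x : ℂ) + ((Y : ℝ) : ℂ) * Complex.I)).im =
        ∫ x in (0 : ℝ)..(1 / 2), (G ((x : ℂ) + ((Y : ℝ) : ℂ) * Complex.I)).im :=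
      (Complex.imCLM.intervalIntegral_comp_comm (iY Y)).symm
    have c3 : (∫ y in (-Y)..Y, G (((1 / 2 : ℝ) : ℂ) + y * Complex.I)).re =
        ∫ y in (-Y)..Y, (G (((1 / 2 : ℝ) : ℂ) + y * Complex.I)).re :=
      (Complex.reCLM.intervalIntegral_comp_comm (iX (1 / 2) (by norm_num) le_rfl _ _)).symm
    have c4 : (∫ y in (-Y)..Y, G (((0 : ℝ) : ℂ) + y * Complex.I)).re =
        ∫ y in (-Y)..Y, (G (((0 : ℝ) : ℂ) + y * Complex.I)).re :=
      (Complex.reCLM.intervalIntegral_comp_comm (iX 0 le_rfl (by norm_num) _ _)).symm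
    rw [c1, c2, c3, c4] at him
    -- signs and bounds
    have b1 : 0 ≤ ∫ y in (-Y)..Y, (G (((1 / 2 : ℝ) : ℂ) + y * Complex.I)).re :=
      intervalIntegral.integral_nonneg (by linarith) fun y _ => st_right hφ hb h1 hd y
    have b2 : (∫ x in (0 : ℝ)..(1 / 2), (G ((x : ℂ) + ((Y : ℝ) : ℂ) * Complex.I)).im) ≤
        (1 / 2) * (K / π + stE K Y) := by
      have hi : IntervalIntegrable (fun x : ℝ => (G ((x : ℂ) + ((Y : ℝ) : ℂ) * Complex.I)).im)
          volume 0 (1 / 2) := by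
        refine ContinuousOn.intervalIntegrable ?_
        rw [uIcc_of_le (by norm_num)]
        exact Complex.continuous_im.comp_continuousOn (hrow Y)
      have := intervalIntegral.integral_mono_on (by norm_num) hi
        (intervalIntegrable_const (c := K / π + stE K Y))
        (fun x hx => st_top hφ hb h1 hd hY0 hx.1 hx.2)
      refine this.trans (le_of_eq ?_)
      rw [intervalIntegral.integral_const, smul_eq_mul, sub_zero]
    have b3 : -(∫ x in (0 : ℝ)..(1 / 2), (G ((x : ℂ) + ((-Y : ℝ) : ℂ) * Complex.I)).im) ≤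
        (1 / 2) * (K / π + stE K Y) := by
      rw [← intervalIntegral.integral_neg]
      have hi : IntervalIntegrable
          (fun x : ℝ => -(G ((x : ℂ) + ((-Y : ℝ) : ℂ) * Complex.I)).im) volume 0 (1 / 2) := by
        refine ContinuousOn.intervalIntegrable ?_
        rw [uIcc_of_le (by norm_num)]
        exact (Complex.continuous_im.comp_continuousOn (hrow (-Y))).neg
      have := intervalIntegral.integral_mono_on (by norm_num) hi
        (intervalIntegrable_const (c := K / π + stE K Y))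
        (fun x hx => st_bot hφ hb h1 hd hY0 hx.1 hx.2)
      refine this.trans (le_of_eq ?_)
      rw [intervalIntegral.integral_const, smul_eq_mul, sub_zero]
    have b4 : (∫ y in (-Y)..Y, l y) ≤ K / π + stE K Y := by
      simp only [l]
      rw [intervalIntegral.integral_neg]
      linarith
    -- restrict to the two small intervals
    have b5 : (∫ y in (h / 2)..h, (l y + l (-y))) ≤ ∫ y in (0 : ℝ)..Y, (l y + l (-y)) := by
      refine intervalIntegral.integral_mono_interval (by linarith) (by linarith) (by linarith) ?_ ?_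
      · exact Filter.Eventually.of_forall fun y => add_nonneg (hl0 y) (hl0 (-y))
      · exact (hlc.add (hlc.comp continuous_neg)).intervalIntegrable _ _
    have b6 : (∫ y in (0 : ℝ)..Y, (l y + l (-y))) = ∫ y in (-Y)..Y, l y := by
      have q1 : (∫ y in (0 : ℝ)..Y, (l y + l (-y))) =
          (∫ y in (0 : ℝ)..Y, l y) + ∫ y in (0 : ℝ)..Y, l (-y) :=
        intervalIntegral.integral_add (hlc.intervalIntegrable _ _)
          ((hlc.comp continuous_neg).intervalIntegrable _ _)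
      have q2 : (∫ y in (0 : ℝ)..Y, l (-y)) = ∫ y in (-Y)..(-0), l y :=
        intervalIntegral.integral_comp_neg l
      rw [q1, q2, neg_zero, add_comm]
      exact intervalIntegral.integral_add_adjacent_intervals (hlc.intervalIntegrable _ _)
        (hlc.intervalIntegrable _ _)
    rw [b6] at b5
    exact b5.trans b4
  have key2 : (∫ y in (h / 2)..h, (l y + l (-y))) ≤ K / π := by
    have h2 : Filter.Tendsto (fun Y => K / π + stE K Y) Filter.atTop (nhds (K / π + 0)) :=
      (st_tendsto K).const_add _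
    rw [add_zero] at h2
    refine ge_of_tendsto h2 ?_
    filter_upwards [Filter.eventually_ge_atTop 1] with Y hY
    exact key Y hY
  -- the minimum on `[h/2, h]`
  let u : ℝ → ℝ := fun y => (1 - (φ ((y : ℂ) * Complex.I)).re) +
      (1 - (φ (((-y : ℝ) : ℂ) * Complex.I)).re)
  have huc : Continuous u := by
    have hφc := hφ.continuous
    simp only [u]
    fun_prop
  obtain ⟨y, hy, hmin⟩ := isCompact_Icc.exists_isMinOn (nonempty_Icc.2 (by linarith : h / 2 ≤ h))
    huc.continuousOn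
  refine ⟨y, hy, ?_⟩
  have hsh : 0 < Real.sinh (π * h) := Real.sinh_pos_iff.2 (by have := Real.pi_pos; positivity)
  have hu0 : 0 ≤ u y := by
    simp only [u]
    have e1 := hφre y
    have e2 := hφre (-y)
    simp only [Complex.ofReal_zero, zero_add] at e1 e2
    linarith
  have hlow : ∀ x ∈ Icc (h / 2) h, u y / Real.sinh (π * h) ^ 2 ≤ l x + l (-x) := by
    intro x hx
    have hx0 : 0 < x := by have := hx.1; linarith
    have hxs : 0 < Real.sinh (π * x) := Real.sinh_pos_iff.2 (by have := Real.pi_pos; positivity)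
    have hle : Real.sinh (π * x) ≤ Real.sinh (π * h) :=
      Real.sinh_le_sinh.2 (mul_le_mul_of_nonneg_left hx.2 Real.pi_pos.le)
    rw [hl x hx0.ne', hl (-x) (neg_ne_zero.2 hx0.ne'), mul_neg,
      Real.sinh_neg, neg_sq, ← add_div]
    have e3 : u y ≤ u x := hmin hx
    have e4 : u x = (1 - (φ (((0 : ℝ) : ℂ) + x * Complex.I)).re) +
        (1 - (φ (((0 : ℝ) : ℂ) + ((-x : ℝ) : ℂ) * Complex.I)).re) := by
      simp only [u, Complex.ofReal_zero, zero_add]
    rw [← e4]
    exact div_le_div₀ (hu0.trans e3) e3 (by positivity) (pow_le_pow_left₀ hxs.le hle 2)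
  have hint : (h / 2) * (u y / Real.sinh (π * h) ^ 2) ≤ K / π := by
    have := intervalIntegral.integral_mono_on (μ := volume) (by linarith : h / 2 ≤ h)
      (intervalIntegrable_const (c := u y / Real.sinh (π * h) ^ 2))
      ((hlc.add (hlc.comp continuous_neg)).intervalIntegrable _ _) hlow
    rw [intervalIntegral.integral_const, smul_eq_mul] at this
    have e5 : h - h / 2 = h / 2 := by ring
    rw [e5] at this
    exact this.trans key2
  have hpi := Real.pi_pos
  have hsb : Real.sinh (π * h) ≤ Real.cosh π * (π * h) := by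
    have hconv := (convex_Icc (0 : ℝ) π).norm_image_sub_le_of_norm_hasDerivWithin_le
      (f := Real.sinh) (f' := Real.cosh) (C := Real.cosh π) (x := 0) (y := π * h)
      (fun x hx => (Real.hasDerivAt_sinh x).hasDerivWithinAt)
      (fun x hx => by
        rw [Real.norm_eq_abs, abs_of_pos (Real.cosh_pos x)]
        refine Real.cosh_le_cosh.2 ?_
        rw [abs_of_nonneg hx.1, abs_of_pos hpi]
        exact hx.2)
      ⟨le_rfl, hpi.le⟩ ⟨by positivity, by nlinarith⟩
    rw [Real.sinh_zero, sub_zero, sub_zero, Real.norm_eq_abs, Real.norm_eq_abs, abs_of_pos hsh,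
      abs_of_pos (by positivity)] at hconv
    exact hconv
  have hS : 0 < Real.sinh (π * h) ^ 2 := by positivity
  have hK : 0 ≤ K / π := le_trans (by positivity) hint
  have h6 : u y ≤ 2 / h * Real.sinh (π * h) ^ 2 * (K / π) := by
    have h7 : u y = 2 / h * Real.sinh (π * h) ^ 2 * ((h / 2) * (u y / Real.sinh (π * h) ^ 2)) := by
      field_simp
    rw [h7]
    exact mul_le_mul_of_nonneg_left hint (by positivity)
  have h8 : Real.sinh (π * h) ^ 2 ≤ (Real.cosh π * (π * h)) ^ 2 :=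
    pow_le_pow_left₀ hsh.le hsb 2
  calc u y ≤ 2 / h * Real.sinh (π * h) ^ 2 * (K / π) := h6
    _ ≤ 2 / h * (Real.cosh π * (π * h)) ^ 2 * (K / π) := by
        refine mul_le_mul_of_nonneg_right ?_ hK
        exact mul_le_mul_of_nonneg_left h8 (by positivity)
    _ = 2 * π * Real.cosh π ^ 2 * h * K := by
        field_simp

end main

end Vale.Agent.P356.GA
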