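import Vale.Agent.P356.GA.Fun749
import Vale.Agent.P356.GA.Strip749
import Mathlib.Analysis.Complex.Hadamard

/-!
Closeness of the modular flows of two overlapping regions, in terms of the conditional mutual
information.
-/

set_option linter.all false

namespace Vale.Agent.P356.GA

open Matrix Finset Vale.Agent.P356 Vale.Agent.P356.SV Vale.Agent.P356.Path Vale.Agent.P356.PH
open scoped BigOperators ComplexOrder Kronecker Matrix.Norms.L2Operator

/-- complex power, zero on the kernel -/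
noncomputable def pw (z : ℂ) (p : ℝ) : ℂ := if p = 0 then 0 else Complex.exp (z * (Real.log p : ℂ))

theorem pw_mul (z w : ℂ) (p : ℝ) : pw z p * pw w p = pw (z + w) p := by
  unfold pw
  split_ifs with h
  · rw [mul_zero]
  · rw [← Complex.exp_add, add_mul]

theorem pw_star (z : ℂ) (p : ℝ) : star (pw z p) = pw (star z) p := by
  unfold pw
  split_ifs with h
  · exact star_zero _
  · rw [Complex.star_def, ← Complex.exp_conj, map_mul, Complex.conj_ofReal]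

theorem pw_one {p : ℝ} (hp : 0 ≤ p) : pw 1 p = (p : ℂ) := by
  unfold pw
  split_ifs with h
  · rw [h]; simp
  · rw [one_mul, ← Complex.ofReal_exp, Real.exp_log (lt_of_le_of_ne hp (Ne.symm h))]

theorem pw_zero {p : ℝ} (hp : p ≠ 0) : pw 0 p = 1 := by
  rw [pw, if_neg hp, zero_mul, Complex.exp_zero]

theorem pw_norm_le (z : ℂ) (p : ℝ) : ‖pw z p‖ ≤ Real.exp (|z.re| * |Real.log p|) := by
  unfold pw
  split_ifs with h
  · rw [norm_zero]; positivity
  · rw [Complex.norm_exp]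
    refine Real.exp_le_exp.2 ?_
    have : (z * (Real.log p : ℂ)).re = z.re * Real.log p := by simp
    rw [this, ← abs_mul]
    exact le_abs_self _

theorem pw_norm_im (y : ℝ) (p : ℝ) : ‖pw ((y : ℂ) * Complex.I) p‖ ≤ 1 := by
  refine (pw_norm_le _ p).trans (le_of_eq ?_)
  simp

theorem pw_hasDerivAt (p : ℝ) (z : ℂ) :
    HasDerivAt (fun z => pw z p) ((Real.log p : ℂ) * pw z p) z := by
  unfold pw
  by_cases h : p = 0
  · simp only [if_pos h, mul_zero]
    exact hasDerivAt_const _ _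
  · simp only [if_neg h]
    have h1 : HasDerivAt (fun z : ℂ => z * (Real.log p : ℂ)) (Real.log p : ℂ) z := by
      simpa using (hasDerivAt_id z).mul_const (Real.log p : ℂ)
    refine h1.cexp.congr_deriv ?_
    ring

section regions
variable {V : Type*} [Fintype V] [DecidableEq V] {q : ℕ}

/-- complex power of the reduced state of `S`, zero on the kernel -/
noncomputable def PP (S : Finset V) (ψ : Conf V q → ℂ) (z : ℂ) : Op V q :=
  cr S ψ (fun i => pw z (eigp (ψ ∘ (cut S q).symm) i))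

/-- modular unitary of the reduced state of `S` -/
noncomputable def UU (S : Finset V) (ψ : Conf V q → ℂ) (s : ℝ) : Op V q :=
  cr S ψ (fun i => Complex.exp ((s * Real.log (eigp (ψ ∘ (cut S q).symm) i) : ℝ) * Complex.I))

variable (S : Finset V) (ψ : Conf V q → ℂ)

theorem PP_mul (z w : ℂ) : PP S ψ z * PP S ψ w = PP S ψ (z + w) := by
  rw [PP, PP, cr_mul, PP]
  simp only [pw_mul]

theorem PP_star (z : ℂ) : (PP S ψ z)ᴴ = PP S ψ (star z) := by
  rw [PP, cr_conj, PP]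
  simp only [pw_star]

theorem PP_one : PP S ψ 1 = opOn S (rdm S ψ) := by
  rw [← cr_rho, PP]
  congr 1
  funext i
  exact pw_one (eigp_nonneg _ i)

theorem PP_zero_mulVec : PP S ψ 0 *ᵥ ψ = ψ :=
  cr_fix S ψ _ fun i hi => pw_zero hi

theorem PP_acts (z : ℂ) : ActsOn S (PP S ψ z) := cr_acts S ψ _

theorem PP_norm_im (y : ℝ) : ‖PP S ψ ((y : ℂ) * Complex.I)‖ ≤ 1 :=
  cr_norm S ψ _ zero_le_one fun i => pw_norm_im y _

/-- bound on vertical lines -/
noncomputable def PPc : ℝ := ∑ i, |Real.log (eigp (ψ ∘ (cut S q).symm) i)|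

theorem PP_norm_le (z : ℂ) : ‖PP S ψ z‖ ≤ Real.exp (|z.re| * PPc S ψ) := by
  refine cr_norm S ψ _ (by positivity) fun i => (pw_norm_le z _).trans ?_
  refine Real.exp_le_exp.2 (mul_le_mul_of_nonneg_left ?_ (abs_nonneg _))
  exact Finset.single_le_sum (f := fun i => |Real.log (eigp (ψ ∘ (cut S q).symm) i)|)
    (fun j _ => abs_nonneg _) (Finset.mem_univ i)

/-- the linear map behind `cr` -/
noncomputable def crL : (({x // x ∈ S} → Fin q) → ℂ) →ₗ[ℂ] Op V q where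
  toFun := cr S ψ
  map_add' := fun f g => by
    have h := cr_sub S ψ (fun i => f i + g i) g
    simp only [add_sub_cancel_right] at h
    have h2 : (f + g) = fun i => f i + g i := rfl
    have h3 : (fun i => f i) = f := rfl
    rw [h3] at h
    rw [h2, ← h]
    abel
  map_smul' := fun c f => by
    rw [cr, cr, clF, clF, RingHom.id_apply]
    have : (c • f : ({x // x ∈ S} → Fin q) → ℂ) = fun i => c * f i := rfl
    rw [this]
    have h2 : diagonal (fun i => c * f i) = c • diagonal f := by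
      rw [← diagonal_smul]; rfl
    rw [h2, Matrix.mul_smul, Matrix.smul_mul, opOn, opL_smul, opOn]

theorem crL_apply (f : ({x // x ∈ S} → Fin q) → ℂ) : crL S ψ f = cr S ψ f := rfl

/-- derivative of the power -/
noncomputable def PPd (z : ℂ) : Op V q :=
  cr S ψ (fun i => (Real.log (eigp (ψ ∘ (cut S q).symm) i) : ℂ) *
    pw z (eigp (ψ ∘ (cut S q).symm) i))

theorem PP_hasDerivAt (z : ℂ) : HasDerivAt (fun z => PP S ψ z) (PPd S ψ z) z := by
  have h1 : HasDerivAt (fun z : ℂ => (fun i => pw z (eigp (ψ ∘ (cut S q).symm) i)))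
      (fun i => (Real.log (eigp (ψ ∘ (cut S q).symm) i) : ℂ) *
        pw z (eigp (ψ ∘ (cut S q).symm) i)) z :=
    hasDerivAt_pi.2 fun i => pw_hasDerivAt _ z
  exact ((crL S ψ).toContinuousLinearMap).hasFDerivAt.comp_hasDerivAt z h1

theorem PP_neg_hasDerivAt (z : ℂ) : HasDerivAt (fun z => PP S ψ (-z)) (-PPd S ψ (-z)) z := by
  have h := (PP_hasDerivAt S ψ (-z)).scomp z (hasDerivAt_neg z)
  exact h.congr_deriv (by rw [neg_smul, one_smul])

theorem PPd_expect : star ψ ⬝ᵥ (PPd S ψ 0 *ᵥ ψ) = ((-(entropyOf S ψ) : ℝ) : ℂ) := by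
  have h1 : entropyOf S ψ = ∑ i, Real.negMulLog (eigp (ψ ∘ (cut S q).symm) i) := by
    have hh : (rdm S ψ).IsHermitian := redA_isHermitian (ψ ∘ (cut S q).symm)
    rw [entropyOf, vnEntropy, dif_pos hh]
    rfl
  rw [PPd, cr_expect, h1]
  push_cast
  rw [← Finset.sum_neg_distrib]
  refine Finset.sum_congr rfl fun i _ => ?_
  by_cases h : eigp (ψ ∘ (cut S q).symm) i = 0
  · rw [h]; simp
  · rw [pw_zero h, mul_one, Real.negMulLog]
    push_cast
    ring

end regions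

section edge
variable {V : Type*} [Fintype V] [DecidableEq V] {q : ℕ}

theorem tr_star_nonneg (Y : Op V q) : 0 ≤ ((Yᴴ * Y).trace).re := by
  have h := (Matrix.posSemidef_conjTranspose_mul_self Y).trace_nonneg
  exact (Complex.nonneg_iff.1 h).1

theorem tr_proj_le {Q : Op V q} (h1 : Q * Q = Q) (h2 : Qᴴ = Q) (X : Op V q) :
    ((Q * (Xᴴ * X)).trace).re ≤ ((Xᴴ * X).trace).re := by
  have h3 := tr_star_nonneg (X * (1 - Q))
  have h4 : ((X * (1 - Q))ᴴ * (X * (1 - Q))).trace = (Xᴴ * X).trace - (Q * (Xᴴ * X)).trace := by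
    have e1 : (1 - Q) * (1 - Q) = 1 - Q := by
      rw [mul_sub, sub_mul, sub_mul, h1, mul_one, mul_one, one_mul]
      abel
    rw [conjTranspose_mul, conjTranspose_sub, conjTranspose_one, h2]
    calc ((1 - Q) * Xᴴ * (X * (1 - Q))).trace = ((1 - Q) * ((Xᴴ * X) * (1 - Q))).trace := by
          simp only [Matrix.mul_assoc]
      _ = (((Xᴴ * X) * (1 - Q)) * (1 - Q)).trace := Matrix.trace_mul_comm _ _
      _ = ((Xᴴ * X) * ((1 - Q) * (1 - Q))).trace := by simp only [Matrix.mul_assoc]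
      _ = (((1 - Q) * (1 - Q)) * (Xᴴ * X)).trace := Matrix.trace_mul_comm _ _
      _ = _ := by rw [e1, sub_mul, one_mul, Matrix.trace_sub]
  rw [h4, Complex.sub_re] at h3
  linarith

theorem dO_inter_union (N M : Finset V) :
    dO q M * dO q N = dO q (N ∪ M) * dO q (N ∩ M) := by
  rw [dO_eq, dO_eq, dO_eq, dO_eq, ← pow_add, ← pow_add]
  congr 1
  have h1 := Finset.card_union_add_card_inter N M
  have h2 : (N ∪ M).card ≤ Fintype.card V := Finset.card_le_univ _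
  have h3 : N.card ≤ (N ∪ M).card := Finset.card_le_card Finset.subset_union_left
  have h4 : M.card ≤ (N ∪ M).card := Finset.card_le_card Finset.subset_union_right
  omega

theorem dO_pos {ψ : Conf V q → ℂ} (hψ : nsq ψ = 1) (S : Finset V) :
    ∃ n : ℕ, 0 < n ∧ dO q S = (n : ℂ) := by
  refine ⟨Fintype.card ({x // x ∉ S} → Fin q), ?_, rfl⟩
  rcases isEmpty_or_nonempty (Conf V q) with h | ⟨⟨s⟩⟩
  · exfalso
    rw [nsq, Finset.univ_eq_empty, Finset.sum_empty] at hψ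
    exact zero_ne_one hψ
  · exact Fintype.card_pos_iff.2 ⟨fun x => s x.1⟩

/-- the vector on the strip -/
noncomputable def vv (N M : Finset V) (ψ : Conf V q → ℂ) (z : ℂ) : Op V q :=
  PP N ψ z * PP (N ∩ M) ψ (-z) * PP M ψ z * PP (N ∪ M) ψ (-z)

/-- the edge bound -/
theorem vv_edge (N M : Finset V) {ψ : Conf V q → ℂ} (hψ : nsq ψ = 1) {z : ℂ}
    (hz : z.re = 1 / 2) : nsq (vv N M ψ z *ᵥ ψ) ≤ 1 := by
  have hzz : z + star z = 1 := by
    rw [Complex.star_def]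
    apply Complex.ext
    · simp [hz]; norm_num
    · simp
  set X : Op V q := PP N ψ z * PP (N ∩ M) ψ (-z) * PP M ψ z with hX
  set P : Op V q := PP (N ∪ M) ψ (-z) with hP
  have hXact : ActsOn (N ∪ M) X := ph_acts_mul (ph_acts_mul
    (ph_acts_mono Finset.subset_union_left (PP_acts N ψ z))
    (ph_acts_mono (Finset.inter_subset_left.trans Finset.subset_union_left)
      (PP_acts (N ∩ M) ψ (-z))))
    (ph_acts_mono Finset.subset_union_right (PP_acts M ψ z))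
  have hPact : ActsOn (N ∪ M) P := PP_acts (N ∪ M) ψ (-z)
  obtain ⟨nR, hR0, hR⟩ := dO_pos hψ (N ∪ M)
  obtain ⟨nI, hI0, hI⟩ := dO_pos hψ (N ∩ M)
  obtain ⟨nN, hN0, hN⟩ := dO_pos hψ N
  obtain ⟨nM, hM0, hM⟩ := dO_pos hψ M
  have hcard : (nM : ℝ) * nN = nR * nI := by
    have := dO_inter_union (q := q) N M
    rw [hR, hI, hN, hM] at this
    exact_mod_cast this
  -- step 1
  have h1 : (nR : ℝ) * nsq (vv N M ψ z *ᵥ ψ) = ((PP (N ∪ M) ψ 0 * (Xᴴ * X)).trace).re := by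
    have e1 := trace_rho (N ∪ M) ψ (X := (X * P)ᴴ * (X * P))
      (ph_acts_mul (ph_acts_star (ph_acts_mul hXact hPact)) (ph_acts_mul hXact hPact))
    rw [← nsq_mulVec_eq, hR] at e1
    have e2 : (opOn (N ∪ M) (rdm (N ∪ M) ψ) * ((X * P)ᴴ * (X * P))).trace =
        (PP (N ∪ M) ψ 0 * (Xᴴ * X)).trace := by
      rw [← PP_one, conjTranspose_mul]
      calc (PP (N ∪ M) ψ 1 * (Pᴴ * Xᴴ * (X * P))).trace =
          ((PP (N ∪ M) ψ 1 * Pᴴ * (Xᴴ * X)) * P).trace := by simp only [Matrix.mul_assoc]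
        _ = (P * (PP (N ∪ M) ψ 1 * Pᴴ * (Xᴴ * X))).trace := Matrix.trace_mul_comm _ _
        _ = ((P * PP (N ∪ M) ψ 1 * Pᴴ) * (Xᴴ * X)).trace := by simp only [Matrix.mul_assoc]
        _ = _ := by
            rw [hP, PP_star, PP_mul, PP_mul]
            congr 3
            rw [star_neg]
            linear_combination -hzz
    rw [e2] at e1
    have e3 := congrArg Complex.re e1
    rw [e3]
    have : ((nR : ℂ) * ((nsq ((X * P) *ᵥ ψ) : ℝ) : ℂ)) = ((nR * nsq ((X * P) *ᵥ ψ) : ℝ) : ℂ) := by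
      push_cast; ring
    rw [this, Complex.ofReal_re]
    rfl
  -- step 2
  have h2 : ((PP (N ∪ M) ψ 0 * (Xᴴ * X)).trace).re ≤ ((Xᴴ * X).trace).re :=
    tr_proj_le (by rw [PP_mul, add_zero]) (by rw [PP_star, star_zero]) X
  -- step 3
  set X' : Op V q := PP (N ∩ M) ψ (-z) * PP M ψ 1 * PP (N ∩ M) ψ (star (-z)) with hX'
  have h3 : (Xᴴ * X).trace = (opOn N (rdm N ψ) * X').trace := by
    rw [hX, conjTranspose_mul, conjTranspose_mul, PP_star, PP_star, PP_star, ← PP_one]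
    calc (PP M ψ (star z) * (PP (N ∩ M) ψ (star (-z)) * PP N ψ (star z)) *
        (PP N ψ z * PP (N ∩ M) ψ (-z) * PP M ψ z)).trace =
        ((PP M ψ (star z) * PP (N ∩ M) ψ (star (-z))) *
          ((PP N ψ (star z) * PP N ψ z) * (PP (N ∩ M) ψ (-z) * PP M ψ z))).trace := by
          simp only [Matrix.mul_assoc]
      _ = (((PP N ψ (star z) * PP N ψ z) * (PP (N ∩ M) ψ (-z) * PP M ψ z)) *
          (PP M ψ (star z) * PP (N ∩ M) ψ (star (-z)))).trace := Matrix.trace_mul_comm _ _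
      _ = ((PP N ψ (star z) * PP N ψ z) * (PP (N ∩ M) ψ (-z) * (PP M ψ z * PP M ψ (star z)) *
          PP (N ∩ M) ψ (star (-z)))).trace := by simp only [Matrix.mul_assoc]
      _ = _ := by
          rw [PP_mul, PP_mul, hX', hzz, add_comm (star z) z, hzz]
  have hX'act : ActsOn M X' := ph_acts_mul (ph_acts_mul
    (ph_acts_mono Finset.inter_subset_right (PP_acts (N ∩ M) ψ (-z))) (PP_acts M ψ 1))
    (ph_acts_mono Finset.inter_subset_right (PP_acts (N ∩ M) ψ (star (-z))))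
  have hdis : Disjoint N (M \ (N ∩ M)) := by
    rw [Finset.disjoint_left]
    intro x hx hx'
    rw [Finset.mem_sdiff, Finset.mem_inter] at hx'
    exact hx'.2 ⟨hx, hx'.1⟩
  have h4 := trace_marg (Finset.inter_subset_left) (Finset.inter_subset_right) hdis ψ hX'act
  rw [hI, hN] at h4
  -- step 5
  have h5 : (opOn (N ∩ M) (rdm (N ∩ M) ψ) * X').trace = (PP (N ∩ M) ψ 0 * PP M ψ 1).trace := by
    rw [← PP_one, hX']
    calc (PP (N ∩ M) ψ 1 * (PP (N ∩ M) ψ (-z) * PP M ψ 1 * PP (N ∩ M) ψ (star (-z)))).trace =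
        ((PP (N ∩ M) ψ 1 * PP (N ∩ M) ψ (-z) * PP M ψ 1) * PP (N ∩ M) ψ (star (-z))).trace := by
          simp only [Matrix.mul_assoc]
      _ = (PP (N ∩ M) ψ (star (-z)) * (PP (N ∩ M) ψ 1 * PP (N ∩ M) ψ (-z) * PP M ψ 1)).trace :=
          Matrix.trace_mul_comm _ _
      _ = ((PP (N ∩ M) ψ (star (-z)) * (PP (N ∩ M) ψ 1 * PP (N ∩ M) ψ (-z))) *
          PP M ψ 1).trace := by simp only [Matrix.mul_assoc]
      _ = _ := by
          rw [PP_mul, PP_mul]
          congr 3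
          rw [star_neg]
          linear_combination -hzz
  have h6 : ((PP (N ∩ M) ψ 0 * PP M ψ 1).trace).re ≤ nM := by
    have hhalf : PP M ψ 1 = (PP M ψ (1 / 2 : ℂ))ᴴ * PP M ψ (1 / 2 : ℂ) := by
      rw [PP_star, PP_mul]
      congr 1
      rw [Complex.star_def]
      apply Complex.ext
      · simp; norm_num
      · simp
    have e1 := tr_proj_le (Q := PP (N ∩ M) ψ 0) (by rw [PP_mul, add_zero])
      (by rw [PP_star, star_zero]) (PP M ψ (1 / 2 : ℂ))
    rw [← hhalf] at e1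
    refine e1.trans (le_of_eq ?_)
    have e2 := trace_rho M ψ (X := 1) (ph_acts_one M)
    rw [mul_one, Matrix.one_mulVec, NA.na_spow_nsq_star, hψ, hM, ← PP_one] at e2
    rw [e2]
    simp
  -- conclusion
  have h7 : (nI : ℝ) * ((Xᴴ * X).trace).re ≤ nM * nN := by
    have e1 := congrArg Complex.re h4
    rw [h5] at e1
    have e2 : ((opOn N (rdm N ψ) * X').trace * (nI : ℂ)).re =
        ((opOn N (rdm N ψ) * X').trace).re * nI := by
      simp
    have e3 : ((PP (N ∩ M) ψ 0 * PP M ψ 1).trace * (nN : ℂ)).re =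
        ((PP (N ∩ M) ψ 0 * PP M ψ 1).trace).re * nN := by
      simp
    rw [e2, e3, ← h3] at e1
    have e4 : ((PP (N ∩ M) ψ 0 * PP M ψ 1).trace).re * nN ≤ nM * nN :=
      mul_le_mul_of_nonneg_right h6 (by positivity)
    linarith
  have hR0' : (0 : ℝ) < nR := by exact_mod_cast hR0
  have hI0' : (0 : ℝ) < nI := by exact_mod_cast hI0
  have h8 : (nI : ℝ) * (nR * nsq (vv N M ψ z *ᵥ ψ)) ≤ nI * nR := by
    calc (nI : ℝ) * (nR * nsq (vv N M ψ z *ᵥ ψ)) ≤ nI * ((Xᴴ * X).trace).re := by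
          refine mul_le_mul_of_nonneg_left ?_ hI0'.le
          rw [h1]; exact h2
      _ ≤ nM * nN := h7
      _ = nI * nR := by rw [hcard]; ring
  have h9 : 0 < (nI : ℝ) * nR := by positivity
  nlinarith

end edge

section flow
variable {V : Type*} [Fintype V] [DecidableEq V] {q : ℕ}

/-- the overlap function on the strip -/
noncomputable def vphi (N M : Finset V) (ψ : Conf V q → ℂ) (z : ℂ) : ℂ :=
  star ψ ⬝ᵥ (vv N M ψ z *ᵥ ψ)

/-- the linear functional `A ↦ ⟨ψ, A ψ⟩` -/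
noncomputable def exL (ψ : Conf V q → ℂ) : Op V q →ₗ[ℂ] ℂ where
  toFun := fun A => star ψ ⬝ᵥ (A *ᵥ ψ)
  map_add' := fun A B => by rw [Matrix.add_mulVec, dotProduct_add]
  map_smul' := fun c A => by
    rw [Matrix.smul_mulVec, dotProduct_smul, RingHom.id_apply]

theorem vv_hasDerivAt (N M : Finset V) (ψ : Conf V q → ℂ) (z : ℂ) :
    HasDerivAt (fun z => vv N M ψ z)
      (((PPd N ψ z * PP (N ∩ M) ψ (-z) + PP N ψ z * -PPd (N ∩ M) ψ (-z)) * PP M ψ z +
        PP N ψ z * PP (N ∩ M) ψ (-z) * PPd M ψ z) * PP (N ∪ M) ψ (-z) +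
        PP N ψ z * PP (N ∩ M) ψ (-z) * PP M ψ z * -PPd (N ∪ M) ψ (-z)) z :=
  (((PP_hasDerivAt N ψ z).mul (PP_neg_hasDerivAt (N ∩ M) ψ z)).mul (PP_hasDerivAt M ψ z)).mul
    (PP_neg_hasDerivAt (N ∪ M) ψ z)

theorem vphi_hasDerivAt (N M : Finset V) (ψ : Conf V q → ℂ) (z : ℂ) :
    HasDerivAt (vphi N M ψ) (star ψ ⬝ᵥ
      ((((PPd N ψ z * PP (N ∩ M) ψ (-z) + PP N ψ z * -PPd (N ∩ M) ψ (-z)) * PP M ψ z +
        PP N ψ z * PP (N ∩ M) ψ (-z) * PPd M ψ z) * PP (N ∪ M) ψ (-z) +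
        PP N ψ z * PP (N ∩ M) ψ (-z) * PP M ψ z * -PPd (N ∪ M) ψ (-z)) *ᵥ ψ)) z :=
  ((exL ψ).toContinuousLinearMap).hasFDerivAt.comp_hasDerivAt z (vv_hasDerivAt N M ψ z)

theorem vphi_diff (N M : Finset V) (ψ : Conf V q → ℂ) : Differentiable ℂ (vphi N M ψ) :=
  fun z => (vphi_hasDerivAt N M ψ z).differentiableAt

theorem PP_zero_left (S : Finset V) (ψ w : Conf V q → ℂ) :
    star ψ ⬝ᵥ (PP S ψ 0 *ᵥ w) = star ψ ⬝ᵥ w := by
  have h : star ψ ᵥ* PP S ψ 0 = star ψ := by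
    have h1 : PP S ψ 0 = (PP S ψ 0)ᴴ := by rw [PP_star, star_zero]
    rw [h1, ← Matrix.star_mulVec, PP_zero_mulVec]
  rw [Matrix.dotProduct_mulVec, h]

theorem vphi_zero (N M : Finset V) {ψ : Conf V q → ℂ} (hψ : nsq ψ = 1) : vphi N M ψ 0 = 1 := by
  rw [vphi, vv, neg_zero]
  simp only [← Matrix.mulVec_mulVec, PP_zero_mulVec]
  rw [NA.na_spow_nsq_star, hψ]
  simp

/-- conditional mutual information -/
noncomputable def cmi (N M : Finset V) (ψ : Conf V q → ℂ) : ℝ :=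
  entropyOf N ψ + entropyOf M ψ - entropyOf (N ∩ M) ψ - entropyOf (N ∪ M) ψ

theorem vphi_deriv (N M : Finset V) (ψ : Conf V q → ℂ) :
    deriv (vphi N M ψ) 0 = ((-(cmi N M ψ) : ℝ) : ℂ) := by
  rw [(vphi_hasDerivAt N M ψ 0).deriv, neg_zero]
  simp only [add_mul, mul_neg, neg_mul, Matrix.add_mulVec, Matrix.neg_mulVec,
    ← Matrix.mulVec_mulVec, PP_zero_mulVec, dotProduct_add, dotProduct_neg, PP_zero_left,
    PPd_expect]
  rw [cmi]
  push_cast
  ring

theorem nsq_le_norm (A : Op V q) (ψ : Conf V q → ℂ) (hA : ‖A‖ ≤ 1) : nsq (A *ᵥ ψ) ≤ nsq ψ := by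
  have h := ph_nsq_mulVec_le A ψ
  have h1 : ‖A‖ ^ 2 ≤ 1 := pow_le_one₀ (norm_nonneg _) hA
  have h2 : 0 ≤ nsq ψ := Finset.sum_nonneg fun i _ => by positivity
  nlinarith

theorem dot_le_one {φ w : Conf V q → ℂ} (h1 : nsq φ ≤ 1) (h2 : nsq w ≤ 1) : ‖star φ ⬝ᵥ w‖ ≤ 1 := by
  have e1 : star φ ⬝ᵥ w = inner ℂ (WithLp.toLp 2 φ : EuclideanSpace ℂ (Conf V q))
      (WithLp.toLp 2 w : EuclideanSpace ℂ (Conf V q)) := by
    rw [PiLp.inner_apply, dotProduct]
    refine Finset.sum_congr rfl fun i _ => ?_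
    simp [mul_comm]
  rw [e1]
  refine (norm_inner_le_norm _ _).trans ?_
  rw [ph_nsq_eq] at h1 h2
  have a1 := norm_nonneg (WithLp.toLp 2 φ : EuclideanSpace ℂ (Conf V q))
  have a2 := norm_nonneg (WithLp.toLp 2 w : EuclideanSpace ℂ (Conf V q))
  have b1 : ‖(WithLp.toLp 2 φ : EuclideanSpace ℂ (Conf V q))‖ ≤ 1 := by nlinarith
  have b2 : ‖(WithLp.toLp 2 w : EuclideanSpace ℂ (Conf V q))‖ ≤ 1 := by nlinarith
  calc _ ≤ (1 : ℝ) * 1 := mul_le_mul b1 b2 a2 zero_le_one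
    _ = 1 := by norm_num

theorem dot_le_norm_bound (ψ : Conf V q → ℂ) (A : Op V q) (hψ : nsq ψ = 1) :
    ‖star ψ ⬝ᵥ (A *ᵥ ψ)‖ ≤ ‖A‖ := by
  have e1 : star ψ ⬝ᵥ (A *ᵥ ψ) = inner ℂ (WithLp.toLp 2 ψ : EuclideanSpace ℂ (Conf V q))
      (WithLp.toLp 2 (A *ᵥ ψ) : EuclideanSpace ℂ (Conf V q)) := by
    rw [PiLp.inner_apply, dotProduct]
    refine Finset.sum_congr rfl fun i _ => ?_
    simp [mul_comm]
  have h3 := Matrix.l2_opNorm_mulVec A (WithLp.toLp 2 ψ : EuclideanSpace ℂ (Conf V q))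
  have h4 : ‖(WithLp.toLp 2 ψ : EuclideanSpace ℂ (Conf V q))‖ = 1 := by
    have := ph_nsq_eq ψ
    rw [hψ] at this
    have h5 := norm_nonneg (WithLp.toLp 2 ψ : EuclideanSpace ℂ (Conf V q))
    nlinarith
  rw [h4, mul_one] at h3
  rw [e1]
  refine (norm_inner_le_norm _ _).trans ?_
  rw [h4, one_mul]
  exact h3

theorem PP_norm_re0 (S : Finset V) (ψ : Conf V q → ℂ) {z : ℂ} (hz : z.re = 0) :
    ‖PP S ψ z‖ ≤ 1 := by
  have h := PP_norm_le S ψ z
  rw [hz, abs_zero, zero_mul, Real.exp_zero] at h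
  exact h

theorem vphi_bound (N M : Finset V) {ψ : Conf V q → ℂ} (hψ : nsq ψ = 1) (z : ℂ) (h0 : 0 ≤ z.re)
    (h1 : z.re ≤ 1 / 2) : ‖vphi N M ψ z‖ ≤ 1 := by
  have hB : BddAbove ((norm ∘ vphi N M ψ) '' Complex.HadamardThreeLines.verticalClosedStrip 0 (1 / 2)) := by
    refine ⟨Real.exp (PPc N ψ) * Real.exp (PPc (N ∩ M) ψ) * Real.exp (PPc M ψ) *
      Real.exp (PPc (N ∪ M) ψ), ?_⟩
    rintro _ ⟨w, hw, rfl⟩
    have hw' : |w.re| ≤ 1 := by
      have h2 : w.re ∈ Set.Icc (0 : ℝ) (1 / 2) := hw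
      rw [abs_of_nonneg h2.1]
      have := h2.2
      linarith
    have hb : ∀ (S : Finset V) (u : ℂ), |u.re| ≤ 1 → ‖PP S ψ u‖ ≤ Real.exp (PPc S ψ) :=
      fun S u hu => by
        refine (PP_norm_le S ψ u).trans (Real.exp_le_exp.2 ?_)
        have hc : 0 ≤ PPc S ψ := Finset.sum_nonneg fun i _ => abs_nonneg _
        nlinarith
    have hv : ‖vv N M ψ w‖ ≤ Real.exp (PPc N ψ) * Real.exp (PPc (N ∩ M) ψ) *
        Real.exp (PPc M ψ) * Real.exp (PPc (N ∪ M) ψ) := by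
      have hwn : |(-w).re| ≤ 1 := by rw [Complex.neg_re, abs_neg]; exact hw'
      refine (norm_mul_le _ _).trans (mul_le_mul ?_ (hb _ _ hwn) (norm_nonneg _) (by positivity))
      refine (norm_mul_le _ _).trans (mul_le_mul ?_ (hb _ _ hw') (norm_nonneg _) (by positivity))
      exact (norm_mul_le _ _).trans (mul_le_mul (hb _ _ hw') (hb _ _ hwn) (norm_nonneg _)
        (by positivity))
    have hd := dot_le_norm_bound ψ (vv N M ψ w) hψ
    exact hd.trans hv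
  have hedge0 : ∀ w ∈ Complex.re ⁻¹' {(0 : ℝ)}, ‖vphi N M ψ w‖ ≤ 1 := by
    intro w hw
    have hw0 : w.re = 0 := hw
    have hwn : (-w).re = 0 := by rw [Complex.neg_re, hw0, neg_zero]
    refine dot_le_one hψ.le ?_
    refine (nsq_le_norm _ ψ ?_).trans hψ.le
    refine (norm_mul_le _ _).trans (mul_le_one₀ ?_ (norm_nonneg _) (PP_norm_re0 _ ψ hwn))
    refine (norm_mul_le _ _).trans (mul_le_one₀ ?_ (norm_nonneg _) (PP_norm_re0 _ ψ hw0))
    exact (norm_mul_le _ _).trans (mul_le_one₀ (PP_norm_re0 _ ψ hw0) (norm_nonneg _)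
      (PP_norm_re0 _ ψ hwn))
  have hedge1 : ∀ w ∈ Complex.re ⁻¹' {(1 / 2 : ℝ)}, ‖vphi N M ψ w‖ ≤ 1 := by
    intro w hw
    exact dot_le_one hψ.le (vv_edge N M hψ hw)
  have key := Complex.HadamardThreeLines.norm_le_interp_of_mem_verticalClosedStrip'
    (by norm_num : (0 : ℝ) < 1 / 2) (z := z) ⟨h0, h1⟩
    ((vphi_diff N M ψ).diffContOnCl) hB hedge0 hedge1
  simpa using key

theorem cr_add (S : Finset V) (ψ : Conf V q → ℂ) (f g : ({x // x ∈ S} → Fin q) → ℂ) :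
    cr S ψ f + cr S ψ g = cr S ψ (fun i => f i + g i) :=
  ((crL S ψ).map_add f g).symm

theorem UU_norm_one (S : Finset V) (ψ : Conf V q → ℂ) (s : ℝ) :
    (UU S ψ s)ᴴ * UU S ψ s = 1 := by
  rw [UU, cr_conj, cr_mul, ← cr_one S ψ]
  congr 1
  funext i
  rw [RCLike.star_def, Complex.conj_mul', Complex.norm_exp_ofReal_mul_I]
  simp

theorem UU_nsq (S : Finset V) (ψ w : Conf V q → ℂ) (s : ℝ) : nsq (UU S ψ s *ᵥ w) = nsq w := by
  have h := nsq_mulVec_eq (UU S ψ s) w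
  rw [UU_norm_one, Matrix.one_mulVec, NA.na_spow_nsq_star] at h
  exact_mod_cast h

theorem UU_pyth (S : Finset V) (ψ w : Conf V q → ℂ) (s : ℝ) :
    nsq (UU S ψ s *ᵥ w) = nsq (PP S ψ ((s : ℂ) * Complex.I) *ᵥ w) +
      nsq ((UU S ψ s - PP S ψ ((s : ℂ) * Complex.I)) *ᵥ w) := by
  have h : ((nsq (UU S ψ s *ᵥ w) : ℝ) : ℂ) = ((nsq (PP S ψ ((s : ℂ) * Complex.I) *ᵥ w) +
      nsq ((UU S ψ s - PP S ψ ((s : ℂ) * Complex.I)) *ᵥ w) : ℝ) : ℂ) := by
    rw [Complex.ofReal_add, nsq_mulVec_eq, nsq_mulVec_eq, nsq_mulVec_eq, ← dotProduct_add,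
      ← Matrix.add_mulVec]
    congr 2
    rw [UU, PP, cr_sub, cr_conj, cr_conj, cr_conj, cr_mul, cr_mul, cr_mul, cr_add]
    congr 1
    funext i
    by_cases hp : eigp (ψ ∘ (cut S q).symm) i = 0
    · rw [hp]
      simp [pw]
    · have e : Complex.exp ((s * Real.log (eigp (ψ ∘ (cut S q).symm) i) : ℝ) * Complex.I) =
          pw ((s : ℂ) * Complex.I) (eigp (ψ ∘ (cut S q).symm) i) := by
        rw [pw, if_neg hp]
        congr 1
        push_cast
        ring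
      rw [e, sub_self, mul_zero, add_zero]
  exact_mod_cast h

theorem UU_eq_PP (S : Finset V) (ψ : Conf V q → ℂ) (s : ℝ) :
    UU S ψ s *ᵥ ψ = PP S ψ ((s : ℂ) * Complex.I) *ᵥ ψ := by
  have h : UU S ψ s * PP S ψ 0 = PP S ψ ((s : ℂ) * Complex.I) := by
    rw [UU, PP, PP, cr_mul]
    congr 1
    funext i
    by_cases hp : eigp (ψ ∘ (cut S q).symm) i = 0
    · rw [hp]
      simp [pw]
    · rw [pw_zero hp, mul_one, pw, if_neg hp]
      congr 1
      push_cast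
      ring
  rw [← h, ← Matrix.mulVec_mulVec, PP_zero_mulVec]

theorem nsq_add3 (a b c : Conf V q → ℂ) : nsq (a + b + c) ≤ 3 * (nsq a + nsq b + nsq c) := by
  unfold nsq
  rw [← Finset.sum_add_distrib, ← Finset.sum_add_distrib, Finset.mul_sum]
  refine Finset.sum_le_sum fun i _ => ?_
  simp only [Pi.add_apply]
  have h1 : ‖a i + b i + c i‖ ≤ ‖a i‖ + ‖b i‖ + ‖c i‖ := norm_add₃_le
  have h2 := norm_nonneg (a i + b i + c i)
  nlinarith [sq_nonneg (‖a i‖ - ‖b i‖), sq_nonneg (‖b i‖ - ‖c i‖), sq_nonneg (‖a i‖ - ‖c i‖),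
    norm_nonneg (a i), norm_nonneg (b i), norm_nonneg (c i)]

theorem nsq_sub_expand (a b : Conf V q → ℂ) :
    nsq (a - b) = nsq a + nsq b - 2 * (star a ⬝ᵥ b).re := by
  have h : ((nsq (a - b) : ℝ) : ℂ) = ((nsq a : ℝ) : ℂ) + ((nsq b : ℝ) : ℂ) - star a ⬝ᵥ b -
      star b ⬝ᵥ a := by
    rw [← NA.na_spow_nsq_star, ← NA.na_spow_nsq_star, ← NA.na_spow_nsq_star, star_sub,
      sub_dotProduct, dotProduct_sub, dotProduct_sub]
    ring
  have h2 : star b ⬝ᵥ a = star (star a ⬝ᵥ b) := by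
    rw [Matrix.star_dotProduct]
  have h3 := congrArg Complex.re h
  rw [h2] at h3
  simp only [Complex.sub_re, Complex.add_re, Complex.ofReal_re, Complex.star_def,
    Complex.conj_re] at h3
  linarith

/-- from the overlap on the imaginary axis to the flows -/
theorem flow_of_overlap (N M : Finset V) {ψ : Conf V q → ℂ} (hψ : nsq ψ = 1) (s δ : ℝ)
    (hδ : 1 - (vphi N M ψ ((s : ℂ) * Complex.I)).re ≤ δ) :
    nsq (UU (N ∪ M) ψ (-s) *ᵥ ψ -
      UU M ψ (-s) *ᵥ (UU (N ∩ M) ψ s *ᵥ (UU N ψ (-s) *ᵥ ψ))) ≤ 18 * δ := by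
  have hneg : ((-s : ℝ) : ℂ) * Complex.I = -((s : ℂ) * Complex.I) := by push_cast; ring
  have hstar : star ((s : ℂ) * Complex.I) = ((-s : ℝ) : ℂ) * Complex.I := by
    rw [Complex.star_def, map_mul, Complex.conj_ofReal, Complex.conj_I]
    push_cast; ring
  set u1 := UU N ψ (-s) *ᵥ ψ with hu1
  set u2' := UU (N ∩ M) ψ s *ᵥ u1 with hu2'
  set u2 := PP (N ∩ M) ψ ((s : ℂ) * Complex.I) *ᵥ u1 with hu2
  set u3 := PP M ψ (((-s : ℝ) : ℂ) * Complex.I) *ᵥ u2 with hu3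
  set ζ := UU (N ∪ M) ψ (-s) *ᵥ ψ with hζ
  have n1 : nsq u1 = 1 := by rw [hu1, UU_nsq, hψ]
  have n2' : nsq u2' = 1 := by rw [hu2', UU_nsq, n1]
  have nζ : nsq ζ = 1 := by rw [hζ, UU_nsq, hψ]
  have n2 : nsq u2 ≤ 1 := by
    rw [hu2, ← n1]
    exact nsq_le_norm _ _ (PP_norm_im _ ψ s)
  have n3 : nsq u3 ≤ nsq u2 := nsq_le_norm _ _ (PP_norm_im _ ψ (-s))
  -- the overlap
  have hov : (star u3 ⬝ᵥ ζ) = vphi N M ψ ((s : ℂ) * Complex.I) := by
    have hprod : (PP M ψ (((-s : ℝ) : ℂ) * Complex.I) * PP (N ∩ M) ψ ((s : ℂ) * Complex.I) *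
        PP N ψ (((-s : ℝ) : ℂ) * Complex.I))ᴴ * PP (N ∪ M) ψ (((-s : ℝ) : ℂ) * Complex.I) =
        vv N M ψ ((s : ℂ) * Complex.I) := by
      have hstar2 : star (((-s : ℝ) : ℂ) * Complex.I) = (s : ℂ) * Complex.I := by
        rw [← hstar, star_star]
      rw [conjTranspose_mul, conjTranspose_mul, PP_star, PP_star, PP_star, hstar, hstar2, hneg, vv]
      simp only [Matrix.mul_assoc]
    rw [hu3, hu2, hu1, UU_eq_PP, hζ, UU_eq_PP, Matrix.mulVec_mulVec, Matrix.mulVec_mulVec,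
      Matrix.star_mulVec, ← Matrix.dotProduct_mulVec, Matrix.mulVec_mulVec, hprod, vphi]
  have e3 : nsq (u3 - ζ) = nsq u3 + nsq ζ - 2 * (star u3 ⬝ᵥ ζ).re := nsq_sub_expand _ _
  rw [hov, nζ] at e3
  have e3' : 0 ≤ nsq (u3 - ζ) := Finset.sum_nonneg fun i _ => by positivity
  have b3 : nsq (u3 - ζ) ≤ 2 * δ := by linarith
  have b3' : 1 - 2 * δ ≤ nsq u3 := by linarith
  -- replacing the partial isometries
  have p2 : nsq (u2' - u2) ≤ 2 * δ := by
    have h := UU_pyth (N ∩ M) ψ u1 s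
    rw [Matrix.sub_mulVec] at h
    rw [← hu2', ← hu2, n2'] at h
    linarith
  set u3'' := UU M ψ (-s) *ᵥ u2 with hu3''
  have p3 : nsq (u3'' - u3) ≤ 2 * δ := by
    have h := UU_pyth M ψ u2 (-s)
    rw [Matrix.sub_mulVec] at h
    rw [← hu3, ← hu3''] at h
    have h2 : nsq u3'' = nsq u2 := UU_nsq M ψ u2 (-s)
    linarith
  have p4 : nsq (UU M ψ (-s) *ᵥ (u2' - u2)) ≤ 2 * δ := by rw [UU_nsq]; exact p2
  have hdec : ζ - UU M ψ (-s) *ᵥ u2' =
      (-(UU M ψ (-s) *ᵥ (u2' - u2))) + (-(u3'' - u3)) + (-(u3 - ζ)) := by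
    rw [Matrix.mulVec_sub, ← hu3'']
    abel
  have hneg' : ∀ w : Conf V q → ℂ, nsq (-w) = nsq w := fun w => by
    unfold nsq
    simp only [Pi.neg_apply, norm_neg]
  rw [hdec]
  refine (nsq_add3 _ _ _).trans ?_
  rw [hneg', hneg', hneg']
  linarith

/-- **Closeness of the flows.**  If the conditional mutual information of `N \ M` and `M \ N`
given `N ∩ M` is small then the modular flow of `N ∪ M` is a product of the three other flows. -/
theorem close_flow (N M : Finset V) {ψ : Conf V q → ℂ} (hψ : nsq ψ = 1) {h : ℝ} (h0 : 0 < h)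
    (h1 : h ≤ 1) : ∃ y ∈ Set.Icc (h / 2) h, ∀ s : ℝ, (s = y ∨ s = -y) →
      nsq (UU (N ∪ M) ψ (-s) *ᵥ ψ -
        UU M ψ (-s) *ᵥ (UU (N ∩ M) ψ s *ᵥ (UU N ψ (-s) *ᵥ ψ))) ≤
        36 * Real.pi * Real.cosh Real.pi ^ 2 * h * cmi N M ψ := by
  obtain ⟨y, hy, hle⟩ := strip_ineq (vphi_diff N M ψ)
    (fun z a b => vphi_bound N M hψ z a b) (vphi_zero N M hψ) (vphi_deriv N M ψ) h0 h1
  have hre : ∀ s : ℝ, 0 ≤ 1 - (vphi N M ψ ((s : ℂ) * Complex.I)).re := fun s => by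
    have := (Complex.re_le_norm _).trans
      (vphi_bound N M hψ ((s : ℂ) * Complex.I) (by simp) (by simp))
    linarith
  refine ⟨y, hy, fun s hs => ?_⟩
  have hδ : 1 - (vphi N M ψ ((s : ℂ) * Complex.I)).re ≤
      2 * Real.pi * Real.cosh Real.pi ^ 2 * h * cmi N M ψ := by
    rcases hs with rfl | rfl
    · have := hre (-s)
      linarith
    · have := hre y
      linarith
  refine (flow_of_overlap N M hψ s _ hδ).trans (le_of_eq ?_)
  ring

end flow

end Vale.Agent.P356.GA
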