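import Vale.Agent.P356.GA.Cluster939b
import Vale.Agent.P356.PH.LR

/-!
Exponential clustering in the ground state of a gapped Hamiltonian on the square lattice.
-/

set_option linter.all false

namespace Vale.Agent.P356.GA

open Matrix Finset Vale.Agent.P356 Vale.Agent.P356.SV Vale.Agent.P356.Path Vale.Agent.P356.PH
open scoped BigOperators ComplexOrder Kronecker Matrix.Norms.L2Operator

variable {L q R : ℕ} {J : ℝ}

theorem terms_neg {g : Finset (Site L) → Op (Site L) q} (hg : Terms L q R J g) :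
    Terms L q R J (fun X => -(g X)) := by
  refine ⟨fun X => (hg.herm X).neg, fun X => ph_acts_neg (hg.loc X), fun X => ?_, fun X hX => ?_⟩
  · intro ψ
    have h := hg.norm X ψ
    have e : nsq (-(g X) *ᵥ ψ) = nsq (g X *ᵥ ψ) := by
      rw [neg_mulVec]; simp [nsq]
    rw [e]; exact h
  · exact hg.range X (fun h => hX (by rw [h, neg_zero]))

/-- Lieb-Robinson bound for an arbitrary region `X`, nonnegative times -/
theorem lr_gen_nonneg (hJ : 0 ≤ J) {g : Finset (Site L) → Op (Site L) q}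
    (hg : Terms L q R J g) (m : ℕ) (X Y : Finset (Site L))
    (hXY : ∀ x ∈ X, ∀ y ∈ Y, (m + 1) * R < dist1 x y)
    (hd : Disjoint X Y)
    (A B : Op (Site L) q) (hA : ActsOn X A) (hB : ActsOn Y B) {t : ℝ} (ht : 0 ≤ t) :
    ‖ev (∑ Z, g Z) t A * B - B * ev (∑ Z, g Z) t A‖ ≤
      2 * ‖A‖ * ‖B‖ * (X.card * ((kap R J * |t|) ^ (m + 1) / (m + 1).factorial)) := by
  classical
  set κ : ℝ := kap R J with hκ
  have hκ0 : 0 ≤ κ := by rw [hκ, kap]; positivity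
  let S : Finset (Finset (Site L)) := (Finset.univ : Finset (Finset (Site L))).filter
    (fun Z => g Z ≠ 0 ∧ ¬ Disjoint X Z)
  have hScard : S.card ≤ X.card * NR R := by
    refine (Finset.card_le_card fun Z hZ => ?_).trans (lr_card_touch (R := R) X)
    rw [Finset.mem_filter] at hZ ⊢
    exact ⟨Finset.mem_univ Z, (hg.range Z hZ.2.1).2, hZ.2.2⟩
  set V : Op (Site L) q := ∑ Z ∈ S, g Z with hV
  set K : Op (Site L) q := ∑ Z ∈ Sᶜ, g Z with hK
  have hsplit : ∑ Z, g Z = K + V := by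
    rw [hK, hV, add_comm, Finset.sum_add_sum_compl]
  have hVs : IsSelfAdjoint V := by
    rw [isSelfAdjoint_iff, hV, star_sum]
    exact Finset.sum_congr rfl fun Z _ => hg.herm Z
  have hKs : IsSelfAdjoint K := by
    rw [isSelfAdjoint_iff, hK, star_sum]
    exact Finset.sum_congr rfl fun Z _ => hg.herm Z
  have hAK : Commute A K := by
    rw [hK]
    refine Commute.sum_right _ _ _ fun Z hZ => ?_
    by_cases h0 : g Z = 0
    · rw [h0]; exact Commute.zero_right _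
    · refine ph_acts_comm ?_ hA (hg.loc Z)
      by_contra hn
      exact (Finset.mem_compl.1 hZ) (Finset.mem_filter.2 ⟨Finset.mem_univ Z, h0, hn⟩)
  have hAB : Commute A B := ph_acts_comm hd hA hB
  have hφ : ∀ s : ℝ, HasDerivAt (fun s : ℝ => (S.card : ℝ) * (2 * J * ‖B‖) *
      (κ ^ m * (s ^ (m + 1) / (m + 1).factorial)))
      ((S.card : ℝ) * (2 * J * ‖B‖) * ((κ * s) ^ m / m.factorial)) s := fun s => by
    have h1 := (((hasDerivAt_pow (m + 1) s).div_const ((m + 1).factorial : ℝ)).const_mul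
      (κ ^ m)).const_mul ((S.card : ℝ) * (2 * J * ‖B‖))
    refine h1.congr_deriv ?_
    rw [Nat.add_sub_cancel, Nat.factorial_succ, mul_pow]
    push_cast
    have h2 : ((m : ℝ) + 1) ≠ 0 := by positivity
    have h3 : (m.factorial : ℝ) ≠ 0 := by positivity
    field_simp
  have key := ph_step (𝔸 := Op (Site L) q) hKs hVs hAK hAB (T := t) ht hφ
    (by simp) (fun s h0 hs => ?_)
  · rw [ev_eq, hsplit]
    refine key.trans ?_
    rw [abs_of_nonneg ht]
    have h1 : (S.card : ℝ) * (2 * J) ≤ X.card * κ := by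
      have h2 : (S.card : ℝ) ≤ (X.card : ℝ) * NR R := by exact_mod_cast hScard
      have h3 : (2 * J) * (NR R : ℝ) ≤ κ := by
        rw [hκ, kap]
        refine mul_le_mul_of_nonneg_left ?_ (by positivity)
        have : (1 : ℝ) ≤ (2 * (R : ℝ) + 1) ^ 2 := by
          refine one_le_pow₀ ?_
          have : (0 : ℝ) ≤ R := Nat.cast_nonneg R
          linarith
        push_cast
        nlinarith [(Nat.cast_nonneg (NR R) : (0 : ℝ) ≤ NR R)]
      calc (S.card : ℝ) * (2 * J) ≤ ((X.card : ℝ) * NR R) * (2 * J) :=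
            mul_le_mul_of_nonneg_right h2 (by positivity)
        _ = X.card * ((2 * J) * NR R) := by ring
        _ ≤ X.card * κ := mul_le_mul_of_nonneg_left h3 (Nat.cast_nonneg _)
    calc 2 * ‖A‖ * ((S.card : ℝ) * (2 * J * ‖B‖) * (κ ^ m * (t ^ (m + 1) / (m + 1).factorial))) =
        2 * ‖A‖ * ‖B‖ * (((S.card : ℝ) * (2 * J)) *
          (κ ^ m * (t ^ (m + 1) / (m + 1).factorial))) := by ring
      _ ≤ 2 * ‖A‖ * ‖B‖ * ((X.card * κ) * (κ ^ m * (t ^ (m + 1) / (m + 1).factorial))) := by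
          refine mul_le_mul_of_nonneg_left (mul_le_mul_of_nonneg_right h1 ?_) (by positivity)
          positivity
      _ = 2 * ‖A‖ * ‖B‖ * (X.card * ((κ * t) ^ (m + 1) / (m + 1).factorial)) := by
          rw [mul_pow]
          ring
  · rw [← hsplit, hV, phTau_sum, Finset.sum_mul, Finset.mul_sum, ← Finset.sum_sub_distrib]
    refine (norm_sum_le _ _).trans ?_
    refine (Finset.sum_le_card_nsmul _ _ (2 * J * ‖B‖ * ((κ * s) ^ m / m.factorial))
      fun Z hZ => ?_).trans (le_of_eq (by rw [nsmul_eq_mul]; ring))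
    rw [Finset.mem_filter] at hZ
    obtain ⟨-, h0', hn⟩ := hZ
    have hdiam := (hg.range Z h0').2
    rw [Finset.not_disjoint_iff] at hn
    obtain ⟨x, hx, hxZ⟩ := hn
    have hfar : ∀ z ∈ Z, ∀ y ∈ Y, m * R < dist1 z y := fun z hz y hy => by
      have h2 := hXY x hx y hy
      have h3 := hdiam x hxZ z hz
      have h4 := dist1_tri x z y
      have h5 : (m + 1) * R = m * R + R := by ring
      omega
    have h6 := lieb_robinson hJ hg m Z Y hdiam hfar (g Z) B (hg.loc Z) hB s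
    rw [ev_eq, abs_of_nonneg h0] at h6
    refine h6.trans ?_
    have h7 : ‖g Z‖ ≤ J := ph_norm_le hJ (hg.norm Z)
    have h8 : 0 ≤ (κ * s) ^ m / (m.factorial : ℝ) := by positivity
    calc 2 * ‖g Z‖ * ‖B‖ * ((κ * s) ^ m / m.factorial) ≤
        2 * J * ‖B‖ * ((κ * s) ^ m / m.factorial) := by
          refine mul_le_mul_of_nonneg_right ?_ h8
          refine mul_le_mul_of_nonneg_right ?_ (norm_nonneg _)
          linarith

/-- Lieb-Robinson bound for an arbitrary region `X` -/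
theorem lr_gen (hJ : 0 ≤ J) {g : Finset (Site L) → Op (Site L) q}
    (hg : Terms L q R J g) (m : ℕ) (X Y : Finset (Site L))
    (hXY : ∀ x ∈ X, ∀ y ∈ Y, (m + 1) * R < dist1 x y)
    (hd : Disjoint X Y)
    (A B : Op (Site L) q) (hA : ActsOn X A) (hB : ActsOn Y B) (t : ℝ) :
    ‖ev (∑ Z, g Z) t A * B - B * ev (∑ Z, g Z) t A‖ ≤
      2 * ‖A‖ * ‖B‖ * (X.card * ((kap R J * |t|) ^ (m + 1) / (m + 1).factorial)) := by
  rcases le_total 0 t with ht | ht
  · exact lr_gen_nonneg hJ hg m X Y hXY hd A B hA hB ht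
  · have h := lr_gen_nonneg hJ (terms_neg hg) m X Y hXY hd A B hA hB (neg_nonneg.2 ht)
    rw [abs_neg] at h
    have e : ev (∑ Z, -(g Z)) (-t) A = ev (∑ Z, g Z) t A := by
      rw [Finset.sum_neg_distrib, ev_eq, ev_eq, phTau_neg_ham, neg_neg]
    rwa [e] at h

theorem pow_div_factorial_le (m : ℕ) : (m : ℝ) ^ m / m.factorial ≤ Real.exp m := by
  have h := Real.pow_div_factorial_le_exp (m : ℝ) (Nat.cast_nonneg m) m
  exact h

/-- trivial bound for a correlation -/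
theorem corr_triv {N : Type*} [Fintype N] [DecidableEq N] (A B : Matrix N N ℂ) {Ω : N → ℂ}
    (hΩ : nsq Ω = 1) :
    ‖star Ω ⬝ᵥ ((A * B) *ᵥ Ω) - (star Ω ⬝ᵥ (A *ᵥ Ω)) * (star Ω ⬝ᵥ (B *ᵥ Ω))‖ ≤
      2 * (‖A‖ * ‖B‖) := by
  have h0 : ∀ M : Matrix N N ℂ, ‖star Ω ⬝ᵥ (M *ᵥ Ω)‖ ≤ ‖M‖ := fun M => by
    have h := dot_le M Ω Ω
    rwa [hΩ, Real.sqrt_one, mul_one, mul_one] at h
  have h1 := (h0 (A * B)).trans (norm_mul_le _ _)
  have h4 : ‖star Ω ⬝ᵥ (A *ᵥ Ω) * (star Ω ⬝ᵥ (B *ᵥ Ω))‖ ≤ ‖A‖ * ‖B‖ := by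
    rw [norm_mul]
    exact mul_le_mul (h0 A) (h0 B) (norm_nonneg _) (norm_nonneg _)
  refine (norm_sub_le _ _).trans ?_
  linarith

/-- the final arithmetic -/
theorem cluster_arith {P X em E1 E2 Z T C1 : ℝ} (hP : 0 ≤ P) (hX : 0 ≤ X) (hZ : 0 ≤ Z)
    (hT : 0 ≤ T) (hC : 0 ≤ C1) (h1 : E1 ≤ Z) (h2 : E2 ≤ Z) (h3 : em ≤ Z) (h4 : T ≤ C1)
    (hE1 : 0 ≤ E1) (hem : 0 ≤ em) :
    (2 * P * (X * em + E1) * T + 4 * P * E2) / 2 ≤ (4 + 2 * C1) * (X + 1) * P * Z := by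
  have f1 : X * em + E1 ≤ (X + 1) * Z := by nlinarith
  have f2 : 2 * P * (X * em + E1) * T ≤ 2 * P * ((X + 1) * Z) * C1 :=
    mul_le_mul (mul_le_mul_of_nonneg_left f1 (by positivity)) h4 hT (by positivity)
  have f3 : 4 * P * E2 ≤ 4 * P * Z := mul_le_mul_of_nonneg_left h2 (by positivity)
  have f4 : 0 ≤ P * X * Z := by positivity
  have f5 : 0 ≤ P * Z := by positivity
  have f6 : 0 ≤ C1 * (P * X * Z) := mul_nonneg hC f4
  have f7 : 0 ≤ C1 * (P * Z) := mul_nonneg hC f5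
  nlinarith [f2, f3, f4, f5, f6, f7]

/-- inside of the light cone -/
theorem cone_bound {k : ℕ} {κ0 κ t0 t x : ℝ} (h0 : 0 ≤ κ0) (hκ : 0 < κ) (hkk : κ0 ≤ κ)
    (ht0 : 0 < t0) (ht : |t| ≤ t0)
    (hLR : (κ * t0) ^ (k + 1) / ((k + 1).factorial : ℝ) ≤ x) :
    (κ0 * |t|) ^ (k + 1) / ((k + 1).factorial : ℝ) ≤ x * (|t| / t0) := by
  have h1 : (κ0 * |t|) ^ (k + 1) ≤ (κ * t0) ^ (k + 1) * (|t| / t0) := by
    rw [pow_succ, pow_succ]
    have h2 : (κ0 * |t|) ^ k ≤ (κ * t0) ^ k :=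
      pow_le_pow_left₀ (by positivity) (mul_le_mul hkk ht (abs_nonneg _) hκ.le) k
    have h3 : κ0 * |t| ≤ κ * |t| := mul_le_mul_of_nonneg_right hkk (abs_nonneg _)
    calc (κ0 * |t|) ^ k * (κ0 * |t|) ≤ (κ * t0) ^ k * (κ * |t|) :=
          mul_le_mul h2 h3 (by positivity) (by positivity)
      _ = (κ * t0) ^ k * (κ * t0) * (|t| / t0) := by field_simp
  calc (κ0 * |t|) ^ (k + 1) / ((k + 1).factorial : ℝ) ≤
      (κ * t0) ^ (k + 1) * (|t| / t0) / ((k + 1).factorial : ℝ) :=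
        div_le_div_of_nonneg_right h1 (by positivity)
    _ = (κ * t0) ^ (k + 1) / ((k + 1).factorial : ℝ) * (|t| / t0) := by ring
    _ ≤ _ := mul_le_mul_of_nonneg_right hLR (by positivity)

/-- the value at the tip of the cone -/
theorem tip_bound {κ s0 : ℝ} (hκ : 0 < κ) (hs0 : s0 = 1 / (Real.exp 2 * κ)) (m : ℕ) :
    (κ * (m * s0)) ^ m / (m.factorial : ℝ) ≤ Real.exp (-m) := by
  have h1 : κ * (m * s0) = m * Real.exp (-2) := by
    rw [hs0, Real.exp_neg]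
    have : Real.exp 2 ≠ 0 := (Real.exp_pos 2).ne'
    field_simp
  rw [h1, mul_pow, mul_comm, mul_div_assoc]
  calc Real.exp (-2) ^ m * ((m : ℝ) ^ m / m.factorial) ≤
      Real.exp (-2) ^ m * Real.exp m :=
        mul_le_mul_of_nonneg_left (pow_div_factorial_le m) (by positivity)
    _ = Real.exp (-m) := by
        rw [← Real.exp_nat_mul, ← Real.exp_add]
        congr 1; ring

/-- clustering with `k + 1` Lieb-Robinson steps -/
theorem clustering_step (hJ : 0 ≤ J) {Δ : ℝ} (hΔ : 0 < Δ) {κ s0 c0 C1 : ℝ}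
    (hκ : κ = kap R J + 1) (hs0 : s0 = 1 / (Real.exp 2 * κ)) (hc0 : c0 = min 1 (Δ * s0 / 4))
    (hC1 : C1 = √(2 * Real.pi / (Δ * s0)) / Real.pi)
    {g : Finset (Site L) → Op (Site L) q} (hg : Terms L q R J g) {E : ℝ}
    {Ω : Conf (Site L) q → ℂ} (hgr : GappedGround (∑ Z, g Z) Δ E Ω) (k : ℕ)
    (X Y : Finset (Site L)) (hfar : ∀ x ∈ X, ∀ y ∈ Y, (k + 1) * R < dist1 x y)
    (hdisj : Disjoint X Y) {A B : Op (Site L) q} (hA : ActsOn X A) (hB : ActsOn Y B) :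
    ‖star Ω ⬝ᵥ ((A * B) *ᵥ Ω) - (star Ω ⬝ᵥ (A *ᵥ Ω)) * (star Ω ⬝ᵥ (B *ᵥ Ω))‖ ≤
      (4 + 2 * C1) * (X.card + 1) * (‖A‖ * ‖B‖) * Real.exp (-(c0 * ((k + 1 : ℕ) : ℝ))) := by
  have hk0 : 0 ≤ kap R J := by rw [kap]; positivity
  have hκ0 : 0 < κ := by rw [hκ]; linarith
  have hkk : kap R J ≤ κ := by rw [hκ]; linarith
  have hs0' : 0 < s0 := by rw [hs0]; positivity
  have hH : (∑ Z, g Z).IsHermitian := by
    have : IsSelfAdjoint (∑ Z, g Z) := by
      rw [isSelfAdjoint_iff, star_sum]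
      exact Finset.sum_congr rfl fun Z _ => hg.herm Z
    exact this
  have hAB : A * B = B * A := ph_acts_comm hdisj hA hB
  have hm1 : (1 : ℝ) ≤ ((k + 1 : ℕ) : ℝ) := by push_cast; linarith [(Nat.cast_nonneg k : (0:ℝ) ≤ k)]
  set m : ℝ := ((k + 1 : ℕ) : ℝ) with hm
  set t0 : ℝ := m * s0 with ht0d
  have ht0 : 0 < t0 := by positivity
  have hs0t : s0 ≤ t0 := by
    rw [ht0d]
    nlinarith
  set a : ℝ := Δ / t0 with ha
  have ha0 : 0 < a := by positivity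
  have hLR : (κ * t0) ^ (k + 1) / ((k + 1).factorial : ℝ) ≤ Real.exp (-m) :=
    tip_bound hκ0 hs0 (k + 1)
  have hcone : ∀ t : ℝ, |t| ≤ t0 →
      ‖ev (∑ Z, g Z) t A * B - B * ev (∑ Z, g Z) t A‖ ≤
        (2 * ‖A‖ * ‖B‖ * X.card * Real.exp (-m) / t0) * |t| := fun t ht => by
    refine (lr_gen hJ hg k X Y hfar hdisj A B hA hB t).trans ?_
    have h4 := cone_bound hk0 hκ0 hkk ht0 ht hLR
    calc 2 * ‖A‖ * ‖B‖ * (X.card * ((kap R J * |t|) ^ (k + 1) / (k + 1).factorial)) ≤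
        2 * ‖A‖ * ‖B‖ * (X.card * (Real.exp (-m) * (|t| / t0))) := by
          refine mul_le_mul_of_nonneg_left ?_ (by positivity)
          exact mul_le_mul_of_nonneg_left h4 (Nat.cast_nonneg _)
      _ = _ := by ring
  have hfin := cluster_abs hΔ hH hgr hAB ha0 ht0 (by positivity) hcone
  refine hfin.trans ?_
  have hX0 : (0 : ℝ) ≤ X.card := Nat.cast_nonneg _
  have h2 : c0 ≤ Δ * s0 / 4 := by rw [hc0]; exact min_le_right _ _
  have h2' : c0 ≤ 1 := by rw [hc0]; exact min_le_left _ _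
  have h3 : c0 * m ≤ Δ * s0 / 4 * m := mul_le_mul_of_nonneg_right h2 (by positivity)
  have h4 : 0 ≤ Δ * s0 * m := by positivity
  have e1 : Real.exp (-(a * t0 ^ 2 / 2)) ≤ Real.exp (-(c0 * m)) := by
    refine Real.exp_le_exp.2 (neg_le_neg ?_)
    have h1 : a * t0 ^ 2 / 2 = Δ * t0 / 2 := by
      rw [ha]; field_simp
    rw [h1, ht0d]
    nlinarith
  have e2 : Real.exp (-Δ ^ 2 / (4 * a)) ≤ Real.exp (-(c0 * m)) := by
    refine Real.exp_le_exp.2 ?_
    have h1 : -Δ ^ 2 / (4 * a) = -(Δ * t0 / 4) := by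
      rw [ha]; field_simp
    rw [h1, ht0d]
    nlinarith
  have e3 : Real.exp (-m) ≤ Real.exp (-(c0 * m)) := by
    refine Real.exp_le_exp.2 (neg_le_neg ?_)
    nlinarith
  have e4 : 1 / t0 * √(2 * Real.pi / a) / Real.pi ≤ C1 := by
    rw [hC1]
    refine div_le_div_of_nonneg_right ?_ Real.pi_pos.le
    have h1 : 1 / t0 * √(2 * Real.pi / a) = √(2 * Real.pi / (Δ * t0)) := by
      have h2 : 2 * Real.pi / a = t0 ^ 2 * (2 * Real.pi / (Δ * t0)) := by
        rw [ha]; field_simp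
      rw [h2, Real.sqrt_mul (sq_nonneg _), Real.sqrt_sq ht0.le]
      field_simp
    rw [h1]
    refine Real.sqrt_le_sqrt ?_
    exact div_le_div_of_nonneg_left (by positivity) (by positivity)
      (mul_le_mul_of_nonneg_left hs0t hΔ.le)
  have hfin2 := cluster_arith (P := ‖A‖ * ‖B‖) (X := X.card) (em := Real.exp (-m))
    (E1 := Real.exp (-(a * t0 ^ 2 / 2))) (E2 := Real.exp (-Δ ^ 2 / (4 * a)))
    (Z := Real.exp (-(c0 * m))) (T := 1 / t0 * √(2 * Real.pi / a) / Real.pi) (C1 := C1)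
    (by positivity) hX0 (by positivity) (by positivity) (by rw [hC1]; positivity) e1 e2 e3 e4
    (by positivity) (by positivity)
  refine le_trans (le_of_eq ?_) hfin2
  ring

/-- **exponential clustering** in the ground state of a gapped Hamiltonian -/
theorem clustering {R : ℕ} {J Δ : ℝ} (hJ : 0 ≤ J) (hΔ : 0 < Δ) :
    ∃ C c : ℝ, 0 ≤ C ∧ 0 < c ∧ ∀ (L q : ℕ) (g : Finset (Site L) → Op (Site L) q),
      Terms L q R J g → ∀ (E : ℝ) (Ω : Conf (Site L) q → ℂ), GappedGround (∑ Z, g Z) Δ E Ω →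
      ∀ (N : ℕ) (X Y : Finset (Site L)), (∀ x ∈ X, ∀ y ∈ Y, N < dist1 x y) →
      ∀ (A B : Op (Site L) q), ActsOn X A → ActsOn Y B →
      ‖star Ω ⬝ᵥ ((A * B) *ᵥ Ω) - (star Ω ⬝ᵥ (A *ᵥ Ω)) * (star Ω ⬝ᵥ (B *ᵥ Ω))‖ ≤
        C * (X.card + 1) * (‖A‖ * ‖B‖) * Real.exp (-(c * N)) := by
  have hk0 : 0 ≤ kap R J := by rw [kap]; positivity
  obtain ⟨κ, hκ⟩ : ∃ κ, κ = kap R J + 1 := ⟨_, rfl⟩
  have hκ0 : 0 < κ := by rw [hκ]; linarith
  obtain ⟨s0, hs0⟩ : ∃ s0, s0 = 1 / (Real.exp 2 * κ) := ⟨_, rfl⟩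
  have hs0' : 0 < s0 := by rw [hs0]; positivity
  obtain ⟨c0, hc0⟩ : ∃ c0, c0 = min 1 (Δ * s0 / 4) := ⟨_, rfl⟩
  have hc0' : 0 < c0 := by rw [hc0]; exact lt_min one_pos (by positivity)
  obtain ⟨C1, hC1⟩ : ∃ C1, C1 = √(2 * Real.pi / (Δ * s0)) / Real.pi := ⟨_, rfl⟩
  have hC1' : 0 ≤ C1 := by rw [hC1]; positivity
  refine ⟨(4 + 2 * C1) * Real.exp c0, c0 / (R + 1), by positivity, by positivity, ?_⟩
  intro L q g hg E Ω hgr N X Y hXY A B hA hB
  have hdisj : Disjoint X Y := by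
    rw [Finset.disjoint_left]
    intro x hx hy
    have := hXY x hx x hy
    rw [dist1_self] at this
    omega
  have hP : (0 : ℝ) ≤ ‖A‖ * ‖B‖ := by positivity
  have hX0 : (0 : ℝ) ≤ X.card := Nat.cast_nonneg _
  obtain ⟨m, hm⟩ : ∃ m, m = N / (R + 1) := ⟨_, rfl⟩
  have hmN : (N : ℝ) ≤ (R + 1) * (m + 1) := by
    have h1 : N < (R + 1) * (N / (R + 1) + 1) := Nat.lt_mul_div_succ N (Nat.succ_pos R)
    rw [← hm] at h1
    have h2 : (N : ℝ) < (((R + 1) * (m + 1) : ℕ) : ℝ) := by exact_mod_cast h1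
    push_cast at h2
    exact h2.le
  have hexp : Real.exp (-(c0 * m)) ≤ Real.exp c0 * Real.exp (-(c0 / (R + 1) * N)) := by
    rw [← Real.exp_add]
    refine Real.exp_le_exp.2 ?_
    have h1 : c0 / (R + 1) * N ≤ c0 / (R + 1) * ((R + 1) * (m + 1)) :=
      mul_le_mul_of_nonneg_left hmN (by positivity)
    have h2 : c0 / ((R : ℝ) + 1) * ((R + 1) * (m + 1)) = c0 * (m + 1) := by
      have : (R : ℝ) + 1 ≠ 0 := by positivity
      field_simp
    rw [h2] at h1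
    linarith
  have hle : ∀ y : ℝ, y ≤ (4 + 2 * C1) * (X.card + 1) * (‖A‖ * ‖B‖) * Real.exp (-(c0 * m)) →
      y ≤ (4 + 2 * C1) * Real.exp c0 * (X.card + 1) * (‖A‖ * ‖B‖) *
        Real.exp (-(c0 / (R + 1) * N)) := fun y hy => by
    refine hy.trans ?_
    have := mul_le_mul_of_nonneg_left hexp
      (by positivity : (0 : ℝ) ≤ (4 + 2 * C1) * (X.card + 1) * (‖A‖ * ‖B‖))
    refine this.trans (le_of_eq ?_)
    ring
  refine hle _ ?_
  rcases Nat.eq_zero_or_pos m with hm0 | hmpos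
  · refine (corr_triv A B hgr.1).trans ?_
    rw [hm0, Nat.cast_zero, mul_zero, neg_zero, Real.exp_zero, mul_one]
    refine mul_le_mul_of_nonneg_right ?_ hP
    nlinarith
  · obtain ⟨k, hk⟩ : ∃ k, m = k + 1 := ⟨m - 1, by omega⟩
    have hmR : (k + 1) * R ≤ N := by
      rw [← hk, hm]
      calc N / (R + 1) * R ≤ N / (R + 1) * (R + 1) := Nat.mul_le_mul_left _ (Nat.le_succ R)
        _ ≤ N := Nat.div_mul_le_self N (R + 1)
    rw [hk]
    exact clustering_step hJ hΔ hκ hs0 hc0 hC1 hg hgr k X Y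
      (fun x hx y hy => lt_of_le_of_lt hmR (hXY x hx y hy)) hdisj hA hB

end Vale.Agent.P356.GA
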