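import Mathlib.Analysis.SpecialFunctions.Gaussian.FourierTransform
import Mathlib.MeasureTheory.Integral.Prod
import Mathlib.MeasureTheory.Integral.IntervalIntegral.Basic
import Mathlib.Analysis.SpecialFunctions.Integrals.Basic

/-!
The Gaussian regularisation of the sign function.
-/

set_option linter.all false

namespace Vale.Agent.P356.GA

open MeasureTheory Set
open scoped Real

/-- the Fourier transform of a Gaussian, real form -/
theorem integral_gauss_cos {a : ℝ} (ha : 0 < a) (μ : ℝ) :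
    ∫ t : ℝ, Real.exp (-a * t ^ 2) * Real.cos (μ * t) =
      √(π / a) * Real.exp (-μ ^ 2 / (4 * a)) := by
  have ha' : 0 < (a : ℂ).re := by rwa [Complex.ofReal_re]
  have h1 := fourierIntegral_gaussian ha' (μ : ℂ)
  have h2 : Integrable (fun x : ℝ => Complex.exp (Complex.I * μ * x) *
      Complex.exp (-(a : ℂ) * x ^ 2)) := by
    have := integrable_cexp_quadratic ha' (Complex.I * μ) 0
    refine this.congr (Filter.Eventually.of_forall fun x => ?_)
    dsimp only
    rw [← Complex.exp_add]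
    congr 1
    ring
  have h3 := congrArg Complex.re h1
  have h4 : (∫ x : ℝ, Complex.exp (Complex.I * μ * x) * Complex.exp (-(a : ℂ) * x ^ 2)).re =
      ∫ x : ℝ, (Complex.exp (Complex.I * μ * x) * Complex.exp (-(a : ℂ) * x ^ 2)).re :=
    (integral_re h2).symm
  rw [h4] at h3
  have h5 : ∀ x : ℝ, (Complex.exp (Complex.I * μ * x) * Complex.exp (-(a : ℂ) * x ^ 2)).re =
      Real.exp (-a * x ^ 2) * Real.cos (μ * x) := fun x => by
    have e1 : Complex.I * μ * x = ((μ * x : ℝ) : ℂ) * Complex.I := by push_cast; ring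
    have e2 : -(a : ℂ) * x ^ 2 = ((-a * x ^ 2 : ℝ) : ℂ) := by push_cast; ring
    rw [e1, e2, ← Complex.ofReal_exp, Complex.re_mul_ofReal, Complex.exp_ofReal_mul_I_re]
    ring
  simp only [h5] at h3
  rw [h3]
  have h6 : ((π : ℂ) / (a : ℂ)) ^ (1 / 2 : ℂ) = ((√(π / a) : ℝ) : ℂ) := by
    rw [Real.sqrt_eq_rpow, Complex.ofReal_cpow (by positivity)]
    push_cast
    rfl
  have h7 : Complex.exp (-(μ : ℂ) ^ 2 / (4 * (a : ℂ))) = ((Real.exp (-μ ^ 2 / (4 * a)) : ℝ) : ℂ) := by
    push_cast
    rfl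
  rw [h6, h7, ← Complex.ofReal_mul, Complex.ofReal_re]

/-- the regularised sign function as an integral -/
theorem integral_gauss_sinc {a : ℝ} (ha : 0 < a) (ω : ℝ) :
    ∫ t : ℝ, Real.exp (-a * t ^ 2) * (Real.sin (ω * t) / t) =
      ∫ μ in (0 : ℝ)..ω, √(π / a) * Real.exp (-μ ^ 2 / (4 * a)) := by
  have h1 : ∀ μ : ℝ, √(π / a) * Real.exp (-μ ^ 2 / (4 * a)) =
      ∫ t : ℝ, Real.exp (-a * t ^ 2) * Real.cos (μ * t) := fun μ => (integral_gauss_cos ha μ).symm
  simp only [h1]
  rw [intervalIntegral_integral_swap]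
  · refine integral_congr_ae ?_
    have h0 : ∀ᵐ t : ℝ, t ≠ 0 := by
      rw [ae_iff]
      simp
    filter_upwards [h0] with t ht
    rw [intervalIntegral.integral_const_mul]
    congr 1
    have h2 : ∫ μ in (0 : ℝ)..ω, Real.cos (μ * t) = Real.sin (ω * t) / t := by
      rw [intervalIntegral.integral_comp_mul_right _ ht, integral_cos]
      rw [zero_mul, Real.sin_zero, sub_zero, smul_eq_mul]
      field_simp
    exact h2.symm
  · haveI : IsFiniteMeasure (volume.restrict (Set.uIoc 0 ω)) := by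
      rw [Set.uIoc]; infer_instance
    have h2 : Integrable (fun z : ℝ × ℝ => (1 : ℝ) * Real.exp (-a * z.2 ^ 2))
        ((volume.restrict (Set.uIoc 0 ω)).prod volume) := by
      refine Integrable.mul_prod (f := fun _ : ℝ => (1 : ℝ))
        (g := fun t : ℝ => Real.exp (-a * t ^ 2)) ?_ (integrable_exp_neg_mul_sq ha)
      exact integrable_const _
    refine h2.mono' ?_ (Filter.Eventually.of_forall fun z => ?_)
    · refine Continuous.aestronglyMeasurable ?_
      simp only [Function.uncurry_def]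
      fun_prop
    · simp only [Function.uncurry_def, one_mul]
      rw [Real.norm_eq_abs, abs_mul, abs_of_pos (Real.exp_pos _)]
      exact mul_le_of_le_one_right (Real.exp_pos _).le (Real.abs_cos_le_one _)

/-- the regularised sign function is close to the sign function -/
theorem gauss_sinc_near {a ω : ℝ} (ha : 0 < a) (hω : 0 ≤ ω) :
    |(∫ t : ℝ, Real.exp (-a * t ^ 2) * (Real.sin (ω * t) / t)) - π| ≤
      π * Real.exp (-ω ^ 2 / (4 * a)) := by
  set b : ℝ := 1 / (4 * a) with hb
  have hb0 : 0 < b := by positivity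
  have hE : ∀ μ : ℝ, Real.exp (-μ ^ 2 / (4 * a)) = Real.exp (-b * μ ^ 2) := fun μ => by
    congr 1; rw [hb]; field_simp
  have hint : Integrable (fun μ : ℝ => Real.exp (-b * μ ^ 2)) := integrable_exp_neg_mul_sq hb0
  have hprod : √(π / a) * (√(π / b) / 2) = π := by
    rw [← mul_div_assoc, ← Real.sqrt_mul (by positivity)]
    have : π / a * (π / b) = (2 * π) ^ 2 := by
      rw [hb]; field_simp; ring
    rw [this, Real.sqrt_sq (by positivity)]
    ring
  have h1 : ∫ μ in (0 : ℝ)..ω, Real.exp (-b * μ ^ 2) =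
      (∫ μ in Ioi (0 : ℝ), Real.exp (-b * μ ^ 2)) - ∫ μ in Ioi ω, Real.exp (-b * μ ^ 2) := by
    have := intervalIntegral.integral_interval_add_Ioi (f := fun μ : ℝ => Real.exp (-b * μ ^ 2))
      (μ := volume) (a := 0) (b := ω) hint.integrableOn hint.integrableOn
    linarith
  rw [integral_gauss_sinc ha ω, intervalIntegral.integral_const_mul]
  simp only [hE]
  rw [h1, integral_gaussian_Ioi, mul_sub, hprod]
  have h2 : 0 ≤ ∫ μ in Ioi ω, Real.exp (-b * μ ^ 2) :=
    integral_nonneg fun _ => (Real.exp_pos _).le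
  have h3 : ∫ μ in Ioi ω, Real.exp (-b * μ ^ 2) ≤ Real.exp (-b * ω ^ 2) * (√(π / b) / 2) := by
    have h4 : ∫ μ in Ioi ω, Real.exp (-b * μ ^ 2) ≤
        ∫ μ in Ioi ω, Real.exp (-b * ω ^ 2) * Real.exp (-b * (μ - ω) ^ 2) := by
      refine setIntegral_mono_on hint.integrableOn ?_ measurableSet_Ioi fun μ hμ => ?_
      · exact ((hint.comp_sub_right ω).const_mul _).integrableOn
      · rw [← Real.exp_add]
        refine Real.exp_le_exp.2 ?_
        have : ω < μ := hμ
        have h5 : 0 ≤ b * (ω * (μ - ω)) :=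
          mul_nonneg hb0.le (mul_nonneg hω (by linarith))
        nlinarith [h5]
    refine h4.trans (le_of_eq ?_)
    rw [integral_const_mul]
    congr 1
    rw [← integral_gaussian_Ioi b]
    have h6 := integral_indicator (μ := volume) (f := fun μ : ℝ => Real.exp (-b * (μ - ω) ^ 2))
      (measurableSet_Ioi (a := ω))
    have h7 := integral_indicator (μ := volume) (f := fun μ : ℝ => Real.exp (-b * μ ^ 2))
      (measurableSet_Ioi (a := (0 : ℝ)))
    rw [← h6, ← h7]
    rw [← integral_sub_right_eq_self (μ := volume)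
      (fun x => (Ioi (0 : ℝ)).indicator (fun μ : ℝ => Real.exp (-b * μ ^ 2)) x) ω]
    refine integral_congr_ae (Filter.Eventually.of_forall fun x => ?_)
    dsimp only
    simp only [Set.indicator, Set.mem_Ioi, sub_pos]
  rw [sub_sub_cancel_left, abs_neg, abs_of_nonneg (mul_nonneg (Real.sqrt_nonneg _) h2)]
  calc √(π / a) * ∫ μ in Ioi ω, Real.exp (-b * μ ^ 2) ≤
      √(π / a) * (Real.exp (-b * ω ^ 2) * (√(π / b) / 2)) :=
        mul_le_mul_of_nonneg_left h3 (Real.sqrt_nonneg _)
    _ = (√(π / a) * (√(π / b) / 2)) * Real.exp (-b * ω ^ 2) := by ring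
    _ = π * Real.exp (-b * ω ^ 2) := by rw [hprod]

end Vale.Agent.P356.GA
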