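import Vale.Agent.P356.GA.Cluster939a
import Vale.Agent.P356.PH.DDg

/-!
Exponential clustering in the ground state of a gapped Hamiltonian: abstract form.
-/

set_option linter.all false

namespace Vale.Agent.P356.GA

open Matrix Finset Vale.Agent.P356 Vale.Agent.P356.SV Vale.Agent.P356.Path Vale.Agent.P356.PH
open MeasureTheory
open scoped BigOperators ComplexOrder Kronecker Matrix.Norms.L2Operator

section scalar

theorem sinc_integrable {a : ℝ} (ha : 0 < a) (ω : ℝ) :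
    Integrable (fun t : ℝ => Real.exp (-a * t ^ 2) * (Real.sin (ω * t) / t)) := by
  refine ((integrable_exp_neg_mul_sq ha).mul_const |ω|).mono' ?_
    (Filter.Eventually.of_forall fun t => ?_)
  · refine Measurable.aestronglyMeasurable ?_
    fun_prop
  · rw [Real.norm_eq_abs, abs_mul, abs_of_pos (Real.exp_pos _)]
    refine mul_le_mul_of_nonneg_left ?_ (Real.exp_pos _).le
    rw [abs_div]
    rcases eq_or_ne t 0 with ht | ht
    · rw [ht, mul_zero, Real.sin_zero, abs_zero, div_zero]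
      exact abs_nonneg _
    · rw [div_le_iff₀ (abs_pos.2 ht), ← abs_mul]
      exact Real.abs_sin_le_abs

theorem cluster_scalar {ι : Type*} [Fintype ι] (ω : ι → ℝ) (c : ι → ℂ) {Δ a t0 b1 M Cs : ℝ}
    (ha : 0 < a) (hΔ : 0 ≤ Δ) (ht0 : 0 < t0) (hb1 : 0 ≤ b1) (hM : 0 ≤ M)
    (hc : ∀ i, c i = 0 ∨ Δ ≤ ω i)
    (h1 : ∀ t : ℝ, |t| ≤ t0 → ‖∑ i, c i * ((Real.sin (ω i * t) : ℝ) : ℂ)‖ ≤ b1 * |t|)
    (h2 : ∀ t : ℝ, ‖∑ i, c i * ((Real.sin (ω i * t) : ℝ) : ℂ)‖ ≤ M)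
    (hs : ∑ i, ‖c i‖ ≤ Cs) :
    ‖∑ i, c i‖ ≤ (b1 + M / t0 * Real.exp (-(a * t0 ^ 2 / 2))) * √(2 * Real.pi / a) / Real.pi +
      Cs * Real.exp (-Δ ^ 2 / (4 * a)) := by
  set I : ι → ℝ := fun i => ∫ t : ℝ, Real.exp (-a * t ^ 2) * (Real.sin (ω i * t) / t) with hI
  -- the integral
  have e1 : ∑ i, c i * ((I i : ℝ) : ℂ) = ∫ t : ℝ, ((Real.exp (-a * t ^ 2) / t : ℝ) : ℂ) *
      ∑ i, c i * ((Real.sin (ω i * t) : ℝ) : ℂ) := by
    have h3 : ∀ i, c i * ((I i : ℝ) : ℂ) = ∫ t : ℝ, c i *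
        ((Real.exp (-a * t ^ 2) * (Real.sin (ω i * t) / t) : ℝ) : ℂ) := fun i => by
      rw [integral_const_mul, integral_complex_ofReal]
    simp only [h3]
    rw [← integral_finset_sum]
    · refine integral_congr_ae (Filter.Eventually.of_forall fun t => ?_)
      dsimp only
      rw [Finset.mul_sum]
      refine Finset.sum_congr rfl fun i _ => ?_
      push_cast
      ring
    · intro i _
      exact (sinc_integrable ha (ω i)).ofReal.const_mul _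
  have e2 : ‖∑ i, c i * ((I i : ℝ) : ℂ)‖ ≤
      (b1 + M / t0 * Real.exp (-(a * t0 ^ 2 / 2))) * √(2 * Real.pi / a) := by
    rw [e1]
    have h4 : ∫ t : ℝ, (b1 + M / t0 * Real.exp (-(a * t0 ^ 2 / 2))) *
        Real.exp (-(a / 2) * t ^ 2) =
        (b1 + M / t0 * Real.exp (-(a * t0 ^ 2 / 2))) * √(2 * Real.pi / a) := by
      rw [integral_const_mul, integral_gaussian]
      congr 2
      field_simp
    rw [← h4]
    refine norm_integral_le_of_norm_le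
      ((integrable_exp_neg_mul_sq (half_pos ha)).const_mul _)
      (Filter.Eventually.of_forall fun t => ?_)
    rw [norm_mul, Complex.norm_real, Real.norm_eq_abs, abs_div, abs_of_pos (Real.exp_pos _)]
    rcases eq_or_ne t 0 with ht | ht
    · rw [ht, abs_zero, div_zero, zero_mul]
      positivity
    have htp : 0 < |t| := abs_pos.2 ht
    rcases le_total |t| t0 with h5 | h5
    · calc Real.exp (-a * t ^ 2) / |t| * ‖∑ i, c i * ((Real.sin (ω i * t) : ℝ) : ℂ)‖ ≤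
          Real.exp (-a * t ^ 2) / |t| * (b1 * |t|) :=
            mul_le_mul_of_nonneg_left (h1 t h5) (by positivity)
        _ = b1 * Real.exp (-a * t ^ 2) := by field_simp
        _ ≤ b1 * Real.exp (-(a / 2) * t ^ 2) := by
            refine mul_le_mul_of_nonneg_left (Real.exp_le_exp.2 ?_) hb1
            nlinarith [mul_nonneg ha.le (sq_nonneg t)]
        _ ≤ _ := by
            refine mul_le_mul_of_nonneg_right ?_ (Real.exp_pos _).le
            have : 0 ≤ M / t0 * Real.exp (-(a * t0 ^ 2 / 2)) := by positivity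
            linarith
    · calc Real.exp (-a * t ^ 2) / |t| * ‖∑ i, c i * ((Real.sin (ω i * t) : ℝ) : ℂ)‖ ≤
          Real.exp (-a * t ^ 2) / |t| * M :=
            mul_le_mul_of_nonneg_left (h2 t) (by positivity)
        _ ≤ (Real.exp (-(a * t0 ^ 2 / 2)) * Real.exp (-(a / 2) * t ^ 2)) / t0 * M := by
            refine mul_le_mul_of_nonneg_right ?_ hM
            refine div_le_div₀ (by positivity) ?_ ht0 h5
            rw [← Real.exp_add]
            refine Real.exp_le_exp.2 ?_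
            have h6 : t0 ^ 2 ≤ t ^ 2 := by
              rw [← sq_abs t]
              exact pow_le_pow_left₀ ht0.le h5 2
            nlinarith [mul_le_mul_of_nonneg_left h6 ha.le]
        _ = M / t0 * Real.exp (-(a * t0 ^ 2 / 2)) * Real.exp (-(a / 2) * t ^ 2) := by ring
        _ ≤ _ := by
            refine mul_le_mul_of_nonneg_right ?_ (Real.exp_pos _).le
            linarith
  have e3 : ‖∑ i, c i * (((Real.pi - I i : ℝ)) : ℂ)‖ ≤
      Cs * (Real.pi * Real.exp (-Δ ^ 2 / (4 * a))) := by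
    refine (norm_sum_le _ _).trans ?_
    refine le_trans (Finset.sum_le_sum fun i _ => ?_)
      (le_trans (Finset.sum_mul _ _ _).symm.le
        (mul_le_mul_of_nonneg_right hs (by positivity)))
    rw [norm_mul, Complex.norm_real, Real.norm_eq_abs]
    rcases hc i with h | h
    · rw [h, norm_zero, zero_mul, zero_mul]
    · refine mul_le_mul_of_nonneg_left ?_ (norm_nonneg _)
      have h7 := gauss_sinc_near ha (hΔ.trans h)
      rw [abs_sub_comm] at h7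
      refine h7.trans (mul_le_mul_of_nonneg_left (Real.exp_le_exp.2 ?_) Real.pi_pos.le)
      rw [neg_div, neg_div, neg_le_neg_iff]
      exact div_le_div_of_nonneg_right (pow_le_pow_left₀ hΔ h 2) (by positivity)
  have e4 : ((Real.pi : ℝ) : ℂ) * ∑ i, c i =
      ∑ i, c i * ((I i : ℝ) : ℂ) + ∑ i, c i * (((Real.pi - I i : ℝ)) : ℂ) := by
    rw [← Finset.sum_add_distrib, Finset.mul_sum]
    refine Finset.sum_congr rfl fun i _ => ?_
    push_cast
    ring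
  have e5 : Real.pi * ‖∑ i, c i‖ ≤
      (b1 + M / t0 * Real.exp (-(a * t0 ^ 2 / 2))) * √(2 * Real.pi / a) +
      Cs * (Real.pi * Real.exp (-Δ ^ 2 / (4 * a))) := by
    have h8 := congrArg norm e4
    rw [norm_mul, Complex.norm_real, Real.norm_eq_abs, abs_of_pos Real.pi_pos] at h8
    rw [h8]
    exact (norm_add_le _ _).trans (add_le_add e2 e3)
  have e6 : ‖∑ i, c i‖ ≤ ((b1 + M / t0 * Real.exp (-(a * t0 ^ 2 / 2))) * √(2 * Real.pi / a) +
      Cs * (Real.pi * Real.exp (-Δ ^ 2 / (4 * a)))) / Real.pi := by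
    rw [le_div_iff₀ Real.pi_pos, mul_comm]
    exact e5
  refine e6.trans (le_of_eq ?_)
  have hpi : Real.pi ≠ 0 := Real.pi_pos.ne'
  field_simp

end scalar

section mat
variable {N : Type*} [Fintype N] [DecidableEq N] {Δ : ℝ}

/-- completeness of the eigenvector basis -/
theorem sum_eigbasis {H : Matrix N N ℂ} (hH : H.IsHermitian) (x y : N → ℂ) :
    ∑ i, (star x ⬝ᵥ ⇑(hH.eigenvectorBasis i)) * (star (⇑(hH.eigenvectorBasis i)) ⬝ᵥ y) =
      star x ⬝ᵥ y := by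
  have h := hH.eigenvectorBasis.sum_inner_mul_inner (WithLp.toLp 2 x : EuclideanSpace ℂ N)
    (WithLp.toLp 2 y : EuclideanSpace ℂ N)
  simp only [EuclideanSpace.inner_eq_star_dotProduct] at h
  rw [dotProduct_comm (star x) y, ← h]
  refine Finset.sum_congr rfl fun i _ => ?_
  rw [dotProduct_comm (star x), dotProduct_comm (star _) y]

theorem nsq_eigbasis {H : Matrix N N ℂ} (hH : H.IsHermitian) (i : N) :
    nsq (⇑(hH.eigenvectorBasis i)) = 1 := by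
  have h := hH.eigenvectorBasis.orthonormal.1 i
  rw [EuclideanSpace.norm_eq, Real.sqrt_eq_one] at h
  exact h

/-- an eigenvector is either above the gap or proportional to the ground state -/
theorem gap_alt (hΔ : 0 < Δ) {H : Matrix N N ℂ} (hH : H.IsHermitian) {E : ℝ} {Ω : N → ℂ}
    (hg : GappedGround H Δ E Ω) {l : ℝ} {u : N → ℂ} (hu : nsq u = 1)
    (hl : H *ᵥ u = (l : ℂ) • u) : Δ ≤ l - E ∨ ∃ c : ℂ, u = c • Ω := by
  have g1 := hg.2.2 u
  rw [hu, hl, dotProduct_smul, ip_self, hu] at g1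
  have g2 : Δ * (1 - ‖star Ω ⬝ᵥ u‖ ^ 2) ≤ l - E := by
    simpa using g1
  by_cases hlE : l = E
  · right
    have g3 : 1 ≤ ‖star Ω ⬝ᵥ u‖ ^ 2 := by
      rw [hlE, sub_self] at g2
      have := nonpos_of_mul_nonpos_right g2 hΔ
      linarith
    set c : ℂ := star Ω ⬝ᵥ u with hc
    refine ⟨c, ?_⟩
    have g4 : nsq (u - c • Ω) = 0 := by
      have g5 : nsq u = ‖c‖ ^ 2 + nsq (u - c • Ω) := by
        have g6 : u = c • Ω + (u - c • Ω) := by abel
        have g7 : star Ω ⬝ᵥ (u - c • Ω) = 0 := by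
          rw [dotProduct_sub, dotProduct_smul, ip_self, hg.1, ← hc]
          simp
        conv_lhs => rw [g6]
        rw [nsq_add, nsq_smul, hg.1, star_smul, smul_dotProduct, g7]
        simp
      have g8 := nsq_nonneg' (u - c • Ω)
      rw [hu] at g5
      linarith
    have : u - c • Ω = 0 := by
      funext i
      have h5 : ∀ i ∈ (Finset.univ : Finset N), 0 ≤ ‖(u - c • Ω) i‖ ^ 2 :=
        fun i _ => sq_nonneg _
      have h6 := (Finset.sum_eq_zero_iff_of_nonneg h5).1 g4 i (Finset.mem_univ i)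
      simpa using h6
    exact sub_eq_zero.1 this
  · left
    have g3 : star Ω ⬝ᵥ u = 0 := by
      have e1 : star Ω ⬝ᵥ (H *ᵥ u) = (l : ℂ) * (star Ω ⬝ᵥ u) := by
        rw [hl, dotProduct_smul, smul_eq_mul]
      have e2 : star Ω ⬝ᵥ (H *ᵥ u) = (E : ℂ) * (star Ω ⬝ᵥ u) := by
        have : star Ω ⬝ᵥ (H *ᵥ u) = star (H *ᵥ Ω) ⬝ᵥ u := by
          rw [ip_mulVec, hH.eq]
        rw [this, hg.2.1, star_smul, smul_dotProduct, smul_eq_mul, RCLike.star_def,
          Complex.conj_ofReal]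
      have e3 : ((l : ℂ) - (E : ℂ)) * (star Ω ⬝ᵥ u) = 0 := by
        rw [sub_mul, ← e1, ← e2, sub_self]
      rcases mul_eq_zero.1 e3 with h | h
      · exfalso
        apply hlE
        have := sub_eq_zero.1 h
        exact_mod_cast this
      · exact h
    rw [g3, norm_zero] at g2
    simpa using g2

/-- sums of products of matrix elements -/
theorem sum_elem_le {H : Matrix N N ℂ} (hH : H.IsHermitian) (A B : Matrix N N ℂ) {Ω : N → ℂ}
    (hΩ : nsq Ω = 1) :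
    ∑ i, ‖(star Ω ⬝ᵥ (A *ᵥ ⇑(hH.eigenvectorBasis i))) *
      (star (⇑(hH.eigenvectorBasis i)) ⬝ᵥ (B *ᵥ Ω))‖ ≤ ‖A‖ * ‖B‖ := by
  set u : N → (N → ℂ) := fun i => ⇑(hH.eigenvectorBasis i) with hu
  have h1 : ∑ i, ‖star Ω ⬝ᵥ (A *ᵥ u i)‖ ^ 2 = nsq (Aᴴ *ᵥ Ω) := by
    have h2 := sum_eigbasis hH (Aᴴ *ᵥ Ω) (Aᴴ *ᵥ Ω)
    rw [ip_self] at h2
    have h3 : ∀ i, (star (Aᴴ *ᵥ Ω) ⬝ᵥ u i) * (star (u i) ⬝ᵥ (Aᴴ *ᵥ Ω)) =
        ((‖star Ω ⬝ᵥ (A *ᵥ u i)‖ ^ 2 : ℝ) : ℂ) := fun i => by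
      have e1 : star (Aᴴ *ᵥ Ω) ⬝ᵥ u i = star Ω ⬝ᵥ (A *ᵥ u i) := by
        rw [ip_mulVec, conjTranspose_conjTranspose]
      have e2 : star (u i) ⬝ᵥ (Aᴴ *ᵥ Ω) = star (star Ω ⬝ᵥ (A *ᵥ u i)) := by
        rw [← e1, p5_ip_star]
      rw [e1, e2, RCLike.star_def, Complex.mul_conj, Complex.normSq_eq_norm_sq]
    have h4 := congrArg Complex.re h2
    rw [Complex.ofReal_re] at h4
    rw [← h4, Complex.re_sum]
    refine Finset.sum_congr rfl fun i _ => ?_
    show _ = ((star (Aᴴ *ᵥ Ω) ⬝ᵥ u i) * (star (u i) ⬝ᵥ (Aᴴ *ᵥ Ω))).re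
    rw [h3 i, Complex.ofReal_re]
  have h1' : ∑ i, ‖star (u i) ⬝ᵥ (B *ᵥ Ω)‖ ^ 2 = nsq (B *ᵥ Ω) := by
    have h2 := sum_eigbasis hH (B *ᵥ Ω) (B *ᵥ Ω)
    rw [ip_self] at h2
    have h4 := congrArg Complex.re h2
    rw [Complex.ofReal_re] at h4
    rw [← h4, Complex.re_sum]
    refine Finset.sum_congr rfl fun i _ => ?_
    have e2 : star (B *ᵥ Ω) ⬝ᵥ u i = star (star (u i) ⬝ᵥ (B *ᵥ Ω)) := by
      rw [p5_ip_star]
    show _ = ((star (B *ᵥ Ω) ⬝ᵥ u i) * (star (u i) ⬝ᵥ (B *ᵥ Ω))).re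
    rw [e2, RCLike.star_def, mul_comm, Complex.mul_conj, Complex.normSq_eq_norm_sq,
      Complex.ofReal_re]
  have h5 : (∑ i, ‖star Ω ⬝ᵥ (A *ᵥ u i)‖ * ‖star (u i) ⬝ᵥ (B *ᵥ Ω)‖) ^ 2 ≤
      (‖A‖ * ‖B‖) ^ 2 := by
    refine (Finset.sum_mul_sq_le_sq_mul_sq _ _ _).trans ?_
    rw [h1, h1', mul_pow]
    have h6 := nsq_mulVec_le Aᴴ Ω
    have h7 := nsq_mulVec_le B Ω
    rw [hΩ, mul_one] at h6 h7
    rw [Matrix.l2_opNorm_conjTranspose] at h6
    exact mul_le_mul h6 h7 (nsq_nonneg' _) (sq_nonneg _)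
  simp only [norm_mul]
  exact le_of_sq_le_sq h5 (by positivity)

/-- **exponential clustering**, abstract form -/
theorem cluster_abs (hΔ : 0 < Δ) {H A B : Matrix N N ℂ} (hH : H.IsHermitian) {E : ℝ}
    {Ω : N → ℂ} (hg : GappedGround H Δ E Ω) (hAB : A * B = B * A) {a t0 b1 : ℝ} (ha : 0 < a)
    (ht0 : 0 < t0) (hb1 : 0 ≤ b1)
    (h1 : ∀ t : ℝ, |t| ≤ t0 → ‖ev H t A * B - B * ev H t A‖ ≤ b1 * |t|) :
    ‖star Ω ⬝ᵥ ((A * B) *ᵥ Ω) - (star Ω ⬝ᵥ (A *ᵥ Ω)) * (star Ω ⬝ᵥ (B *ᵥ Ω))‖ ≤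
      ((b1 + 2 * ‖A‖ * ‖B‖ / t0 * Real.exp (-(a * t0 ^ 2 / 2))) * √(2 * Real.pi / a) / Real.pi +
      4 * ‖A‖ * ‖B‖ * Real.exp (-Δ ^ 2 / (4 * a))) / 2 := by
  set α : ℂ := star Ω ⬝ᵥ (A *ᵥ Ω) with hα
  set A' : Matrix N N ℂ := A - α • 1 with hA'
  set u : N → (N → ℂ) := fun i => ⇑(hH.eigenvectorBasis i) with hu
  have hΩ := hg.1
  have hA0 : star Ω ⬝ᵥ (A' *ᵥ Ω) = 0 := by
    rw [hA', sub_mulVec, dotProduct_sub, smul_mulVec, one_mulVec, dotProduct_smul, ip_self, hΩ]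
    simp [hα]
  have hAB' : A' * B = B * A' := by
    rw [hA', sub_mul, mul_sub, hAB]
    simp
  have hαn : ‖α‖ ≤ ‖A‖ := by
    have h := dot_le A Ω Ω
    rw [hΩ, Real.sqrt_one, mul_one, mul_one] at h
    exact h
  have hA'n : ‖A'‖ ≤ 2 * ‖A‖ := by
    rw [hA']
    refine (norm_sub_le _ _).trans ?_
    rw [norm_smul]
    have h2 : ‖(1 : Matrix N N ℂ)‖ ≤ 1 := by
      refine ph_norm_le zero_le_one fun v => ?_
      rw [one_mulVec]; simp
    have h3 : ‖α‖ * ‖(1 : Matrix N N ℂ)‖ ≤ ‖A‖ * 1 :=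
      mul_le_mul hαn h2 (norm_nonneg _) (norm_nonneg _)
    linarith
  have hcommA' : ∀ t : ℝ, ev H t A' * B - B * ev H t A' = ev H t A * B - B * ev H t A :=
    fun t => by
      have h2 : ev H t (α • (1 : Matrix N N ℂ)) = α • (1 : Matrix N N ℂ) := by
        rw [ev_smul, ev_of_commute (Commute.one_left H)]
      rw [hA', ev_sub, h2, sub_mul, mul_sub]
      simp only [Matrix.smul_mul, Matrix.mul_smul, Matrix.one_mul, Matrix.mul_one]
      abel
  -- matrix elements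
  set ω : N → ℝ := fun i => hH.eigenvalues i - E with hω
  set x : N → ℂ := fun i => star Ω ⬝ᵥ (A' *ᵥ u i) with hx
  set y : N → ℂ := fun i => star (u i) ⬝ᵥ (B *ᵥ Ω) with hy
  set x' : N → ℂ := fun i => star Ω ⬝ᵥ (B *ᵥ u i) with hx'
  set y' : N → ℂ := fun i => star (u i) ⬝ᵥ (A' *ᵥ Ω) with hy'
  have heig : ∀ i, H *ᵥ u i = ((hH.eigenvalues i : ℝ) : ℂ) • u i := fun i =>
    hH.mulVec_eigenvectorBasis i
  have hun : ∀ i, nsq (u i) = 1 := fun i => nsq_eigbasis hH i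
  have hc : ∀ i, x i * y i + x' i * y' i = 0 ∨ Δ ≤ ω i := fun i => by
    rcases gap_alt hΔ hH hg (hun i) (heig i) with h | ⟨c, h⟩
    · right; exact h
    · left
      have e1 : x i = 0 := by
        simp only [hx]
        rw [h, mulVec_smul, dotProduct_smul, hA0, smul_zero]
      have e2 : y' i = 0 := by
        simp only [hy']
        rw [h, star_smul, smul_dotProduct, hA0, smul_zero]
      rw [e1, e2, zero_mul, mul_zero, add_zero]
  -- expansions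
  have hex1 : ∀ t : ℝ, star Ω ⬝ᵥ ((ev H t A' * B) *ᵥ Ω) =
      ∑ i, x i * y i * Complex.exp (-(((ω i * t : ℝ) : ℂ) * Complex.I)) := fun t => by
    rw [← mulVec_mulVec]
    have e1 : star Ω ⬝ᵥ (ev H t A' *ᵥ (B *ᵥ Ω)) =
        star ((ev H t A')ᴴ *ᵥ Ω) ⬝ᵥ (B *ᵥ Ω) := by
      rw [ip_mulVec, conjTranspose_conjTranspose]
    rw [e1, ← sum_eigbasis hH]
    refine Finset.sum_congr rfl fun i _ => ?_
    have e2 : star ((ev H t A')ᴴ *ᵥ Ω) ⬝ᵥ ⇑(hH.eigenvectorBasis i) =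
        star Ω ⬝ᵥ (ev H t A' *ᵥ u i) := by
      rw [ip_mulVec, conjTranspose_conjTranspose]
    rw [e2, ev_mulVec_eig (heig i), dotProduct_smul, ip_exp_eig hH hg.2.1, smul_eq_mul]
    have e3 : Complex.exp (-(((ω i * t : ℝ) : ℂ) * Complex.I)) =
        Complex.exp (-(((hH.eigenvalues i : ℝ) : ℂ) * t * Complex.I)) *
          Complex.exp ((E : ℂ) * t * Complex.I) := by
      rw [← Complex.exp_add]
      congr 1
      simp only [hω]
      push_cast
      ring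
    rw [e3]
    simp only [hx, hy]
    ring
  have hex2 : ∀ t : ℝ, star Ω ⬝ᵥ ((B * ev H t A') *ᵥ Ω) =
      ∑ i, x' i * y' i * Complex.exp (((ω i * t : ℝ) : ℂ) * Complex.I) := fun t => by
    rw [← mulVec_mulVec]
    have e1 : star Ω ⬝ᵥ (B *ᵥ (ev H t A' *ᵥ Ω)) =
        star (Bᴴ *ᵥ Ω) ⬝ᵥ (ev H t A' *ᵥ Ω) := by
      rw [ip_mulVec, conjTranspose_conjTranspose]
    rw [e1, ← sum_eigbasis hH]
    refine Finset.sum_congr rfl fun i _ => ?_
    have e2 : star (Bᴴ *ᵥ Ω) ⬝ᵥ ⇑(hH.eigenvectorBasis i) =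
        star Ω ⬝ᵥ (B *ᵥ u i) := by
      rw [ip_mulVec, conjTranspose_conjTranspose]
    rw [e2, ev_mulVec_eig hg.2.1, dotProduct_smul, ip_exp_eig hH (heig i), smul_eq_mul]
    have e3 : Complex.exp (((ω i * t : ℝ) : ℂ) * Complex.I) =
        Complex.exp (-((E : ℂ) * t * Complex.I)) *
          Complex.exp (((hH.eigenvalues i : ℝ) : ℂ) * t * Complex.I) := by
      rw [← Complex.exp_add]
      congr 1
      simp only [hω]
      push_cast
      ring
    rw [e3]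
    simp only [hx', hy', hu]
    ring
  set g : ℝ → ℂ := fun t => star Ω ⬝ᵥ ((ev H t A' * B - B * ev H t A') *ᵥ Ω) with hgd
  have hgn : ∀ t, ‖g t‖ ≤ ‖ev H t A * B - B * ev H t A‖ := fun t => by
    simp only [hgd]
    rw [hcommA' t]
    have h := dot_le (ev H t A * B - B * ev H t A) Ω Ω
    rw [hΩ, Real.sqrt_one, mul_one, mul_one] at h
    exact h
  have hgs : ∀ t : ℝ, ∑ i, (x i * y i + x' i * y' i) * ((Real.sin (ω i * t) : ℝ) : ℂ) =
      (Complex.I / 2) * (g t - g (-t)) := fun t => by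
    simp only [hgd]
    rw [sub_mulVec, dotProduct_sub, sub_mulVec, dotProduct_sub, hex1, hex2, hex1, hex2,
      ← Finset.sum_sub_distrib, ← Finset.sum_sub_distrib, ← Finset.sum_sub_distrib,
      Finset.mul_sum]
    refine Finset.sum_congr rfl fun i _ => ?_
    have e1 : ((Real.sin (ω i * t) : ℝ) : ℂ) = (Complex.exp (-(((ω i * t : ℝ) : ℂ) * Complex.I)) -
        Complex.exp (((ω i * t : ℝ) : ℂ) * Complex.I)) * Complex.I / 2 := by
      rw [Complex.ofReal_sin, Complex.sin, neg_mul]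
    have e2 : ((ω i * -t : ℝ) : ℂ) * Complex.I = -(((ω i * t : ℝ) : ℂ) * Complex.I) := by
      push_cast; ring
    rw [e1, e2, neg_neg]
    ring
  have hgb : ∀ t : ℝ, ∀ b : ℝ, ‖g t‖ ≤ b → ‖g (-t)‖ ≤ b →
      ‖∑ i, (x i * y i + x' i * y' i) * ((Real.sin (ω i * t) : ℝ) : ℂ)‖ ≤ b := fun t b h3 h4 => by
    rw [hgs t, norm_mul, norm_div, Complex.norm_I]
    have h5 := norm_sub_le (g t) (g (-t))
    have h6 : ‖(2 : ℂ)‖ = 2 := by norm_num
    rw [h6]
    linarith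
  have hS1 : ∀ t : ℝ, |t| ≤ t0 →
      ‖∑ i, (x i * y i + x' i * y' i) * ((Real.sin (ω i * t) : ℝ) : ℂ)‖ ≤ b1 * |t| :=
    fun t ht => by
      refine hgb t _ ((hgn t).trans (h1 t ht)) ((hgn (-t)).trans ?_)
      have := h1 (-t) (by rwa [abs_neg])
      rwa [abs_neg] at this
  have hS2 : ∀ t : ℝ,
      ‖∑ i, (x i * y i + x' i * y' i) * ((Real.sin (ω i * t) : ℝ) : ℂ)‖ ≤ 2 * ‖A‖ * ‖B‖ :=
    fun t => by
      have h3 : ∀ s : ℝ, ‖g s‖ ≤ 2 * ‖A‖ * ‖B‖ := fun s => by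
        refine (hgn s).trans ?_
        have h4 := ph_comm_norm_le (ev H s A) B
        rwa [ev_norm hH] at h4
      exact hgb t _ (h3 t) (h3 (-t))
  have hS3 : ∑ i, ‖x i * y i + x' i * y' i‖ ≤ 4 * ‖A‖ * ‖B‖ := by
    have h3 : ∑ i, ‖x i * y i + x' i * y' i‖ ≤ ∑ i, (‖x i * y i‖ + ‖x' i * y' i‖) :=
      Finset.sum_le_sum fun i _ => norm_add_le _ _
    rw [Finset.sum_add_distrib] at h3
    have h4 := sum_elem_le hH A' B hΩ
    have h5 := sum_elem_le hH B A' hΩ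
    have h6 : ‖A'‖ * ‖B‖ ≤ 2 * ‖A‖ * ‖B‖ := mul_le_mul_of_nonneg_right hA'n (norm_nonneg _)
    have h7 : ‖B‖ * ‖A'‖ ≤ 2 * ‖A‖ * ‖B‖ := by rw [mul_comm]; exact h6
    have h4' : ∑ i, ‖x i * y i‖ ≤ ‖A'‖ * ‖B‖ := h4
    have h5' : ∑ i, ‖x' i * y' i‖ ≤ ‖B‖ * ‖A'‖ := h5
    linarith
  have hmain := cluster_scalar ω (fun i => x i * y i + x' i * y' i) ha hΔ.le ht0 hb1
    (by positivity) hc hS1 hS2 hS3
  -- the sum
  have hsum : ∑ i, (x i * y i + x' i * y' i) =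
      2 * (star Ω ⬝ᵥ ((A * B) *ᵥ Ω) - α * (star Ω ⬝ᵥ (B *ᵥ Ω))) := by
    have e1 := hex1 0
    have e2 := hex2 0
    simp only [ev_zero, mul_zero, Complex.ofReal_zero, zero_mul, neg_zero, Complex.exp_zero,
      mul_one] at e1 e2
    rw [Finset.sum_add_distrib, ← e1, ← e2, ← hAB']
    have e3 : star Ω ⬝ᵥ ((A' * B) *ᵥ Ω) =
        star Ω ⬝ᵥ ((A * B) *ᵥ Ω) - α * (star Ω ⬝ᵥ (B *ᵥ Ω)) := by
      rw [hA', sub_mul, Matrix.smul_mul, Matrix.one_mul, sub_mulVec, dotProduct_sub,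
        smul_mulVec, dotProduct_smul, smul_eq_mul]
    rw [e3]
    ring
  rw [hsum, norm_mul] at hmain
  have h2n : ‖(2 : ℂ)‖ = 2 := by norm_num
  rw [h2n] at hmain
  linarith

end mat

end Vale.Agent.P356.GA
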