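import Vale.Agent.P356.GA.Fun749
import Vale.Agent.P356.PH.Gibbs
import Mathlib.Algebra.Order.Chebyshev

/-!
# GA (helper677): conditional expectations (normalised partial traces) on the spin system

`tE S A` is the normalised partial trace of `A` over the complement of `S`, as an operator on the
whole system which acts on `S`.
-/

set_option linter.all false

namespace Vale.Agent.P356.GA.CE

open Matrix Finset Vale.Agent.P356 Vale.Agent.P356.SV Vale.Agent.P356.Path Vale.Agent.P356.PH
  Vale.Agent.P356.GA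
open scoped BigOperators ComplexOrder Kronecker Matrix.Norms.L2Operator

variable {V : Type*} [Fintype V] [DecidableEq V] {q : ℕ}

/-- normalised partial trace over the complement of `S` -/
noncomputable def ptS (S : Finset V) (A : Op V q) : Op {x // x ∈ S} q :=
  fun a a' => (dO q S)⁻¹ * ∑ b : {x // x ∉ S} → Fin q,
    A ((cut S q).symm (a, b)) ((cut S q).symm (a', b))

/-- conditional expectation onto the operators acting on `S` -/
noncomputable def tE (S : Finset V) : Op V q →ₗ[ℂ] Op V q where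
  toFun A := opOn S (ptS S A)
  map_add' A B := by
    rw [← opOn_add]
    congr 1
    ext a a'
    simp only [ptS, Matrix.add_apply, Finset.sum_add_distrib, mul_add]
  map_smul' c A := by
    have h : ptS S (c • A) = c • ptS S A := by
      ext a a'
      simp only [ptS, Matrix.smul_apply, smul_eq_mul, ← Finset.mul_sum]
      ring
    rw [h]
    exact map_smul (phInclS S q) c _

theorem tE_apply (S : Finset V) (A : Op V q) : tE S A = opOn S (ptS S A) := rfl

theorem tE_acts (S : Finset V) (A : Op V q) : ActsOn S (tE S A) := ph_acts_opOn S _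

theorem opOn_cut_apply (S : Finset V) (k : Op {x // x ∈ S} q) (a a' : {x // x ∈ S} → Fin q)
    (b b' : {x // x ∉ S} → Fin q) :
    opOn S k ((cut S q).symm (a, b)) ((cut S q).symm (a', b')) = k a a' * (if b = b' then 1 else 0) := by
  simp [opOn, opL, Matrix.kroneckerMap_apply, Matrix.one_apply]

/-- the trace property -/
theorem trace_ptS (S : Finset V) (A : Op V q) (k : Op {x // x ∈ S} q) :
    dO q S * (ptS S A * k).trace = (A * opOn S k).trace := by
  have e1 : (A * opOn S k).trace = ∑ a : {x // x ∈ S} → Fin q, ∑ a' : {x // x ∈ S} → Fin q,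
      (∑ b : {x // x ∉ S} → Fin q, A ((cut S q).symm (a, b)) ((cut S q).symm (a', b))) * k a' a := by
    rw [Matrix.trace]
    simp only [Matrix.diag_apply, Matrix.mul_apply]
    rw [← Equiv.sum_comp (cut S q).symm, Fintype.sum_prod_type]
    refine Finset.sum_congr rfl fun a _ => ?_
    have e2 : ∀ b : {x // x ∉ S} → Fin q, ∑ t : Conf V q, A ((cut S q).symm (a, b)) t *
        opOn S k t ((cut S q).symm (a, b)) = ∑ a' : {x // x ∈ S} → Fin q,
          A ((cut S q).symm (a, b)) ((cut S q).symm (a', b)) * k a' a := by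
      intro b
      rw [← Equiv.sum_comp (cut S q).symm, Fintype.sum_prod_type]
      refine Finset.sum_congr rfl fun a' _ => ?_
      rw [Finset.sum_eq_single b]
      · rw [opOn_cut_apply, if_pos rfl, mul_one]
      · intro b' _ hb'
        rw [opOn_cut_apply, if_neg hb', mul_zero, mul_zero]
      · intro h
        exact absurd (Finset.mem_univ b) h
    simp only [e2]
    rw [Finset.sum_comm]
    refine Finset.sum_congr rfl fun a' _ => ?_
    rw [Finset.sum_mul]
  rw [e1, Matrix.trace]
  simp only [Matrix.diag_apply, Matrix.mul_apply, ptS]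
  rw [Finset.mul_sum]
  refine Finset.sum_congr rfl fun a _ => ?_
  rw [Finset.mul_sum]
  refine Finset.sum_congr rfl fun a' _ => ?_
  by_cases hd : dO q S = 0
  · have hemp : IsEmpty ({x // x ∉ S} → Fin q) := by
      rw [dO] at hd
      have h0 : Fintype.card ({x // x ∉ S} → Fin q) = 0 := by exact_mod_cast hd
      exact Fintype.card_eq_zero_iff.1 h0
    rw [hd, zero_mul, Finset.univ_eq_empty, Finset.sum_empty, zero_mul]
  · rw [← mul_assoc, ← mul_assoc, mul_inv_cancel₀ hd, one_mul]

theorem tE_trace {S : Finset V} (A : Op V q) {X : Op V q} (hX : ActsOn S X) :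
    (tE S A * X).trace = (A * X).trace := by
  obtain ⟨k, rfl⟩ := ph_acts_iff.1 hX
  rw [tE_apply, ← opOn_mul, trace_opOn, trace_ptS]

theorem tE_trace' {S : Finset V} (A : Op V q) {X : Op V q} (hX : ActsOn S X) :
    (X * tE S A).trace = (X * A).trace := by
  rw [Matrix.trace_mul_comm, tE_trace A hX, Matrix.trace_mul_comm]

/-- uniqueness -/
theorem acts_ext {S : Finset V} {Y Z : Op V q} (hY : ActsOn S Y) (hZ : ActsOn S Z)
    (h : ∀ X, ActsOn S X → (Y * X).trace = (Z * X).trace) : Y = Z := by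
  have hd := ph_acts_sub hY hZ
  have h1 := h _ (ph_acts_star hd)
  rw [← sub_eq_zero, ← Matrix.trace_sub, ← Matrix.sub_mul] at h1
  rw [← sub_eq_zero]
  exact Matrix.trace_mul_conjTranspose_self_eq_zero_iff.1 h1

theorem tE_eq {S : Finset V} {A Y : Op V q} (hY : ActsOn S Y)
    (h : ∀ X, ActsOn S X → (A * X).trace = (Y * X).trace) : tE S A = Y :=
  acts_ext (tE_acts S A) hY fun X hX => by rw [tE_trace A hX, h X hX]

theorem tE_of_acts {S : Finset V} {A : Op V q} (hA : ActsOn S A) : tE S A = A :=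
  tE_eq hA fun _ _ => rfl

theorem tE_univ (A : Op V q) : tE Finset.univ A = A := tE_of_acts (ph_acts_univ A)

theorem tE_one (S : Finset V) : tE S (1 : Op V q) = 1 := tE_of_acts (ph_acts_one S)

/-- bimodule property, left -/
theorem tE_mul_left {S : Finset V} {X : Op V q} (hX : ActsOn S X) (A : Op V q) :
    tE S (X * A) = X * tE S A := by
  refine tE_eq (ph_acts_mul hX (tE_acts S A)) fun Z hZ => ?_
  calc (X * A * Z).trace = (A * (Z * X)).trace := by
        rw [Matrix.mul_assoc, Matrix.trace_mul_comm, Matrix.mul_assoc]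
    _ = (tE S A * (Z * X)).trace := (tE_trace A (ph_acts_mul hZ hX)).symm
    _ = (X * tE S A * Z).trace := by
        rw [← Matrix.mul_assoc, Matrix.trace_mul_comm, ← Matrix.mul_assoc]

theorem tE_mul_right {S : Finset V} {X : Op V q} (hX : ActsOn S X) (A : Op V q) :
    tE S (A * X) = tE S A * X := by
  refine tE_eq (ph_acts_mul (tE_acts S A) hX) fun Z hZ => ?_
  rw [Matrix.mul_assoc, Matrix.mul_assoc, tE_trace A (ph_acts_mul hX hZ)]

theorem tE_conj (S : Finset V) (A : Op V q) : tE S Aᴴ = (tE S A)ᴴ := by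
  refine tE_eq (ph_acts_star (tE_acts S A)) fun X hX => ?_
  have h := tE_trace' A (ph_acts_star hX)
  have e1 : (Aᴴ * X).trace = star ((Xᴴ * A).trace) := by
    rw [← Matrix.trace_conjTranspose, Matrix.conjTranspose_mul, Matrix.conjTranspose_conjTranspose]
  have e2 : ((tE S A)ᴴ * X).trace = star ((Xᴴ * tE S A).trace) := by
    rw [← Matrix.trace_conjTranspose, Matrix.conjTranspose_mul, Matrix.conjTranspose_conjTranspose]
  rw [e1, e2, h]

theorem tE_herm {S : Finset V} {A : Op V q} (hA : A.IsHermitian) : (tE S A).IsHermitian := by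
  rw [Matrix.IsHermitian, ← tE_conj, hA.eq]

/-- operators on a disjoint region become scalars -/
theorem tE_disj {S T : Finset V} (h : Disjoint S T) {A : Op V q} (hA : ActsOn T A) :
    ∃ c : ℂ, tE S A = c • (1 : Op V q) := by
  refine ⟨A.trace / (q : ℂ) ^ Fintype.card V, tE_eq (ph_acts_smul _ (ph_acts_one S)) fun X hX => ?_⟩
  have h1 := trace_disj h.symm hA hX
  rw [smul_mul_assoc, Matrix.one_mul, Matrix.trace_smul, smul_eq_mul]
  by_cases hq : (q : ℂ) ^ Fintype.card V = 0
  · have hq0 : q = 0 := by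
      exact_mod_cast eq_zero_of_pow_eq_zero hq
    have hV : Nonempty V := by
      by_contra hV
      rw [not_nonempty_iff] at hV
      rw [Fintype.card_eq_zero, pow_zero] at hq
      exact one_ne_zero hq
    subst hq0
    haveI : IsEmpty (Conf V 0) := ⟨fun s => (s hV.some).elim0⟩
    simp [Matrix.trace]
  · rw [div_mul_eq_mul_div, eq_div_iff hq]
    exact h1

/-- the conditional expectation of an operator acting on `T` acts on `S ∩ T` -/
theorem tE_acts_inter {S T : Finset V} {A : Op V q} (hA : ActsOn T A) : ActsOn (S ∩ T) (tE S A) := by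
  have h := act_span (X := S ∩ T) (A := T) Finset.inter_subset_right hA
  clear hA
  induction h using Submodule.span_induction with
  | mem W hW =>
    obtain ⟨B, C, hB, hC, rfl⟩ := hW
    rw [tE_mul_left (ph_acts_mono Finset.inter_subset_left hB)]
    obtain ⟨c, hc⟩ := tE_disj (S := S) (T := T \ (S ∩ T)) (by
      rw [Finset.disjoint_left]
      intro x hx hx'
      rw [Finset.mem_sdiff, Finset.mem_inter] at hx'
      exact hx'.2 ⟨hx, hx'.1⟩) hC
    rw [hc]
    exact ph_acts_mul hB (ph_acts_smul _ (ph_acts_one _))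
  | zero => rw [map_zero]; exact ph_acts_zero _
  | add x y _ _ hx hy => rw [map_add]; exact ph_acts_add hx hy
  | smul c x _ hx => rw [map_smul]; exact ph_acts_smul c hx

theorem tE_sub {S T : Finset V} {A : Op V q} (hA : ActsOn T A) : ActsOn (S ∩ T) (tE S A) :=
  tE_acts_inter hA

/-- composition -/
theorem tE_tE (S T : Finset V) (A : Op V q) : tE S (tE T A) = tE (S ∩ T) A := by
  symm
  refine tE_eq (tE_acts_inter (tE_acts T A)) fun X hX => ?_
  rw [tE_trace _ (ph_acts_mono Finset.inter_subset_left hX),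
    tE_trace _ (ph_acts_mono Finset.inter_subset_right hX)]

/-- regions which agree on the support of the operator -/
theorem tE_congr {S S' T : Finset V} {A : Op V q} (hA : ActsOn T A) (h : S ∩ T = S' ∩ T) :
    tE S A = tE S' A := by
  have e : ∀ S : Finset V, tE S A = tE (S ∩ T) A := by
    intro S
    rw [← tE_tE, tE_of_acts hA]
  rw [e S, e S', h]

theorem tE_insert {S T : Finset V} {A : Op V q} (hA : ActsOn T A) {x : V} (hx : x ∉ T) :
    tE (insert x S) A = tE S A := by
  refine tE_congr hA ?_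
  rw [Finset.insert_inter_of_notMem hx]

/-- product vectors -/
noncomputable def pv (S : Finset V) (v : Conf {x // x ∈ S} q → ℂ)
    (b : {x // x ∉ S} → Fin q) : Conf V q → ℂ :=
  fun s => if (cut S q s).2 = b then v (cut S q s).1 else 0

theorem nsq_pv (S : Finset V) (v : Conf {x // x ∈ S} q → ℂ) (b : {x // x ∉ S} → Fin q) :
    nsq (pv S v b) = nsq v := by
  rw [nsq, nsq, ← Equiv.sum_comp (cut S q).symm, Fintype.sum_prod_type]
  refine Finset.sum_congr rfl fun a _ => ?_
  rw [Finset.sum_eq_single b]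
  · simp [pv]
  · intro b' _ hb'
    simp [pv, hb']
  · intro h
    exact absurd (Finset.mem_univ b) h

theorem ptS_mulVec (S : Finset V) (A : Op V q) (v : Conf {x // x ∈ S} q → ℂ)
    (a : {x // x ∈ S} → Fin q) :
    (ptS S A *ᵥ v) a = (dO q S)⁻¹ * ∑ b, (A *ᵥ pv S v b) ((cut S q).symm (a, b)) := by
  have e1 : ∀ b, (A *ᵥ pv S v b) ((cut S q).symm (a, b)) = ∑ a',
      A ((cut S q).symm (a, b)) ((cut S q).symm (a', b)) * v a' := by
    intro b
    rw [Matrix.mulVec, dotProduct, ← Equiv.sum_comp (cut S q).symm, Fintype.sum_prod_type]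
    refine Finset.sum_congr rfl fun a' _ => ?_
    rw [Finset.sum_eq_single b]
    · simp [pv]
    · intro b' _ hb'
      simp [pv, hb']
    · intro h
      exact absurd (Finset.mem_univ b) h
  simp only [e1]
  rw [Matrix.mulVec, dotProduct, Finset.sum_comm, Finset.mul_sum]
  refine Finset.sum_congr rfl fun a' _ => ?_
  rw [ptS, ← Finset.sum_mul]
  ring

theorem ptS_norm (S : Finset V) (A : Op V q) : ‖ptS S A‖ ≤ ‖A‖ := by
  refine p7_norm_le (norm_nonneg _) fun v => ?_
  have h1 : ∀ b : {x // x ∉ S} → Fin q, nsq (A *ᵥ pv S v b) ≤ ‖A‖ ^ 2 * nsq v := by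
    intro b
    rw [← nsq_pv S v b]
    exact ph_nsq_mulVec_le A _
  have hd : dO q S = ((Fintype.card ({x // x ∉ S} → Fin q) : ℝ) : ℂ) := by
    rw [dO]; push_cast; rfl
  set D : ℝ := (Fintype.card ({x // x ∉ S} → Fin q) : ℝ) with hD
  rcases Nat.eq_zero_or_pos (Fintype.card ({x // x ∉ S} → Fin q)) with h0 | h0
  · have hemp : IsEmpty ({x // x ∉ S} → Fin q) := Fintype.card_eq_zero_iff.1 h0
    have e : ptS S A *ᵥ v = 0 := by
      funext a
      rw [ptS_mulVec, Finset.univ_eq_empty, Finset.sum_empty, mul_zero]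
      rfl
    rw [e]
    have : nsq (0 : Conf {x // x ∈ S} q → ℂ) = 0 := by simp [nsq]
    rw [this]
    have : 0 ≤ nsq v := Finset.sum_nonneg fun _ _ => by positivity
    positivity
  have hDp : 0 < D := by rw [hD]; exact_mod_cast h0
  have h2 : ∀ a : {x // x ∈ S} → Fin q, ‖(ptS S A *ᵥ v) a‖ ^ 2 ≤
      D⁻¹ * ∑ b, ‖(A *ᵥ pv S v b) ((cut S q).symm (a, b))‖ ^ 2 := by
    intro a
    rw [ptS_mulVec, norm_mul, hd, norm_inv, Complex.norm_real, Real.norm_of_nonneg hDp.le]
    have h3 : ‖∑ b, (A *ᵥ pv S v b) ((cut S q).symm (a, b))‖ ≤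
        ∑ b, ‖(A *ᵥ pv S v b) ((cut S q).symm (a, b))‖ := norm_sum_le _ _
    have h4 : (∑ b, ‖(A *ᵥ pv S v b) ((cut S q).symm (a, b))‖) ^ 2 ≤
        D * ∑ b, ‖(A *ᵥ pv S v b) ((cut S q).symm (a, b))‖ ^ 2 := by
      have := sq_sum_le_card_mul_sum_sq (s := (Finset.univ : Finset ({x // x ∉ S} → Fin q)))
        (f := fun b => ‖(A *ᵥ pv S v b) ((cut S q).symm (a, b))‖)
      rwa [Finset.card_univ] at this
    calc (D⁻¹ * ‖∑ b, (A *ᵥ pv S v b) ((cut S q).symm (a, b))‖) ^ 2
        = D⁻¹ ^ 2 * ‖∑ b, (A *ᵥ pv S v b) ((cut S q).symm (a, b))‖ ^ 2 := by ring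
      _ ≤ D⁻¹ ^ 2 * (∑ b, ‖(A *ᵥ pv S v b) ((cut S q).symm (a, b))‖) ^ 2 := by gcongr
      _ ≤ D⁻¹ ^ 2 * (D * ∑ b, ‖(A *ᵥ pv S v b) ((cut S q).symm (a, b))‖ ^ 2) := by gcongr
      _ = D⁻¹ * ∑ b, ‖(A *ᵥ pv S v b) ((cut S q).symm (a, b))‖ ^ 2 := by
          field_simp
  calc nsq (ptS S A *ᵥ v) ≤ ∑ a, D⁻¹ * ∑ b, ‖(A *ᵥ pv S v b) ((cut S q).symm (a, b))‖ ^ 2 :=
        Finset.sum_le_sum fun a _ => h2 a
    _ = D⁻¹ * ∑ b, ∑ a, ‖(A *ᵥ pv S v b) ((cut S q).symm (a, b))‖ ^ 2 := by
        rw [← Finset.mul_sum, Finset.sum_comm]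
    _ ≤ D⁻¹ * ∑ b : {x // x ∉ S} → Fin q, nsq (A *ᵥ pv S v b) := by
        gcongr with b _
        rw [nsq, ← Equiv.sum_comp (cut S q).symm, Fintype.sum_prod_type]
        refine Finset.sum_le_sum fun a _ => ?_
        exact Finset.single_le_sum
          (f := fun b' => ‖(A *ᵥ pv S v b) ((cut S q).symm (a, b'))‖ ^ 2)
          (fun _ _ => by positivity) (Finset.mem_univ b)
    _ ≤ D⁻¹ * ∑ b : {x // x ∉ S} → Fin q, ‖A‖ ^ 2 * nsq v := by
        gcongr with b _
        exact h1 b
    _ = ‖A‖ ^ 2 * nsq v := by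
        rw [Finset.sum_const, Finset.card_univ, nsmul_eq_mul, ← hD, ← mul_assoc,
          inv_mul_cancel₀ hDp.ne', one_mul]

/-- norm contraction -/
theorem tE_norm (S : Finset V) (A : Op V q) : ‖tE S A‖ ≤ ‖A‖ :=
  (opOn_norm_le S _).trans (ptS_norm S A)

/-- approximation: an operator close to one acting on `S` is close to its conditional
expectation -/
theorem tE_approx {S : Finset V} {A B : Op V q} (hB : ActsOn S B) : ‖A - tE S A‖ ≤ 2 * ‖A - B‖ := by
  have e : A - tE S A = (A - B) - tE S (A - B) := by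
    rw [map_sub, tE_of_acts hB]
    abel
  rw [e]
  calc ‖(A - B) - tE S (A - B)‖ ≤ ‖A - B‖ + ‖tE S (A - B)‖ := norm_sub_le _ _
    _ ≤ ‖A - B‖ + ‖A - B‖ := by gcongr; exact tE_norm S _
    _ = 2 * ‖A - B‖ := by ring

/-- over the empty region everything is a scalar -/
theorem tE_empty (A : Op V q) : ∃ c : ℂ, tE (∅ : Finset V) A = c • (1 : Op V q) :=
  tE_disj (Finset.disjoint_empty_left Finset.univ) (ph_acts_univ A)

theorem tE_empty_real {A : Op V q} (hA : A.IsHermitian) :
    ∃ c : ℝ, tE (∅ : Finset V) A = (c : ℂ) • (1 : Op V q) := by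
  obtain ⟨c, hc⟩ := tE_empty A
  by_cases hne : Nonempty (Conf V q)
  · have h1 := tE_herm (S := (∅ : Finset V)) hA
    rw [hc, Matrix.IsHermitian, Matrix.conjTranspose_smul, Matrix.conjTranspose_one] at h1
    obtain ⟨s⟩ := hne
    have h2 := congrFun (congrFun h1 s) s
    rw [Matrix.smul_apply, Matrix.smul_apply, Matrix.one_apply_eq, smul_eq_mul, smul_eq_mul,
      mul_one, mul_one] at h2
    refine ⟨c.re, ?_⟩
    rw [hc]
    congr 1
    exact (Complex.conj_eq_iff_re.1 h2).symm
  · rw [not_nonempty_iff] at hne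
    refine ⟨0, ?_⟩
    ext s
    exact hne.elim s

end Vale.Agent.P356.GA.CE
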