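import Vale.Agent.P356.GA.Det185
import Vale.Agent.P356.SA.Dbl

/-!
Two copies of a gapped Hamiltonian (no frustration freeness): the ground state is exactly the
product, the gap is the same; the version with one-copy detectors.
-/

set_option linter.all false

namespace Vale.Agent.P356.GA

open Matrix Finset Vale.Agent.P356 Vale.Agent.P356.SV Vale.Agent.P356.Path Vale.Agent.P356.NA
  Vale.Agent.P356.SA Vale.Agent.P356.PH
open scoped BigOperators ComplexOrder Kronecker Matrix.Norms.L2Operator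

section proj932
variable {N : Type*} [Fintype N] [DecidableEq N]

/-- the projection on a unit vector -/
theorem dg_proj_sq {Ω : N → ℂ} (hΩ : nsq Ω = 1) :
    (vecMulVec Ω (star Ω)) * (vecMulVec Ω (star Ω)) = vecMulVec Ω (star Ω) := by
  rw [vecMulVec_mul_vecMulVec]
  have h1 : star Ω ⬝ᵥ Ω = 1 := by rw [ip_self, hΩ]; simp
  rw [h1, one_smul]

theorem dg_proj_herm (Ω : N → ℂ) : (vecMulVec Ω (star Ω))ᴴ = vecMulVec Ω (star Ω) := by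
  rw [conjTranspose_vecMulVec, star_star]

theorem dg_proj_mulVec (Ω ψ : N → ℂ) :
    (vecMulVec Ω (star Ω)) *ᵥ ψ = (star Ω ⬝ᵥ ψ) • Ω := by
  ext i
  rw [Pi.smul_apply, smul_eq_mul]
  change ∑ j, (Ω i * star Ω j) * ψ j = (∑ j, star Ω j * ψ j) * Ω i
  rw [Finset.sum_mul]
  exact Finset.sum_congr rfl fun j _ => by ring

theorem dg_proj_en (Ω ψ : N → ℂ) :
    en (vecMulVec Ω (star Ω)) ψ = ‖star Ω ⬝ᵥ ψ‖ ^ 2 := by
  unfold en
  rw [dg_proj_mulVec, dotProduct_smul, smul_eq_mul]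
  have h1 : star ψ ⬝ᵥ Ω = star (star Ω ⬝ᵥ ψ) := by
    rw [star_dotProduct]
  rw [h1, Complex.star_def, Complex.mul_conj, Complex.ofReal_re, Complex.normSq_eq_norm_sq]

theorem dg_en_sub (A B : Matrix N N ℂ) (ψ : N → ℂ) : en (A - B) ψ = en A ψ - en B ψ := by
  unfold en
  rw [sub_mulVec, dotProduct_sub, Complex.sub_re]

theorem dg_en_add (A B : Matrix N N ℂ) (ψ : N → ℂ) : en (A + B) ψ = en A ψ + en B ψ := by
  unfold en
  rw [add_mulVec, dotProduct_add, Complex.add_re]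

theorem dg_en_one (ψ : N → ℂ) : en (1 : Matrix N N ℂ) ψ = nsq ψ := by
  unfold en
  rw [one_mulVec, ip_self_re]

/-- projections have nonnegative expectation -/
theorem dg_en_proj {Q : Matrix N N ℂ} (h1 : Q * Q = Q) (h2 : Qᴴ = Q) (ψ : N → ℂ) :
    en Q ψ = nsq (Q *ᵥ ψ) := by
  unfold en
  conv_lhs => rw [← h1]
  rw [← mulVec_mulVec, ← ip_self_re, star_mulVec, h2, ← dotProduct_mulVec]

end proj932

section dblgap932
variable {V W : Type} [Fintype V] [DecidableEq V] [Fintype W] [DecidableEq W] {q : ℕ}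

theorem dg_cp12_proj (Ω : Conf V q → ℂ) (Ω' : Conf W q → ℂ) :
    (cp1 (vecMulVec Ω (star Ω)) : Op (V ⊕ W) q) * cp2 (vecMulVec Ω' (star Ω')) =
      vecMulVec (dbl Ω Ω') (star (dbl Ω Ω')) := by
  rw [sa2_cp1, sa2_cp2, submatrix_mul_equiv, ← mul_kronecker_mul, one_mul, mul_one]
  ext s t
  change (Ω (s ∘ Sum.inl) * star (Ω (t ∘ Sum.inl))) * (Ω' (s ∘ Sum.inr) * star (Ω' (t ∘ Sum.inr))) =
    (Ω (s ∘ Sum.inl) * Ω' (s ∘ Sum.inr)) * star (Ω (t ∘ Sum.inl) * Ω' (t ∘ Sum.inr))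
  rw [star_mul']
  ring

/-- the two copy form bound: `(1 - P) ⊗ 1 + 1 ⊗ (1 - P') ≥ 1 - P ⊗ P'` -/
theorem dg_form {Ω : Conf V q → ℂ} {Ω' : Conf W q → ℂ} (hΩ : nsq Ω = 1) (hΩ' : nsq Ω' = 1)
    (ψ : Conf (V ⊕ W) q → ℂ) :
    nsq ψ - ‖star (dbl Ω Ω') ⬝ᵥ ψ‖ ^ 2 ≤
      (nsq ψ - en (cp1 (vecMulVec Ω (star Ω)) : Op (V ⊕ W) q) ψ) +
        (nsq ψ - en (cp2 (vecMulVec Ω' (star Ω')) : Op (V ⊕ W) q) ψ) := by
  obtain ⟨P, hP⟩ : ∃ P : Op V q, P = vecMulVec Ω (star Ω) := ⟨_, rfl⟩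
  obtain ⟨P', hP'⟩ : ∃ P' : Op W q, P' = vecMulVec Ω' (star Ω') := ⟨_, rfl⟩
  have a1 : P * P = P := by rw [hP]; exact dg_proj_sq hΩ
  have a2 : Pᴴ = P := by rw [hP]; exact dg_proj_herm Ω
  have b1 : P' * P' = P' := by rw [hP']; exact dg_proj_sq hΩ'
  have b2 : P'ᴴ = P' := by rw [hP']; exact dg_proj_herm Ω'
  have c1 : (1 - P) * (1 - P) = 1 - P := by
    rw [sub_mul, one_mul, mul_sub, mul_one, a1]; abel
  have c2 : (1 - P)ᴴ = 1 - P := by rw [conjTranspose_sub, conjTranspose_one, a2]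
  have d1 : (1 - P') * (1 - P') = 1 - P' := by
    rw [sub_mul, one_mul, mul_sub, mul_one, b1]; abel
  have d2 : (1 - P')ᴴ = 1 - P' := by rw [conjTranspose_sub, conjTranspose_one, b2]
  have e1 : ((cp1 (1 - P) : Op (V ⊕ W) q) * cp2 (1 - P')) * (cp1 (1 - P) * cp2 (1 - P')) =
      cp1 (1 - P) * cp2 (1 - P') := by
    calc ((cp1 (1 - P) : Op (V ⊕ W) q) * cp2 (1 - P')) * (cp1 (1 - P) * cp2 (1 - P')) =
        cp1 (1 - P) * (cp2 (1 - P') * cp1 (1 - P)) * cp2 (1 - P') := by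
          simp only [mul_assoc]
      _ = (cp1 (1 - P) * cp1 (1 - P)) * (cp2 (1 - P') * cp2 (1 - P')) := by
          rw [← cp12_comm]; simp only [mul_assoc]
      _ = _ := by rw [← cp1_mul, ← cp2_mul, c1, d1]
  have e2 : ((cp1 (1 - P) : Op (V ⊕ W) q) * cp2 (1 - P'))ᴴ = cp1 (1 - P) * cp2 (1 - P') := by
    rw [conjTranspose_mul, cp1_ct, cp2_ct, c2, d2, ← cp12_comm]
  have e3 : 0 ≤ en ((cp1 (1 - P) : Op (V ⊕ W) q) * cp2 (1 - P')) ψ := by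
    rw [dg_en_proj e1 e2]
    exact nsq_nonneg' _
  have e4 : (cp1 (1 - P) : Op (V ⊕ W) q) * cp2 (1 - P') =
      1 - cp1 P - cp2 P' + cp1 P * cp2 P' := by
    rw [cp1_sub, cp2_sub, cp1_one, cp2_one, sub_mul, one_mul, mul_sub, mul_one]
    abel
  have e5 : en ((cp1 P : Op (V ⊕ W) q) * cp2 P') ψ = ‖star (dbl Ω Ω') ⬝ᵥ ψ‖ ^ 2 := by
    rw [hP, hP', dg_cp12_proj, dg_proj_en]
  rw [e4, dg_en_add, dg_en_sub, dg_en_sub, dg_en_one, e5] at e3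
  rw [← hP, ← hP']
  linarith

/-- the gap of one copy, in the doubled system -/
theorem dg_gap_one {H : Op V q} {Δ E : ℝ} {Ω : Conf V q → ℂ} (hG : GappedGround H Δ E Ω)
    (ψ : Conf (V ⊕ W) q → ℂ) :
    Δ * (nsq ψ - en (cp1 (vecMulVec Ω (star Ω)) : Op (V ⊕ W) q) ψ) ≤
      en (cp1 H : Op (V ⊕ W) q) ψ - E * nsq ψ := by
  rw [sa2_en_one, sa2_en_one, sa2_nsq_one, ← Finset.sum_sub_distrib, Finset.mul_sum,
    Finset.mul_sum, ← Finset.sum_sub_distrib]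
  refine Finset.sum_le_sum fun b _ => ?_
  rw [dg_proj_en]
  exact hG.2.2 _

theorem dg_gap_two {H : Op W q} {Δ E : ℝ} {Ω : Conf W q → ℂ} (hG : GappedGround H Δ E Ω)
    (ψ : Conf (V ⊕ W) q → ℂ) :
    Δ * (nsq ψ - en (cp2 (vecMulVec Ω (star Ω)) : Op (V ⊕ W) q) ψ) ≤
      en (cp2 H : Op (V ⊕ W) q) ψ - E * nsq ψ := by
  rw [sa2_en_two, sa2_en_two, sa2_nsq_two, ← Finset.sum_sub_distrib, Finset.mul_sum,
    Finset.mul_sum, ← Finset.sum_sub_distrib]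
  refine Finset.sum_le_sum fun b _ => ?_
  rw [dg_proj_en]
  exact hG.2.2 _

/-- Two gapped systems side by side. -/
theorem dg_gapped_dbl {H : Op V q} {H' : Op W q} {Δ E E' : ℝ} {Ω : Conf V q → ℂ}
    {Ω' : Conf W q → ℂ} (hΔ : 0 ≤ Δ) (hG : GappedGround H Δ E Ω) (hG' : GappedGround H' Δ E' Ω') :
    GappedGround (cp1 H + cp2 H' : Op (V ⊕ W) q) Δ (E + E') (dbl Ω Ω') := by
  refine ⟨by rw [nsq_dbl, hG.1, hG'.1, one_mul], ?_, fun ψ => ?_⟩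
  · rw [add_mulVec, cp1_dbl, cp2_dbl, hG.2.1, hG'.2.1]
    ext s
    rw [Pi.add_apply, Pi.smul_apply, smul_eq_mul]
    change ((E : ℂ) * Ω (s ∘ Sum.inl)) * Ω' (s ∘ Sum.inr) +
      Ω (s ∘ Sum.inl) * ((E' : ℂ) * Ω' (s ∘ Sum.inr)) =
      ((E + E' : ℝ) : ℂ) * (Ω (s ∘ Sum.inl) * Ω' (s ∘ Sum.inr))
    push_cast
    ring
  · have h1 := dg_gap_one (W := W) hG ψ
    have h2 := dg_gap_two (V := V) hG' ψ
    have h3 := mul_le_mul_of_nonneg_left (dg_form hG.1 hG'.1 ψ) hΔ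
    have h4 : (star ψ ⬝ᵥ ((cp1 H + cp2 H' : Op (V ⊕ W) q) *ᵥ ψ)).re =
        en (cp1 H : Op (V ⊕ W) q) ψ + en (cp2 H' : Op (V ⊕ W) q) ψ := by
      rw [← dg_en_add]; rfl
    rw [h4]
    linarith

theorem dg_herm {H : Op V q} {H' : Op W q} (h : H.IsHermitian) (h' : H'.IsHermitian) :
    (cp1 H + cp2 H' : Op (V ⊕ W) q).IsHermitian := by
  rw [Matrix.IsHermitian, conjTranspose_add, cp1_ct, cp2_ct, h.eq, h'.eq]

/-- the operator norm of one copy operators -/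
theorem dg_norm_one (A : Op V q) : ‖(cp1 A : Op (V ⊕ W) q)‖ ≤ ‖A‖ :=
  (opNormLe_iff (norm_nonneg _)).1 (cp1_norm ((opNormLe_iff (norm_nonneg _)).2 le_rfl))

theorem dg_norm_two (A : Op W q) : ‖(cp2 A : Op (V ⊕ W) q)‖ ≤ ‖A‖ :=
  (opNormLe_iff (norm_nonneg _)).1 (cp2_norm ((opNormLe_iff (norm_nonneg _)).2 le_rfl))

/-- one copy expectations in a product -/
theorem dg_exp_one {Ω : Conf V q → ℂ} {Ω' : Conf W q → ℂ} (h : nsq Ω' = 1) (A : Op V q) :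
    star (dbl Ω Ω') ⬝ᵥ ((cp1 A : Op (V ⊕ W) q) *ᵥ dbl Ω Ω') = star Ω ⬝ᵥ (A *ᵥ Ω) := by
  rw [cp1_dbl, ip_dbl, ip_self, h]
  simp

theorem dg_exp_two {Ω : Conf V q → ℂ} {Ω' : Conf W q → ℂ} (h : nsq Ω = 1) (A : Op W q) :
    star (dbl Ω Ω') ⬝ᵥ ((cp2 A : Op (V ⊕ W) q) *ᵥ dbl Ω Ω') = star Ω' ⬝ᵥ (A *ᵥ Ω') := by
  rw [cp2_dbl, ip_dbl, ip_self, h]
  simp

/-- distance of products of unit vectors -/
theorem dg_close {Ω₁ Ω₂ : Conf V q → ℂ} {Φ₁ Φ₂ : Conf W q → ℂ} (h1 : nsq Φ₁ = 1)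
    (h2 : nsq Ω₂ = 1) :
    nrm (dbl Ω₁ Φ₁ - dbl Ω₂ Φ₂) ≤ nrm (Ω₁ - Ω₂) + nrm (Φ₁ - Φ₂) := by
  have e : dbl Ω₁ Φ₁ - dbl Ω₂ Φ₂ = dbl (Ω₁ - Ω₂) Φ₁ + dbl Ω₂ (Φ₁ - Φ₂) := by
    ext s
    change Ω₁ _ * Φ₁ _ - Ω₂ _ * Φ₂ _ = (Ω₁ _ - Ω₂ _) * Φ₁ _ + Ω₂ _ * (Φ₁ _ - Φ₂ _)
    ring
  rw [e]
  refine (nrm_add_le _ _).trans (le_of_eq ?_)
  rw [nrm, nsq_dbl, h1, mul_one, nrm, nsq_dbl, h2, one_mul]
  rfl

theorem dg_expv_en {N : Type*} [Fintype N] (ψ : N → ℂ) (A : Matrix N N ℂ) : expv ψ A = en A ψ := rfl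

theorem dg_low_one {H : Op V q} {Δ E : ℝ} {Ω : Conf V q → ℂ} (hΔ : 0 ≤ Δ)
    (hG : GappedGround H Δ E Ω) (ψ : Conf (V ⊕ W) q → ℂ) :
    E * nsq ψ ≤ expv ψ (cp1 H : Op (V ⊕ W) q) := by
  rw [dg_expv_en, sa2_en_one, sa2_nsq_one, Finset.mul_sum]
  exact Finset.sum_le_sum fun b _ => gapped_ge hG hΔ _

theorem dg_low_two {H : Op W q} {Δ E : ℝ} {Ω : Conf W q → ℂ} (hΔ : 0 ≤ Δ)
    (hG : GappedGround H Δ E Ω) (ψ : Conf (V ⊕ W) q → ℂ) :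
    E * nsq ψ ≤ expv ψ (cp2 H : Op (V ⊕ W) q) := by
  rw [dg_expv_en, sa2_en_two, sa2_nsq_two, Finset.mul_sum]
  exact Finset.sum_le_sum fun b _ => gapped_ge hG hΔ _

theorem dg_detH_one {ι : Type*} [Fintype ι] (Λ : ℝ) (P : ι → Op V q) :
    (cp1 (detH Λ P) : Op (V ⊕ W) q) = (Λ : ℂ) • ∑ b, cp1 (1 - P b) := by
  rw [detH, cp1_smul, cp1_sum]

theorem dg_detH_two {ι : Type*} [Fintype ι] (Λ : ℝ) (P : ι → Op W q) :
    (cp2 (detH Λ P) : Op (V ⊕ W) q) = (Λ : ℂ) • ∑ b, cp2 (1 - P b) := by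
  rw [detH, cp2_smul, cp2_sum]

/-- The Hamiltonian with one-copy detectors and its double: the ground state of the double is
exactly the product, and low energy states of the double are seen by the detectors of both
copies. -/
theorem det_ground2 {ι : Type*} [Fintype ι] {H : Op V q} {Δ E Λ δ : ℝ} {Ω : Conf V q → ℂ}
    (hH : H.IsHermitian) (hG : GappedGround H Δ E Ω) (hΛ : 0 < Λ) {P : ι → Op V q}
    (hP : ∀ b, (P b).PosSemidef) (hP1 : ∀ b, (1 - P b).PosSemidef)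
    (hδ : ∀ b, expv Ω (1 - P b) ≤ δ) (hδΔ : Λ * (Fintype.card ι * δ) ≤ Δ / 2) (hΔ : 0 < Δ) :
    ∃ (E' : ℝ) (Ω' : Conf V q → ℂ), GappedGround (H + detH Λ P) (Δ / 2) E' Ω' ∧
      E ≤ E' ∧ E' ≤ E + Λ * (Fintype.card ι * δ) ∧
      nsq (Ω' - Ω) ≤ 2 * (Λ * (Fintype.card ι * δ) / Δ) ∧
      (∀ X : Op V q, ‖star Ω' ⬝ᵥ (X *ᵥ Ω') - star Ω ⬝ᵥ (X *ᵥ Ω)‖ ≤
        2 * Real.sqrt (2 * (Λ * (Fintype.card ι * δ) / Δ)) * ‖X‖) ∧
      (∀ (ψ : Conf V q → ℂ) (K : ℝ), nsq ψ = 1 → expv ψ (H + detH Λ P) - E' ≤ K →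
        ∑ b, expv ψ (1 - P b) ≤ K / Λ + Fintype.card ι * δ) ∧
      GappedGround (cp1 (H + detH Λ P) + cp2 (H + detH Λ P) : Op (V ⊕ V) q) (Δ / 2) (E' + E')
        (dbl Ω' Ω') ∧
      ∀ (ψ : Conf (V ⊕ V) q → ℂ) (K : ℝ), nsq ψ = 1 →
        expv ψ (cp1 (H + detH Λ P) + cp2 (H + detH Λ P)) - (E' + E') ≤ K →
        ∑ b, expv ψ (cp1 (1 - P b)) + ∑ b, expv ψ (cp2 (1 - P b)) ≤
          K / Λ + 2 * (Fintype.card ι * δ) := by
  obtain ⟨E', Ω', h1, h2, h3, h4, h5, h6⟩ := det_ground hH hG hΛ hP hP1 hδ hδΔ hΔ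
  refine ⟨E', Ω', h1, h2, h3, h4, h5, h6, dg_gapped_dbl (by linarith) h1 h1, fun ψ K hψ hK => ?_⟩
  have a1 := dg_low_one (W := V) hΔ.le hG ψ
  have a2 := dg_low_two (V := V) hΔ.le hG ψ
  rw [hψ, mul_one] at a1 a2
  rw [cp1_add, cp2_add, expv_add, expv_add, expv_add, dg_detH_one, dg_detH_two, expv_csmul,
    expv_csmul, expv_sum, expv_sum] at hK
  have h7 : Λ * (∑ b, expv ψ (cp1 (1 - P b)) + ∑ b, expv ψ (cp2 (1 - P b))) ≤
      K + 2 * (Λ * (Fintype.card ι * δ)) := by linarith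
  have h9 : K / Λ + 2 * (Fintype.card ι * δ) = (K + 2 * (Λ * (Fintype.card ι * δ))) / Λ := by
    field_simp
  rw [h9, le_div_iff₀ hΛ]
  linarith

/-- complex expectations in slices -/
theorem dg_slice_one (A : Op V q) (ψ : Conf (V ⊕ W) q → ℂ) :
    star ψ ⬝ᵥ ((cp1 A : Op (V ⊕ W) q) *ᵥ ψ) =
      ∑ b : Conf W q, star (fun a : Conf V q => ψ (Sum.elim a b)) ⬝ᵥ
        (A *ᵥ fun a : Conf V q => ψ (Sum.elim a b)) := by
  unfold dotProduct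
  rw [sa2_sum', Finset.sum_comm]
  refine Finset.sum_congr rfl fun b _ => Finset.sum_congr rfl fun a _ => ?_
  rw [sa2_cp1_apply]
  rfl

theorem dg_slice_two (A : Op W q) (ψ : Conf (V ⊕ W) q → ℂ) :
    star ψ ⬝ᵥ ((cp2 A : Op (V ⊕ W) q) *ᵥ ψ) =
      ∑ a : Conf V q, star (fun b : Conf W q => ψ (Sum.elim a b)) ⬝ᵥ
        (A *ᵥ fun b : Conf W q => ψ (Sum.elim a b)) := by
  unfold dotProduct
  rw [sa2_sum']
  refine Finset.sum_congr rfl fun a _ => Finset.sum_congr rfl fun b _ => ?_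
  rw [sa2_cp2_apply]
  rfl

/-- mixtures: a bound `a e + c √e` for all unit vectors passes to unnormalised vectors -/
theorem dg_scale {N : Type*} [Fintype N] [DecidableEq N] {X D : Matrix N N ℂ} {z : ℂ} {a c : ℝ}
    (h : ∀ φ : N → ℂ, nsq φ = 1 → ‖star φ ⬝ᵥ (X *ᵥ φ) - z‖ ≤
      a * expv φ D + c * Real.sqrt (expv φ D)) (φ : N → ℂ) :
    ‖star φ ⬝ᵥ (X *ᵥ φ) - (nsq φ : ℂ) * z‖ ≤
      a * expv φ D + c * (Real.sqrt (nsq φ) * Real.sqrt (expv φ D)) := by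
  by_cases h0 : nsq φ = 0
  · have h1 : φ = 0 := by
      have h2 := (Finset.sum_eq_zero_iff_of_nonneg (fun i _ => sq_nonneg ‖φ i‖)).mp h0
      ext i
      simpa using h2 i (Finset.mem_univ i)
    rw [h0, h1]
    simp [expv]
  · have hp : 0 < nsq φ := lt_of_le_of_ne (nsq_nonneg' φ) (Ne.symm h0)
    have hs : 0 < Real.sqrt (nsq φ) := Real.sqrt_pos.2 hp
    have hss : Real.sqrt (nsq φ) * Real.sqrt (nsq φ) = nsq φ := Real.mul_self_sqrt hp.le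
    obtain ⟨χ, hχ⟩ : ∃ χ : N → ℂ, χ = ((Real.sqrt (nsq φ))⁻¹ : ℂ) • φ := ⟨_, rfl⟩
    have e1 : φ = ((Real.sqrt (nsq φ) : ℝ) : ℂ) • χ := by
      rw [hχ, smul_smul, mul_inv_cancel₀ (by exact_mod_cast hs.ne'), one_smul]
    have e2 : nsq χ = 1 := by
      rw [hχ, nsq_smul, norm_inv, Complex.norm_real, Real.norm_of_nonneg hs.le, inv_pow, sq, hss,
        inv_mul_cancel₀ h0]
    have e3 : ∀ M : Matrix N N ℂ, star φ ⬝ᵥ (M *ᵥ φ) = (nsq φ : ℂ) * (star χ ⬝ᵥ (M *ᵥ χ)) := by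
      intro M
      conv_lhs => rw [e1]
      rw [star_smul, smul_dotProduct, mulVec_smul, dotProduct_smul, smul_eq_mul, smul_eq_mul,
        ← mul_assoc]
      congr 1
      rw [Complex.star_def, Complex.conj_ofReal]
      exact_mod_cast hss
    have e4 : expv φ D = nsq φ * expv χ D := by
      rw [expv, e3, Complex.re_ofReal_mul]; rfl
    have h1 := h χ e2
    rw [e3, ← mul_sub, norm_mul, Complex.norm_real, Real.norm_of_nonneg hp.le, e4]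
    rw [Real.sqrt_mul hp.le, ← mul_assoc (Real.sqrt (nsq φ)), hss]
    calc nsq φ * ‖star χ ⬝ᵥ (X *ᵥ χ) - z‖ ≤
        nsq φ * (a * expv χ D + c * Real.sqrt (expv χ D)) := mul_le_mul_of_nonneg_left h1 hp.le
      _ = _ := by ring

/-- the detectors of the first copy see mixed states of the first copy -/
theorem det_slice_one {X D : Op V q} {z : ℂ} {a c : ℝ} (hc : 0 ≤ c)
    (hD : ∀ φ : Conf V q → ℂ, 0 ≤ expv φ D)
    (h : ∀ φ : Conf V q → ℂ, nsq φ = 1 → ‖star φ ⬝ᵥ (X *ᵥ φ) - z‖ ≤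
      a * expv φ D + c * Real.sqrt (expv φ D)) {ψ : Conf (V ⊕ W) q → ℂ} (hψ : nsq ψ = 1) :
    ‖star ψ ⬝ᵥ ((cp1 X : Op (V ⊕ W) q) *ᵥ ψ) - z‖ ≤
      a * expv ψ (cp1 D) + c * Real.sqrt (expv ψ (cp1 D)) := by
  have e1 : expv ψ (cp1 D : Op (V ⊕ W) q) =
      ∑ b : Conf W q, expv (fun a : Conf V q => ψ (Sum.elim a b)) D := sa2_en_one D ψ
  have e2 : (1 : ℝ) = ∑ b : Conf W q, nsq fun a : Conf V q => ψ (Sum.elim a b) := by
    rw [← sa2_nsq_one, hψ]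
  have e3 : z = ∑ b : Conf W q, ((nsq fun a : Conf V q => ψ (Sum.elim a b) : ℝ) : ℂ) * z := by
    rw [← Finset.sum_mul, ← Complex.ofReal_sum, ← e2, Complex.ofReal_one, one_mul]
  rw [dg_slice_one]
  conv_lhs => rw [e3]
  rw [← Finset.sum_sub_distrib]
  refine (norm_sum_le _ _).trans ?_
  refine (Finset.sum_le_sum fun b _ => dg_scale h _).trans ?_
  rw [Finset.sum_add_distrib, ← Finset.mul_sum, ← Finset.mul_sum, ← e1]
  refine add_le_add_right (mul_le_mul_of_nonneg_left ?_ hc) _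
  have h1 := Real.sum_sqrt_mul_sqrt_le (Finset.univ : Finset (Conf W q))
    (fun b => nsq_nonneg' fun a : Conf V q => ψ (Sum.elim a b))
    (fun b => hD fun a : Conf V q => ψ (Sum.elim a b))
  rw [← e2, ← e1, Real.sqrt_one, one_mul] at h1
  exact h1

theorem det_slice_two {X D : Op W q} {z : ℂ} {a c : ℝ} (hc : 0 ≤ c)
    (hD : ∀ φ : Conf W q → ℂ, 0 ≤ expv φ D)
    (h : ∀ φ : Conf W q → ℂ, nsq φ = 1 → ‖star φ ⬝ᵥ (X *ᵥ φ) - z‖ ≤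
      a * expv φ D + c * Real.sqrt (expv φ D)) {ψ : Conf (V ⊕ W) q → ℂ} (hψ : nsq ψ = 1) :
    ‖star ψ ⬝ᵥ ((cp2 X : Op (V ⊕ W) q) *ᵥ ψ) - z‖ ≤
      a * expv ψ (cp2 D) + c * Real.sqrt (expv ψ (cp2 D)) := by
  have e1 : expv ψ (cp2 D : Op (V ⊕ W) q) =
      ∑ a : Conf V q, expv (fun b : Conf W q => ψ (Sum.elim a b)) D := sa2_en_two D ψ
  have e2 : (1 : ℝ) = ∑ a : Conf V q, nsq fun b : Conf W q => ψ (Sum.elim a b) := by
    rw [← sa2_nsq_two, hψ]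
  have e3 : z = ∑ a : Conf V q, ((nsq fun b : Conf W q => ψ (Sum.elim a b) : ℝ) : ℂ) * z := by
    rw [← Finset.sum_mul, ← Complex.ofReal_sum, ← e2, Complex.ofReal_one, one_mul]
  rw [dg_slice_two]
  conv_lhs => rw [e3]
  rw [← Finset.sum_sub_distrib]
  refine (norm_sum_le _ _).trans ?_
  refine (Finset.sum_le_sum fun b _ => dg_scale h _).trans ?_
  rw [Finset.sum_add_distrib, ← Finset.mul_sum, ← Finset.mul_sum, ← e1]
  refine add_le_add_right (mul_le_mul_of_nonneg_left ?_ hc) _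
  have h1 := Real.sum_sqrt_mul_sqrt_le (Finset.univ : Finset (Conf V q))
    (fun a => nsq_nonneg' fun b : Conf W q => ψ (Sum.elim a b))
    (fun a => hD fun b : Conf W q => ψ (Sum.elim a b))
  rw [← e2, ← e1, Real.sqrt_one, one_mul] at h1
  exact h1

end dblgap932

end Vale.Agent.P356.GA
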