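import Vale.Agent.P356.GA.Gamma185
import Vale.Agent.P356.GA.Glue107
import Vale.Agent.P356.GA.Defs341
import Vale.Agent.P356.GA.DblGap932

/-!
# The first order term of `Core` (helper185)

`ft_gamma185`: the healing operator in the dressed functional of nested regions, against its value
in a reference state. `gamma_core185`: the two-layer system of `Defs341`, with explicit error.
-/

set_option linter.all false

namespace Vale.Agent.P356.GA

open Matrix Finset Vale.Agent.P356 Vale.Agent.P356.SV Vale.Agent.P356.Path Vale.Agent.P356.NA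
open Vale.Agent.P356.SA Vale.Agent.P356.PH
open scoped BigOperators ComplexOrder Kronecker Matrix.Norms.L2Operator

section lin
variable {N : Type*} [Fintype N] [DecidableEq N] {α β : ℕ → Type*} [∀ k, Fintype (α k)]
  [∀ k, DecidableEq (α k)] [∀ k, Fintype (β k)] [∀ k, DecidableEq (β k)]
variable (e : ∀ k, N ≃ α k × β k) (ψ : N → ℂ) (g : ∀ k, α k → ℝ)

theorem ft_zero185 (n : ℕ) (X : Matrix N N ℂ) :
    FT e ψ g n X (fun _ => 0) = star ψ ⬝ᵥ (X *ᵥ ψ) := by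
  have h1 : ∀ m : ℕ, prR (fun k => sg e ψ g k 0) m = 1 := by
    intro m
    induction m with
    | zero => rfl
    | succ m ih => rw [prR, ih, sg_zero, Matrix.one_mul]
  have h2 : ∀ m : ℕ, prL (fun k => sg e ψ g k (-0)) m = 1 := by
    intro m
    induction m with
    | zero => rfl
    | succ m ih => rw [prL, ih, neg_zero, sg_zero, Matrix.mul_one]
  rw [FT, h1, h2, Matrix.one_mul, Matrix.mul_one]

theorem ft_sum185 (n : ℕ) {ι : Type*} (s : Finset ι) (w : ι → ℂ) (K : ι → Matrix N N ℂ)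
    (z : ℕ → ℂ) : FT e ψ g n (∑ i ∈ s, w i • K i) z = ∑ i ∈ s, w i * FT e ψ g n (K i) z := by
  simp only [FT]
  rw [Matrix.mul_sum, Matrix.sum_mul, sum_mulVec, dotProduct_sum]
  refine Finset.sum_congr rfl fun i _ => ?_
  rw [Matrix.mul_smul, Matrix.smul_mul, smul_mulVec, dotProduct_smul, smul_eq_mul]

end lin

section region
variable {V : Type} [Fintype V] [DecidableEq V] {q : ℕ}

/-- one generator -/
theorem ft_one185 {R : ℕ → Finset V} (hR : ∀ j k, j ≤ k → R k ⊆ R j) {ψ : Conf V q → ℂ}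
    (hψ : nsq ψ = 1) (hq : 1 ≤ q) {M : ℝ} (hM : Fintype.card V * Real.log q ≤ M) (n : ℕ)
    (θ : ℕ → ℝ) {A : Finset V} {K : Op V q} (hA : ActsOn A K) {a ρ : ℝ} (ha : ‖K‖ ≤ a)
    (hρ : 0 < ρ) (h : ρ * (∑ k ∈ crs107 A R n, |θ k|) * (4 * A.card * Real.log q + 2) ≤ 1)
    {ζ : ℂ} (hζ : ‖ζ‖ ≤ ρ) :
    ‖FT (fun k => cut (R k) q) ψ (gL (fun k => cut (R k) q) ψ θ M) n K (fun _ => ζ) -
      star ψ ⬝ᵥ (K *ᵥ ψ)‖ ≤ 2 * (Real.exp 1 * a) * (‖ζ‖ / ρ) := by
  have ha0 : 0 ≤ a := (norm_nonneg K).trans ha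
  have h1 := entire_close185 (f := fun ζ : ℂ => FT (fun k => cut (R k) q) ψ
    (gL (fun k => cut (R k) q) ψ θ M) n K (fun _ => ζ))
    (gL_differentiable R ψ θ M n (X := fun _ => K) (fun i j => differentiable_const _)) hρ
    (B := Real.exp 1 * a) (fun z hz => gL_bound hR hψ hq hM n hρ.le (X := fun _ => K)
      (fun _ _ => hA) (fun _ _ => ha) ha0 θ h hz) hζ
  have h2 := ft_zero185 (fun k => cut (R k) q) ψ (gL (fun k => cut (R k) q) ψ θ M) n K
  rw [← h2]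
  exact h1

/-- **first order term**, nested regions -/
theorem ft_gamma185 {R : ℕ → Finset V} (hR : ∀ j k, j ≤ k → R k ⊆ R j) {ψ Φ : Conf V q → ℂ}
    (hψ : nsq ψ = 1) (hq : 1 ≤ q) {M : ℝ} (hM : Fintype.card V * Real.log q ≤ M) (n : ℕ)
    (θ : ℕ → ℝ) {ι : Type*} (s : Finset ι) {w : ι → ℝ} {K : ι → Op V q} {A : ι → Finset V}
    (hw : ∀ i ∈ s, 0 ≤ w i) (hK : ∀ i ∈ s, (K i).IsHermitian) (hA : ∀ i ∈ s, ActsOn (A i) (K i))
    {a d ρ : ι → ℝ} (ha : ∀ i ∈ s, ‖K i‖ ≤ a i) (hρ : ∀ i ∈ s, 0 < ρ i)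
    (h : ∀ i ∈ s, ρ i * (∑ k ∈ crs107 (A i) R n, |θ k|) * (4 * (A i).card * Real.log q + 2) ≤ 1)
    {t τ : ℝ} (hζ : ∀ i ∈ s, ‖(t : ℂ) * (1 + τ * Complex.I)‖ ≤ ρ i)
    (hd : ∀ i ∈ s, ‖star ψ ⬝ᵥ (K i *ᵥ ψ) - star Φ ⬝ᵥ (K i *ᵥ Φ)‖ ≤ d i) :
    ((1 + (τ : ℂ) * Complex.I) * FT (fun k => cut (R k) q) ψ
        (gL (fun k => cut (R k) q) ψ θ M) n (∑ i ∈ s, (w i : ℂ) • K i)
        (fun _ => (t : ℂ) * (1 + τ * Complex.I))).re ≤
      expv Φ (∑ i ∈ s, (w i : ℂ) • K i) + (1 + |τ|) *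
        ∑ i ∈ s, w i * (d i + 2 * (Real.exp 1 * a i) *
          (‖(t : ℂ) * (1 + τ * Complex.I)‖ / ρ i)) := by
  refine re_mul_close185 ?_
  set ζ : ℂ := (t : ℂ) * (1 + τ * Complex.I) with hζd
  have h2 := gamma_dev (ψ := ψ) (Ω := Φ) s hw hd
  have hH : (∑ i ∈ s, (w i : ℂ) • K i).IsHermitian := by
    rw [Matrix.IsHermitian, conjTranspose_sum]
    refine Finset.sum_congr rfl fun i hi => ?_
    rw [conjTranspose_smul, (hK i hi).eq]
    simp
  have h3 : star Φ ⬝ᵥ ((∑ i ∈ s, (w i : ℂ) • K i) *ᵥ Φ) =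
      ((expv Φ (∑ i ∈ s, (w i : ℂ) • K i) : ℝ) : ℂ) := by
    rw [expv]
    refine Complex.ext (by simp) ?_
    rw [Complex.ofReal_im]
    exact expL_herm hH Φ
  have h1 : ‖FT (fun k => cut (R k) q) ψ (gL (fun k => cut (R k) q) ψ θ M) n
      (∑ i ∈ s, (w i : ℂ) • K i) (fun _ => ζ) - star ψ ⬝ᵥ ((∑ i ∈ s, (w i : ℂ) • K i) *ᵥ ψ)‖ ≤
      ∑ i ∈ s, w i * (2 * (Real.exp 1 * a i) * (‖ζ‖ / ρ i)) := by
    have e0 : star ψ ⬝ᵥ ((∑ i ∈ s, (w i : ℂ) • K i) *ᵥ ψ) =
        ∑ i ∈ s, (w i : ℂ) * (star ψ ⬝ᵥ (K i *ᵥ ψ)) := by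
      rw [sum_mulVec, dotProduct_sum]
      refine Finset.sum_congr rfl fun i _ => ?_
      rw [smul_mulVec, dotProduct_smul, smul_eq_mul]
    rw [e0, ft_sum185, ← Finset.sum_sub_distrib]
    refine (norm_sum_le _ _).trans (Finset.sum_le_sum fun i hi => ?_)
    rw [← mul_sub, norm_mul, Complex.norm_real, Real.norm_of_nonneg (hw i hi)]
    exact mul_le_mul_of_nonneg_left (ft_one185 hR hψ hq hM n θ (hA i hi) (ha i hi) (hρ i hi)
      (h i hi) (hζ i hi)) (hw i hi)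
  rw [← h3]
  calc _ ≤ ‖FT (fun k => cut (R k) q) ψ (gL (fun k => cut (R k) q) ψ θ M) n
          (∑ i ∈ s, (w i : ℂ) • K i) (fun _ => ζ) -
        star ψ ⬝ᵥ ((∑ i ∈ s, (w i : ℂ) • K i) *ᵥ ψ)‖ +
      ‖star ψ ⬝ᵥ ((∑ i ∈ s, (w i : ℂ) • K i) *ᵥ ψ) -
        star Φ ⬝ᵥ ((∑ i ∈ s, (w i : ℂ) • K i) *ᵥ Φ)‖ := norm_sub_le_norm_sub_add_norm_sub _ _ _
    _ ≤ _ := by
      refine (add_le_add h1 h2).trans (le_of_eq ?_)
      rw [← Finset.sum_add_distrib]
      exact Finset.sum_congr rfl fun i _ => by ring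

end region

section geo
variable {L : ℕ}

theorem mem_slT185 {T : Site L → ℝ} {t u : ℝ} {x : Site L} :
    x ∈ slT T t u ↔ t < T x ∧ T x ≤ u := by
  unfold slT; simp

theorem mem_tileB185 {M : ℕ} {j x : Site L} :
    x ∈ tileB L M j ↔ x.1.val / M = j.1.val ∧ x.2.val / M = j.2.val := by
  unfold tileB; simp

theorem card_tileB185 {M : ℕ} (hM : 1 ≤ M) (j : Site L) : (tileB L M j).card ≤ M ^ 2 := by
  have h : (tileB L M j).card ≤ (range M ×ˢ range M).card := by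
    refine Finset.card_le_card_of_injOn (fun x => (x.1.val % M, x.2.val % M)) ?_ ?_
    · intro x _
      simp only [Finset.coe_product, Set.mem_prod, Finset.mem_coe, Finset.mem_range]
      exact ⟨Nat.mod_lt _ hM, Nat.mod_lt _ hM⟩
    · intro x hx y hy hxy
      have hx' := mem_tileB185.1 (Finset.mem_coe.1 hx)
      have hy' := mem_tileB185.1 (Finset.mem_coe.1 hy)
      have h1 : x.1.val % M = y.1.val % M := congrArg Prod.fst hxy
      have h2 : x.2.val % M = y.2.val % M := congrArg Prod.snd hxy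
      refine Prod.ext (Fin.ext ?_) (Fin.ext ?_)
      · rw [← Nat.div_add_mod x.1.val M, ← Nat.div_add_mod y.1.val M, hx'.1, hy'.1, h1]
      · rw [← Nat.div_add_mod x.2.val M, ← Nat.div_add_mod y.2.val M, hx'.2, hy'.2, h2]
  rw [Finset.card_product, Finset.card_range] at h
  rwa [sq]

/-- each site is in one tile -/
theorem sum_tile185 {M : ℕ} (hM : 1 ≤ M) (S : Finset (Site L)) :
    ∑ j : Site L, ((S ∩ tileB L M j).card : ℝ) ≤ S.card := by
  have h : ∑ j : Site L, (S ∩ tileB L M j).card ≤ S.card := by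
    rw [← Finset.card_biUnion]
    · refine Finset.card_le_card fun x hx => ?_
      obtain ⟨j, -, hj⟩ := Finset.mem_biUnion.1 hx
      exact (Finset.mem_inter.1 hj).1
    · intro j _ j' _ hjj'
      refine Finset.disjoint_left.2 fun x hx hx' => hjj' ?_
      have h1 := mem_tileB185.1 (Finset.mem_inter.1 hx).2
      have h2 := mem_tileB185.1 (Finset.mem_inter.1 hx').2
      exact Prod.ext (Fin.ext (h1.1.symm.trans h2.1)) (Fin.ext (h1.2.symm.trans h2.2))
  exact_mod_cast h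

/-- a tile has diameter at most `2 M` -/
theorem dist_tile185 {M : ℕ} (hM : 1 ≤ M) {j x y : Site L} (hx : x ∈ tileB L M j)
    (hy : y ∈ tileB L M j) : dist1 x y ≤ 2 * M := by
  have h1 := mem_tileB185.1 hx
  have h2 := mem_tileB185.1 hy
  have e1 : ∀ a b c : ℕ, a / M = c → b / M = c → ((a : ℤ) - (b : ℤ)).natAbs ≤ M := by
    intro a b c ha hb
    have h3 := Nat.div_add_mod a M
    have h4 := Nat.div_add_mod b M
    rw [ha] at h3
    rw [hb] at h4
    have h5 := Nat.mod_lt a hM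
    have h6 := Nat.mod_lt b hM
    omega
  have h3 := e1 _ _ _ h1.1 h2.1
  have h4 := e1 _ _ _ h1.2 h2.2
  unfold dist1
  omega

/-- a set of naturals of diameter less than `m` has at most `m` elements -/
theorem card_le_diam185 {s : Finset ℕ} {m : ℕ} (h : ∀ a ∈ s, ∀ b ∈ s, b < a + m) :
    s.card ≤ m := by
  rcases s.eq_empty_or_nonempty with rfl | hs
  · simp
  · have h1 : s ⊆ Finset.Ico (s.min' hs) (s.min' hs + m) := fun b hb =>
      Finset.mem_Ico.2 ⟨Finset.min'_le s b hb, h _ (Finset.min'_mem s hs) b hb⟩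
    have h2 := Finset.card_le_card h1
    rw [Nat.card_Ico] at h2
    omega

/-- sum of `f j` over the pairs `(k, j)` with a property which holds for at most `m` values of
`k` -/
theorem sum_mult185 {ι : Type*} (J : Finset ι) (K : Finset ℕ) (p : ℕ → ι → Prop)
    [∀ k j, Decidable (p k j)] {f : ι → ℝ} (hf : ∀ j ∈ J, 0 ≤ f j) {m : ℕ}
    (h : ∀ j ∈ J, ∀ a ∈ K, ∀ b ∈ K, p a j → p b j → b < a + m) :
    ∑ k ∈ K, ∑ j ∈ J, (if p k j then f j else 0) ≤ m * ∑ j ∈ J, f j := by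
  rw [Finset.sum_comm, Finset.mul_sum]
  refine Finset.sum_le_sum fun j hj => ?_
  rw [← Finset.sum_filter, Finset.sum_const, nsmul_eq_mul]
  refine mul_le_mul_of_nonneg_right ?_ (hf j hj)
  have : (K.filter fun k => p k j).card ≤ m := by
    refine card_le_diam185 fun a ha b hb => ?_
    rw [Finset.mem_filter] at ha hb
    exact h j hj a ha.1 b hb.1 ha.2 hb.2
  exact_mod_cast this

end geo

namespace Gd
variable {L : ℕ} (g : Gd L)

theorem mem_s1_185 {k : ℕ} {x : Site L} :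
    x ∈ g.s1 k ↔ g.t0 + k < g.T x ∧ g.T x ≤ g.t0 + k + g.mp := mem_slT185

theorem mem_s2_185 {k : ℕ} {x : Site L} :
    x ∈ g.s2 k ↔ g.t0 + g.N - k - g.mp < g.T x ∧ g.T x ≤ g.t0 + g.N - k := mem_slT185

theorem inl_mem_R185 {k : ℕ} {x : Site L} : Sum.inl x ∈ g.R k ↔ g.t0 + k < g.T x := by
  unfold Gd.R; simp

theorem inr_mem_R185 {k : ℕ} {x : Site L} : Sum.inr x ∈ g.R k ↔ g.T x ≤ g.t0 + g.N - k := by
  unfold Gd.R; simp

theorem R_anti185 : ∀ j k, j ≤ k → g.R k ⊆ g.R j := by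
  intro j k hjk v hv
  have h : (j : ℝ) ≤ k := by exact_mod_cast hjk
  rcases v with x | x
  · rw [inl_mem_R185] at hv ⊢
    linarith
  · rw [inr_mem_R185] at hv ⊢
    linarith

/-- a part of a slab of layer one is crossed by at most `mp` lines -/
theorem crs_one185 {A : Finset (Site L)} {k : ℕ} (hA : A ⊆ g.s1 k) (n : ℕ) :
    (crs107 (A.disjSum (∅ : Finset (Site L))) g.R n).card ≤ g.mp := by
  classical
  refine (Finset.card_le_card (t := Finset.Ico k (k + g.mp)) ?_).trans (by simp)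
  intro i hi
  unfold crs107 at hi
  obtain ⟨h1, h2⟩ := (Finset.mem_filter.1 hi).2
  rw [Finset.not_subset] at h1
  obtain ⟨v, hv, hvR⟩ := h1
  rw [Finset.not_disjoint_iff] at h2
  obtain ⟨v', hv', hvR'⟩ := h2
  rcases v with x | x
  · rcases v' with y | y
    · rw [Finset.inl_mem_disjSum] at hv hv'
      rw [inl_mem_R185] at hvR hvR'
      have h3 := (g.mem_s1_185.1 (hA hv)).1
      have h4 := (g.mem_s1_185.1 (hA hv')).2
      have h5 : (k : ℝ) < i := by linarith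
      have h6 : (i : ℝ) < k + g.mp := by linarith
      rw [Finset.mem_Ico]
      constructor
      · exact (by exact_mod_cast h5 : k < i).le
      · exact_mod_cast h6
    · simp at hv'
  · simp at hv

/-- a part of a slab of layer two is crossed by at most `mp` lines -/
theorem crs_two185 {A : Finset (Site L)} {k : ℕ} (hA : A ⊆ g.s2 k) (n : ℕ) :
    (crs107 ((∅ : Finset (Site L)).disjSum A) g.R n).card ≤ g.mp := by
  classical
  refine (Finset.card_le_card (t := Finset.Ico k (k + g.mp)) ?_).trans (by simp)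
  intro i hi
  unfold crs107 at hi
  obtain ⟨h1, h2⟩ := (Finset.mem_filter.1 hi).2
  rw [Finset.not_subset] at h1
  obtain ⟨v, hv, hvR⟩ := h1
  rw [Finset.not_disjoint_iff] at h2
  obtain ⟨v', hv', hvR'⟩ := h2
  rcases v with x | x
  · simp at hv
  · rcases v' with y | y
    · simp at hv'
    · rw [Finset.inr_mem_disjSum] at hv hv'
      rw [inr_mem_R185] at hvR hvR'
      have h3 := (g.mem_s2_185.1 (hA hv)).2
      have h4 := (g.mem_s2_185.1 (hA hv')).1
      have h5 : (k : ℝ) < i := by linarith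
      have h6 : (i : ℝ) < k + g.mp := by linarith
      rw [Finset.mem_Ico]
      constructor
      · exact (by exact_mod_cast h5 : k < i).le
      · exact_mod_cast h6

/-- the ring -/
noncomputable def ring185 : Finset (Site L) := slT g.T g.t0 (g.t0 + g.N)

theorem s1_ring185 (h : g.n + g.mp ≤ g.N) {k : ℕ} (hk : k < g.n) : g.s1 k ⊆ g.ring185 := by
  intro x hx
  have h1 := g.mem_s1_185.1 hx
  unfold ring185
  rw [mem_slT185]
  have h2 : (g.n : ℝ) + g.mp ≤ g.N := by exact_mod_cast h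
  have h3 : (k : ℝ) < g.n := by exact_mod_cast hk
  have h4 : (0 : ℝ) ≤ k := Nat.cast_nonneg k
  exact ⟨by linarith [h1.1], by linarith [h1.2]⟩

theorem s2_ring185 (h : g.n + g.mp ≤ g.N) {k : ℕ} (hk : k < g.n) : g.s2 k ⊆ g.ring185 := by
  intro x hx
  have h1 := g.mem_s2_185.1 hx
  unfold ring185
  rw [mem_slT185]
  have h2 : (g.n : ℝ) + g.mp ≤ g.N := by exact_mod_cast h
  have h3 : (k : ℝ) < g.n := by exact_mod_cast hk
  have h4 : (0 : ℝ) ≤ k := Nat.cast_nonneg k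
  exact ⟨by linarith [h1.1], by linarith [h1.2]⟩

/-- each site is in at most `mp` slabs -/
theorem sum_s1_185 (h : g.n + g.mp ≤ g.N) :
    ∑ k ∈ range g.n, ((g.s1 k).card : ℝ) ≤ g.mp * g.ring185.card := by
  classical
  have h1 : ∀ k ∈ range g.n, ((g.s1 k).card : ℝ) =
      ∑ x ∈ g.ring185, (if x ∈ g.s1 k then (1:ℝ) else 0) := by
    intro k hk
    rw [← Finset.sum_filter, Finset.sum_const, nsmul_eq_mul, mul_one]
    congr 2
    ext x
    rw [Finset.mem_filter]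
    exact ⟨fun hx => ⟨g.s1_ring185 h (Finset.mem_range.1 hk) hx, hx⟩, fun hx => hx.2⟩
  rw [Finset.sum_congr rfl h1]
  refine (sum_mult185 g.ring185 (range g.n) (fun k x => x ∈ g.s1 k) (f := fun _ => (1:ℝ))
    (fun _ _ => zero_le_one) (m := g.mp) ?_).trans (le_of_eq ?_)
  · intro x _ a _ b _ ha hb
    have h2 := (g.mem_s1_185.1 ha).2
    have h3 := (g.mem_s1_185.1 hb).1
    have h4 : (b : ℝ) < a + g.mp := by linarith
    exact_mod_cast h4
  · rw [Finset.sum_const, nsmul_eq_mul, mul_one]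

theorem sum_s2_185 (h : g.n + g.mp ≤ g.N) :
    ∑ k ∈ range g.n, ((g.s2 k).card : ℝ) ≤ g.mp * g.ring185.card := by
  classical
  have h1 : ∀ k ∈ range g.n, ((g.s2 k).card : ℝ) =
      ∑ x ∈ g.ring185, (if x ∈ g.s2 k then (1:ℝ) else 0) := by
    intro k hk
    rw [← Finset.sum_filter, Finset.sum_const, nsmul_eq_mul, mul_one]
    congr 2
    ext x
    rw [Finset.mem_filter]
    exact ⟨fun hx => ⟨g.s2_ring185 h (Finset.mem_range.1 hk) hx, hx⟩, fun hx => hx.2⟩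
  rw [Finset.sum_congr rfl h1]
  refine (sum_mult185 g.ring185 (range g.n) (fun k x => x ∈ g.s2 k) (f := fun _ => (1:ℝ))
    (fun _ _ => zero_le_one) (m := g.mp) ?_).trans (le_of_eq ?_)
  · intro x _ a _ b _ ha hb
    have h2 := (g.mem_s2_185.1 ha).1
    have h3 := (g.mem_s2_185.1 hb).2
    have h4 : (b : ℝ) < a + g.mp := by linarith
    exact_mod_cast h4
  · rw [Finset.sum_const, nsmul_eq_mul, mul_one]

/-- a tile meets at most `mp + 4 tl` slabs of layer one -/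
theorem mult_s1_185 (htl : 1 ≤ g.tl) (hT : ∀ x y, |g.T x - g.T y| ≤ 2 * dist1 x y) {j : Site L}
    {a b : ℕ} (ha : (g.s1 a ∩ tileB L g.tl j).Nonempty) (hb : (g.s1 b ∩ tileB L g.tl j).Nonempty) :
    b < a + (g.mp + 4 * g.tl) := by
  obtain ⟨x, hx⟩ := ha
  obtain ⟨y, hy⟩ := hb
  have h1 := (g.mem_s1_185.1 (Finset.mem_inter.1 hx).1).2
  have h2 := (g.mem_s1_185.1 (Finset.mem_inter.1 hy).1).1
  have h3 := dist_tile185 htl (Finset.mem_inter.1 hy).2 (Finset.mem_inter.1 hx).2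
  have h4 := (abs_le.1 (hT y x)).2
  have h5 : (dist1 y x : ℝ) ≤ 2 * g.tl := by exact_mod_cast h3
  have h6 : (b : ℝ) < a + (g.mp + 4 * g.tl) := by linarith
  exact_mod_cast h6

theorem mult_s2_185 (htl : 1 ≤ g.tl) (hT : ∀ x y, |g.T x - g.T y| ≤ 2 * dist1 x y) {j : Site L}
    {a b : ℕ} (ha : (g.s2 a ∩ tileB L g.tl j).Nonempty) (hb : (g.s2 b ∩ tileB L g.tl j).Nonempty) :
    b < a + (g.mp + 4 * g.tl) := by
  obtain ⟨x, hx⟩ := ha
  obtain ⟨y, hy⟩ := hb
  have h1 := (g.mem_s2_185.1 (Finset.mem_inter.1 hx).1).1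
  have h2 := (g.mem_s2_185.1 (Finset.mem_inter.1 hy).1).2
  have h3 := dist_tile185 htl (Finset.mem_inter.1 hy).2 (Finset.mem_inter.1 hx).2
  have h4 := (abs_le.1 (hT y x)).1
  have h5 : (dist1 y x : ℝ) ≤ 2 * g.tl := by exact_mod_cast h3
  have h6 : (b : ℝ) < a + (g.mp + 4 * g.tl) := by linarith
  exact_mod_cast h6

end Gd

section centers
variable {L : ℕ}

theorem tile_center185 (S : Finset (Site L)) (M : ℕ) : ∃ c : Site L → Site L,
    ∀ j, (S ∩ tileB L M j).Nonempty → c j ∈ S ∩ tileB L M j := by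
  classical
  refine ⟨fun j => if h : (S ∩ tileB L M j).Nonempty then h.choose else j, fun j hj => ?_⟩
  simp only [dif_pos hj]
  exact hj.choose_spec

open Classical in
theorem sum_center185 {S Z : Finset (Site L)} (hSZ : S ⊆ Z) {M : ℕ} {c : Site L → Site L}
    (hc : ∀ j, (S ∩ tileB L M j).Nonempty → c j ∈ S ∩ tileB L M j) {dev : Site L → ℝ}
    (hdev : ∀ z, 0 ≤ dev z) :
    ∑ j : Site L, (if (S ∩ tileB L M j).Nonempty then dev (c j) else 0) ≤ ∑ z ∈ Z, dev z := by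
  rw [← Finset.sum_filter]
  have hinj : Set.InjOn c ((Finset.univ.filter fun j => (S ∩ tileB L M j).Nonempty :
      Finset (Site L)) : Set (Site L)) := by
    intro j hj j' hj' h
    have h1 := hc j (Finset.mem_filter.1 (Finset.mem_coe.1 hj)).2
    have h2 := hc j' (Finset.mem_filter.1 (Finset.mem_coe.1 hj')).2
    rw [← h] at h2
    have h3 := mem_tileB185.1 (Finset.mem_inter.1 h1).2
    have h4 := mem_tileB185.1 (Finset.mem_inter.1 h2).2
    exact Prod.ext (Fin.ext (h3.1.symm.trans h4.1)) (Fin.ext (h3.2.symm.trans h4.2))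
  rw [← Finset.sum_image (f := dev) (fun a ha b hb hab => hinj ha hb hab)]
  refine Finset.sum_le_sum_of_subset_of_nonneg ?_ fun z _ _ => hdev z
  intro z hz
  obtain ⟨j, hj, rfl⟩ := Finset.mem_image.1 hz
  exact hSZ (Finset.mem_inter.1 (hc j (Finset.mem_filter.1 hj).2)).1

end centers

section core
variable {L q : ℕ}

/-- the tile expectations of one layer -/
theorem tile_dev185 {M n mu r : ℕ} (hM : 1 ≤ M) (hr : 2 * M ≤ r) {s : ℕ → Finset (Site L)}
    {S Z : Finset (Site L)} (hs : ∀ k < n, s k ⊆ S) (hSZ : S ⊆ Z)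
    (hmu : ∀ j : Site L, ∀ a ∈ range n, ∀ b ∈ range n, (s a ∩ tileB L M j).Nonempty →
      (s b ∩ tileB L M j).Nonempty → b < a + mu)
    {Kt : Finset (Site L) → Op (Site L) q} (hKt : ∀ b, ActsOn b (Kt b)) {κ : ℝ} (hκ : 0 ≤ κ)
    (hKn : ∀ b, ‖Kt b‖ ≤ b.card * κ) {dev : Site L → ℝ} (hd0 : ∀ z, 0 ≤ dev z)
    {F : Op (Site L) q → ℂ} (hF0 : F 0 = 0)
    (hdev : ∀ z, ∀ X : Op (Site L) q, ActsOn (ball z r) X → ‖F X‖ ≤ dev z * ‖X‖) :
    ∃ d : ℕ × Site L → ℝ, (∀ p ∈ range n ×ˢ (Finset.univ : Finset (Site L)),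
        ‖F (Kt (s p.1 ∩ tileB L M p.2))‖ ≤ d p) ∧
      ∑ p ∈ range n ×ˢ (Finset.univ : Finset (Site L)), d p ≤
        mu * ((M : ℝ) ^ 2 * κ * ∑ z ∈ Z, dev z) := by
  classical
  obtain ⟨c, hc⟩ := tile_center185 S M
  have hsub : ∀ k ∈ range n, ∀ j, (s k ∩ tileB L M j).Nonempty →
      (S ∩ tileB L M j).Nonempty := fun k hk j h =>
    h.mono (Finset.inter_subset_inter_right (hs k (Finset.mem_range.1 hk)))
  refine ⟨fun p => if (s p.1 ∩ tileB L M p.2).Nonempty then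
    (if (S ∩ tileB L M p.2).Nonempty then dev (c p.2) else 0) * ((M : ℝ) ^ 2 * κ) else 0, ?_, ?_⟩
  · rintro ⟨k, j⟩ hp
    obtain ⟨hk, -⟩ := Finset.mem_product.1 hp
    simp only at hk ⊢
    by_cases h : (s k ∩ tileB L M j).Nonempty
    · have h1 := hsub k hk j h
      rw [if_pos h, if_pos h1]
      have h2 := (Finset.mem_inter.1 (hc j h1)).2
      have h3 : s k ∩ tileB L M j ⊆ ball (c j) r := by
        intro x hx
        have h4 := dist_tile185 hM (Finset.mem_inter.1 hx).2 h2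
        unfold ball
        rw [Finset.mem_filter]
        exact ⟨Finset.mem_univ _, h4.trans hr⟩
      refine (hdev (c j) _ (ph_acts_mono h3 (hKt _))).trans
        (mul_le_mul_of_nonneg_left ?_ (hd0 _))
      refine (hKn _).trans (mul_le_mul_of_nonneg_right ?_ hκ)
      have h5 : (s k ∩ tileB L M j).card ≤ M ^ 2 :=
        (Finset.card_le_card Finset.inter_subset_right).trans (card_tileB185 hM j)
      exact_mod_cast h5
    · rw [if_neg h]
      have h1 : Kt (s k ∩ tileB L M j) = 0 := by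
        have h2 := hKn (s k ∩ tileB L M j)
        rw [Finset.not_nonempty_iff_eq_empty.1 h] at h2 ⊢
        rw [Finset.card_empty, Nat.cast_zero, zero_mul] at h2
        exact norm_eq_zero.1 (le_antisymm h2 (norm_nonneg _))
      rw [h1, hF0, norm_zero]
  · rw [Finset.sum_product]
    simp only
    have h1 : ∀ j ∈ (Finset.univ : Finset (Site L)),
        0 ≤ (if (S ∩ tileB L M j).Nonempty then dev (c j) else 0) * ((M : ℝ) ^ 2 * κ) := by
      intro j _
      refine mul_nonneg ?_ (by positivity)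
      split_ifs
      · exact hd0 _
      · exact le_rfl
    refine (sum_mult185 Finset.univ (range n) (fun k j => (s k ∩ tileB L M j).Nonempty) h1
      (m := mu) (fun j _ a ha b hb h2 h3 => hmu j a ha b hb h2 h3)).trans ?_
    refine mul_le_mul_of_nonneg_left ?_ (Nat.cast_nonneg _)
    rw [← Finset.sum_mul, mul_comm]
    exact mul_le_mul_of_nonneg_left (sum_center185 hSZ hc hd0) (by positivity)

/-- **First order term of the two-layer system**, with explicit error. -/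
theorem gamma_core185 (g : Gd L) {θ M τ t κ D : ℝ} {Kt : Finset (Site L) → Op (Site L) q}
    {Ω' : Conf (Site L) q → ℂ} {ψ : Conf (Site L ⊕ Site L) q → ℂ} {r : ℕ}
    {Z : Finset (Site L)} {dev1 dev2 : Site L → ℝ} (hψ : nsq ψ = 1) (hΩ' : nsq Ω' = 1)
    (hq : 1 ≤ q) (hM : Fintype.card (Site L ⊕ Site L) * Real.log q ≤ M) (hθ : 0 < θ)
    (htl : 1 ≤ g.tl) (hmp : 1 ≤ g.mp) (hN : g.n + g.mp ≤ g.N)
    (hT : ∀ x y, |g.T x - g.T y| ≤ 2 * dist1 x y)
    (hKt : ∀ b, (Kt b).IsHermitian ∧ ActsOn b (Kt b)) (hκ : 0 ≤ κ)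
    (hKn : ∀ b, ‖Kt b‖ ≤ b.card * κ)
    (hζ : ‖(t : ℂ) * (1 + τ * Complex.I)‖ *
      (g.mp * θ * (4 * (g.tl : ℝ) ^ 2 * Real.log q + 2)) ≤ 1)
    (hZ : g.ring185 ⊆ Z) (hr : 2 * g.tl ≤ r) (hd0 : ∀ z, 0 ≤ dev1 z ∧ 0 ≤ dev2 z)
    (hdev : ∀ z, ∀ X : Op (Site L) q, ActsOn (ball z r) X →
      ‖star ψ ⬝ᵥ ((cp1 X : Op (Site L ⊕ Site L) q) *ᵥ ψ) - star Ω' ⬝ᵥ (X *ᵥ Ω')‖ ≤
        dev1 z * ‖X‖ ∧
      ‖star ψ ⬝ᵥ ((cp2 X : Op (Site L ⊕ Site L) q) *ᵥ ψ) - star Ω' ⬝ᵥ (X *ᵥ Ω')‖ ≤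
        dev2 z * ‖X‖)
    (hD : ∑ z ∈ Z, (dev1 z + dev2 z) ≤ D) :
    ((1 + (τ : ℂ) * Complex.I) * g.wkv θ M τ t ψ (g.Gm θ Kt)).re ≤
      expv (dbl Ω' Ω') (g.Gm θ Kt) + (1 + |τ|) * (θ / 2 * κ *
        ((g.mp + 4 * g.tl) * (g.tl : ℝ) ^ 2 * D +
          4 * Real.exp 1 * (‖(t : ℂ) * (1 + τ * Complex.I)‖ *
            (g.mp * θ * (4 * (g.tl : ℝ) ^ 2 * Real.log q + 2))) * (g.mp * g.ring185.card))) := by
  classical
  set Θ : ℝ := g.mp * θ * (4 * (g.tl : ℝ) ^ 2 * Real.log q + 2) with hΘd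
  have hmp' : (1 : ℝ) ≤ g.mp := by exact_mod_cast hmp
  have hlog : 0 ≤ Real.log q := Real.log_nonneg (by exact_mod_cast hq)
  have hΘ : 0 < Θ := by positivity
  set ζ : ℂ := (t : ℂ) * (1 + τ * Complex.I) with hζd
  -- the tile expectations
  obtain ⟨d1, hd1, hd1s⟩ := tile_dev185 (M := g.tl) (n := g.n) (mu := g.mp + 4 * g.tl) (r := r)
    htl hr (s := g.s1) (S := g.ring185) (Z := Z) (fun k hk => g.s1_ring185 hN hk) hZ
    (fun j a _ b _ ha hb => g.mult_s1_185 htl hT ha hb) (Kt := Kt) (fun b => (hKt b).2) hκ hKn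
    (dev := dev1) (fun z => (hd0 z).1)
    (F := fun X => star ψ ⬝ᵥ ((cp1 X : Op (Site L ⊕ Site L) q) *ᵥ ψ) - star Ω' ⬝ᵥ (X *ᵥ Ω'))
    (by
      have h0 : (cp1 (0 : Op (Site L) q) : Op (Site L ⊕ Site L) q) = 0 := by
        have := cp1_smul (W := Site L) (0 : ℂ) (0 : Op (Site L) q)
        rwa [zero_smul, zero_smul] at this
      simp only [h0, zero_mulVec, dotProduct_zero, sub_zero])
    (fun z X hX => (hdev z X hX).1)
  obtain ⟨d2, hd2, hd2s⟩ := tile_dev185 (M := g.tl) (n := g.n) (mu := g.mp + 4 * g.tl) (r := r)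
    htl hr (s := g.s2) (S := g.ring185) (Z := Z) (fun k hk => g.s2_ring185 hN hk) hZ
    (fun j a _ b _ ha hb => g.mult_s2_185 htl hT ha hb) (Kt := Kt) (fun b => (hKt b).2) hκ hKn
    (dev := dev2) (fun z => (hd0 z).2)
    (F := fun X => star ψ ⬝ᵥ ((cp2 X : Op (Site L ⊕ Site L) q) *ᵥ ψ) - star Ω' ⬝ᵥ (X *ᵥ Ω'))
    (by
      have h0 : (cp2 (0 : Op (Site L) q) : Op (Site L ⊕ Site L) q) = 0 := by
        have := cp2_smul (V := Site L) (0 : ℂ) (0 : Op (Site L) q)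
        rwa [zero_smul, zero_smul] at this
      simp only [h0, zero_mulVec, dotProduct_zero, sub_zero])
    (fun z X hX => (hdev z X hX).2)
  -- one index set for the two layers
  set P : Finset (ℕ × Site L) := range g.n ×ˢ (Finset.univ : Finset (Site L)) with hP
  set K : (ℕ × Site L) ⊕ (ℕ × Site L) → Op (Site L ⊕ Site L) q :=
    Sum.elim (fun p => cp1 (Kt (g.s1 p.1 ∩ tileB L g.tl p.2)))
      (fun p => cp2 (Kt (g.s2 p.1 ∩ tileB L g.tl p.2))) with hKdef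
  set A : (ℕ × Site L) ⊕ (ℕ × Site L) → Finset (Site L ⊕ Site L) :=
    Sum.elim (fun p => (g.s1 p.1 ∩ tileB L g.tl p.2).disjSum ∅)
      (fun p => (∅ : Finset (Site L)).disjSum (g.s2 p.1 ∩ tileB L g.tl p.2)) with hAdef
  set a : (ℕ × Site L) ⊕ (ℕ × Site L) → ℝ :=
    Sum.elim (fun p => ((g.s1 p.1 ∩ tileB L g.tl p.2).card : ℝ) * κ)
      (fun p => ((g.s2 p.1 ∩ tileB L g.tl p.2).card : ℝ) * κ) with hadef
  have hG : g.Gm θ Kt = ∑ i ∈ P.disjSum P, (((fun _ => θ / 2 : (ℕ × Site L) ⊕ (ℕ × Site L) → ℝ)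
      i : ℝ) : ℂ) • K i := by
    rw [Finset.sum_disjSum, hP, Finset.sum_product, Finset.sum_product, Gd.Gm, Gd.Gm1, Gd.Gm2,
      cp1_sum, cp2_sum]
    congr 1
    · refine Finset.sum_congr rfl fun k _ => ?_
      rw [cp1_sum]
      exact Finset.sum_congr rfl fun j _ => by rw [cp1_smul]; rfl
    · refine Finset.sum_congr rfl fun k _ => ?_
      rw [cp2_sum]
      exact Finset.sum_congr rfl fun j _ => by rw [cp2_smul]; rfl
  have hcardA : ∀ i, ((A i).card : ℝ) ≤ (g.tl : ℝ) ^ 2 := by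
    intro i
    have h5 : ∀ (S : Finset (Site L)) (j : Site L), (S ∩ tileB L g.tl j).card ≤ g.tl ^ 2 :=
      fun S j => (Finset.card_le_card Finset.inter_subset_right).trans (card_tileB185 htl j)
    rcases i with p | p
    · have h6 : (A (Sum.inl p)).card ≤ g.tl ^ 2 := by
        rw [hAdef, Sum.elim_inl, Finset.card_disjSum, Finset.card_empty, add_zero]
        exact h5 _ _
      exact_mod_cast h6
    · have h6 : (A (Sum.inr p)).card ≤ g.tl ^ 2 := by
        rw [hAdef, Sum.elim_inr, Finset.card_disjSum, Finset.card_empty, zero_add]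
        exact h5 _ _
      exact_mod_cast h6
  have hcrs : ∀ i, ((crs107 (A i) g.R g.n).card : ℝ) ≤ g.mp := by
    intro i
    rcases i with p | p
    · exact_mod_cast g.crs_one185 (A := g.s1 p.1 ∩ tileB L g.tl p.2) (k := p.1)
        Finset.inter_subset_left g.n
    · exact_mod_cast g.crs_two185 (A := g.s2 p.1 ∩ tileB L g.tl p.2) (k := p.1)
        Finset.inter_subset_left g.n
  have hmain := ft_gamma185 (R := g.R) (g.R_anti185) (ψ := ψ) (Φ := dbl Ω' Ω') hψ hq hM g.n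
    (fun _ => θ) (P.disjSum P) (w := fun _ => θ / 2) (K := K) (A := A)
    (fun _ _ => by positivity)
    (by
      intro i _
      rcases i with p | p
      · change (cp1 _ : Op (Site L ⊕ Site L) q).IsHermitian
        rw [Matrix.IsHermitian, cp1_ct, (hKt _).1.eq]
      · change (cp2 _ : Op (Site L ⊕ Site L) q).IsHermitian
        rw [Matrix.IsHermitian, cp2_ct, (hKt _).1.eq])
    (by
      intro i _
      rcases i with p | p
      · exact cp1_acts (hKt _).2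
      · exact cp2_acts (hKt _).2)
    (a := a) (d := Sum.elim d1 d2) (ρ := fun _ => Θ⁻¹)
    (by
      intro i _
      rcases i with p | p
      · exact (dg_norm_one _).trans (hKn _)
      · exact (dg_norm_two _).trans (hKn _))
    (fun _ _ => inv_pos.2 hΘ)
    (by
      intro i _
      rw [Finset.sum_const, nsmul_eq_mul, abs_of_pos hθ]
      have h1 := hcrs i
      have h2 := hcardA i
      have h3 : ((crs107 (A i) g.R g.n).card : ℝ) * θ * (4 * (A i).card * Real.log q + 2) ≤ Θ := by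
        rw [hΘd]
        refine mul_le_mul (mul_le_mul_of_nonneg_right h1 hθ.le) ?_ (by positivity) (by positivity)
        have := mul_le_mul_of_nonneg_right h2 hlog
        linarith
      rw [mul_assoc, inv_mul_le_iff₀ hΘ, mul_one]
      exact h3)
    (t := t) (τ := τ)
    (by
      intro i _
      rw [← one_div, le_div_iff₀ hΘ]
      exact hζ)
    (by
      intro i hi
      rcases i with p | p
      · have hp := Finset.inl_mem_disjSum.1 hi
        change ‖star ψ ⬝ᵥ ((cp1 _ : Op (Site L ⊕ Site L) q) *ᵥ ψ) -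
          star (dbl Ω' Ω') ⬝ᵥ ((cp1 _ : Op (Site L ⊕ Site L) q) *ᵥ dbl Ω' Ω')‖ ≤ d1 p
        rw [dg_exp_one hΩ']
        exact hd1 p hp
      · have hp := Finset.inr_mem_disjSum.1 hi
        change ‖star ψ ⬝ᵥ ((cp2 _ : Op (Site L ⊕ Site L) q) *ᵥ ψ) -
          star (dbl Ω' Ω') ⬝ᵥ ((cp2 _ : Op (Site L ⊕ Site L) q) *ᵥ dbl Ω' Ω')‖ ≤ d2 p
        rw [dg_exp_two hΩ']
        exact hd2 p hp)
  rw [← hG] at hmain
  refine hmain.trans ?_
  refine add_le_add le_rfl (mul_le_mul_of_nonneg_left ?_ (by positivity))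
  -- the sum
  rw [Finset.sum_disjSum]
  simp only [Sum.elim_inl, Sum.elim_inr, hadef]
  have e1 : ∀ (d : ℕ × Site L → ℝ) (s : ℕ → Finset (Site L)),
      ∑ k ∈ range g.n, ((s k).card : ℝ) ≤ g.mp * g.ring185.card →
      ∑ p ∈ P, θ / 2 * (d p + 2 * (Real.exp 1 * (((s p.1 ∩ tileB L g.tl p.2).card : ℝ) * κ)) *
        (‖ζ‖ / Θ⁻¹)) ≤ θ / 2 * (∑ p ∈ P, d p + 2 * Real.exp 1 * κ * (‖ζ‖ * Θ) *
          (g.mp * g.ring185.card)) := by
    intro d s hs
    rw [← Finset.mul_sum]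
    refine mul_le_mul_of_nonneg_left ?_ (by positivity)
    rw [Finset.sum_add_distrib]
    refine add_le_add le_rfl ?_
    have h1 : ∀ p : ℕ × Site L, 2 * (Real.exp 1 * (((s p.1 ∩ tileB L g.tl p.2).card : ℝ) * κ)) *
        (‖ζ‖ / Θ⁻¹) = 2 * Real.exp 1 * κ * (‖ζ‖ * Θ) * ((s p.1 ∩ tileB L g.tl p.2).card : ℝ) := by
      intro p
      rw [div_inv_eq_mul]
      ring
    rw [Finset.sum_congr rfl fun p _ => h1 p, ← Finset.mul_sum]
    refine mul_le_mul_of_nonneg_left ?_ (by positivity)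
    rw [hP, Finset.sum_product]
    exact (Finset.sum_le_sum fun k _ => sum_tile185 htl (s k)).trans hs
  have h1 := e1 d1 g.s1 (g.sum_s1_185 hN)
  have h2 := e1 d2 g.s2 (g.sum_s2_185 hN)
  refine (add_le_add h1 h2).trans ?_
  have h3 : ∑ p ∈ P, d1 p + ∑ p ∈ P, d2 p ≤
      κ * ((g.mp + 4 * g.tl) * (g.tl : ℝ) ^ 2 * D) := by
    refine (add_le_add hd1s hd2s).trans ?_
    push_cast
    rw [Finset.sum_add_distrib] at hD
    have h4 : (0 : ℝ) ≤ ((g.mp : ℝ) + 4 * g.tl) * ((g.tl : ℝ) ^ 2 * κ) := by positivity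
    calc _ = ((g.mp : ℝ) + 4 * g.tl) * ((g.tl : ℝ) ^ 2 * κ) *
          (∑ z ∈ Z, dev1 z + ∑ z ∈ Z, dev2 z) := by ring
      _ ≤ ((g.mp : ℝ) + 4 * g.tl) * ((g.tl : ℝ) ^ 2 * κ) * D :=
          mul_le_mul_of_nonneg_left hD h4
      _ = _ := by ring
  calc θ / 2 * (∑ p ∈ P, d1 p + 2 * Real.exp 1 * κ * (‖ζ‖ * Θ) * (g.mp * g.ring185.card)) +
        θ / 2 * (∑ p ∈ P, d2 p + 2 * Real.exp 1 * κ * (‖ζ‖ * Θ) * (g.mp * g.ring185.card))
      = θ / 2 * ((∑ p ∈ P, d1 p + ∑ p ∈ P, d2 p) +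
          4 * Real.exp 1 * κ * (‖ζ‖ * Θ) * (g.mp * g.ring185.card)) := by ring
    _ ≤ θ / 2 * (κ * ((g.mp + 4 * g.tl) * (g.tl : ℝ) ^ 2 * D) +
          4 * Real.exp 1 * κ * (‖ζ‖ * Θ) * (g.mp * g.ring185.card)) :=
        mul_le_mul_of_nonneg_left (add_le_add h3 le_rfl) (by positivity)
    _ = _ := by ring

end core

end Vale.Agent.P356.GA
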