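import Vale.Agent.P356.GA.ExDataB551
import Vale.Agent.P356.GA.E11_185

/-!
# GA: `Core` from the energy estimate and the estimate of the first order term
-/

set_option linter.all false

namespace Vale.Agent.P356.GA

open Matrix Finset Filter Vale.Agent.P356 Vale.Agent.P356.SV Vale.Agent.P356.Path
open Vale.Agent.P356.NA Vale.Agent.P356.SA Vale.Agent.P356.PH Vale.Agent.P356.GA.Par
open scoped BigOperators ComplexOrder Kronecker Matrix.Norms.L2Operator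

/-- norm of the generator, one layer -/
theorem gm_layer551 {L q : ℕ} {n tl : ℕ} {s : ℕ → Finset (Site L)}
    {K : Finset (Site L) → Op (Site L) q} {θ κ A : ℝ} (hθ : 0 ≤ θ) (hκ : 0 ≤ κ)
    (hK : ∀ b, ‖K b‖ ≤ b.card * κ) (htl : 1 ≤ tl)
    (hs : ∑ k ∈ range n, ((s k).card : ℝ) ≤ A) :
    ‖∑ k ∈ range n, ∑ j : Site L, ((θ / 2 : ℝ) : ℂ) • K (s k ∩ tileB L tl j)‖ ≤
      θ / 2 * (A * κ) := by
  have h1 : ∀ k ∈ range n, ‖∑ j : Site L, ((θ / 2 : ℝ) : ℂ) • K (s k ∩ tileB L tl j)‖ ≤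
      θ / 2 * ((s k).card * κ) := by
    intro k _
    refine (norm_sum_le _ _).trans ?_
    calc ∑ j : Site L, ‖((θ / 2 : ℝ) : ℂ) • K (s k ∩ tileB L tl j)‖
        ≤ ∑ j : Site L, θ / 2 * κ * ((s k ∩ tileB L tl j).card : ℝ) := by
          refine Finset.sum_le_sum fun j _ => ?_
          rw [norm_smul, Complex.norm_real, Real.norm_eq_abs, abs_of_nonneg (by positivity)]
          have := mul_le_mul_of_nonneg_left (hK (s k ∩ tileB L tl j))
            (by positivity : 0 ≤ θ / 2)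
          linarith
      _ = θ / 2 * κ * ∑ j : Site L, ((s k ∩ tileB L tl j).card : ℝ) := by
          rw [Finset.mul_sum]
      _ ≤ θ / 2 * κ * (s k).card :=
          mul_le_mul_of_nonneg_left (sum_tile185 htl (s k)) (by positivity)
      _ = _ := by ring
  refine (norm_sum_le _ _).trans ((Finset.sum_le_sum h1).trans ?_)
  rw [← Finset.mul_sum, ← Finset.sum_mul]
  have h2 : (∑ k ∈ range n, ((s k).card : ℝ)) * κ ≤ A * κ := mul_le_mul_of_nonneg_right hs hκ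
  exact mul_le_mul_of_nonneg_left h2 (by positivity)

section
variable {q R : ℕ} {J Δ a C₁ C₂ : ℝ} {L l : ℕ} (d : CData q R J Δ a C₁ C₂ L l)

theorem CData.ring_card551 : (d.g.ring185.card : ℝ) ≤ 9 * (l : ℝ) ^ 2 := by
  refine le_trans ?_ d.area
  have h : d.g.ring185 ⊆ sa7_nb d.X d.w \ d.X := by
    intro z hz
    unfold Gd.ring185 at hz
    rw [mem_slT185] at hz
    have hb : (0 : ℝ) ≤ bw a l := Nat.cast_nonneg _
    exact d.near z (by linarith [hz.1]) (by linarith [hz.2])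
  exact_mod_cast Finset.card_le_card h

/-- the reference family -/
theorem CData.K_facts551 (hl : 1 ≤ l) (b : Finset (Site L)) :
    (d.K b).IsHermitian ∧ ActsOn b (d.K b) ∧ ‖d.K b‖ ≤ b.card * Real.log (q / cE l) := by
  have hl1 : (1 : ℝ) ≤ l := by exact_mod_cast hl
  have hl0 : (0 : ℝ) < l := lt_of_lt_of_le one_pos hl1
  have h0 : 0 < cE l := by unfold cE; exact Real.rpow_pos_of_pos hl0 _
  have h1 : cE l ≤ 1 := by
    unfold cE
    exact Real.rpow_le_one_of_one_le_of_nonpos hl1 (by norm_num)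
  exact ⟨Kt_herm _ _ _, Kt_acts h0 h1 d.gap.1 b, Kt_norm h0 h1 d.gap.1 b⟩

/-- norm of the generator of the healing -/
theorem CData.gm_norm551 (hl : 1 ≤ l) (hn : 1 ≤ d.g.n) (htl : 1 ≤ d.g.tl)
    (hκ : 0 ≤ Real.log (q / cE l))
    (hnum : (l : ℝ) ^ (xu a) * ((cP l * (9 * (l : ℝ) ^ 2)) * Real.log (q / cE l)) ≤
      (l : ℝ) ^ (4 : ℝ)) :
    ‖d.g.Gm1 d.θ d.K + d.g.Gm2 d.θ d.K‖ ≤ (l : ℝ) ^ (4 : ℝ) := by
  have hl0 : (0 : ℝ) < l := by exact_mod_cast hl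
  have hN : d.g.n + d.g.mp ≤ d.g.N := by
    have := d.mid1
    have := d.mid2
    omega
  have hu : 0 < (l : ℝ) ^ (xu a) := Real.rpow_pos_of_pos hl0 _
  have hn0 : (1 : ℝ) ≤ d.g.n := by exact_mod_cast hn
  have hθ0 : 0 ≤ d.θ := by unfold CData.θ; positivity
  have hθ : d.θ ≤ (l : ℝ) ^ (xu a) := by
    unfold CData.θ
    rw [div_le_iff₀ (by positivity)]
    nlinarith
  have hA : (d.g.mp : ℝ) * d.g.ring185.card ≤ cP l * (9 * (l : ℝ) ^ 2) := by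
    rw [d.mp]
    exact mul_le_mul_of_nonneg_left d.ring_card551 (Nat.cast_nonneg _)
  have h1 : ‖d.g.Gm1 d.θ d.K‖ ≤ d.θ / 2 * (cP l * (9 * (l : ℝ) ^ 2) * Real.log (q / cE l)) :=
    gm_layer551 hθ0 hκ (fun b => (d.K_facts551 hl b).2.2) htl ((d.g.sum_s1_185 hN).trans hA)
  have h2 : ‖d.g.Gm2 d.θ d.K‖ ≤ d.θ / 2 * (cP l * (9 * (l : ℝ) ^ 2) * Real.log (q / cE l)) :=
    gm_layer551 hθ0 hκ (fun b => (d.K_facts551 hl b).2.2) htl ((d.g.sum_s2_185 hN).trans hA)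
  refine (norm_add_le _ _).trans ?_
  have h3 : 0 ≤ cP l * (9 * (l : ℝ) ^ 2) * Real.log (q / cE l) := by positivity
  nlinarith [mul_le_mul_of_nonneg_right hθ h3]

end

/-- the numeric condition of `gm_norm551` -/
theorem ev_gm551 {a : ℝ} (ha : 0 < a) (ha1 : a ≤ 1) {q : ℕ} (hq : 1 ≤ q) :
    ∀ᶠ l : ℕ in atTop, 0 ≤ Real.log (q / cE l) ∧
      (l : ℝ) ^ (xu a) * ((cP l * (9 * (l : ℝ) ^ 2)) * Real.log (q / cE l)) ≤
      (l : ℝ) ^ (4 : ℝ) := by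
  have hx := e0_le ha1
  have hq0 : (0 : ℝ) < q := by exact_mod_cast hq
  have h1 : Up (fun l : ℕ => (l : ℝ) ^ (xu a) *
      ((cP l * (9 * (l : ℝ) ^ 2)) * Real.log (q / cE l))) (7 / 2) := by
    have h2 : Up (fun l : ℕ => (l : ℝ) ^ 2) 2 := by
      have := (Up.self).pow 2
      exact this.mono (by norm_num)
    refine ((Up.pow_self (xu a)).mul ((up_cP.mul (h2.cmul 9)).mul
      (up_logE (q : ℝ) hq0 (e := 1) (by norm_num)))).mono ?_
    unfold xu xr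
    norm_num at hx ⊢
    linarith
  filter_upwards [h1.le (e' := 4) (c := 1) (by norm_num) one_pos, ev_one] with l hl hl1
  have hl1' : (1 : ℝ) ≤ l := by exact_mod_cast hl1
  have hl0 : (0 : ℝ) < l := lt_of_lt_of_le one_pos hl1'
  refine ⟨?_, by linarith [(le_abs_self _).trans hl]⟩
  have h0 : 0 < cE l := by unfold cE; exact Real.rpow_pos_of_pos hl0 _
  have h1 : cE l ≤ 1 := by
    unfold cE
    exact Real.rpow_le_one_of_one_le_of_nonpos hl1' (by norm_num)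
  refine Real.log_nonneg ?_
  rw [le_div_iff₀ h0]
  have : (1 : ℝ) ≤ q := by exact_mod_cast hq
  linarith

/-- **`Core` from the two statements about the data.** -/
theorem Core_of551 {q R : ℕ} (hq : 1 ≤ q) {J Δ : ℝ} (hJ : 0 < J) (hΔ : 0 < Δ)
    (hEn : ∀ a C₁ C₂ : ℝ, 0 < a → a ≤ 1 → 0 < C₁ → 0 ≤ C₂ → EnP q R J Δ a C₁ C₂)
    (hGm : ∀ a C₁ C₂ : ℝ, 0 < a → a ≤ 1 → 0 < C₁ → 0 ≤ C₂ → GmP q R J Δ a C₁ C₂) :
    Core q R J Δ := by
  obtain ⟨a, C₁, C₂, ha, ha1, hC₁, hC₂, n₁, hex⟩ := exists_cdata (R := R) hq hJ hΔ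
  obtain ⟨n₂, hen⟩ := hEn a C₁ C₂ ha ha1.le hC₁ hC₂
  obtain ⟨n₃, hgm⟩ := hGm a C₁ C₂ ha ha1.le hC₁ hC₂
  obtain ⟨n₄, hnum⟩ := threshold ((ev_gm551 ha ha1.le hq).and
    ((ev_width (a := a) 2 (by norm_num) ha1.le).and ev_one))
  have hc0 : 0 < xc a := by have := xom_pos ha; have := xom_c ha; linarith
  refine ⟨xom a, xu a, xc a, 1600, max (max n₁ n₂) (max n₃ n₄), xom_pos ha, xom_u ha, xom_c ha,
    xc_lt ha1.le, by norm_num, ?_⟩
  intro L H hadm E Ω hgap l w x0 x1 y0 y1 X hl hw hw' hx hy hX hXn _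
  have hl1 : n₁ ≤ l := le_trans (le_trans (le_max_left _ _) (le_max_left _ _)) hl
  have hl2 : n₂ ≤ l := le_trans (le_trans (le_max_right _ _) (le_max_left _ _)) hl
  have hl3 : n₃ ≤ l := le_trans (le_trans (le_max_left _ _) (le_max_right _ _)) hl
  have hl4 : n₄ ≤ l := le_trans (le_trans (le_max_right _ _) (le_max_right _ _)) hl
  obtain ⟨⟨hκ, hnm⟩, hwd, hone⟩ := hnum l hl4
  obtain ⟨d, rfl, rfl, rfl, hb1, hb2⟩ := hex L H hadm E Ω hgap l w x0 x1 y0 y1 X hl1 hw hw'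
    hx hy hX hXn
  obtain ⟨M₂, hM₂⟩ := hen L l d hl2
  obtain ⟨M₃, hM₃⟩ := hgm L l d hl3
  have hlr : (1 : ℝ) ≤ l := by exact_mod_cast hone
  have hl0 : (0 : ℝ) < l := lt_of_lt_of_le one_pos hlr
  have hW : 0 < (l : ℝ) ^ (1 - xom a) := Real.rpow_pos_of_pos hl0 _
  have hwd' : (l : ℝ) ^ (1 - xom a) ≤ 2 * d.w := hwd d.w d.wgt
  have hw0 : (0 : ℝ) < d.w := by linarith
  have hwn : 1 ≤ d.w := by exact_mod_cast hw0
  have hn : 1 ≤ d.g.n := by have := d.n16; omega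
  have htl : 1 ≤ d.g.tl := by rw [d.tl]; exact one_le_sc hone
  have hdiv : ((sa7_nb d.X d.w \ d.X).card / (d.w : ℝ)) ≤
      2 * ((sa7_nb d.X d.w \ d.X).card / (l : ℝ) ^ (1 - xom a)) := by
    rw [← mul_div_assoc, div_le_div_iff₀ hw0 hW]
    have : (0 : ℝ) ≤ (sa7_nb d.X d.w \ d.X).card := Nat.cast_nonneg _
    nlinarith
  have hdiv0 : 0 ≤ ((sa7_nb d.X d.w \ d.X).card / (l : ℝ) ^ (1 - xom a)) := by positivity
  refine ⟨d.g, d.K, d.H', d.E', d.Ω', d.θ, max M₂ M₃, hn, rfl, d.X0, d.Q0, d.mid1, d.mid2,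
    ?_, ?_, fun b => ⟨(d.K_facts551 hone b).1, (d.K_facts551 hone b).2.1⟩,
    d.gm_norm551 hone hn htl hκ hnm, d.gap', ?_, ?_⟩
  · exact hb1.trans (by linarith)
  · refine hb2.trans (mul_le_mul_of_nonneg_left (by linarith) (Nat.cast_nonneg _))
  · exact d.close.trans (Real.rpow_le_rpow_of_exponent_le hlr (by norm_num))
  · intro M hM τ hτ t ht ht1 ψ hψ
    have h1 := hM₂ M ((le_max_left _ _).trans hM) τ hτ t ht ht1 ψ hψ
    have h2 : (l : ℝ) ^ (-(2 * xc a)) ≤ 1 :=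
      Real.rpow_le_one_of_one_le_of_nonpos hlr (by linarith)
    exact ⟨h1, hM₃ M ((le_max_right _ _).trans hM) τ hτ t ht ht1 ψ hψ (h1.trans h2)⟩

end Vale.Agent.P356.GA
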