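import Vale.Agent.P356.GA.ENa87
import Vale.Agent.P356.GA.NoiseB677

/-!
# GA, block E3 CRUDE (helper87): crude bounds of the second order form for single generators

* `QF_lines_crude`, `QF_line_crude` (`lnC` of SUM-A): lines alone,
  `|QF P c| ≤ e |P| (Θ (4 |A| log q + 2))²`, `Θ` the weight of the lines which cross `A`.
* `QF_slab_crude` (`slC` of SUM-A): one slab alone, `|QF P c| ≤ e |P| (2 + |b ∩ A| log (q² / ε))²`.
-/

set_option linter.all false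

namespace Vale.Agent.P356.GA.ENa

open Matrix Finset Vale.Agent.P356 Vale.Agent.P356.SV Vale.Agent.P356.Path Vale.Agent.P356.PH
open Vale.Agent.P356.GA
open scoped BigOperators ComplexOrder Kronecker Matrix.Norms.L2Operator

section crude
variable {V : Type} [Fintype V] [DecidableEq V] {q : ℕ} {ι : Type*} [Fintype ι]

/-- lines alone, all crossing lines together -/
theorem QF_lines_crude {R : ℕ → Finset V} (hR : ∀ j k, j ≤ k → R k ⊆ R j) {ψ : Conf V q → ℂ}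
    (hψ : nsq ψ = 1) (hq : 1 ≤ q) {M : ℝ} (hM : Fintype.card V * Real.log q ≤ M) (n : ℕ)
    (K : ι → Op V q) {P : Op V q} {A : Finset V} (hP : ActsOn A P) {c : (ℕ → ℝ) × (ι → ℝ)}
    (hG : GamK K c.2 = 0) {Θ : ℝ} (hΘ0 : 0 < Θ) (hΘ : ∑ k ∈ crs107 A R n, |c.1 k| ≤ Θ) :
    |QF ψ (Gen (fun k => cut (R k) q) ψ (gC (fun k => cut (R k) q) ψ M) n K) (n + 1) P c| ≤
      Real.exp 1 * ‖P‖ * (Θ * (4 * A.card * Real.log q + 2)) ^ 2 := by
  have hL : 0 ≤ Real.log q := Real.log_nonneg (by exact_mod_cast hq)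
  have hD : 0 < Θ * (4 * A.card * Real.log q + 2) := by positivity
  have h := QF_cauchy (ψ := ψ) (G := Gen (fun k => cut (R k) q) ψ
    (gC (fun k => cut (R k) q) ψ M) n K) (n := n + 1) (X := P) (c := c)
    (R := (Θ * (4 * A.card * Real.log q + 2))⁻¹) (K := Real.exp 1 * ‖P‖) (inv_pos.2 hD) ?_
  · refine h.trans (le_of_eq ?_)
    rw [inv_pow, div_inv_eq_mul]
  · intro z hz
    rw [fQ_Gen, hG, exp_zero_smul, exp_zero_smul, Matrix.one_mul, Matrix.mul_one]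
    have hS0 : 0 ≤ ∑ k ∈ crs107 A R n, |c.1 k| := Finset.sum_nonneg fun k _ => abs_nonneg _
    have e1 : (Θ * (4 * A.card * Real.log q + 2))⁻¹ * (∑ k ∈ crs107 A R n, |c.1 k|) *
        (4 * A.card * Real.log q + 2) ≤ 1 := by
      rw [mul_assoc, inv_mul_le_iff₀ hD, mul_one]
      exact mul_le_mul_of_nonneg_right hΘ (by positivity)
    have h1 := gL_bound hR hψ hq hM n (A := A) (X := fun _ => P) (inv_pos.2 hD).le
      (fun _ _ => hP) (fun _ _ => le_rfl) (norm_nonneg P) c.1 e1 hz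
    rw [FT_gL] at h1
    exact h1

/-- **`lnC` of SUM-A**: one line alone -/
theorem QF_line_crude {R : ℕ → Finset V} (hR : ∀ j k, j ≤ k → R k ⊆ R j) {ψ : Conf V q → ℂ}
    (hψ : nsq ψ = 1) (hq : 1 ≤ q) {M : ℝ} (hM : Fintype.card V * Real.log q ≤ M) (n : ℕ)
    (K : ι → Op V q) {P : Op V q} {A : Finset V} (hP : ActsOn A P) {c : (ℕ → ℝ) × (ι → ℝ)}
    (hG : GamK K c.2 = 0) {s : ℕ} (hc : ∀ k < n, k ≠ s → c.1 k = 0) (hcs : |c.1 s| ≤ 1) :
    |QF ψ (Gen (fun k => cut (R k) q) ψ (gC (fun k => cut (R k) q) ψ M) n K) (n + 1) P c| ≤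
      Real.exp 1 * ‖P‖ * (4 * A.card * Real.log q + 2) ^ 2 := by
  have h := QF_lines_crude hR hψ hq hM n K hP hG one_pos (?_ : ∑ k ∈ crs107 A R n, |c.1 k| ≤ 1)
  · rwa [one_mul] at h
  · classical
    by_cases hs : s ∈ crs107 A R n
    · rw [Finset.sum_eq_single_of_mem s hs fun k hk hks => by
        rw [hc k (by rw [crs107, Finset.mem_filter, Finset.mem_range] at hk; exact hk.1) hks,
          abs_zero]]
      exact hcs
    · rw [Finset.sum_eq_zero fun k hk => by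
        have hks : k ≠ s := fun h => hs (h ▸ hk)
        rw [hc k (by rw [crs107, Finset.mem_filter, Finset.mem_range] at hk; exact hk.1) hks,
          abs_zero]]
      exact zero_le_one

/-- conjugation by a real multiple of the noisy modular Hamiltonian -/
theorem Kt_conj {ε : ℝ} (h0 : 0 < ε) (h1 : ε ≤ 1) {Ω : Conf V q → ℂ} (hΩ : nsq Ω = 1)
    (hq : 1 ≤ q) (b : Finset V) {A : Finset V} {P : Op V q} (hP : ActsOn A P) {x : ℝ}
    (hx : |x| ≤ 1) {z : ℂ} {r : ℝ} (hr : r ≤ 1 / 2)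
    (hrD : r * ((b ∩ A).card * Real.log ((q : ℝ) ^ 2 / ε)) ≤ 1) (hz : ‖z‖ ≤ r) :
    ‖NormedSpace.exp (z • ((x : ℂ) • Kt ε Ω b)) * P *
      NormedSpace.exp ((-z) • ((x : ℂ) • Kt ε Ω b))‖ ≤ Real.exp 1 * ‖P‖ := by
  have hb : b = (b \ A) ∪ (b ∩ A) := by
    ext y
    simp only [Finset.mem_union, Finset.mem_sdiff, Finset.mem_inter]
    tauto
  have hd : Disjoint (b \ A) (b ∩ A) := by
    rw [Finset.disjoint_left]
    intro y hy hy'
    exact (Finset.mem_sdiff.1 hy).2 (Finset.mem_inter.1 hy').2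
  have hPM : ActsOn (b \ A)ᶜ P := by
    refine ph_acts_mono (fun y hy => ?_) hP
    rw [Finset.mem_compl, Finset.mem_sdiff]
    exact fun h => h.2 hy
  have hre : |(-(z * (x : ℂ))).re| ≤ r := by
    have e : (-(z * (x : ℂ))).re = -(z.re * x) := by simp
    rw [e, abs_neg, abs_mul]
    calc |z.re| * |x| ≤ ‖z‖ * 1 :=
          mul_le_mul (Complex.abs_re_le_norm z) hx (abs_nonneg _) (norm_nonneg _)
      _ ≤ r := by rw [mul_one]; exact hz
  have h := SF_sandwich h0 h1 hΩ hd hPM (z := -(z * (x : ℂ))) (hre.trans hr)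
  rw [← hb] at h
  have e1 : NormedSpace.exp (z • ((x : ℂ) • Kt ε Ω b)) = SF ε Ω b (-(z * (x : ℂ))) := by
    rw [SF, smul_smul, neg_smul, smul_neg, neg_neg]
  have e2 : NormedSpace.exp ((-z) • ((x : ℂ) • Kt ε Ω b)) = SF ε Ω b (-(-(z * (x : ℂ)))) := by
    rw [SF, smul_smul, neg_neg, smul_neg, neg_mul, neg_smul]
  rw [e1, e2]
  refine h.trans (mul_le_mul_of_nonneg_right ?_ (norm_nonneg P))
  have hq0 : (0 : ℝ) < q := by exact_mod_cast hq
  have hq1 : (1 : ℝ) ≤ (q : ℝ) ^ 2 / ε := by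
    rw [le_div_iff₀ h0, one_mul]
    have : (1 : ℝ) ≤ q := by exact_mod_cast hq
    nlinarith
  have hpos : (0 : ℝ) < ((q : ℝ) ^ 2 / ε) ^ (b ∩ A).card := by positivity
  rw [Real.rpow_def_of_pos hpos, Real.log_pow]
  refine Real.exp_le_exp.2 ?_
  have hLn : 0 ≤ (b ∩ A).card * Real.log ((q : ℝ) ^ 2 / ε) :=
    mul_nonneg (Nat.cast_nonneg _) (Real.log_nonneg hq1)
  calc _ = |(-(z * (x : ℂ))).re| * ((b ∩ A).card * Real.log ((q : ℝ) ^ 2 / ε)) := mul_comm _ _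
    _ ≤ r * ((b ∩ A).card * Real.log ((q : ℝ) ^ 2 / ε)) := mul_le_mul_of_nonneg_right hre hLn
    _ ≤ 1 := hrD

/-- **`slC` of SUM-A**: one slab alone -/
theorem QF_slab_crude (R : ℕ → Finset V) {ψ : Conf V q → ℂ} (hψ : nsq ψ = 1) (hq : 1 ≤ q) (M : ℝ) (n : ℕ)
    (K : ι → Op V q) {ε : ℝ} (h0 : 0 < ε) (h1 : ε ≤ 1) {Ω : Conf V q → ℂ} (hΩ : nsq Ω = 1)
    {P : Op V q} {A : Finset V} (hP : ActsOn A P) (b : Finset V) {x : ℝ} (hx : |x| ≤ 1)
    {c : (ℕ → ℝ) × (ι → ℝ)} (hG : GamK K c.2 = (x : ℂ) • Kt ε Ω b)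
    (hc : ∀ k < n, c.1 k = 0) :
    |QF ψ (Gen (fun k => cut (R k) q) ψ (gC (fun k => cut (R k) q) ψ M) n K) (n + 1) P c| ≤
      Real.exp 1 * ‖P‖ * (2 + (b ∩ A).card * Real.log ((q : ℝ) ^ 2 / ε)) ^ 2 := by
  have hq1 : (1 : ℝ) ≤ (q : ℝ) ^ 2 / ε := by
    rw [le_div_iff₀ h0, one_mul]
    have : (1 : ℝ) ≤ q := by exact_mod_cast hq
    nlinarith
  have hLn : 0 ≤ (b ∩ A).card * Real.log ((q : ℝ) ^ 2 / ε) :=
    mul_nonneg (Nat.cast_nonneg _) (Real.log_nonneg hq1)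
  have hD : 0 < 2 + (b ∩ A).card * Real.log ((q : ℝ) ^ 2 / ε) := by linarith
  have h := QF_cauchy (ψ := ψ) (G := Gen (fun k => cut (R k) q) ψ
    (gC (fun k => cut (R k) q) ψ M) n K) (n := n + 1) (X := P) (c := c)
    (R := (2 + (b ∩ A).card * Real.log ((q : ℝ) ^ 2 / ε))⁻¹) (K := Real.exp 1 * ‖P‖)
    (inv_pos.2 hD) ?_
  · refine h.trans (le_of_eq ?_)
    rw [inv_pow, div_inv_eq_mul]
  · intro z hz
    rw [fQ_none _ ψ _ n K P hc, hG]
    refine (dot_le_norm_bound ψ _ hψ).trans ?_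
    refine Kt_conj h0 h1 hΩ hq b hP hx ?_ ?_ hz
    · rw [inv_le_comm₀ hD (by norm_num)]
      linarith
    · rw [inv_mul_le_iff₀ hD, mul_one]
      linarith

end crude

end Vale.Agent.P356.GA.ENa
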