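import Mathlib

/-!
GA, block CUTS, part 1: finite product probability and the resampling lemma.
-/

set_option linter.all false

namespace Vale.Agent.P356.GA.Cut

open Finset
open scoped BigOperators

variable {I : Type*} [Fintype I] [DecidableEq I]

/-- expectation over independent integer labels with weight `p` on the finite set `lv` -/
noncomputable def Ex (lv : Finset ℤ) (p : ℤ → ℝ) (f : (I → ℤ) → ℝ) : ℝ :=
  ∑ ξ ∈ Fintype.piFinset (fun _ : I => lv), (∏ i, p (ξ i)) * f ξ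

/-- probability of a set of labels -/
noncomputable def Pr (lv : Finset ℤ) (p : ℤ → ℝ) (A : ℤ → Prop) [DecidablePred A] : ℝ :=
  ∑ j ∈ lv.filter A, p j

variable {lv : Finset ℤ} {p : ℤ → ℝ}

theorem Ex_add (f g : (I → ℤ) → ℝ) : Ex lv p (fun ξ => f ξ + g ξ) = Ex lv p f + Ex lv p g := by
  unfold Ex
  rw [← Finset.sum_add_distrib]
  exact Finset.sum_congr rfl fun ξ _ => by ring

theorem Ex_mul (c : ℝ) (f : (I → ℤ) → ℝ) : Ex lv p (fun ξ => c * f ξ) = c * Ex lv p f := by
  unfold Ex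
  rw [Finset.mul_sum]
  exact Finset.sum_congr rfl fun ξ _ => by ring

theorem Ex_sum {ι : Type*} (s : Finset ι) (f : ι → (I → ℤ) → ℝ) :
    Ex lv p (fun ξ => ∑ k ∈ s, f k ξ) = ∑ k ∈ s, Ex lv p (f k) := by
  unfold Ex
  rw [Finset.sum_comm]
  exact Finset.sum_congr rfl fun ξ _ => by rw [Finset.mul_sum]

theorem Ex_mono (hp : ∀ j, 0 ≤ p j) {f g : (I → ℤ) → ℝ}
    (h : ∀ ξ ∈ Fintype.piFinset (fun _ : I => lv), f ξ ≤ g ξ) : Ex lv p f ≤ Ex lv p g := by
  unfold Ex
  exact Finset.sum_le_sum fun ξ hξ =>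
    mul_le_mul_of_nonneg_left (h ξ hξ) (Finset.prod_nonneg fun i _ => hp _)

theorem Ex_nonneg (hp : ∀ j, 0 ≤ p j) {f : (I → ℤ) → ℝ}
    (h : ∀ ξ ∈ Fintype.piFinset (fun _ : I => lv), 0 ≤ f ξ) : 0 ≤ Ex lv p f := by
  unfold Ex
  exact Finset.sum_nonneg fun ξ hξ =>
    mul_nonneg (Finset.prod_nonneg fun i _ => hp _) (h ξ hξ)

theorem Ex_const (h1 : ∑ j ∈ lv, p j = 1) (c : ℝ) : Ex (I := I) lv p (fun _ => c) = c := by
  unfold Ex
  rw [← Finset.sum_mul]
  have : ∑ ξ ∈ Fintype.piFinset (fun _ : I => lv), ∏ i, p (ξ i) = 1 := by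
    have h := Finset.prod_univ_sum (fun _ : I => lv) (fun _ j => p j)
    rw [← h]
    simp [h1]
  rw [this, one_mul]

/-- resampling one coordinate -/
theorem Ex_resample (h1 : ∑ j ∈ lv, p j = 1) (i : I) (f : (I → ℤ) → ℝ) :
    Ex lv p f = ∑ v ∈ lv, p v * Ex lv p (fun ξ => f (Function.update ξ i v)) := by
  have hstep : ∑ v ∈ lv, p v * Ex lv p (fun ξ => f (Function.update ξ i v)) =
      ∑ x ∈ lv ×ˢ Fintype.piFinset (fun _ : I => lv),
        p x.1 * ((∏ k, p (x.2 k)) * f (Function.update x.2 i x.1)) := by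
    rw [Finset.sum_product]
    refine Finset.sum_congr rfl fun v _ => ?_
    unfold Ex
    rw [Finset.mul_sum]
  have hstep2 : ∑ x ∈ lv ×ˢ Fintype.piFinset (fun _ : I => lv),
        p x.1 * ((∏ k, p (x.2 k)) * f (Function.update x.2 i x.1)) =
      ∑ x ∈ lv ×ˢ Fintype.piFinset (fun _ : I => lv), p x.1 * ((∏ k, p (x.2 k)) * f x.2) := by
    refine Finset.sum_bij' (fun x _ => (x.2 i, Function.update x.2 i x.1))
      (fun x _ => (x.2 i, Function.update x.2 i x.1)) ?_ ?_ ?_ ?_ ?_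
    · intro x hx
      rw [Finset.mem_product, Fintype.mem_piFinset] at hx ⊢
      refine ⟨hx.2 i, ?_⟩
      intro k
      by_cases hk : k = i
      · subst hk; simp only [Function.update_self]; exact hx.1
      · simp only [Function.update_of_ne hk]; exact hx.2 k
    · intro x hx
      rw [Finset.mem_product, Fintype.mem_piFinset] at hx ⊢
      refine ⟨hx.2 i, ?_⟩
      intro k
      by_cases hk : k = i
      · subst hk; simp only [Function.update_self]; exact hx.1
      · simp only [Function.update_of_ne hk]; exact hx.2 k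
    · intro x hx
      simp
    · intro x hx
      simp
    · intro x hx
      have e1 : ∏ k, p (x.2 k) = p (x.2 i) * ∏ k ∈ Finset.univ.erase i, p (x.2 k) :=
        (Finset.mul_prod_erase _ _ (Finset.mem_univ i)).symm
      have e2 : ∏ k, p ((Function.update x.2 i x.1) k) =
          p x.1 * ∏ k ∈ Finset.univ.erase i, p (x.2 k) := by
        rw [← Finset.mul_prod_erase _ _ (Finset.mem_univ i), Function.update_self]
        congr 1
        refine Finset.prod_congr rfl fun k hk => ?_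
        rw [Function.update_of_ne (Finset.ne_of_mem_erase hk)]
      show p x.1 * ((∏ k, p (x.2 k)) * f (Function.update x.2 i x.1)) =
        p (x.2 i) * ((∏ k, p ((Function.update x.2 i x.1) k)) * f (Function.update x.2 i x.1))
      rw [e1, e2]
      ring
  rw [hstep, hstep2, Finset.sum_product]
  simp only []
  rw [← Finset.sum_congr rfl (fun v _ => Finset.mul_sum _ _ _)]
  have : ∀ v ∈ lv, p v * ∑ ξ ∈ Fintype.piFinset (fun _ : I => lv), (∏ k, p (ξ k)) * f ξ =
      p v * Ex lv p f := fun v _ => rfl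
  rw [Finset.sum_congr rfl this, ← Finset.sum_mul, h1, one_mul]

/-- one event on one coordinate -/
theorem Ex_ind_one (h1 : ∑ j ∈ lv, p j = 1) (i : I) (A : ℤ → Prop) [DecidablePred A]
    (g : (I → ℤ) → ℝ) (hg : ∀ ξ v, g (Function.update ξ i v) = g ξ) :
    Ex lv p (fun ξ => (if A (ξ i) then (1 : ℝ) else 0) * g ξ) = Pr lv p A * Ex lv p g := by
  rw [Ex_resample h1 i]
  have : ∀ v ∈ lv, p v * Ex lv p (fun ξ => (if A ((Function.update ξ i v) i) then (1 : ℝ) else 0) *
      g (Function.update ξ i v)) = (if A v then p v else 0) * Ex lv p g := by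
    intro v _
    have e : (fun ξ : I → ℤ => (if A ((Function.update ξ i v) i) then (1 : ℝ) else 0) *
        g (Function.update ξ i v)) = fun ξ => (if A v then (1 : ℝ) else 0) * g ξ := by
      funext ξ
      rw [Function.update_self, hg]
    rw [e, Ex_mul]
    split_ifs <;> ring
  rw [Finset.sum_congr rfl this, ← Finset.sum_mul]
  congr 1
  unfold Pr
  rw [Finset.sum_filter]

/-- independent events on the coordinates in `c` -/
theorem Ex_ind (h1 : ∑ j ∈ lv, p j = 1) (c : Finset I) (A : I → ℤ → Prop)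
    [∀ i, DecidablePred (A i)] (g : (I → ℤ) → ℝ)
    (hg : ∀ i ∈ c, ∀ ξ v, g (Function.update ξ i v) = g ξ) :
    Ex lv p (fun ξ => (∏ i ∈ c, (if A i (ξ i) then (1 : ℝ) else 0)) * g ξ) =
      (∏ i ∈ c, Pr lv p (A i)) * Ex lv p g := by
  induction c using Finset.induction_on with
  | empty => simp
  | insert a c ha ih =>
    rw [Finset.prod_insert ha]
    have e : (fun ξ : I → ℤ => (∏ i ∈ insert a c, (if A i (ξ i) then (1 : ℝ) else 0)) * g ξ) =
        fun ξ => (if A a (ξ a) then (1 : ℝ) else 0) *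
          ((∏ i ∈ c, (if A i (ξ i) then (1 : ℝ) else 0)) * g ξ) := by
      funext ξ
      rw [Finset.prod_insert ha]
      ring
    rw [e, Ex_ind_one h1 a (A a)]
    · rw [ih (fun i hi => hg i (Finset.mem_insert_of_mem hi))]
      ring
    · intro ξ v
      rw [hg a (Finset.mem_insert_self a c)]
      congr 1
      refine Finset.prod_congr rfl fun i hi => ?_
      have : i ≠ a := fun h => ha (h ▸ hi)
      rw [Function.update_of_ne this]

theorem Pr_nonneg (hp : ∀ j, 0 ≤ p j) (A : ℤ → Prop) [DecidablePred A] : 0 ≤ Pr lv p A :=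
  Finset.sum_nonneg fun j _ => hp j

theorem Pr_le_one (hp : ∀ j, 0 ≤ p j) (h1 : ∑ j ∈ lv, p j = 1) (A : ℤ → Prop)
    [DecidablePred A] : Pr lv p A ≤ 1 := by
  unfold Pr
  rw [← h1]
  exact Finset.sum_le_sum_of_subset_of_nonneg (Finset.filter_subset _ _) fun j _ _ => hp j

theorem Pr_mono (hp : ∀ j, 0 ≤ p j) {A B : ℤ → Prop} [DecidablePred A] [DecidablePred B]
    (h : ∀ j, A j → B j) : Pr lv p A ≤ Pr lv p B := by
  unfold Pr
  refine Finset.sum_le_sum_of_subset_of_nonneg ?_ fun j _ _ => hp j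
  intro j hj
  rw [Finset.mem_filter] at hj ⊢
  exact ⟨hj.1, h j hj.2⟩

/-- first moment: finitely many nonnegative functionals are simultaneously small -/
theorem exists_small (hp : ∀ j, 0 ≤ p j) (h1 : ∑ j ∈ lv, p j = 1) {ι : Type*} (s : Finset ι)
    (X : ι → (I → ℤ) → ℝ) (B : ι → ℝ) (hB : ∀ k ∈ s, 0 < B k)
    (hX : ∀ k ∈ s, ∀ ξ ∈ Fintype.piFinset (fun _ : I => lv), 0 ≤ X k ξ)
    (hE : ∀ k ∈ s, Ex lv p (X k) ≤ B k) :
    ∃ ξ ∈ Fintype.piFinset (fun _ : I => lv), ∀ k ∈ s, X k ξ ≤ s.card * B k := by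
  have hE1 : Ex lv p (fun ξ => ∑ k ∈ s, (1 / B k) * X k ξ) ≤ s.card := by
    rw [Ex_sum]
    calc ∑ k ∈ s, Ex lv p (fun ξ => (1 / B k) * X k ξ) ≤ ∑ k ∈ s, (1 : ℝ) := by
          refine Finset.sum_le_sum fun k hk => ?_
          rw [Ex_mul, one_div, inv_mul_le_iff₀ (hB k hk), mul_one]
          exact hE k hk
      _ = s.card := by simp
  by_contra hcon
  push Not at hcon
  have hne : (Fintype.piFinset (fun _ : I => lv)).Nonempty := by
    rw [Fintype.piFinset_nonempty]
    intro _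
    by_contra h
    rw [Finset.not_nonempty_iff_eq_empty] at h
    rw [h] at h1
    simp at h1
  have hlt : ∀ ξ ∈ Fintype.piFinset (fun _ : I => lv),
      (s.card : ℝ) < ∑ k ∈ s, (1 / B k) * X k ξ := by
    intro ξ hξ
    obtain ⟨k, hk, hlt⟩ := hcon ξ hξ
    calc (s.card : ℝ) < (1 / B k) * X k ξ := by
          rw [one_div, lt_inv_mul_iff₀ (hB k hk)]
          linarith
      _ ≤ ∑ k ∈ s, (1 / B k) * X k ξ :=
          Finset.single_le_sum (f := fun k => (1 / B k) * X k ξ)
            (fun k hk => mul_nonneg (by have := hB k hk; positivity) (hX k hk ξ hξ)) hk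
  -- strict inequality of expectations
  have hc : Ex (I := I) lv p (fun _ => (s.card : ℝ)) = s.card := Ex_const h1 _
  have hw : ∑ ξ ∈ Fintype.piFinset (fun _ : I => lv), ∏ i, p (ξ i) = 1 := by
    have h := Finset.prod_univ_sum (fun _ : I => lv) (fun _ j => p j)
    rw [← h]
    simp [h1]
  obtain ⟨ξ₀, hξ₀, hpos⟩ : ∃ ξ ∈ Fintype.piFinset (fun _ : I => lv), 0 < ∏ i, p (ξ i) := by
    by_contra h
    push Not at h
    have : ∑ ξ ∈ Fintype.piFinset (fun _ : I => lv), ∏ i, p (ξ i) ≤ 0 :=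
      Finset.sum_nonpos h
    rw [hw] at this
    linarith
  have hst : Ex (I := I) lv p (fun _ => (s.card : ℝ)) <
      Ex lv p (fun ξ => ∑ k ∈ s, (1 / B k) * X k ξ) := by
    unfold Ex
    refine Finset.sum_lt_sum (fun ξ hξ => ?_) ⟨ξ₀, hξ₀, ?_⟩
    · exact mul_le_mul_of_nonneg_left (hlt ξ hξ).le (Finset.prod_nonneg fun i _ => hp _)
    · exact mul_lt_mul_of_pos_left (hlt ξ₀ hξ₀) hpos
  linarith

end Vale.Agent.P356.GA.Cut
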