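import Vale.Agent.P356.GA.DIDef960

/-!
The definition of the doubling inequality is in `GA/DIDef960.lean`.
-/
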