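import Mathlib

/-!
# GA, block DIASM-B (helper939): the arithmetic of the doubling inequality
-/

set_option linter.all false

namespace Vale.Agent.P356.GA

open Finset
open scoped BigOperators

/-- the relative error -/
theorem dia_rel {x c Δ : ℝ} (hx : 1 ≤ x) (hc0 : 0 < c) (hc : c ≤ 1) (hΔ : 0 < Δ) :
    4 * Real.exp (-Real.log x) + 2 * (Real.sqrt (x ^ (-(2 * c)) / (Δ / 2)) +
      2 * x ^ (-10 : ℝ)) ^ 2 ≤ (20 + 8 / Δ) * x ^ (-c) := by
  have hx0 : 0 < x := by linarith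
  have h1 : Real.exp (-Real.log x) ≤ x ^ (-c) := by
    rw [Real.exp_neg, Real.exp_log hx0, ← Real.rpow_neg_one]
    exact Real.rpow_le_rpow_of_exponent_le hx (by linarith)
  have h2 : x ^ (-(2 * c)) ≤ x ^ (-c) := Real.rpow_le_rpow_of_exponent_le hx (by linarith)
  have h3 : (x ^ (-10 : ℝ)) ^ 2 ≤ x ^ (-c) := by
    rw [← Real.rpow_natCast (x ^ (-10 : ℝ)) 2, ← Real.rpow_mul hx0.le]
    refine Real.rpow_le_rpow_of_exponent_le hx ?_
    push_cast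
    linarith
  have h4 : Real.sqrt (x ^ (-(2 * c)) / (Δ / 2)) ^ 2 = x ^ (-(2 * c)) * (2 / Δ) := by
    rw [Real.sq_sqrt (by positivity)]
    field_simp
  have h5 : x ^ (-(2 * c)) * (2 / Δ) ≤ x ^ (-c) * (2 / Δ) :=
    mul_le_mul_of_nonneg_right h2 (by positivity)
  have h6 : (8 / Δ) * x ^ (-c) = 4 * (x ^ (-c) * (2 / Δ)) := by ring
  have h7 := sq_nonneg (Real.sqrt (x ^ (-(2 * c)) / (Δ / 2)) - 2 * x ^ (-10 : ℝ))
  nlinarith

/-- the spread terms -/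
theorem dia_spread {x c om κ B0 : ℝ} {n : ℕ} (hx : 1 ≤ x) (hom0 : 0 < om) (hom : om ≤ 1 / 10)
    (hc : c ≤ 1 / 10) (hκ : 0 ≤ κ) (hB0 : 0 ≤ B0) (b : ℕ → ℝ) (hb : ∀ k, 0 ≤ b k)
    (hsum : ∑ k ∈ range n, b k ≤ n * (B0 * x ^ (1 + om))) :
    ∑ k ∈ range n, ((24 + 12 * Real.sqrt (κ * b k)) * (2 + Real.log x) + Real.log x) ≤
      n * ((370 + 72 * (κ * B0)) * x ^ (1 - c)) := by
  have hx0 : 0 < x := by linarith
  have hn : (0 : ℝ) ≤ n := Nat.cast_nonneg n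
  obtain ⟨y, hy⟩ : ∃ y : ℝ, y = x ^ ((1 + om) / 2) := ⟨_, rfl⟩
  have hy0 : 0 < y := by rw [hy]; exact Real.rpow_pos_of_pos hx0 _
  have hy1 : 1 ≤ y := by rw [hy]; exact Real.one_le_rpow hx (by linarith)
  have hyy : x ^ (1 + om) = y * y := by
    rw [hy, ← Real.rpow_add hx0]
    congr 1
    ring
  have hlog : 0 ≤ Real.log x := Real.log_nonneg hx
  -- the square roots
  have h1 : ∑ k ∈ range n, Real.sqrt (κ * b k) ≤ n * ((κ * B0 + 1) / 2 * y) := by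
    have h2 : ∀ k ∈ range n, Real.sqrt (κ * b k) ≤ (κ / (2 * y)) * b k + y / 2 := by
      intro k _
      have h3 := sq_nonneg (Real.sqrt (κ * b k) - y)
      have h4 : Real.sqrt (κ * b k) ^ 2 = κ * b k := Real.sq_sqrt (mul_nonneg hκ (hb k))
      have h5 : Real.sqrt (κ * b k) * (2 * y) ≤ κ * b k + y * y := by nlinarith
      have h6 : (κ / (2 * y)) * b k + y / 2 = (κ * b k + y * y) / (2 * y) := by
        field_simp
      rw [h6, le_div_iff₀ (by positivity)]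
      exact h5
    refine (Finset.sum_le_sum h2).trans ?_
    rw [Finset.sum_add_distrib, ← Finset.mul_sum, Finset.sum_const, Finset.card_range,
      nsmul_eq_mul]
    have h7 : κ / (2 * y) * ∑ k ∈ range n, b k ≤ κ / (2 * y) * (n * (B0 * (y * y))) := by
      rw [← hyy]
      exact mul_le_mul_of_nonneg_left hsum (by positivity)
    have h8 : κ / (2 * y) * (n * (B0 * (y * y))) = n * (κ * B0 / 2 * y) := by
      field_simp
    rw [h8] at h7
    have h9 : (n : ℝ) * ((κ * B0 + 1) / 2 * y) = n * (κ * B0 / 2 * y) + n * (y / 2) := by ring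
    rw [h9]
    linarith
  -- the logarithm
  have h10 : Real.log x ≤ 10 * x ^ (1 / 10 : ℝ) := by
    have := Real.log_le_rpow_div hx0.le (by norm_num : (0 : ℝ) < 1 / 10)
    linarith
  have h11 : 1 ≤ x ^ (1 / 10 : ℝ) := Real.one_le_rpow hx (by norm_num)
  have h12 : 2 + Real.log x ≤ 12 * x ^ (1 / 10 : ℝ) := by linarith
  have h13 : y * x ^ (1 / 10 : ℝ) ≤ x ^ (1 - c) := by
    rw [hy, ← Real.rpow_add hx0]
    exact Real.rpow_le_rpow_of_exponent_le hx (by linarith)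
  have h14 : x ^ (1 / 10 : ℝ) ≤ x ^ (1 - c) :=
    Real.rpow_le_rpow_of_exponent_le hx (by linarith)
  have e1 : ∑ k ∈ range n, ((24 + 12 * Real.sqrt (κ * b k)) * (2 + Real.log x) + Real.log x) =
      (24 * n + 12 * ∑ k ∈ range n, Real.sqrt (κ * b k)) * (2 + Real.log x) +
        n * Real.log x := by
    rw [Finset.sum_add_distrib, ← Finset.sum_mul, Finset.sum_add_distrib, ← Finset.mul_sum]
    simp only [Finset.sum_const, Finset.card_range, nsmul_eq_mul]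
    ring
  rw [e1]
  have h15 : 24 * (n : ℝ) + 12 * ∑ k ∈ range n, Real.sqrt (κ * b k) ≤
      n * ((30 + 6 * (κ * B0)) * y) := by
    have : (n : ℝ) * ((30 + 6 * (κ * B0)) * y) =
        24 * (n * y) + 12 * (n * ((κ * B0 + 1) / 2 * y)) := by ring
    rw [this]
    have h16 : (n : ℝ) * 1 ≤ n * y := mul_le_mul_of_nonneg_left hy1 hn
    linarith
  have h17 : 0 ≤ (n : ℝ) * ((30 + 6 * (κ * B0)) * y) := by positivity
  calc (24 * (n : ℝ) + 12 * ∑ k ∈ range n, Real.sqrt (κ * b k)) * (2 + Real.log x) +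
        n * Real.log x
      ≤ n * ((30 + 6 * (κ * B0)) * y) * (12 * x ^ (1 / 10 : ℝ)) +
        n * (10 * x ^ (1 / 10 : ℝ)) := by
        refine add_le_add ?_ (mul_le_mul_of_nonneg_left h10 hn)
        exact (mul_le_mul_of_nonneg_right h15 (by linarith)).trans
          (mul_le_mul_of_nonneg_left h12 h17)
    _ = n * (12 * (30 + 6 * (κ * B0)) * (y * x ^ (1 / 10 : ℝ)) + 10 * x ^ (1 / 10 : ℝ)) := by
        ring
    _ ≤ n * (12 * (30 + 6 * (κ * B0)) * x ^ (1 - c) + 10 * x ^ (1 - c)) := by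
        refine mul_le_mul_of_nonneg_left ?_ hn
        have h18 : 0 ≤ 12 * (30 + 6 * (κ * B0)) := by positivity
        have := mul_le_mul_of_nonneg_left h13 h18
        linarith
    _ = _ := by ring

/-- the choice of the tilt of the phase -/
theorem dia_cosh {x : ℝ} (hx : 2 ≤ x) :
    0 < 8 * x ^ (-10 : ℝ) ∧ 8 * x ^ (-10 : ℝ) ≤ 1 ∧
      1 + 2 / (8 * x ^ (-10 : ℝ)) ≤ Real.cosh (10 * Real.log x) := by
  have hx0 : 0 < x := by linarith
  have e1 : x ^ (-10 : ℝ) = (x ^ 10)⁻¹ := by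
    rw [Real.rpow_neg hx0.le]
    congr 1
    exact_mod_cast Real.rpow_natCast x 10
  have h1 : (1024 : ℝ) ≤ x ^ 10 := by
    have := pow_le_pow_left₀ (by norm_num : (0 : ℝ) ≤ 2) hx 10
    norm_num at this
    exact this
  have h0 : 0 < x ^ 10 := by positivity
  rw [e1]
  refine ⟨by positivity, ?_, ?_⟩
  · rw [← div_eq_mul_inv, div_le_one h0]
    linarith
  · have e2 : 2 / (8 * (x ^ 10)⁻¹) = x ^ 10 / 4 := by
      field_simp
      norm_num
    have e3 : Real.exp (10 * Real.log x) = x ^ 10 := by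
      rw [mul_comm, Real.exp_mul, Real.exp_log hx0]
      exact_mod_cast Real.rpow_natCast x 10
    rw [e2, Real.cosh_eq, e3]
    have h2 := Real.exp_pos (-(10 * Real.log x))
    linarith

/-- the absolute errors: closeness of the two ground states on a region of at most `9 x ^ 2`
sites -/
theorem dia_prime {x lq a b d : ℝ} {N : ℕ} (hx : 1 ≤ x) (hlq : 0 ≤ lq) (hN : (N : ℝ) ≤ 9 * x ^ 2)
    (hd : d ≤ x ^ (-10 : ℝ)) (hd0 : 0 ≤ d)
    (h : |a - b| ≤ 2 * d * (N * lq + Real.log (1 / (1 / 2))) + 2 * (1 / 2)) :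
    a ≤ b + (3 + 18 * lq) := by
  have hx0 : 0 < x := by linarith
  have h1 : x ^ (-10 : ℝ) * x ^ 2 ≤ 1 := by
    rw [← Real.rpow_natCast x 2, ← Real.rpow_add hx0]
    exact Real.rpow_le_one_of_one_le_of_nonpos hx (by push_cast; norm_num)
  have h1' : x ^ (-10 : ℝ) ≤ 1 := Real.rpow_le_one_of_one_le_of_nonpos hx (by norm_num)
  have h2 : Real.log (1 / (1 / 2)) ≤ 1 := by
    have := Real.log_two_lt_d9
    norm_num
    linarith
  have h2' : 0 ≤ Real.log (1 / (1 / 2)) := Real.log_nonneg (by norm_num)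
  have h3 : d * (N * lq) ≤ 9 * lq := by
    have hN0 : (0 : ℝ) ≤ N := Nat.cast_nonneg N
    calc d * (N * lq) ≤ x ^ (-10 : ℝ) * (9 * x ^ 2 * lq) := by
          refine mul_le_mul hd (mul_le_mul_of_nonneg_right hN hlq) (by positivity) (by positivity)
      _ = x ^ (-10 : ℝ) * x ^ 2 * (9 * lq) := by ring
      _ ≤ 1 * (9 * lq) := mul_le_mul_of_nonneg_right h1 (by positivity)
      _ = _ := by ring
  have h4 : d * Real.log (1 / (1 / 2)) ≤ 1 := by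
    calc d * Real.log (1 / (1 / 2)) ≤ 1 * 1 := mul_le_mul (hd.trans h1') h2 h2' (by norm_num)
      _ = 1 := by ring
  have h5 := le_abs_self (a - b)
  have h6 : 2 * d * (N * lq + Real.log (1 / (1 / 2))) =
      2 * (d * (N * lq)) + 2 * (d * Real.log (1 / (1 / 2))) := by ring
  linarith

/-- a small multiple of an entropy of a region of at most `9 x ^ 2` sites -/
theorem dia_eps {x lq a : ℝ} {N : ℕ} (hx : 1 ≤ x) (hlq : 0 ≤ lq) (hN : (N : ℝ) ≤ 9 * x ^ 2)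
    (h : a ≤ N * lq) : 8 * x ^ (-10 : ℝ) * a ≤ 72 * lq := by
  have hx0 : 0 < x := by linarith
  have h1 : x ^ (-10 : ℝ) * x ^ 2 ≤ 1 := by
    rw [← Real.rpow_natCast x 2, ← Real.rpow_add hx0]
    exact Real.rpow_le_one_of_one_le_of_nonpos hx (by push_cast; norm_num)
  calc 8 * x ^ (-10 : ℝ) * a ≤ 8 * x ^ (-10 : ℝ) * (9 * x ^ 2 * lq) :=
        mul_le_mul_of_nonneg_left (h.trans (mul_le_mul_of_nonneg_right hN hlq)) (by positivity)
    _ = x ^ (-10 : ℝ) * x ^ 2 * (72 * lq) := by ring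
    _ ≤ 1 * (72 * lq) := mul_le_mul_of_nonneg_right h1 (by positivity)
    _ = _ := by ring

/-- the end of the computation -/
theorem dia_end {x c u rel SPQ SD' SD SM' SM Us lq K1 K2 : ℝ} {n : ℕ} (hx : 2 ≤ x)
    (hc : c ≤ 1 / 10) (hu : 0 ≤ u) (hn : 1 ≤ n) (hlq : 0 ≤ lq) (hK1 : 0 ≤ K1) (hK2 : 0 ≤ K2)
    (hSPQ : 0 ≤ SPQ) (hSM : 0 ≤ SM)
    (hrel : rel ≤ K1 * x ^ (-c)) (hUs : Us ≤ n * (K2 * x ^ (1 - c)))
    (hSD : SD' ≤ SD + n * (3 + 18 * lq)) (hSD2 : 8 * x ^ (-10 : ℝ) * SD' ≤ n * (72 * lq))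
    (hSM1 : SM' ≤ SM + (3 + 18 * lq)) (hSM2 : 8 * x ^ (-10 : ℝ) * SM' ≤ 72 * lq)
    (hA : (1 - rel) * SPQ ≤ (1 + 8 * x ^ (-10 : ℝ)) * SD' + Us + (x ^ u / (2 * n))⁻¹ *
      ((1 + 8 * x ^ (-10 : ℝ)) * SM' + x ^ (1 - c) + 2 * (8 * x ^ (-10 : ℝ)) * x ^ (4 : ℝ) + 1)) :
    (1 - (K1 + K2 + 49 + 270 * lq) * x ^ (-c)) * SPQ ≤ SD +
      n * ((K1 + K2 + 49 + 270 * lq) * x ^ (-u) * SM +
        (K1 + K2 + 49 + 270 * lq) * x ^ (1 - c)) := by
  have hx0 : 0 < x := by linarith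
  have hx1 : 1 ≤ x := by linarith
  have hn0 : (0 : ℝ) < n := by exact_mod_cast hn
  have h1 : x ^ (-10 : ℝ) * x ^ (4 : ℝ) ≤ 1 := by
    rw [← Real.rpow_add hx0]
    exact Real.rpow_le_one_of_one_le_of_nonpos hx1 (by norm_num)
  have hp1 : 1 ≤ x ^ (1 - c) := Real.one_le_rpow hx1 (by linarith)
  have hu1 : x ^ (-u) ≤ 1 := Real.rpow_le_one_of_one_le_of_nonpos hx1 (by linarith)
  have hu0 : 0 < x ^ (-u) := Real.rpow_pos_of_pos hx0 _
  have hc0 : 0 < x ^ (-c) := Real.rpow_pos_of_pos hx0 _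
  have e1 : (x ^ u / (2 * n))⁻¹ = n * (2 * x ^ (-u)) := by
    rw [inv_div, Real.rpow_neg hx0.le]
    field_simp
  rw [e1] at hA
  -- the bracket
  have h2 : (1 + 8 * x ^ (-10 : ℝ)) * SM' + x ^ (1 - c) +
      2 * (8 * x ^ (-10 : ℝ)) * x ^ (4 : ℝ) + 1 ≤ SM + (21 + 90 * lq) * x ^ (1 - c) := by
    have h3 : 2 * (8 * x ^ (-10 : ℝ)) * x ^ (4 : ℝ) ≤ 16 := by
      have : 2 * (8 * x ^ (-10 : ℝ)) * x ^ (4 : ℝ) = 16 * (x ^ (-10 : ℝ) * x ^ (4 : ℝ)) := by ring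
      rw [this]
      linarith
    have h4 : (20 + 90 * lq) * 1 ≤ (20 + 90 * lq) * x ^ (1 - c) :=
      mul_le_mul_of_nonneg_left hp1 (by positivity)
    have e2 : (1 + 8 * x ^ (-10 : ℝ)) * SM' = SM' + 8 * x ^ (-10 : ℝ) * SM' := by ring
    have e3 : (21 + 90 * lq) * x ^ (1 - c) = (20 + 90 * lq) * x ^ (1 - c) + x ^ (1 - c) := by ring
    rw [e2, e3]
    linarith
  have h5 : (n : ℝ) * (2 * x ^ (-u)) * ((1 + 8 * x ^ (-10 : ℝ)) * SM' + x ^ (1 - c) +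
      2 * (8 * x ^ (-10 : ℝ)) * x ^ (4 : ℝ) + 1) ≤
      n * (2 * (x ^ (-u) * SM) + (42 + 180 * lq) * x ^ (1 - c)) := by
    have h6 : (n : ℝ) * (2 * x ^ (-u)) * (SM + (21 + 90 * lq) * x ^ (1 - c)) =
        n * (2 * (x ^ (-u) * SM) + (42 + 180 * lq) * (x ^ (-u) * x ^ (1 - c))) := by ring
    refine (mul_le_mul_of_nonneg_left h2 (by positivity)).trans ?_
    rw [h6]
    refine mul_le_mul_of_nonneg_left ?_ hn0.le
    have h7 : x ^ (-u) * x ^ (1 - c) ≤ 1 * x ^ (1 - c) :=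
      mul_le_mul_of_nonneg_right hu1 (by linarith)
    have h8 := mul_le_mul_of_nonneg_left h7 (by positivity : (0 : ℝ) ≤ 42 + 180 * lq)
    linarith
  have h9 : (1 + 8 * x ^ (-10 : ℝ)) * SD' ≤ SD + n * ((3 + 90 * lq) * x ^ (1 - c)) := by
    have e2 : (1 + 8 * x ^ (-10 : ℝ)) * SD' = SD' + 8 * x ^ (-10 : ℝ) * SD' := by ring
    have h10 : (n : ℝ) * ((3 + 90 * lq) * 1) ≤ n * ((3 + 90 * lq) * x ^ (1 - c)) :=
      mul_le_mul_of_nonneg_left (mul_le_mul_of_nonneg_left hp1 (by positivity)) hn0.le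
    have e3 : (n : ℝ) * ((3 + 90 * lq) * 1) = n * (3 + 18 * lq) + n * (72 * lq) := by ring
    rw [e2]
    linarith
  have h11 : (1 - (K1 + K2 + 49 + 270 * lq) * x ^ (-c)) * SPQ ≤ (1 - rel) * SPQ := by
    refine mul_le_mul_of_nonneg_right ?_ hSPQ
    have h12 : (K1 + K2 + 49 + 270 * lq) * x ^ (-c) =
        K1 * x ^ (-c) + (K2 + 49 + 270 * lq) * x ^ (-c) := by ring
    have h13 : 0 ≤ (K2 + 49 + 270 * lq) * x ^ (-c) := by positivity
    linarith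
  have h14 : 2 * (x ^ (-u) * SM) ≤ (K1 + K2 + 49 + 270 * lq) * x ^ (-u) * SM := by
    have h15 : 0 ≤ x ^ (-u) * SM := by positivity
    have e2 : (K1 + K2 + 49 + 270 * lq) * x ^ (-u) * SM =
        (K1 + K2 + 49 + 270 * lq) * (x ^ (-u) * SM) := by ring
    rw [e2]
    exact mul_le_mul_of_nonneg_right (by linarith) h15
  have h16 := mul_le_mul_of_nonneg_left h14 hn0.le
  have e4 : (n : ℝ) * ((K1 + K2 + 49 + 270 * lq) * x ^ (-u) * SM +
        (K1 + K2 + 49 + 270 * lq) * x ^ (1 - c)) =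
      n * ((K1 + K2 + 49 + 270 * lq) * x ^ (-u) * SM) + n * (K2 * x ^ (1 - c)) +
        n * ((3 + 90 * lq) * x ^ (1 - c)) + n * ((42 + 180 * lq) * x ^ (1 - c)) +
        n * ((K1 + 4) * x ^ (1 - c)) := by ring
  have h17 : 0 ≤ (n : ℝ) * ((K1 + 4) * x ^ (1 - c)) := by positivity
  have e5 : (n : ℝ) * (2 * (x ^ (-u) * SM) + (42 + 180 * lq) * x ^ (1 - c)) =
      n * (2 * (x ^ (-u) * SM)) + n * ((42 + 180 * lq) * x ^ (1 - c)) := by ring
  rw [e4]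
  rw [e5] at h5
  linarith

end Vale.Agent.P356.GA
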