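import Vale.Agent.P356.GA.DIDef960
import Vale.Agent.P356.SV.Top

/-!
# GA, block DIASM-B (helper939): geometry of the levels and the doubling inequality
-/

set_option linter.all false

namespace Vale.Agent.P356.GA

open Matrix Finset Vale.Agent.P356 Vale.Agent.P356.SV Vale.Agent.P356.NA Vale.Agent.P356.SA
open scoped BigOperators

variable {L : ℕ}

/-- inner region at level `t` -/
noncomputable def Inn (T : Site L → ℝ) (t : ℝ) : Finset (Site L) :=
  open Classical in Finset.univ.filter fun x => T x ≤ t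

theorem mem_Inn {T : Site L → ℝ} {t : ℝ} {x : Site L} : x ∈ Inn T t ↔ T x ≤ t := by
  classical
  rw [Inn, Finset.mem_filter]
  exact ⟨fun h => h.2, fun h => ⟨Finset.mem_univ _, h⟩⟩

theorem Inn_mono (T : Site L → ℝ) {s t : ℝ} (h : s ≤ t) : Inn T s ⊆ Inn T t := by
  intro x hx
  rw [mem_Inn] at hx ⊢
  exact hx.trans h

/-- the function whose levels `t0 + k`, `k < N`, are the cuts -/
structure LvGeo (X : Finset (Site L)) (T : Site L → ℝ) (N w : ℕ) : Prop where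
  lip : ∀ x y, dist1 x y = 1 → |T x - T y| ≤ 3 / 2
  inner : ∀ x ∈ X, T x ≤ 0
  outer : ∀ x, T x ≤ N + 2 → x ∈ sa7_nb X w

/-- an interval of length at most `3 / 2` contains at most two levels -/
theorem lv_count {a b t0 : ℝ} (hab : b ≤ a + 3 / 2) (N : ℕ) :
    ((Finset.range N).filter (fun k : ℕ => a ≤ t0 + k ∧ t0 + k < b)).card ≤ 2 := by
  classical
  by_cases h : ((Finset.range N).filter (fun k : ℕ => a ≤ t0 + k ∧ t0 + k < b)).Nonempty
  · obtain ⟨m, hm⟩ : ∃ m, m = ((Finset.range N).filter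
        (fun k : ℕ => a ≤ t0 + k ∧ t0 + k < b)).min' h := ⟨_, rfl⟩
    have hmm := Finset.min'_mem _ h
    rw [← hm, Finset.mem_filter] at hmm
    have hsub : (Finset.range N).filter (fun k : ℕ => a ≤ t0 + k ∧ t0 + k < b) ⊆
        {m, m + 1} := by
      intro k hk
      have h1 := Finset.min'_le _ _ hk
      rw [← hm] at h1
      rw [Finset.mem_filter] at hk
      have h2 : (k : ℝ) < m + 2 := by
        have := hk.2.2
        have := hmm.2.1
        linarith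
      have h3 : k < m + 2 := by exact_mod_cast h2
      rw [Finset.mem_insert, Finset.mem_singleton]
      omega
    exact (Finset.card_le_card hsub).trans Finset.card_le_two
  · rw [Finset.not_nonempty_iff_eq_empty.1 h, Finset.card_empty]
    omega

/-- **coarea** -/
theorem lv_coarea {X : Finset (Site L)} {T : Site L → ℝ} {N w : ℕ} (hg : LvGeo X T N w)
    {t0 : ℝ} (h0 : 0 < t0) (h1 : t0 ≤ 1) :
    ∑ k ∈ range N, bdry (Inn T (t0 + (k : ℝ))) ≤ 8 * (sa7_nb X w \ X).card := by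
  classical
  have e1 : ∀ k : ℕ, bdry (Inn T (t0 + (k : ℝ))) =
      ∑ p ∈ (univ : Finset (Site L × Site L)).filter (fun p => dist1 p.1 p.2 = 1),
        (if T p.1 ≤ t0 + k ∧ t0 + k < T p.2 then 1 else 0) := by
    intro k
    rw [bdry, Finset.card_eq_sum_ones, Finset.sum_filter, Finset.sum_filter]
    refine Finset.sum_congr rfl fun p _ => ?_
    have h2 : (p.1 ∈ Inn T (t0 + (k : ℝ)) ∧ p.2 ∉ Inn T (t0 + (k : ℝ)) ∧ dist1 p.1 p.2 = 1) ↔
        (dist1 p.1 p.2 = 1 ∧ (T p.1 ≤ t0 + k ∧ t0 + k < T p.2)) := by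
      rw [mem_Inn, mem_Inn, not_le]
      tauto
    by_cases h3 : dist1 p.1 p.2 = 1
    · by_cases h4 : T p.1 ≤ t0 + k ∧ t0 + k < T p.2
      · rw [if_pos (h2.2 ⟨h3, h4⟩), if_pos h3, if_pos h4]
      · rw [if_neg (fun h => h4 (h2.1 h).2), if_pos h3, if_neg h4]
    · rw [if_neg (fun h => h3 (h2.1 h).1), if_neg h3]
  rw [Finset.sum_congr rfl fun k _ => e1 k, Finset.sum_comm]
  have e2 : ∀ p ∈ (univ : Finset (Site L × Site L)).filter (fun p => dist1 p.1 p.2 = 1),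
      ∑ k ∈ range N, (if T p.1 ≤ t0 + (k : ℝ) ∧ t0 + (k : ℝ) < T p.2 then 1 else 0) ≤
        if p.2 ∈ sa7_nb X w \ X then 2 else 0 := by
    intro p hp
    rw [Finset.mem_filter] at hp
    have hl := abs_le.1 (hg.lip p.1 p.2 hp.2)
    rw [← Finset.sum_filter, ← Finset.card_eq_sum_ones]
    split_ifs with h
    · exact lv_count (by linarith) N
    · rw [Nat.le_zero, Finset.card_eq_zero, Finset.filter_eq_empty_iff]
      intro k hk hc
      apply h
      rw [Finset.mem_sdiff]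
      have hk' : (k : ℝ) + 1 ≤ N := by exact_mod_cast Finset.mem_range.1 hk
      refine ⟨hg.outer _ (by linarith [hc.1]), fun hX => ?_⟩
      have := hg.inner _ hX
      have hk0 : (0 : ℝ) ≤ k := Nat.cast_nonneg k
      linarith [hc.2]
  refine (Finset.sum_le_sum e2).trans ?_
  rw [← Finset.sum_filter, Finset.filter_filter, Finset.sum_const, smul_eq_mul]
  have e3 : ((univ : Finset (Site L × Site L)).filter
      (fun p => dist1 p.1 p.2 = 1 ∧ p.2 ∈ sa7_nb X w \ X)).card ≤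
      4 * (sa7_nb X w \ X).card := by
    rw [mul_comm, ← smul_eq_mul, ← Finset.sum_const]
    have h2 : (univ : Finset (Site L × Site L)).filter
        (fun p => dist1 p.1 p.2 = 1 ∧ p.2 ∈ sa7_nb X w \ X) ⊆
        (sa7_nb X w \ X).biUnion (fun y =>
          ((Finset.univ : Finset (Site L)).filter (fun x => dist1 x y = 1)).image
            (fun x => (x, y))) := by
      intro p hp
      rw [Finset.mem_filter] at hp
      rw [Finset.mem_biUnion]
      refine ⟨p.2, hp.2.2, ?_⟩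
      rw [Finset.mem_image]
      exact ⟨p.1, Finset.mem_filter.mpr ⟨Finset.mem_univ _, hp.2.1⟩, rfl⟩
    refine (Finset.card_le_card h2).trans (Finset.card_biUnion_le.trans ?_)
    exact Finset.sum_le_sum fun y _ => Finset.card_image_le.trans (sa7_four y)
  omega

/-- the coarea inequality for the three groups of levels -/
theorem lv_groups (f : ℕ → ℕ) (h : ℕ) :
    ∑ k ∈ range h, (f k + f (3 * h - 1 - k)) + ∑ m ∈ range h, f (h + m) =
      ∑ k ∈ range (3 * h), f k := by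
  have e1 : 3 * h = h + h + h := by ring
  rw [e1, Finset.sum_range_add, Finset.sum_range_add, Finset.sum_add_distrib]
  have e2 : ∑ k ∈ range h, f (h + h + h - 1 - k) = ∑ k ∈ range h, f (h + h + k) := by
    rw [← Finset.sum_range_reflect (fun k => f (h + h + k)) h]
    refine Finset.sum_congr rfl fun k hk => ?_
    have := Finset.mem_range.1 hk
    congr 1
    omega
  rw [e2]
  ring

/-- the best middle level -/
theorem lv_middle (f : ℕ → ℕ) {h B : ℕ} (h1 : 1 ≤ h) (hf : ∑ k ∈ range (3 * h), f k ≤ B) :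
    ∃ m, m < h ∧ (f (h + m) : ℝ) ≤ (B : ℝ) / h := by
  have h0 : (0 : ℝ) < h := by exact_mod_cast h1
  by_contra hc
  push Not at hc
  have h2 : ∑ m ∈ range h, ((B : ℝ) / h) < ∑ m ∈ range h, (f (h + m) : ℝ) := by
    refine Finset.sum_lt_sum_of_nonempty (Finset.nonempty_range_iff.2 (by omega)) fun m hm => ?_
    exact hc m (Finset.mem_range.1 hm)
  rw [Finset.sum_const, Finset.card_range, nsmul_eq_mul, mul_div_cancel₀ _ h0.ne'] at h2
  have h3 := lv_groups f h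
  have h4 : ∑ m ∈ range h, f (h + m) ≤ B := by omega
  have h5 : (∑ m ∈ range h, (f (h + m) : ℝ)) ≤ B := by exact_mod_cast h4
  linarith

/-- **The fields of the doubling inequality from the levels.** -/
theorem dis_of_levels {X : Finset (Site L)} {T : Site L → ℝ} {h w l : ℕ} {t0 : ℝ}
    {S : Finset (Site L) → ℝ} {ω u c C C1 : ℝ}
    (hg : LvGeo X T (3 * h) w) (h0 : 0 < t0) (h1 : t0 ≤ 1) (hh : 1 ≤ h)
    (hw : (w : ℝ) ≤ (l : ℝ) ^ (1 - ω)) (hC1 : 0 ≤ C1) (hh2 : (l : ℝ) ^ (1 - ω) ≤ C1 * h)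
    (hC : 8 * C1 ≤ C) (hl : 1 ≤ l)
    (hmain : ∀ m, m < h →
      (1 - C * (l : ℝ) ^ (-c)) * ∑ k ∈ range h, (S (Inn T (t0 + (k : ℝ))) +
        S (Inn T (t0 + ((3 * h - 1 - k : ℕ) : ℝ)))) ≤
      ∑ k ∈ range h, S (Inn T (t0 + ((3 * h - 1 - k : ℕ) : ℝ)) \ Inn T (t0 + (k : ℝ))) +
        h * (C * (l : ℝ) ^ (-u) * S (Inn T (t0 + ((h + m : ℕ) : ℝ))) + C * (l : ℝ) ^ (1 - c))) :
    ∃ (n w : ℕ) (P Q : ℕ → Finset (Site L)) (M : Finset (Site L)),
      1 ≤ n ∧ (w : ℝ) ≤ (l : ℝ) ^ (1 - ω) ∧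
      (∀ k, k < n → X ⊆ P k ∧ P k ⊆ M ∧ M ⊆ Q k ∧ Q k ⊆ sa7_nb X w) ∧
      (bdry M : ℝ) ≤ C * ((sa7_nb X w \ X).card / (l : ℝ) ^ (1 - ω)) ∧
      ∑ k ∈ range n, ((bdry (P k) : ℝ) + bdry (Q k)) ≤
        n * (C * ((sa7_nb X w \ X).card / (l : ℝ) ^ (1 - ω))) ∧
      (1 - C * (l : ℝ) ^ (-c)) * ∑ k ∈ range n, (S (P k) + S (Q k)) ≤
        ∑ k ∈ range n, S (Q k \ P k) +
          n * (C * (l : ℝ) ^ (-u) * S M + C * (l : ℝ) ^ (1 - c)) := by
  have hco := lv_coarea hg h0 h1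
  obtain ⟨m, hm, hmb⟩ := lv_middle (fun k => bdry (Inn T (t0 + (k : ℝ)))) hh hco
  have hhr : (0 : ℝ) < h := by exact_mod_cast hh
  have hl0 : (0 : ℝ) < l := by exact_mod_cast hl
  have hp : 0 < (l : ℝ) ^ (1 - ω) := Real.rpow_pos_of_pos hl0 _
  -- the average boundary
  have hkey : (8 * ((sa7_nb X w \ X).card : ℝ)) / h ≤
      C * ((sa7_nb X w \ X).card / (l : ℝ) ^ (1 - ω)) := by
    rw [div_le_iff₀ hhr]
    have h3 : 8 * ((sa7_nb X w \ X).card : ℝ) =
        8 * ((sa7_nb X w \ X).card / (l : ℝ) ^ (1 - ω)) * (l : ℝ) ^ (1 - ω) := by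
      field_simp
    rw [h3]
    have h4 : 0 ≤ ((sa7_nb X w \ X).card : ℝ) / (l : ℝ) ^ (1 - ω) := by positivity
    calc 8 * (((sa7_nb X w \ X).card : ℝ) / (l : ℝ) ^ (1 - ω)) * (l : ℝ) ^ (1 - ω)
        ≤ 8 * (((sa7_nb X w \ X).card : ℝ) / (l : ℝ) ^ (1 - ω)) * (C1 * h) :=
          mul_le_mul_of_nonneg_left hh2 (by positivity)
      _ = (8 * C1) * (((sa7_nb X w \ X).card : ℝ) / (l : ℝ) ^ (1 - ω)) * h := by ring
      _ ≤ C * (((sa7_nb X w \ X).card : ℝ) / (l : ℝ) ^ (1 - ω)) * h :=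
          mul_le_mul_of_nonneg_right (mul_le_mul_of_nonneg_right hC h4) hhr.le
      _ = _ := by ring
  refine ⟨h, w, fun k => Inn T (t0 + (k : ℝ)),
    fun k => Inn T (t0 + ((3 * h - 1 - k : ℕ) : ℝ)), Inn T (t0 + ((h + m : ℕ) : ℝ)), hh, hw, ?_,
    ?_, ?_, hmain m hm⟩
  · intro k hk
    refine ⟨?_, ?_, ?_, ?_⟩
    · intro x hx
      rw [mem_Inn]
      have := hg.inner x hx
      have hk0 : (0 : ℝ) ≤ k := Nat.cast_nonneg k
      linarith
    · refine Inn_mono T ?_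
      have : (k : ℝ) ≤ ((h + m : ℕ) : ℝ) := by exact_mod_cast (by omega : k ≤ h + m)
      linarith
    · refine Inn_mono T ?_
      have : ((h + m : ℕ) : ℝ) ≤ ((3 * h - 1 - k : ℕ) : ℝ) := by
        exact_mod_cast (by omega : h + m ≤ 3 * h - 1 - k)
      linarith
    · intro x hx
      rw [mem_Inn] at hx
      refine hg.outer x (hx.trans ?_)
      have : ((3 * h - 1 - k : ℕ) : ℝ) ≤ ((3 * h : ℕ) : ℝ) := by
        exact_mod_cast (by omega : 3 * h - 1 - k ≤ 3 * h)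
      linarith
  · refine hmb.trans (le_trans (le_of_eq ?_) hkey)
    push_cast
    ring
  · have h5 := lv_groups (fun k => bdry (Inn T (t0 + (k : ℝ)))) h
    have h6 : ∑ k ∈ range h, (bdry (Inn T (t0 + (k : ℝ))) +
        bdry (Inn T (t0 + ((3 * h - 1 - k : ℕ) : ℝ)))) ≤ 8 * (sa7_nb X w \ X).card := by
      have h7 : ∑ k ∈ range (3 * h), bdry (Inn T (t0 + (k : ℝ))) ≤
        8 * (sa7_nb X w \ X).card := hco
      have h8 : ∑ k ∈ range h, (bdry (Inn T (t0 + (k : ℝ))) +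
        bdry (Inn T (t0 + ((3 * h - 1 - k : ℕ) : ℝ)))) + _ =
          ∑ k ∈ range (3 * h), bdry (Inn T (t0 + (k : ℝ))) := h5
      omega
    have h9 : ∑ k ∈ range h, ((bdry (Inn T (t0 + (k : ℝ))) : ℝ) +
        bdry (Inn T (t0 + ((3 * h - 1 - k : ℕ) : ℝ)))) ≤ 8 * (sa7_nb X w \ X).card := by
      exact_mod_cast h6
    refine h9.trans ?_
    have h10 := mul_le_mul_of_nonneg_left hkey hhr.le
    rw [mul_div_cancel₀ _ hhr.ne'] at h10
    exact h10

/-! ### the distance function -/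

/-- distance to a nonempty set -/
noncomputable def dTo (X : Finset (Site L)) (hX : X.Nonempty) (x : Site L) : ℕ :=
  X.inf' hX fun y => dist1 y x

theorem dTo_le_iff {X : Finset (Site L)} (hX : X.Nonempty) {x : Site L} {r : ℕ} :
    dTo X hX x ≤ r ↔ x ∈ sa7_nb X r := by
  rw [dTo, Finset.inf'_le_iff, sa7_mem_nb]

theorem dTo_zero {X : Finset (Site L)} (hX : X.Nonempty) {x : Site L} (hx : x ∈ X) :
    dTo X hX x = 0 := by
  have h : dTo X hX x ≤ 0 := (dTo_le_iff hX).2 (sa7_sub_nb X 0 hx)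
  omega

theorem dTo_tri {X : Finset (Site L)} (hX : X.Nonempty) (x y : Site L) :
    dTo X hX x ≤ dTo X hX y + dist1 x y := by
  rw [dTo_le_iff]
  refine sa7_nb_step X ((dTo_le_iff hX).1 le_rfl) ?_
  rw [dist1_comm]

theorem dTo_lip {X : Finset (Site L)} (hX : X.Nonempty) (x y : Site L) :
    |(dTo X hX x : ℝ) - dTo X hX y| ≤ dist1 x y := by
  rw [abs_le]
  have h1 : (dTo X hX x : ℝ) ≤ dTo X hX y + dist1 x y := by exact_mod_cast dTo_tri hX x y
  have h2 : (dTo X hX y : ℝ) ≤ dTo X hX x + dist1 y x := by exact_mod_cast dTo_tri hX y x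
  rw [dist1_comm y x] at h2
  constructor <;> linarith

/-- the geometry of the levels of a function close to the distance -/
theorem lvGeo_of {X : Finset (Site L)} (hX : X.Nonempty) {T : Site L → ℝ} {N w s : ℕ}
    (hlip : ∀ x y, dist1 x y = 1 → |T x - T y| ≤ 3 / 2)
    (hT1 : ∀ x, (dTo X hX x : ℝ) - 2 * s ≤ T x)
    (hT2 : ∀ x, T x ≤ (dTo X hX x : ℝ) - 2 * s + s / 2) (hw : N + 2 + 2 * s ≤ w) :
    LvGeo X T N w := by
  refine ⟨hlip, fun x hx => ?_, fun x hx => ?_⟩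
  · have h := hT2 x
    rw [dTo_zero hX hx] at h
    have hs : (0 : ℝ) ≤ s := Nat.cast_nonneg s
    push_cast at h
    linarith
  · rw [← dTo_le_iff hX]
    have h := hT1 x
    have h1 : (dTo X hX x : ℝ) ≤ w := by
      have : ((N + 2 + 2 * s : ℕ) : ℝ) ≤ w := by exact_mod_cast hw
      push_cast at this
      linarith
    exact_mod_cast h1

/-- the empty region -/
theorem dis_empty {S : Finset (Site L) → ℝ} {ω u c C : ℝ} {l : ℕ} (hl : 1 ≤ l) (hS : S ∅ = 0)
    (hC : 0 ≤ C) :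
    ∃ (n w : ℕ) (P Q : ℕ → Finset (Site L)) (M : Finset (Site L)),
      1 ≤ n ∧ (w : ℝ) ≤ (l : ℝ) ^ (1 - ω) ∧
      (∀ k, k < n → (∅ : Finset (Site L)) ⊆ P k ∧ P k ⊆ M ∧ M ⊆ Q k ∧ Q k ⊆ sa7_nb ∅ w) ∧
      (bdry M : ℝ) ≤ C * ((sa7_nb (∅ : Finset (Site L)) w \ ∅).card / (l : ℝ) ^ (1 - ω)) ∧
      ∑ k ∈ range n, ((bdry (P k) : ℝ) + bdry (Q k)) ≤
        n * (C * ((sa7_nb (∅ : Finset (Site L)) w \ ∅).card / (l : ℝ) ^ (1 - ω))) ∧
      (1 - C * (l : ℝ) ^ (-c)) * ∑ k ∈ range n, (S (P k) + S (Q k)) ≤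
        ∑ k ∈ range n, S (Q k \ P k) +
          n * (C * (l : ℝ) ^ (-u) * S M + C * (l : ℝ) ^ (1 - c)) := by
  have hl0 : (0 : ℝ) < l := by exact_mod_cast hl
  have hb : bdry (∅ : Finset (Site L)) = 0 := by
    rw [bdry, Finset.card_eq_zero, Finset.filter_eq_empty_iff]
    intro p _ hp
    exact absurd hp.1 (Finset.notMem_empty _)
  have hp := Real.rpow_nonneg hl0.le (1 - ω)
  have hp2 := Real.rpow_nonneg hl0.le (1 - c)
  refine ⟨1, 0, fun _ => ∅, fun _ => ∅, ∅, le_refl _, by rw [Nat.cast_zero]; exact hp, ?_, ?_, ?_,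
    ?_⟩
  · intro k _
    exact ⟨Finset.Subset.refl _, Finset.Subset.refl _, Finset.Subset.refl _,
      Finset.empty_subset _⟩
  · rw [hb, Nat.cast_zero]
    positivity
  · simp only [hb, Nat.cast_zero, add_zero, Finset.sum_const_zero]
    positivity
  · simp only [Finset.sdiff_self, hS, add_zero, mul_zero, Finset.sum_const_zero, zero_add]
    positivity

end Vale.Agent.P356.GA
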