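import Vale.Agent.P356.GA.Energy980
import Vale.Agent.P356.GA.Low125a
import Vale.Agent.P356.PH.Mat749

/-!
# GA, block DRESS (helper621): operators dressed by a tiled Hermitian sum

* `dr Γ X ζ = e^{ζ Γ} X e^{-ζ Γ}`: entire, norm `≤ ‖X‖ exp (2 b |Re ζ|)`.
* For `Γ = ∑_j Γ_j` with `Γ_j` acting on pairwise disjoint tiles `B j` and `X` acting on `Z`, only
  the tiles which meet `Z` matter (`dr_meet`), and the result acts on `Z` and these tiles
  (`dr_acts`).
* `fE_dress`, `fE_radius`: the input `‖fE ψ G (n+1) X z‖ ≤ e ‖X‖` on `‖z‖ ≤ R` of the energy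
  identity, from a tube bound for the first `n` flows.
* `crude_energy`: the crude a priori bound.
-/

set_option linter.all false

namespace Vale.Agent.P356.GA

open Matrix Finset Vale.Agent.P356 Vale.Agent.P356.SV Vale.Agent.P356.Path
open scoped BigOperators ComplexOrder Kronecker Matrix.Norms.L2Operator

section dress
variable {N : Type*} [Fintype N] [DecidableEq N]

/-- `e^{ζ Γ} X e^{-ζ Γ}` -/
noncomputable def dr (Γ X : Matrix N N ℂ) (ζ : ℂ) : Matrix N N ℂ :=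
  NormedSpace.exp (ζ • Γ) * X * NormedSpace.exp ((-ζ) • Γ)

theorem norm_exp_herm {Γ : Matrix N N ℂ} (hΓ : Γ.IsHermitian) {b : ℝ} (hb : ‖Γ‖ ≤ b) (z : ℂ) :
    ‖NormedSpace.exp (z • Γ)‖ ≤ Real.exp (b * |z.re|) := by
  rcases le_total 0 z.re with h | h
  · rw [abs_of_nonneg h]
    exact (Flow.expm hΓ hb).bd z h
  · have hΓ' : (-Γ).IsHermitian := hΓ.neg
    have hb' : ‖-Γ‖ ≤ b := by rw [norm_neg]; exact hb
    have h1 := (Flow.expm hΓ' hb').bd (-z) (by rw [Complex.neg_re]; linarith)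
    rw [Complex.neg_re, ← abs_of_nonpos h] at h1
    have e : (-z) • (-Γ) = z • Γ := by rw [smul_neg, neg_smul, neg_neg]
    rw [e] at h1
    exact h1

theorem dr_norm {Γ : Matrix N N ℂ} (hΓ : Γ.IsHermitian) {b : ℝ} (hb : ‖Γ‖ ≤ b)
    (X : Matrix N N ℂ) (ζ : ℂ) : ‖dr Γ X ζ‖ ≤ ‖X‖ * Real.exp (2 * b * |ζ.re|) := by
  have h1 := norm_exp_herm hΓ hb ζ
  have h2 := norm_exp_herm hΓ hb (-ζ)
  rw [Complex.neg_re, abs_neg] at h2
  have h3 : ‖dr Γ X ζ‖ ≤ Real.exp (b * |ζ.re|) * ‖X‖ * Real.exp (b * |ζ.re|) := by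
    rw [dr]
    refine (norm_mul_le _ _).trans ?_
    refine mul_le_mul ((norm_mul_le _ _).trans ?_) h2 (norm_nonneg _) (by positivity)
    exact mul_le_mul_of_nonneg_right h1 (norm_nonneg _)
  refine h3.trans (le_of_eq ?_)
  have : Real.exp (2 * b * |ζ.re|) = Real.exp (b * |ζ.re|) * Real.exp (b * |ζ.re|) := by
    rw [← Real.exp_add]
    congr 1
    ring
  rw [this]
  ring

theorem dr_diff (Γ X : Matrix N N ℂ) : Differentiable ℂ (dr Γ X) := by
  letI : NormedAlgebra ℚ (Matrix N N ℂ) := NormedAlgebra.restrictScalars ℚ ℝ (Matrix N N ℂ)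
  have h1 : Differentiable ℂ fun z : ℂ => NormedSpace.exp (z • Γ) :=
    fun z => (hasDerivAt_exp_smul_const Γ z).differentiableAt
  have h2 : Differentiable ℂ fun z : ℂ => NormedSpace.exp ((-z) • Γ) :=
    fun z => (h1 (-z)).comp z differentiableAt_id.neg
  exact (h1.mul (differentiable_const X)).mul h2

theorem exp_mul_neg (Γ : Matrix N N ℂ) (ζ : ℂ) :
    NormedSpace.exp (ζ • Γ) * NormedSpace.exp ((-ζ) • Γ) = 1 := by
  have := exp_inv_neg Γ (-ζ)
  rw [neg_neg] at this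
  exact this

/-- a summand commuting with the rest and with `X` drops out -/
theorem dr_add {Γ Γ' X : Matrix N N ℂ} (h : Commute Γ Γ') (hX : Commute Γ' X) (ζ : ℂ) :
    dr (Γ + Γ') X ζ = dr Γ X ζ := by
  letI : NormedAlgebra ℚ (Matrix N N ℂ) := NormedAlgebra.restrictScalars ℚ ℝ (Matrix N N ℂ)
  have e : ∀ z : ℂ, NormedSpace.exp (z • (Γ + Γ')) =
      NormedSpace.exp (z • Γ) * NormedSpace.exp (z • Γ') := by
    intro z
    rw [smul_add, NormedSpace.exp_add_of_commute ((h.smul_right z).smul_left z)]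
  have e' : ∀ z : ℂ, NormedSpace.exp (z • (Γ + Γ')) =
      NormedSpace.exp (z • Γ') * NormedSpace.exp (z • Γ) := by
    intro z
    rw [smul_add, add_comm, NormedSpace.exp_add_of_commute ((h.symm.smul_right z).smul_left z)]
  have hc : Commute (NormedSpace.exp (ζ • Γ')) X := (hX.smul_left ζ).exp_left
  rw [dr, dr, e, e' (-ζ)]
  calc NormedSpace.exp (ζ • Γ) * NormedSpace.exp (ζ • Γ') * X *
        (NormedSpace.exp ((-ζ) • Γ') * NormedSpace.exp ((-ζ) • Γ))
      = NormedSpace.exp (ζ • Γ) * (NormedSpace.exp (ζ • Γ') * X) *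
        (NormedSpace.exp ((-ζ) • Γ') * NormedSpace.exp ((-ζ) • Γ)) := by
          simp only [Matrix.mul_assoc]
    _ = NormedSpace.exp (ζ • Γ) * (X * NormedSpace.exp (ζ • Γ')) *
        (NormedSpace.exp ((-ζ) • Γ') * NormedSpace.exp ((-ζ) • Γ)) := by rw [hc.eq]
    _ = NormedSpace.exp (ζ • Γ) * X * (NormedSpace.exp (ζ • Γ') * NormedSpace.exp ((-ζ) • Γ')) *
        NormedSpace.exp ((-ζ) • Γ) := by simp only [Matrix.mul_assoc]
    _ = _ := by rw [exp_mul_neg, Matrix.mul_one]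

theorem fE_dress (ψ : N → ℂ) (G : ℕ → Matrix N N ℂ) (n : ℕ) (X : Matrix N N ℂ) (ζ : ℂ) :
    fE ψ G (n + 1) X ζ = fE ψ G n (dr (G n) X ζ) ζ := fE_succ ψ G n X ζ

end dress

section tiles
variable {V : Type*} [Fintype V] [DecidableEq V] {q : ℕ} {J : Type*} [DecidableEq J]

/-- the tiles which meet `Z` -/
def meet (s : Finset J) (B : J → Finset V) (Z : Finset V) : Finset J :=
  s.filter fun j => ¬ Disjoint (B j) Z

/-- `Z` together with the tiles which meet it -/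
def star1 (s : Finset J) (B : J → Finset V) (Z : Finset V) : Finset V :=
  Z ∪ (meet s B Z).biUnion B

theorem subset_star1 (s : Finset J) (B : J → Finset V) (Z : Finset V) : Z ⊆ star1 s B Z :=
  Finset.subset_union_left

theorem acts_sum {ι : Type*} (s : Finset ι) {X : Finset V} {A : ι → Op V q}
    (h : ∀ i ∈ s, ActsOn X (A i)) : ActsOn X (∑ i ∈ s, A i) := by
  classical
  induction s using Finset.induction_on with
  | empty => rw [Finset.sum_empty]; exact PH.ph_acts_zero X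
  | insert a s ha ih =>
    rw [Finset.sum_insert ha]
    exact PH.ph_acts_add (h a (Finset.mem_insert_self _ _))
      (ih fun i hi => h i (Finset.mem_insert_of_mem hi))

theorem sum_herm {N ι : Type*} (s : Finset ι) {A : ι → Matrix N N ℂ}
    (h : ∀ i ∈ s, (A i).IsHermitian) : (∑ i ∈ s, A i).IsHermitian := by
  rw [Matrix.IsHermitian, Matrix.conjTranspose_sum]
  exact Finset.sum_congr rfl fun i hi => h i hi

variable {s : Finset J} {B : J → Finset V} {Γ : J → Op V q}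

/-- only the tiles meeting `Z` matter -/
theorem dr_meet (hB : ∀ i ∈ s, ∀ j ∈ s, i ≠ j → Disjoint (B i) (B j))
    (hΓ : ∀ j ∈ s, ActsOn (B j) (Γ j)) {Z : Finset V} {X : Op V q} (hX : ActsOn Z X) (ζ : ℂ) :
    dr (∑ j ∈ s, Γ j) X ζ = dr (∑ j ∈ meet s B Z, Γ j) X ζ := by
  classical
  have hsplit : ∑ j ∈ s, Γ j = ∑ j ∈ meet s B Z, Γ j + ∑ j ∈ s \ meet s B Z, Γ j := by
    rw [add_comm]
    exact (Finset.sum_sdiff (show meet s B Z ⊆ s from Finset.filter_subset _ _)).symm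
  rw [hsplit]
  refine dr_add ?_ ?_ ζ
  · refine Commute.sum_right _ _ _ fun j hj => Commute.sum_left _ _ _ fun i hi => ?_
    have hj1 := (Finset.mem_sdiff.1 hj).1
    have hj2 := (Finset.mem_sdiff.1 hj).2
    have hi1 := (Finset.mem_filter.1 hi).1
    have hne : i ≠ j := fun h => hj2 (h ▸ hi)
    exact PH.ph_acts_comm (hB i hi1 j hj1 hne) (hΓ i hi1) (hΓ j hj1)
  · refine Commute.sum_left _ _ _ fun j hj => ?_
    have hj1 := (Finset.mem_sdiff.1 hj).1
    have hj2 := (Finset.mem_sdiff.1 hj).2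
    have hd : Disjoint (B j) Z := by
      by_contra h
      exact hj2 (Finset.mem_filter.2 ⟨hj1, h⟩)
    exact PH.ph_acts_comm hd (hΓ j hj1) hX

theorem dr_acts_aux {Z : Finset V} {G X : Op V q} (hG : ActsOn Z G) (hX : ActsOn Z X) (ζ : ℂ) :
    ActsOn Z (dr G X ζ) :=
  PH.ph_acts_mul (PH.ph_acts_mul (PH.ph_acts_exp (PH.ph_acts_smul ζ hG)) hX)
    (PH.ph_acts_exp (PH.ph_acts_smul (-ζ) hG))

/-- the dressed operator acts on `Z` and the tiles which meet it -/
theorem dr_acts (hB : ∀ i ∈ s, ∀ j ∈ s, i ≠ j → Disjoint (B i) (B j))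
    (hΓ : ∀ j ∈ s, ActsOn (B j) (Γ j)) {Z : Finset V} {X : Op V q} (hX : ActsOn Z X) (ζ : ℂ) :
    ActsOn (star1 s B Z) (dr (∑ j ∈ s, Γ j) X ζ) := by
  rw [dr_meet hB hΓ hX]
  refine dr_acts_aux (acts_sum _ fun j hj => ?_) (PH.ph_acts_mono (subset_star1 s B Z) hX) ζ
  refine PH.ph_acts_mono ?_ (hΓ j (Finset.mem_filter.1 hj).1)
  exact (Finset.subset_biUnion_of_mem B hj).trans Finset.subset_union_right

/-- norm of the dressed operator: only the tiles meeting `Z` count -/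
theorem dr_tiles_norm (hB : ∀ i ∈ s, ∀ j ∈ s, i ≠ j → Disjoint (B i) (B j))
    (hΓ : ∀ j ∈ s, ActsOn (B j) (Γ j)) (hH : ∀ j ∈ s, (Γ j).IsHermitian) {Z : Finset V}
    {X : Op V q} (hX : ActsOn Z X) {b : ℝ} (hb : ∑ j ∈ meet s B Z, ‖Γ j‖ ≤ b) (ζ : ℂ) :
    ‖dr (∑ j ∈ s, Γ j) X ζ‖ ≤ ‖X‖ * Real.exp (2 * b * |ζ.re|) := by
  rw [dr_meet hB hΓ hX]
  exact dr_norm (sum_herm _ fun j hj => hH j (Finset.mem_filter.1 hj).1)
    ((norm_sum_le _ _).trans hb) X ζ

end tiles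

end Vale.Agent.P356.GA
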