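import Vale.Agent.P356.GA.DiAsm178
import Vale.Agent.P356.GA.EntDbl865
import Vale.Agent.P356.GA.Defs341
import Vale.Agent.P356.GA.DiArith939
import Vale.Agent.P356.GA.DiGeo939
import Vale.Agent.P356.GA.Dress621

/-!
# GA, T1 (helper178, helper939): the doubling inequality from the analytic part
-/

set_option linter.all false

namespace Vale.Agent.P356.GA

open Matrix Finset Vale.Agent.P356 Vale.Agent.P356.SV Vale.Agent.P356.Path Vale.Agent.P356.NA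
open Vale.Agent.P356.SA
open scoped BigOperators ComplexOrder Kronecker Matrix.Norms.L2Operator

section gd
variable {L q : ℕ}

theorem mem_loT939 {T : Site L → ℝ} {t : ℝ} {x : Site L} : x ∈ loT T t ↔ T x ≤ t := by
  classical
  rw [loT, Finset.mem_filter]
  exact ⟨fun h => h.2, fun h => ⟨Finset.mem_univ _, h⟩⟩

theorem loT_mono939 (T : Site L → ℝ) {s t : ℝ} (h : s ≤ t) : loT T s ⊆ loT T t := by
  intro x hx
  rw [mem_loT939] at hx ⊢
  exact hx.trans h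

theorem mem_slT939 {T : Site L → ℝ} {t u : ℝ} {x : Site L} :
    x ∈ slT T t u ↔ t < T x ∧ T x ≤ u := by
  classical
  rw [slT, Finset.mem_filter]
  exact ⟨fun h => h.2, fun h => ⟨Finset.mem_univ _, h⟩⟩

theorem gd_R939 (g : Gd L) (k : ℕ) : g.R k = Ecut (g.P k) (g.Q k) := by
  classical
  ext v
  rw [Gd.R, Finset.mem_filter, Ecut]
  rcases v with x | x
  · rw [Finset.inl_mem_disjSum, Finset.mem_compl, Gd.P, mem_loT939, not_le]
    simp
  · rw [Finset.inr_mem_disjSum, Gd.Q, mem_loT939]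
    simp

theorem gd_P_mono939 (g : Gd L) {j k : ℕ} (h : j ≤ k) : g.P j ⊆ g.P k := by
  refine loT_mono939 _ ?_
  have : (j : ℝ) ≤ k := by exact_mod_cast h
  linarith

theorem gd_Q_anti939 (g : Gd L) {j k : ℕ} (h : j ≤ k) : g.Q k ⊆ g.Q j := by
  refine loT_mono939 _ ?_
  have : (j : ℝ) ≤ k := by exact_mod_cast h
  linarith

theorem gd_P_Mid939 (g : Gd L) {k : ℕ} (h : k ≤ g.m) : g.P k ⊆ g.Mid := by
  refine loT_mono939 _ ?_
  have : (k : ℝ) ≤ g.m := by exact_mod_cast h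
  linarith

theorem gd_Mid_Q939 (g : Gd L) {k : ℕ} (h : g.m + k ≤ g.N) : g.Mid ⊆ g.Q k := by
  refine loT_mono939 _ ?_
  have : (g.m : ℝ) + k ≤ g.N := by exact_mod_cast h
  linarith

theorem gd_Gm1_acts939 (g : Gd L) (h1 : g.n + g.mp ≤ g.m) (θ : ℝ)
    {Kt : Finset (Site L) → Op (Site L) q} (hK : ∀ b, ActsOn b (Kt b)) :
    ActsOn g.Mid (g.Gm1 θ Kt) := by
  rw [Gd.Gm1]
  refine acts_sum _ fun k hk => acts_sum _ fun j _ => ?_
  refine PH.ph_acts_smul _ (PH.ph_acts_mono ?_ (hK _))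
  intro x hx
  have hx1 := Finset.mem_inter.1 hx
  have hx2 := mem_slT939.1 hx1.1
  rw [Gd.Mid, mem_loT939]
  have hk' := Finset.mem_range.1 hk
  have h2 : (k : ℝ) + g.mp ≤ g.m := by exact_mod_cast (by omega : k + g.mp ≤ g.m)
  linarith [hx2.2]

theorem gd_Gm2_acts939 (g : Gd L) (h2 : g.m + g.n + g.mp ≤ g.N) (θ : ℝ)
    {Kt : Finset (Site L) → Op (Site L) q} (hK : ∀ b, ActsOn b (Kt b)) :
    ActsOn g.Midᶜ (g.Gm2 θ Kt) := by
  rw [Gd.Gm2]
  refine acts_sum _ fun k hk => acts_sum _ fun j _ => ?_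
  refine PH.ph_acts_smul _ (PH.ph_acts_mono ?_ (hK _))
  intro x hx
  have hx1 := Finset.mem_inter.1 hx
  have hx2 := mem_slT939.1 hx1.1
  rw [Finset.mem_compl, Gd.Mid, mem_loT939, not_le]
  have hk' := Finset.mem_range.1 hk
  have h3 : (g.m : ℝ) + k + g.mp ≤ g.N := by exact_mod_cast (by omega : g.m + k + g.mp ≤ g.N)
  linarith [hx2.1]

theorem gd_Gm_herm939 (g : Gd L) (θ : ℝ)
    {Kt : Finset (Site L) → Op (Site L) q} (hK : ∀ b, (Kt b).IsHermitian) :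
    (g.Gm1 θ Kt + g.Gm2 θ Kt).IsHermitian := by
  have h0 : ∀ b, (((θ / 2 : ℝ) : ℂ) • Kt b).IsHermitian := fun b => by
    rw [Matrix.IsHermitian, conjTranspose_smul, (hK b).eq, Complex.star_def, Complex.conj_ofReal]
  rw [Gd.Gm1, Gd.Gm2]
  exact (sum_herm _ fun k _ => sum_herm _ fun j _ => h0 _).add
    (sum_herm _ fun k _ => sum_herm _ fun j _ => h0 _)

theorem expv_Gm939 (g : Gd L) (θ : ℝ) (Kt : Finset (Site L) → Op (Site L) q)
    {Ω : Conf (Site L) q → ℂ} (hΩ : nsq Ω = 1) :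
    expv (dbl Ω Ω) (g.Gm θ Kt) = (star Ω ⬝ᵥ ((g.Gm1 θ Kt + g.Gm2 θ Kt) *ᵥ Ω)).re := by
  show (star (dbl Ω Ω) ⬝ᵥ (g.Gm θ Kt *ᵥ dbl Ω Ω)).re = _
  rw [Gd.Gm, add_mulVec, dotProduct_add, dg_exp_one hΩ, dg_exp_two hΩ, add_mulVec,
    dotProduct_add]

end gd

/-- the end of the computation, in the form of `core_ineq` -/
theorem dia_end2 {x c u rel SPQ SD SM Us lq K1 K2 : ℝ} {n : ℕ} (hx : 2 ≤ x)
    (hc : c ≤ 1 / 10) (hu : 0 ≤ u) (hn : 1 ≤ n) (hlq : 0 ≤ lq) (hK1 : 0 ≤ K1) (hK2 : 0 ≤ K2)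
    (hSPQ : 0 ≤ SPQ) (hSM : 0 ≤ SM)
    (hrel : rel ≤ K1 * x ^ (-c)) (hUs : Us ≤ n * (K2 * x ^ (1 - c)))
    (hSD2 : 8 * x ^ (-10 : ℝ) * SD ≤ n * (72 * lq))
    (hSM2 : 8 * x ^ (-10 : ℝ) * SM ≤ 72 * lq) (he1 : 8 * x ^ (-10 : ℝ) ≤ 1)
    (hA : (1 - rel) * SPQ ≤ (1 + 8 * x ^ (-10 : ℝ)) * SD + Us + n * ((1 + 8 * x ^ (-10 : ℝ)) *
      (3 + 18 * lq) + ((1 + 8 * x ^ (-10 : ℝ)) * (SM + (3 + 18 * lq)) + x ^ (1 - c) +
        2 * (8 * x ^ (-10 : ℝ)) * x ^ (4 : ℝ)) / (x ^ u / 2) + 1)) :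
    (1 - (K1 + K2 + 53 + 324 * lq) * x ^ (-c)) * SPQ ≤ SD +
      n * ((K1 + K2 + 53 + 324 * lq) * x ^ (-u) * SM +
        (K1 + K2 + 53 + 324 * lq) * x ^ (1 - c)) := by
  have hx0 : 0 < x := by linarith
  have hx1 : 1 ≤ x := by linarith
  have hn0 : (0 : ℝ) < n := by exact_mod_cast hn
  have h1 : x ^ (-10 : ℝ) * x ^ (4 : ℝ) ≤ 1 := by
    rw [← Real.rpow_add hx0]
    exact Real.rpow_le_one_of_one_le_of_nonpos hx1 (by norm_num)
  have hp1 : 1 ≤ x ^ (1 - c) := Real.one_le_rpow hx1 (by linarith)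
  have hu1 : x ^ (-u) ≤ 1 := Real.rpow_le_one_of_one_le_of_nonpos hx1 (by linarith)
  have hu0 : 0 < x ^ (-u) := Real.rpow_pos_of_pos hx0 _
  have hc0 : 0 < x ^ (-c) := Real.rpow_pos_of_pos hx0 _
  have e1 : ∀ y : ℝ, y / (x ^ u / 2) = 2 * x ^ (-u) * y := fun y => by
    rw [Real.rpow_neg hx0.le]
    field_simp
  rw [e1] at hA
  have hf0 : 0 ≤ 3 + 18 * lq := by positivity
  have hf1 : (1 + 8 * x ^ (-10 : ℝ)) * (3 + 18 * lq) ≤ 2 * (3 + 18 * lq) :=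
    mul_le_mul_of_nonneg_right (by linarith) hf0
  -- the bracket
  have h2 : (1 + 8 * x ^ (-10 : ℝ)) * (SM + (3 + 18 * lq)) + x ^ (1 - c) +
      2 * (8 * x ^ (-10 : ℝ)) * x ^ (4 : ℝ) ≤ SM + (23 + 108 * lq) * x ^ (1 - c) := by
    have h3 : 2 * (8 * x ^ (-10 : ℝ)) * x ^ (4 : ℝ) ≤ 16 := by
      have : 2 * (8 * x ^ (-10 : ℝ)) * x ^ (4 : ℝ) = 16 * (x ^ (-10 : ℝ) * x ^ (4 : ℝ)) := by ring
      rw [this]
      linarith
    have h4 : (22 + 108 * lq) * 1 ≤ (22 + 108 * lq) * x ^ (1 - c) :=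
      mul_le_mul_of_nonneg_left hp1 (by positivity)
    have e2 : (1 + 8 * x ^ (-10 : ℝ)) * (SM + (3 + 18 * lq)) =
        SM + 8 * x ^ (-10 : ℝ) * SM + (1 + 8 * x ^ (-10 : ℝ)) * (3 + 18 * lq) := by ring
    have e3 : (23 + 108 * lq) * x ^ (1 - c) = (22 + 108 * lq) * x ^ (1 - c) + x ^ (1 - c) := by
      ring
    rw [e2, e3]
    linarith
  have h5 : 2 * x ^ (-u) * ((1 + 8 * x ^ (-10 : ℝ)) * (SM + (3 + 18 * lq)) + x ^ (1 - c) +
      2 * (8 * x ^ (-10 : ℝ)) * x ^ (4 : ℝ)) ≤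
      2 * (x ^ (-u) * SM) + (46 + 216 * lq) * x ^ (1 - c) := by
    refine (mul_le_mul_of_nonneg_left h2 (by positivity)).trans ?_
    have h6 : 2 * x ^ (-u) * (SM + (23 + 108 * lq) * x ^ (1 - c)) =
        2 * (x ^ (-u) * SM) + (46 + 216 * lq) * (x ^ (-u) * x ^ (1 - c)) := by ring
    rw [h6]
    have h7 : x ^ (-u) * x ^ (1 - c) ≤ 1 * x ^ (1 - c) :=
      mul_le_mul_of_nonneg_right hu1 (by linarith)
    have h8 := mul_le_mul_of_nonneg_left h7 (by positivity : (0 : ℝ) ≤ 46 + 216 * lq)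
    linarith
  have h9 : (n : ℝ) * ((1 + 8 * x ^ (-10 : ℝ)) * (3 + 18 * lq) +
      2 * x ^ (-u) * ((1 + 8 * x ^ (-10 : ℝ)) * (SM + (3 + 18 * lq)) + x ^ (1 - c) +
      2 * (8 * x ^ (-10 : ℝ)) * x ^ (4 : ℝ)) + 1) ≤
      n * (2 * (x ^ (-u) * SM) + (53 + 252 * lq) * x ^ (1 - c)) := by
    refine mul_le_mul_of_nonneg_left ?_ hn0.le
    have h10 : (7 + 36 * lq) * 1 ≤ (7 + 36 * lq) * x ^ (1 - c) :=
      mul_le_mul_of_nonneg_left hp1 (by positivity)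
    have e3 : (53 + 252 * lq) * x ^ (1 - c) =
        (46 + 216 * lq) * x ^ (1 - c) + (7 + 36 * lq) * x ^ (1 - c) := by ring
    rw [e3]
    linarith
  have h11 : (1 - (K1 + K2 + 53 + 324 * lq) * x ^ (-c)) * SPQ ≤ (1 - rel) * SPQ := by
    refine mul_le_mul_of_nonneg_right ?_ hSPQ
    have h12 : (K1 + K2 + 53 + 324 * lq) * x ^ (-c) =
        K1 * x ^ (-c) + (K2 + 53 + 324 * lq) * x ^ (-c) := by ring
    have h13 : 0 ≤ (K2 + 53 + 324 * lq) * x ^ (-c) := by positivity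
    linarith
  have h14 : 2 * (x ^ (-u) * SM) ≤ (K1 + K2 + 53 + 324 * lq) * x ^ (-u) * SM := by
    have h15 : 0 ≤ x ^ (-u) * SM := by positivity
    have e2 : (K1 + K2 + 53 + 324 * lq) * x ^ (-u) * SM =
        (K1 + K2 + 53 + 324 * lq) * (x ^ (-u) * SM) := by ring
    rw [e2]
    exact mul_le_mul_of_nonneg_right (by linarith) h15
  have h16 := mul_le_mul_of_nonneg_left h14 hn0.le
  have e4 : (n : ℝ) * ((K1 + K2 + 53 + 324 * lq) * x ^ (-u) * SM +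
        (K1 + K2 + 53 + 324 * lq) * x ^ (1 - c)) =
      n * ((K1 + K2 + 53 + 324 * lq) * x ^ (-u) * SM) + n * (K2 * x ^ (1 - c)) +
        n * ((53 + 252 * lq) * x ^ (1 - c)) + n * (72 * lq * x ^ (1 - c)) +
        n * (K1 * x ^ (1 - c)) := by ring
  have h17 : 0 ≤ (n : ℝ) * (K1 * x ^ (1 - c)) := by positivity
  have h18 : (n : ℝ) * (72 * lq) ≤ n * (72 * lq * x ^ (1 - c)) := by
    refine mul_le_mul_of_nonneg_left ?_ hn0.le
    have := mul_le_mul_of_nonneg_left hp1 (by positivity : (0 : ℝ) ≤ 72 * lq)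
    linarith
  have e5 : (n : ℝ) * (2 * (x ^ (-u) * SM) + (53 + 252 * lq) * x ^ (1 - c)) =
      n * (2 * (x ^ (-u) * SM)) + n * ((53 + 252 * lq) * x ^ (1 - c)) := by ring
  have e6 : (1 + 8 * x ^ (-10 : ℝ)) * SD = SD + 8 * x ^ (-10 : ℝ) * SD := by ring
  rw [e4]
  rw [e5] at h9
  rw [e6] at hA
  linarith

section main
variable {L q R : ℕ}

/-- closeness of the tilted states from their energy -/
theorem coreAt_close {H' : Op (Site L) q} {Δ E' η : ℝ} {Ω' : Conf (Site L) q → ℂ} (hΔ : 0 < Δ)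
    (hg : GappedGround H' (Δ / 2) E' Ω') {ψ : Conf (Site L ⊕ Site L) q → ℂ} (hψ : nsq ψ = 1)
    (he : expv ψ (cp1 H' + cp2 H') - (E' + E') ≤ η) :
    ∃ a : ℂ, ‖a‖ ≤ 1 ∧ nrm (ψ - a • dbl Ω' Ω') ≤ Real.sqrt (η / (Δ / 2)) := by
  have hΩ' : nsq Ω' = 1 := hg.1
  obtain ⟨a, ha, hd⟩ := close_two (Ω := Ω') (ε := 0) hΩ' hΩ' (dg_gapped_dbl (by linarith) hg hg)
    (by linarith) hψ he (by rw [sub_self, nrm]; simp [nsq])
  exact ⟨a, ha, by simpa using hd⟩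

/-- **The doubling inequality for one region** -/
theorem dis_of_coreAt (hq : 1 ≤ q) {J Δ E : ℝ} (hJ : 0 < J) (hΔ : 0 < Δ) {H : Op (Site L) q}
    {Ω : Conf (Site L) q → ℂ} (hadm : Admissible L q R J H) (hgap : GappedGround H Δ E Ω)
    {om u c C : ℝ} (hom : 0 < om) (hou : 2 * om < u) (hoc : 2 * om < c) (hc : c < 1 / 10)
    (hC : 0 < C) {l w x0 x1 y0 y1 : ℕ} {X : Finset (Site L)} (hl : 2 ≤ l)
    (hw : (w : ℝ) ≤ (l : ℝ) ^ (1 - om)) (hx : x1 ≤ x0 + l) (hy : y1 ≤ y0 + l)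
    (hX : X ⊆ rect L x0 x1 y0 y1) (hcore : CoreAt L q Δ om u c C Ω l w X) {C' : ℝ}
    (hC' : C' = C + (20 + 8 / Δ) + (370 + 72 * (spread_const q R * (J / Δ) * (9 * C))) + 53 +
      324 * Real.log q) :
    ∃ (n w : ℕ) (P Q : ℕ → Finset (Site L)) (M : Finset (Site L)),
      1 ≤ n ∧ (w : ℝ) ≤ (l : ℝ) ^ (1 - om) ∧
      (∀ k, k < n → X ⊆ P k ∧ P k ⊆ M ∧ M ⊆ Q k ∧ Q k ⊆ sa7_nb X w) ∧
      (bdry M : ℝ) ≤ C' * ((sa7_nb X w \ X).card / (l : ℝ) ^ (1 - om)) ∧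
      ∑ k ∈ range n, ((bdry (P k) : ℝ) + bdry (Q k)) ≤
        n * (C' * ((sa7_nb X w \ X).card / (l : ℝ) ^ (1 - om))) ∧
      (1 - C' * (l : ℝ) ^ (-c)) * ∑ k ∈ range n, (entropyOf (P k) Ω + entropyOf (Q k) Ω) ≤
        ∑ k ∈ range n, entropyOf (Q k \ P k) Ω +
          n * (C' * (l : ℝ) ^ (-u) * entropyOf M Ω + C' * (l : ℝ) ^ (1 - c)) := by
  obtain ⟨g, Kt, H', E', Ω', θ, M₁, hn, hθ, hXP, hQ0, hm1, hm2, hbM, hbPQ, hKt, hB, hg', hΩΩ,
    hEN⟩ := hcore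
  have hΩ : nsq Ω = 1 := hgap.1
  have hΩ' : nsq Ω' = 1 := hg'.1
  have hxr : (2 : ℝ) ≤ l := by exact_mod_cast hl
  have hx1r : (1 : ℝ) ≤ l := by linarith
  have hl0 : (0 : ℝ) < l := by linarith
  have hn0 : (0 : ℝ) < g.n := by exact_mod_cast hn
  have hlq : 0 ≤ Real.log q := Real.log_nonneg (by exact_mod_cast hq)
  have hκ : 0 ≤ spread_const q R * (J / Δ) := by rw [spread_const]; positivity
  have hent := entLike Ω hΩ
  -- nearby regions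
  have hwl : w ≤ l := by
    have h1 : (w : ℝ) ≤ l := by
      refine hw.trans ?_
      have := Real.rpow_le_rpow_of_exponent_le hx1r (by linarith : 1 - om ≤ 1)
      rwa [Real.rpow_one] at this
    exact_mod_cast h1
  have hnbc : (sa7_nb X w).card ≤ 9 * l ^ 2 := sa7_card_nb hX hx hy hwl
  have hcardle : ∀ B : Finset (Site L), B ⊆ sa7_nb X w → (B.card : ℝ) ≤ 9 * (l : ℝ) ^ 2 :=
    fun B hB => by exact_mod_cast (Finset.card_le_card hB).trans hnbc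
  have hcard : (((sa7_nb X w \ X).card : ℕ) : ℝ) ≤ 9 * (l : ℝ) ^ 2 :=
    hcardle _ Finset.sdiff_subset
  have hPM : ∀ k, k < g.n → g.P k ⊆ g.Mid := fun k hk => gd_P_Mid939 g (by omega)
  have hMQ : ∀ k, k < g.n → g.Mid ⊆ g.Q k := fun k hk => gd_Mid_Q939 g (by omega)
  have hQnb : ∀ k, g.Q k ⊆ sa7_nb X w := fun k => (gd_Q_anti939 g (Nat.zero_le k)).trans hQ0
  have hMnb : g.Mid ⊆ sa7_nb X w := (hMQ 0 hn).trans (hQnb 0)
  have hDnb : ∀ k, g.Q k \ g.P k ⊆ sa7_nb X w := fun k => Finset.sdiff_subset.trans (hQnb k)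
  -- the average boundary
  have hpos : 0 ≤ ((sa7_nb X w \ X).card : ℝ) / (l : ℝ) ^ (1 - om) := by positivity
  have h3 : ((sa7_nb X w \ X).card : ℝ) / (l : ℝ) ^ (1 - om) ≤ 9 * (l : ℝ) ^ (1 + om) := by
    rw [div_le_iff₀ (Real.rpow_pos_of_pos hl0 _), mul_assoc, ← Real.rpow_add hl0]
    refine hcard.trans (le_of_eq ?_)
    rw [← Real.rpow_natCast (l : ℝ) 2]
    congr 2
    push_cast
    ring
  have hbs : ∑ k ∈ range g.n, ((bdry (g.P k) : ℝ) + bdry (g.Q k)) ≤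
      g.n * (9 * C * (l : ℝ) ^ (1 + om)) := by
    refine hbPQ.trans (mul_le_mul_of_nonneg_left ?_ hn0.le)
    have := mul_le_mul_of_nonneg_left h3 hC.le
    linarith
  have hCC : C ≤ C' := by
    rw [hC']
    have h1 : 0 ≤ 8 / Δ := by positivity
    have h2 : 0 ≤ 72 * (spread_const q R * (J / Δ) * (9 * C)) := by positivity
    linarith
  -- the parameters
  obtain ⟨he0, he1, hcosh⟩ := dia_cosh hxr
  have hd10 : nrm (Ω' - Ω) ≤ (l : ℝ) ^ (-10 : ℝ) := by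
    rw [nrm]
    refine Real.sqrt_le_iff.2 ⟨by positivity, hΩΩ.trans (le_of_eq ?_)⟩
    rw [← Real.rpow_natCast ((l : ℝ) ^ (-10 : ℝ)) 2, ← Real.rpow_mul hl0.le]
    congr 1
    push_cast
    norm_num
  have hprime : ∀ B : Finset (Site L), B ⊆ sa7_nb X w →
      entropyOf B Ω' ≤ entropyOf B Ω + (3 + 18 * Real.log q) := fun B hB =>
    dia_prime hx1r hlq (hcardle B hB) hd10 (nrm_nonneg _)
      (entropy_prime B hΩ hΩ' le_rfl (by norm_num) (by norm_num))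
  have hsmall : ∀ B : Finset (Site L), B ⊆ sa7_nb X w →
      8 * (l : ℝ) ^ (-10 : ℝ) * entropyOf B Ω ≤ 72 * Real.log q := fun B hB =>
    dia_eps hx1r hlq (hcardle B hB) (by
      have := entropy_le_card hq B Ω hΩ
      linarith)
  have hU : (0 : ℝ) < (l : ℝ) ^ u / 2 := by positivity
  have hθU : θ = (l : ℝ) ^ u / 2 / g.n := by
    rw [hθ]
    field_simp
  have hRR : (fun k => Ecut (g.P k) (g.Q k)) = g.R := by
    funext k
    exact (gd_R939 g k).symm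
  have hci := core_ineq (M₀ := M₁) (B := (l : ℝ) ^ (4 : ℝ)) (ε := 8 * (l : ℝ) ^ (-10 : ℝ))
    (τ₀ := 10 * Real.log l) (δ₁ := Real.sqrt ((l : ℝ) ^ (-(2 * c)) / (Δ / 2)))
    (δ₂ := (l : ℝ) ^ (-10 : ℝ)) (s := Real.log l) (f := 3 + 18 * Real.log q)
    (G := (l : ℝ) ^ (1 - c)) (κ := spread_const q R * (J / Δ)) (bd := bdry)
    hq hΩ hΩ' hκ (fun A => na_k_bdry_compl A) (fun A => (spread_law hJ hΔ hq hadm hgap A).2.1)
    g.P g.Q g.Mid hn hPM hMQ (fun j k hjk => gd_P_mono939 g hjk)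
    (fun j k hjk => gd_Q_anti939 g hjk) hU (gd_Gm1_acts939 g hm1 θ fun b => (hKt b).2)
    (gd_Gm2_acts939 g hm2 θ fun b => (hKt b).2) (gd_Gm_herm939 g θ fun b => (hKt b).1) hB he0 he1
    hcosh (by have := Real.log_nonneg hx1r; positivity)
    (by
      intro Mc hMc τ hτ t ht0 ht1 ψ hψ
      rw [← hθU] at hψ ⊢
      have hψ' : g.St θ Mc Kt Ω' τ t ψ := by
        rw [Gd.St, ← hRR]
        exact hψ
      obtain ⟨h1, h2⟩ := hEN Mc hMc τ hτ t ht0 ht1 ψ hψ'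
      refine ⟨coreAt_close hΔ hg' hψ.1 h1, ?_⟩
      rw [expv_Gm939 g θ Kt hΩ'] at h2
      rw [Gd.wkv, ← hRR] at h2
      exact h2)
    hd10 (Real.log_nonneg hx1r) (fun k _ => hprime _ (hDnb k)) (hprime _ hMnb)
  refine ⟨g.n, w, g.P, g.Q, g.Mid, hn, hw, ?_, ?_, ?_, ?_⟩
  · intro k hk
    exact ⟨hXP.trans (gd_P_mono939 g (Nat.zero_le k)), hPM k hk, hMQ k hk, hQnb k⟩
  · exact hbM.trans (mul_le_mul_of_nonneg_right hCC hpos)
  · exact hbPQ.trans (mul_le_mul_of_nonneg_left (mul_le_mul_of_nonneg_right hCC hpos) hn0.le)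
  · have hrel := dia_rel hx1r (by linarith : 0 < c) (by linarith : c ≤ 1) hΔ
    have hsp := dia_spread (c := c) hx1r hom (by linarith : om ≤ 1 / 10) hc.le hκ
      (by positivity : (0 : ℝ) ≤ 9 * C) (fun k => (bdry (g.P k) : ℝ) + bdry (g.Q k))
      (fun k => by positivity) hbs
    have hsp' : ∑ k ∈ range g.n, eErr (spread_const q R * (J / Δ)) (Real.log l)
        ((bdry (g.P k) : ℝ) + bdry (g.Q k)) ≤ g.n * ((370 + 72 * (spread_const q R * (J / Δ) *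
          (9 * C))) * (l : ℝ) ^ (1 - c)) := by
      refine le_trans (le_of_eq (Finset.sum_congr rfl fun k _ => ?_)) hsp
      rw [eErr]
      ring
    have hsD : 8 * (l : ℝ) ^ (-10 : ℝ) * ∑ k ∈ range g.n, entropyOf (g.Q k \ g.P k) Ω ≤
        g.n * (72 * Real.log q) := by
      rw [Finset.mul_sum]
      refine (Finset.sum_le_sum fun k _ => hsmall _ (hDnb k)).trans (le_of_eq ?_)
      rw [Finset.sum_const, Finset.card_range, nsmul_eq_mul]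
    have hend := dia_end2 (K1 := C + (20 + 8 / Δ)) hxr hc.le (by linarith : 0 ≤ u) hn hlq
      (by positivity) (by positivity)
      (Finset.sum_nonneg fun k _ => add_nonneg (hent.nonneg _) (hent.nonneg _))
      (hent.nonneg _) (hrel.trans (mul_le_mul_of_nonneg_right (by linarith) (by positivity)))
      hsp' hsD (hsmall _ hMnb) he1 hci
    rw [hC']
    exact hend

/-- the whole lattice is near `X` -/
theorem dis_whole {J Δ E : ℝ} {H : Op (Site L) q} {Ω : Conf (Site L) q → ℂ}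
    (hΩ : nsq Ω = 1) {om u c C' : ℝ} (hC' : 0 ≤ C') {l w : ℕ} {X : Finset (Site L)}
    (hw : (w : ℝ) ≤ (l : ℝ) ^ (1 - om)) (hX : X.Nonempty) (hwL : 2 * L ≤ w) :
    ∃ (n w : ℕ) (P Q : ℕ → Finset (Site L)) (M : Finset (Site L)),
      1 ≤ n ∧ (w : ℝ) ≤ (l : ℝ) ^ (1 - om) ∧
      (∀ k, k < n → X ⊆ P k ∧ P k ⊆ M ∧ M ⊆ Q k ∧ Q k ⊆ sa7_nb X w) ∧
      (bdry M : ℝ) ≤ C' * ((sa7_nb X w \ X).card / (l : ℝ) ^ (1 - om)) ∧
      ∑ k ∈ range n, ((bdry (P k) : ℝ) + bdry (Q k)) ≤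
        n * (C' * ((sa7_nb X w \ X).card / (l : ℝ) ^ (1 - om))) ∧
      (1 - C' * (l : ℝ) ^ (-c)) * ∑ k ∈ range n, (entropyOf (P k) Ω + entropyOf (Q k) Ω) ≤
        ∑ k ∈ range n, entropyOf (Q k \ P k) Ω +
          n * (C' * (l : ℝ) ^ (-u) * entropyOf M Ω + C' * (l : ℝ) ^ (1 - c)) := by
  have hent := entLike Ω hΩ
  have hb : bdry (Finset.univ : Finset (Site L)) = 0 := by
    rw [bdry, Finset.card_eq_zero, Finset.filter_eq_empty_iff]
    intro p _ hp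
    exact hp.2.1 (Finset.mem_univ _)
  have hu : entropyOf (Finset.univ : Finset (Site L)) Ω = 0 := by
    have h1 := hent.compl (Finset.univ : Finset (Site L))
    rw [Finset.compl_univ] at h1
    have h2 := hent.empty
    linarith
  have hnb : Finset.univ ⊆ sa7_nb X w := by
    intro y _
    obtain ⟨x, hx⟩ := hX
    rw [sa7_mem_nb]
    refine ⟨x, hx, ?_⟩
    have h1 := x.1.isLt
    have h2 := x.2.isLt
    have h3 := y.1.isLt
    have h4 := y.2.isLt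
    simp only [dist1]
    omega
  have hp : 0 ≤ ((sa7_nb X w \ X).card : ℝ) / (l : ℝ) ^ (1 - om) :=
    div_nonneg (Nat.cast_nonneg _) (Real.rpow_nonneg (Nat.cast_nonneg _) _)
  refine ⟨1, w, fun _ => Finset.univ, fun _ => Finset.univ, Finset.univ, le_rfl, hw, ?_, ?_, ?_,
    ?_⟩
  · intro k _
    exact ⟨Finset.subset_univ _, Finset.Subset.refl _, Finset.Subset.refl _, hnb⟩
  · rw [hb, Nat.cast_zero]
    exact mul_nonneg hC' hp
  · simp only [hb, Nat.cast_zero, add_zero, Finset.sum_const_zero]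
    exact mul_nonneg (Nat.cast_nonneg _) (mul_nonneg hC' hp)
  · simp only [Finset.sdiff_self, hu, hent.empty, add_zero, mul_zero, Finset.sum_const_zero,
      zero_add]
    exact mul_nonneg (Nat.cast_nonneg _) (mul_nonneg hC'
      (Real.rpow_nonneg (Nat.cast_nonneg l : (0 : ℝ) ≤ l) (1 - c)))

/-- **T1**: the doubling inequality from the analytic part -/
theorem DI_of_Core939 (hq : 1 ≤ q) {J Δ : ℝ} (hJ : 0 < J) (hΔ : 0 < Δ) (h : Core q R J Δ) :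
    DI q R J Δ := by
  obtain ⟨om, u, c, C, n₀, hom, hou, hoc, hc, hC, h⟩ := h
  have hlq : 0 ≤ Real.log q := Real.log_nonneg (by exact_mod_cast hq)
  obtain ⟨C', hC'⟩ : ∃ C' : ℝ, C' = C + (20 + 8 / Δ) +
    (370 + 72 * (spread_const q R * (J / Δ) * (9 * C))) + 53 + 324 * Real.log q := ⟨_, rfl⟩
  have hκ : 0 ≤ spread_const q R * (J / Δ) := by rw [spread_const]; positivity
  have hC'0 : 0 < C' := by
    rw [hC']
    have h1 : 0 ≤ 8 / Δ := by positivity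
    have h2 : 0 ≤ 72 * (spread_const q R * (J / Δ) * (9 * C)) := by positivity
    linarith
  refine ⟨om, u, c, C', max n₀ 2, hom, hou, hoc, by linarith, hC'0, ?_⟩
  intro L H hadm E Ω hgap
  refine ⟨fun l x0 x1 y0 y1 hl hx hy X hX => ?_⟩
  have hl2 : 2 ≤ l := (le_max_right _ _).trans hl
  rcases X.eq_empty_or_nonempty with hXe | hXn
  · rw [hXe]
    have h0 : (fun A : Finset (Site L) => entropyOf A Ω) ∅ = 0 := (entLike Ω hgap.1).empty
    have h1 : 1 ≤ l := by omega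
    have h2 := dis_empty (S := fun A : Finset (Site L) => entropyOf A Ω) (ω := om) (u := u)
      (c := c) (C := C') h1 h0 hC'0.le
    exact h2
  · have hl0 : (0 : ℝ) ≤ (l : ℝ) ^ (1 - om) := Real.rpow_nonneg (Nat.cast_nonneg _) _
    have hw1 : ((⌊(l : ℝ) ^ (1 - om)⌋₊ : ℕ) : ℝ) ≤ (l : ℝ) ^ (1 - om) := Nat.floor_le hl0
    have hw2 : (l : ℝ) ^ (1 - om) < (⌊(l : ℝ) ^ (1 - om)⌋₊ : ℕ) + 1 := Nat.lt_floor_add_one _
    by_cases hwL : ⌊(l : ℝ) ^ (1 - om)⌋₊ < 2 * L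
    · exact dis_of_coreAt hq hJ hΔ hadm hgap hom hou hoc hc hC hl2 hw1 hx hy hX
        (h L H hadm E Ω hgap l _ x0 x1 y0 y1 X ((le_max_left _ _).trans hl) hw1 hw2 hx hy hX hXn
          hwL) hC'
    · exact dis_whole (J := J) (Δ := Δ) (E := E) (H := H) hgap.1 hC'0.le hw1 hXn (by omega)

end main

end Vale.Agent.P356.GA
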