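import Vale.Agent.P356.SA.Dbl
import Vale.Agent.P356.SV.Tilt1

/-!
# GA, two copies: the doubled Hamiltonian is gapped with the product ground state
-/

set_option linter.all false

namespace Vale.Agent.P356.GA

open Matrix Finset Vale.Agent.P356 Vale.Agent.P356.SV Vale.Agent.P356.Path Vale.Agent.P356.NA
  Vale.Agent.P356.SA
open scoped BigOperators ComplexOrder Kronecker

variable {V W : Type} [Fintype V] [DecidableEq V] [Fintype W] [DecidableEq W] {q : ℕ}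

/-- rank one projection -/
def pj551 {N : Type*} (Ω : N → ℂ) : Matrix N N ℂ := vecMulVec Ω (star Ω)

theorem pj551_mulVec {N : Type*} [Fintype N] (Ω φ : N → ℂ) :
    pj551 Ω *ᵥ φ = (star Ω ⬝ᵥ φ) • Ω := by
  funext i
  simp only [pj551, mulVec, dotProduct, vecMulVec_apply, Pi.smul_apply, smul_eq_mul, Pi.star_apply]
  rw [Finset.sum_mul]
  exact Finset.sum_congr rfl fun j _ => by ring

theorem pj551_en {N : Type*} [Fintype N] (Ω φ : N → ℂ) :
    en (pj551 Ω) φ = ‖star Ω ⬝ᵥ φ‖ ^ 2 := by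
  unfold en
  rw [pj551_mulVec, dotProduct_smul, smul_eq_mul]
  have h : star φ ⬝ᵥ Ω = star (star Ω ⬝ᵥ φ) := by
    rw [star_dotProduct]
  rw [h]
  rw [Complex.star_def, Complex.mul_conj, Complex.normSq_eq_norm_sq, Complex.ofReal_re]

theorem pj551_sq {N : Type*} [Fintype N] {Ω : N → ℂ} (h : nsq Ω = 1) :
    pj551 Ω * pj551 Ω = pj551 Ω := by
  unfold pj551
  rw [vecMulVec_mul_vecMulVec]
  rw [ip_self, h]
  simp

theorem pj551_herm {N : Type*} (Ω : N → ℂ) : (pj551 Ω).IsHermitian := by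
  ext i j
  simp [pj551, vecMulVec_apply, conjTranspose_apply, mul_comm]

theorem pj551_dbl (Ω : Conf V q → ℂ) (Ω' : Conf W q → ℂ) :
    (cp1 (pj551 Ω) : Op (V ⊕ W) q) * cp2 (pj551 Ω') = pj551 (dbl Ω Ω') := by
  rw [sa2_cp1, sa2_cp2, submatrix_mul_equiv, ← mul_kronecker_mul, mul_one, one_mul]
  ext s t
  rw [submatrix_apply]
  simp only [kroneckerMap_apply, pj551, vecMulVec_apply, dbl, Pi.star_apply, star_mul']
  change Ω (s ∘ Sum.inl) * star (Ω (t ∘ Sum.inl)) * (Ω' (s ∘ Sum.inr) * star (Ω' (t ∘ Sum.inr))) = _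
  ring

theorem en_nonneg_of_proj {N : Type*} [Fintype N] {P : Matrix N N ℂ} (h : P.IsHermitian)
    (h2 : P * P = P) (ψ : N → ℂ) : 0 ≤ en P ψ := by
  have e : en P ψ = nsq (P *ᵥ ψ) := by
    rw [← ip_self_re, star_mulVec, ← dotProduct_mulVec, h.eq, mulVec_mulVec, h2]
    rfl
  rw [e]
  exact Finset.sum_nonneg fun i _ => by positivity

theorem ring_star551 {A : Type*} [Ring A] {P Q : A} (hPQ : P * Q = Q * P) :
    (1 - Q) * (1 - P) = (1 - P) * (1 - Q) := by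
  simp only [mul_sub, sub_mul, mul_one, one_mul, hPQ]
  abel

theorem ring_proj551 {A : Type*} [Ring A] {P Q : A} (hPQ : P * Q = Q * P) (hPP : P * P = P)
    (hQQ : Q * Q = Q) :
    ((1 - P) * (1 - Q)) * ((1 - P) * (1 - Q)) = (1 - P) * (1 - Q) := by
  have e2 : (1 - P) * (1 - P) = 1 - P := by
    rw [mul_sub, mul_one, sub_mul, one_mul, hPP, sub_self, sub_zero]
  have e3 : (1 - Q) * (1 - Q) = 1 - Q := by
    rw [mul_sub, mul_one, sub_mul, one_mul, hQQ, sub_self, sub_zero]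
  calc ((1 - P) * (1 - Q)) * ((1 - P) * (1 - Q))
      = (1 - P) * ((1 - Q) * (1 - P)) * (1 - Q) := by simp only [mul_assoc]
    _ = ((1 - P) * (1 - P)) * ((1 - Q) * (1 - Q)) := by
        rw [ring_star551 hPQ]; simp only [mul_assoc]
    _ = _ := by rw [e2, e3]

theorem ring_exp551 {A : Type*} [Ring A] (P Q : A) :
    (1 - P) * (1 - Q) = 1 - P - Q + P * Q := by
  simp only [mul_sub, sub_mul, mul_one, one_mul]
  abel

theorem two_slices (Ω : Conf V q → ℂ) (Ω' : Conf W q → ℂ) (hΩ : nsq Ω = 1) (hΩ' : nsq Ω' = 1)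
    (ψ : Conf (V ⊕ W) q → ℂ) :
    (∑ b : Conf W q, ‖star Ω ⬝ᵥ fun a : Conf V q => ψ (Sum.elim a b)‖ ^ 2) +
      (∑ a : Conf V q, ‖star Ω' ⬝ᵥ fun b : Conf W q => ψ (Sum.elim a b)‖ ^ 2) ≤
      nsq ψ + ‖star (dbl Ω Ω') ⬝ᵥ ψ‖ ^ 2 := by
  set P : Op (V ⊕ W) q := cp1 (pj551 Ω) with hP
  set Q : Op (V ⊕ W) q := cp2 (pj551 Ω') with hQ
  have hPQ : P * Q = Q * P := cp12_comm _ _
  have hPP : P * P = P := by rw [hP, ← cp1_mul, pj551_sq hΩ]
  have hQQ : Q * Q = Q := by rw [hQ, ← cp2_mul, pj551_sq hΩ']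
  have hPh : P.IsHermitian := by
    rw [Matrix.IsHermitian, hP, cp1_ct, (pj551_herm Ω).eq]
  have hQh : Q.IsHermitian := by
    rw [Matrix.IsHermitian, hQ, cp2_ct, (pj551_herm Ω').eq]
  have hCh : ((1 - P) * (1 - Q)).IsHermitian := by
    rw [Matrix.IsHermitian, conjTranspose_mul, conjTranspose_sub, conjTranspose_sub,
      conjTranspose_one, hPh.eq, hQh.eq]
    exact ring_star551 hPQ
  have hC2 : ((1 - P) * (1 - Q)) * ((1 - P) * (1 - Q)) = (1 - P) * (1 - Q) :=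
    ring_proj551 hPQ hPP hQQ
  have h := en_nonneg_of_proj hCh hC2 ψ
  have e : en ((1 - P) * (1 - Q)) ψ = nsq ψ - en P ψ - en Q ψ + en (P * Q) ψ := by
    rw [ring_exp551]
    unfold en
    rw [add_mulVec, sub_mulVec, sub_mulVec, one_mulVec, dotProduct_add, dotProduct_sub,
      dotProduct_sub, Complex.add_re, Complex.sub_re, Complex.sub_re, ip_self_re]
  rw [e, hP, hQ, pj551_dbl, pj551_en, sa2_en_one, sa2_en_two] at h
  simp only [pj551_en] at h
  linarith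

/-- The doubled Hamiltonian is gapped with ground state `Ω ⊗ Ω'`. -/
theorem gapped_dbl {H : Op V q} {H' : Op W q} {Δ Δ' E E' : ℝ} {Ω : Conf V q → ℂ}
    {Ω' : Conf W q → ℂ} (h : GappedGround H Δ E Ω) (h' : GappedGround H' Δ' E' Ω')
    {Δ₀ : ℝ} (h0 : 0 ≤ Δ₀) (h1 : Δ₀ ≤ Δ) (h2 : Δ₀ ≤ Δ') :
    GappedGround (cp1 H + cp2 H' : Op (V ⊕ W) q) Δ₀ (E + E') (dbl Ω Ω') := by
  obtain ⟨hn, he, hg⟩ := h
  obtain ⟨hn', he', hg'⟩ := h'
  refine ⟨by rw [nsq_dbl, hn, hn', one_mul], ?_, fun ψ => ?_⟩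
  · rw [add_mulVec, cp1_dbl, cp2_dbl, he, he']
    funext s
    simp only [Pi.add_apply, dbl, Pi.smul_apply, smul_eq_mul, Complex.ofReal_add]
    ring
  have key := two_slices Ω Ω' hn hn' ψ
  have e : (star ψ ⬝ᵥ ((cp1 H + cp2 H' : Op (V ⊕ W) q) *ᵥ ψ)).re =
      (∑ b : Conf W q, en H fun a : Conf V q => ψ (Sum.elim a b)) +
        ∑ a : Conf V q, en H' fun b : Conf W q => ψ (Sum.elim a b) := by
    rw [← sa2_en_one, ← sa2_en_two]
    unfold en
    rw [add_mulVec, dotProduct_add, Complex.add_re]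
  rw [e]
  have cs : ∀ {N : Type} [Fintype N] (u v : N → ℂ), nsq u = 1 → 0 ≤ nsq v - ‖star u ⬝ᵥ v‖ ^ 2 := by
    intro N _ u v hu
    have h3 := nrm_ip_le u v
    have h4 : nrm u = 1 := by rw [nrm, hu, Real.sqrt_one]
    rw [h4, one_mul] at h3
    have h5 := nrm_sq v
    have h6 : ‖star u ⬝ᵥ v‖ ^ 2 ≤ nrm v ^ 2 := by gcongr
    linarith
  have s1 : E * nsq ψ + Δ₀ * (nsq ψ -
      ∑ b : Conf W q, ‖star Ω ⬝ᵥ fun a : Conf V q => ψ (Sum.elim a b)‖ ^ 2) ≤
      ∑ b : Conf W q, en H fun a : Conf V q => ψ (Sum.elim a b) := by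
    rw [sa2_nsq_one ψ, ← Finset.sum_sub_distrib, Finset.mul_sum, Finset.mul_sum,
      ← Finset.sum_add_distrib]
    refine Finset.sum_le_sum fun b _ => ?_
    have h3 := hg fun a : Conf V q => ψ (Sum.elim a b)
    have h4 := cs Ω (fun a : Conf V q => ψ (Sum.elim a b)) hn
    have h5 := mul_le_mul_of_nonneg_right h1 h4
    unfold en
    linarith
  have s2 : E' * nsq ψ + Δ₀ * (nsq ψ -
      ∑ a : Conf V q, ‖star Ω' ⬝ᵥ fun b : Conf W q => ψ (Sum.elim a b)‖ ^ 2) ≤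
      ∑ a : Conf V q, en H' fun b : Conf W q => ψ (Sum.elim a b) := by
    rw [sa2_nsq_two ψ, ← Finset.sum_sub_distrib, Finset.mul_sum, Finset.mul_sum,
      ← Finset.sum_add_distrib]
    refine Finset.sum_le_sum fun a _ => ?_
    have h3 := hg' fun b : Conf W q => ψ (Sum.elim a b)
    have h4 := cs Ω' (fun b : Conf W q => ψ (Sum.elim a b)) hn'
    have h5 := mul_le_mul_of_nonneg_right h2 h4
    unfold en
    linarith
  have h6 := mul_le_mul_of_nonneg_left key h0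
  nlinarith

end Vale.Agent.P356.GA
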