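import Vale.Agent.P356.SA.Loc
import Vale.Agent.P356.SA.Decouple
import Vale.Agent.P356.SA.Strict679

/-!
The last step: the strict area law from a power law for rectangles and power law decoupling.
-/

set_option linter.all false

namespace Vale.Agent.P356.GA

open Matrix Finset Vale.Agent.P356 Vale.Agent.P356.SV Vale.Agent.P356.Path Vale.Agent.P356.NA
open Vale.Agent.P356.SA
open scoped BigOperators ComplexOrder Kronecker

/-- power law for rectangles, all gapped Hamiltonians -/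
def NearRect (q R : ℕ) (J Δ κ : ℝ) : Prop :=
  ∃ C : ℝ, 0 ≤ C ∧ ∀ (L : ℕ) (H : Op (Site L) q) (E : ℝ) (Ω : Conf (Site L) q → ℂ),
    Admissible L q R J H → GappedGround H Δ E Ω → ∀ l x0 x1 y0 y1 : ℕ, 1 ≤ l → x1 ≤ x0 + l →
    y1 ≤ y0 + l → entropyOf (rect L x0 x1 y0 y1) Ω ≤ C * (l : ℝ) ^ (1 + κ)

/-- power law decoupling, all gapped Hamiltonians, large scales -/
def DecLaw (q R : ℕ) (J Δ a : ℝ) : Prop :=
  ∃ (l₁ : ℕ) (C : ℝ), 0 < C ∧ ∀ (L : ℕ) (H : Op (Site L) q) (E : ℝ) (Ω : Conf (Site L) q → ℂ),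
    Admissible L q R J H → GappedGround H Δ E Ω → ∀ l x0 x1 y0 y1 : ℕ, l₁ ≤ l → x1 ≤ x0 + l →
    y1 ≤ y0 + l → ∀ X Y : Finset (Site L), X ⊆ rect L x0 x1 y0 y1 →
    (∀ x ∈ X, ∀ y ∈ Y, C * (l : ℝ) ^ a ≤ dist1 x y) →
    mi (fun A => entropyOf A Ω) X Y ≤ C * (l : ℝ) ^ a

/-- `Dec` for all gapped Hamiltonians -/
theorem dec_of_laws {q R : ℕ} (hq : 1 ≤ q) {J Δ a κ : ℝ} (ha : 0 < a) (hκ : 0 < κ)
    (hnear : NearRect q R J Δ κ) (hdec : DecLaw q R J Δ a) :
    ∃ C : ℝ, 0 < C ∧ ∀ (L : ℕ) (H : Op (Site L) q) (E : ℝ) (Ω : Conf (Site L) q → ℂ),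
      Admissible L q R J H → GappedGround H Δ E Ω →
      Dec (fun A => entropyOf A Ω) a (1 + κ) C := by
  obtain ⟨Ca, hCa, hnear⟩ := hnear
  obtain ⟨l₁, Cd, hCd, hdec⟩ := hdec
  have hlogq : 0 ≤ Real.log q := Real.log_nonneg (by exact_mod_cast hq)
  obtain ⟨C, hC⟩ : ∃ C : ℝ, C = Real.log q + Ca + Cd + 2 * Real.log q * (l₁ : ℝ) ^ 2 + 1 :=
    ⟨_, rfl⟩
  have p2 : 0 ≤ 2 * Real.log q * (l₁ : ℝ) ^ 2 := by positivity
  have hC0 : 0 < C := by
    rw [hC]; linarith only [hCa, p2, hlogq, hCd]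
  refine ⟨C, hC0, ?_⟩
  intro L H E Ω hadm hgap
  have hΩ : nsq Ω = 1 := hgap.1
  have hE := entLike Ω hΩ
  have hcard : ∀ B : Finset (Site L), entropyOf B Ω ≤ Real.log q * (B.card : ℝ) :=
    fun B => by
      have := entropy_le_card hq B Ω hΩ
      linarith only [this]
  refine ⟨?_, ?_, ?_⟩
  · intro B
    refine (hcard B).trans (mul_le_mul_of_nonneg_right ?_ (Nat.cast_nonneg _))
    rw [hC]
    linarith only [hCa, p2, hCd]
  · intro l x0 x1 y0 y1 hl hx hy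
    refine (hnear L H E Ω hadm hgap l x0 x1 y0 y1 hl hx hy).trans ?_
    refine mul_le_mul_of_nonneg_right ?_ (by positivity)
    rw [hC]
    linarith only [p2, hCd, hlogq]
  · intro l x0 x1 y0 y1 hl hx hy X Y hX hXY
    have hl1 : (1 : ℝ) ≤ l := by exact_mod_cast hl
    have hl0 : (0 : ℝ) < l := by linarith only [hl1]
    have hw := sa7_one_le hl1 ha.le
    rcases Nat.lt_or_ge l l₁ with hll | hll
    · have hdis : Disjoint X Y := by
        rw [Finset.disjoint_left]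
        intro x hx hx'
        have h1 := hXY x hx x hx'
        rw [sa7_refl, Nat.cast_zero] at h1
        have h2 : 0 < C * (l : ℝ) ^ a := by positivity
        linarith only [h1, h2]
      have h1 := mi_le hE hdis
      have h2 := hcard X
      have h3 : (X.card : ℝ) ≤ (l₁ : ℝ) ^ 2 := by
        have h4 : X.card ≤ l ^ 2 := (Finset.card_le_card hX).trans (na_k_card_rect L _ _ _ _ l hx hy)
        have h5 : l ^ 2 ≤ l₁ ^ 2 := Nat.pow_le_pow_left hll.le 2
        exact_mod_cast h4.trans h5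
      have h4 : Real.log q * (X.card : ℝ) ≤ Real.log q * (l₁ : ℝ) ^ 2 :=
        mul_le_mul_of_nonneg_left h3 hlogq
      have h5 : 2 * Real.log q * (l₁ : ℝ) ^ 2 ≤ C := by
        rw [hC]
        linarith only [hCa, hlogq, hCd]
      have h6 : C * 1 ≤ C * (l : ℝ) ^ a := mul_le_mul_of_nonneg_left hw hC0.le
      linarith only [h1, h2, h4, h5, h6]
    · refine (hdec L H E Ω hadm hgap l x0 x1 y0 y1 hll hx hy X Y hX ?_).trans ?_
      · intro x hx y hy
        refine le_trans ?_ (hXY x hx y hy)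
        refine mul_le_mul_of_nonneg_right ?_ (by positivity)
        rw [hC]
        linarith only [hCa, p2, hlogq]
      · refine mul_le_mul_of_nonneg_right ?_ (by positivity)
        rw [hC]
        linarith only [hCa, p2, hlogq]

/-- **The strict area law** for all gapped Hamiltonians from the two power laws. -/
theorem strict_of_laws {q R : ℕ} (hq : 1 ≤ q) {J Δ : ℝ}
    (hnear : ∀ κ : ℝ, 0 < κ → NearRect q R J Δ κ)
    (hdec : ∃ a : ℝ, 0 < a ∧ a < 1 ∧ DecLaw q R J Δ a) :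
    ∃ C : ℝ, 0 < C ∧ ∀ (L : ℕ) (H : Op (Site L) q) (E : ℝ) (Ω : Conf (Site L) q → ℂ),
      Admissible L q R J H → GappedGround H Δ E Ω → ∀ A : Finset (Site L),
      entropyOf A Ω ≤ C * bdry A := by
  obtain ⟨a, ha, ha1, hdec⟩ := hdec
  -- `a (1 + κ) < 1`
  obtain ⟨κ, hκ⟩ : ∃ κ : ℝ, κ = (1 - a) / 2 := ⟨_, rfl⟩
  have hκ0 : 0 < κ := by rw [hκ]; linarith
  have hab : a * (1 + κ) < 1 := by
    rw [hκ]
    nlinarith
  obtain ⟨C, hC, hD⟩ := dec_of_laws hq ha hκ0 (hnear κ hκ0) hdec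
  obtain ⟨C', hC', hL⟩ := loc_of_dec ha ha1 (by linarith : (1 : ℝ) ≤ 1 + κ) hab hC
  obtain ⟨C'', hC'', hS⟩ := strict_all (a := a * (1 + κ)) (C := C') (by positivity) hab hC'
  refine ⟨C'', hC'', ?_⟩
  intro L H E Ω hadm hgap A
  have hE := entLike Ω hgap.1
  exact hS L _ hE (hL L _ hE (hD L H E Ω hadm hgap)) A

end Vale.Agent.P356.GA
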