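import Vale.Agent.P356.GA.DIDef960
import Vale.Agent.P356.GA.FinalDec939

/-!
Decoupling and the strict area law from the doubling inequality and the near-area law.
-/

set_option linter.all false

namespace Vale.Agent.P356.GA

open Matrix Finset Vale.Agent.P356 Vale.Agent.P356.SV Vale.Agent.P356.Path Vale.Agent.P356.NA
open Vale.Agent.P356.SA
open scoped BigOperators ComplexOrder Kronecker

/-- near-area law for every region, all gapped Hamiltonians -/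
def NearAll (q R : ℕ) (J Δ κ : ℝ) : Prop :=
  ∃ C : ℝ, 0 ≤ C ∧ ∀ (L : ℕ) (H : Op (Site L) q) (E : ℝ) (Ω : Conf (Site L) q → ℂ),
    Admissible L q R J H → GappedGround H Δ E Ω → ∀ B : Finset (Site L),
    entropyOf B Ω ≤ C * (bdry B : ℝ) ^ (1 + κ)

theorem nearRect_of_all {q R : ℕ} {J Δ κ : ℝ} (hκ : 0 ≤ κ) (h : NearAll q R J Δ κ) :
    NearRect q R J Δ κ := by
  obtain ⟨C, hC, h⟩ := h
  refine ⟨C * 4 ^ (1 + κ), by positivity, ?_⟩
  intro L H E Ω hadm hgap l x0 x1 y0 y1 hl hx hy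
  have h1 : (bdry (rect L x0 x1 y0 y1) : ℝ) ≤ 4 * l := by
    have h2 := na_k_bdry_rect L x0 x1 y0 y1
    have h3 : bdry (rect L x0 x1 y0 y1) ≤ 4 * l := by omega
    exact_mod_cast h3
  refine (h L H E Ω hadm hgap _).trans ?_
  have h4 := Real.rpow_le_rpow (Nat.cast_nonneg _) h1 (by linarith : 0 ≤ 1 + κ)
  rw [Real.mul_rpow (by norm_num) (Nat.cast_nonneg _)] at h4
  calc C * (bdry (rect L x0 x1 y0 y1) : ℝ) ^ (1 + κ) ≤ C * (4 ^ (1 + κ) * (l : ℝ) ^ (1 + κ)) :=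
        mul_le_mul_of_nonneg_left h4 hC
    _ = _ := by ring

/-- the boundary is at most four times the number of sites -/
theorem bdry_le_card939 {L : ℕ} (A : Finset (Site L)) : bdry A ≤ 4 * A.card := by
  classical
  rw [bdry, mul_comm, ← smul_eq_mul, ← Finset.sum_const]
  have h1 : (Finset.univ : Finset (Site L × Site L)).filter
      (fun p => p.1 ∈ A ∧ p.2 ∉ A ∧ dist1 p.1 p.2 = 1) ⊆
      A.biUnion (fun y =>
        ((Finset.univ : Finset (Site L)).filter (fun x => dist1 x y = 1)).image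
          (fun x => (y, x))) := by
    intro p hp
    rw [Finset.mem_filter] at hp
    obtain ⟨_, h1, h2, h3⟩ := hp
    rw [Finset.mem_biUnion]
    refine ⟨p.1, h1, ?_⟩
    rw [Finset.mem_image]
    refine ⟨p.2, Finset.mem_filter.mpr ⟨Finset.mem_univ _, ?_⟩, rfl⟩
    rw [← h3]
    simp only [dist1]
    omega
  refine (Finset.card_le_card h1).trans (Finset.card_biUnion_le.trans ?_)
  exact Finset.sum_le_sum fun y _ => Finset.card_image_le.trans (sa7_four y)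

/-- mutual information and the doubling quantity -/
theorem di_mi {V : Type*} [Fintype V] [DecidableEq V] {S : Finset V → ℝ} (hE : EntLike S)
    {X Y P Q : Finset V} (hXP : X ⊆ P) (hPQ : P ⊆ Q) (hYQ : Y ⊆ Qᶜ) :
    mi S X Y ≤ S P + S Q - S (Q \ P) := by
  have hdisj : Disjoint P Qᶜ := by
    rw [Finset.disjoint_left]
    intro x hxP hxQ
    exact (Finset.mem_compl.1 hxQ) (hPQ hxP)
  refine (mi_mono2 hE hdisj hXP hYQ).trans (le_of_eq ?_)
  have e1 : S Qᶜ = S Q := hE.compl Q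
  have e2 : S (P ∪ Qᶜ) = S (Q \ P) := by
    have h1 := hE.compl (Q \ P)
    have h2 : (Q \ P)ᶜ = P ∪ Qᶜ := by
      ext x
      simp only [Finset.mem_compl, Finset.mem_sdiff, Finset.mem_union, not_and, not_not]
      tauto
    rw [h2] at h1
    exact h1
  unfold mi
  rw [e1, e2]

/-- entropy of a region with at most `36 x ^ 2` boundary edges, linear in the boundary -/
theorem di_ent {x b Ca κ : ℝ} (hx : 1 ≤ x) (hb0 : 0 ≤ b) (hCa : 0 ≤ Ca) (hκ : 0 < κ)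
    (hb : b ≤ 36 * x ^ 2) : Ca * b ^ (1 + κ) ≤ Ca * (36 ^ κ * x ^ (2 * κ)) * b := by
  have hx0 : 0 < x := by linarith
  rcases hb0.eq_or_lt with h0 | h0
  · rw [← h0, Real.zero_rpow (by linarith), mul_zero, mul_zero]
  have h1 := Real.rpow_le_rpow hb0 hb hκ.le
  rw [Real.mul_rpow (by norm_num) (by positivity)] at h1
  have h2 : (x ^ 2) ^ κ = x ^ (2 * κ) := by
    rw [← Real.rpow_natCast x 2, ← Real.rpow_mul hx0.le]
    norm_num
  rw [h2] at h1
  rw [Real.rpow_add h0, Real.rpow_one, mul_assoc Ca, mul_comm b]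
  exact mul_le_mul_of_nonneg_left (mul_le_mul_of_nonneg_right h1 hb0) hCa

/-- the sum of the errors; everything is divided by the number of levels -/
theorem di_sum {x K C m u c a I SPQ SM SD n : ℝ} (hx : 1 ≤ x) (hK0 : 0 ≤ K) (hC : 0 ≤ C)
    (hn : 0 < n) (hmu : m ≤ u) (hmc : m ≤ c) (hm0 : 0 < m) (ham : 1 - m / 4 ≤ a)
    (hI : n * I ≤ SPQ - SD)
    (hSPQ : SPQ ≤ n * (K * x ^ (1 + 3 * m / 4))) (hSM : SM ≤ K * x ^ (1 + 3 * m / 4))
    (hineq : (1 - C * x ^ (-c)) * SPQ ≤ SD + n * (C * x ^ (-u) * SM + C * x ^ (1 - c))) :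
    I ≤ (2 * C * K + C + 2) * x ^ a := by
  have hx0 : 0 < x := by linarith
  have hz : ∀ s : ℝ, m ≤ s → x ^ (-s) * x ^ (1 + 3 * m / 4) ≤ x ^ a :=
    fun s hs => by
      rw [← Real.rpow_add hx0]
      exact Real.rpow_le_rpow_of_exponent_le hx (by linarith)
  have h1c : x ^ (1 - c) ≤ x ^ a :=
    Real.rpow_le_rpow_of_exponent_le hx (by linarith)
  have hc0 : 0 ≤ C * x ^ (-c) := by positivity
  have hu0 : 0 ≤ C * x ^ (-u) := by positivity
  have g1 : C * x ^ (-c) * SPQ ≤ n * (C * K * x ^ a) := by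
    calc C * x ^ (-c) * SPQ ≤ C * x ^ (-c) * (n * (K * x ^ (1 + 3 * m / 4))) :=
          mul_le_mul_of_nonneg_left hSPQ hc0
      _ = n * (C * K * (x ^ (-c) * x ^ (1 + 3 * m / 4))) := by ring
      _ ≤ n * (C * K * x ^ a) :=
          mul_le_mul_of_nonneg_left (mul_le_mul_of_nonneg_left (hz c hmc) (by positivity)) hn.le
  have g2 : C * x ^ (-u) * SM ≤ C * K * x ^ a := by
    calc C * x ^ (-u) * SM ≤ C * x ^ (-u) * (K * x ^ (1 + 3 * m / 4)) :=
          mul_le_mul_of_nonneg_left hSM hu0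
      _ = C * K * (x ^ (-u) * x ^ (1 + 3 * m / 4)) := by ring
      _ ≤ C * K * x ^ a := mul_le_mul_of_nonneg_left (hz u hmu) (by positivity)
  have g3 : C * x ^ (1 - c) ≤ C * x ^ a := mul_le_mul_of_nonneg_left h1c hC
  have hla : 0 ≤ x ^ a := by positivity
  have g4 : n * (C * x ^ (-u) * SM + C * x ^ (1 - c)) ≤ n * (C * K * x ^ a + C * x ^ a) :=
    mul_le_mul_of_nonneg_left (by linarith) hn.le
  have g5 : n * I ≤ n * ((2 * C * K + C) * x ^ a) := by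
    have e1 : (1 - C * x ^ (-c)) * SPQ = SPQ - C * x ^ (-c) * SPQ := by ring
    rw [e1] at hineq
    have e2 : n * ((2 * C * K + C) * x ^ a) =
        n * (C * K * x ^ a) + n * (C * K * x ^ a + C * x ^ a) := by ring
    rw [e2]
    linarith
  have g6 := le_of_mul_le_mul_left g5 hn
  have g7 : (2 * C * K + C + 2) * x ^ a = (2 * C * K + C) * x ^ a + 2 * x ^ a := by ring
  rw [g7]
  linarith

/-- the decoupling at one scale -/
theorem di_scale {om u c C Ca K m κ a : ℝ} (hom : 0 < om) (hom1 : om < 1) (hC : 0 < C)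
    (hCa : 0 ≤ Ca) (hκ0 : 0 < κ) (hmu : m ≤ u) (hmc : m ≤ c) (hm0 : 0 < m)
    (hexp : 1 + om + 2 * κ ≤ 1 + 3 * m / 4) (hao : 1 - om ≤ a) (ham : 1 - m / 4 ≤ a)
    (hK : K = Ca * 36 ^ κ * (9 * C)) {L : ℕ} {S : Finset (Site L) → ℝ} (hE : EntLike S)
    (hnear : ∀ B : Finset (Site L), S B ≤ Ca * (bdry B : ℝ) ^ (1 + κ))
    {l n w x0 x1 y0 y1 : ℕ} {X Y M : Finset (Site L)} {P Q : ℕ → Finset (Site L)}
    (hlr : (1 : ℝ) ≤ l) (hw1 : (w : ℝ) ≤ (l : ℝ) ^ (1 - om)) (hx : x1 ≤ x0 + l)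
    (hy : y1 ≤ y0 + l) (hX : X ⊆ rect L x0 x1 y0 y1)
    (hXY : ∀ x ∈ X, ∀ y ∈ Y, (2 * C * K + C + 2) * (l : ℝ) ^ a ≤ dist1 x y) (hn : 1 ≤ n)
    (hPQ : ∀ k, k < n → X ⊆ P k ∧ P k ⊆ M ∧ M ⊆ Q k ∧ Q k ⊆ sa7_nb X w)
    (hbM : (bdry M : ℝ) ≤ C * ((sa7_nb X w \ X).card / (l : ℝ) ^ (1 - om)))
    (hbd : ∑ k ∈ range n, ((bdry (P k) : ℝ) + bdry (Q k)) ≤
      n * (C * ((sa7_nb X w \ X).card / (l : ℝ) ^ (1 - om))))
    (hineq : (1 - C * (l : ℝ) ^ (-c)) * ∑ k ∈ range n, (S (P k) + S (Q k)) ≤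
      ∑ k ∈ range n, S (Q k \ P k) +
        n * (C * (l : ℝ) ^ (-u) * S M + C * (l : ℝ) ^ (1 - c))) :
    mi S X Y ≤ (2 * C * K + C + 2) * (l : ℝ) ^ a := by
  have hl0 : (0 : ℝ) < l := by linarith
  have hK0 : 0 ≤ K := by rw [hK]; positivity
  have hn0 : (0 : ℝ) < n := by exact_mod_cast hn
  have hwl : w ≤ l := by
    have h1 : (w : ℝ) ≤ l := by
      refine hw1.trans ?_
      have := Real.rpow_le_rpow_of_exponent_le hlr (by linarith : 1 - om ≤ 1)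
      rwa [Real.rpow_one] at this
    exact_mod_cast h1
  have hnbc : (sa7_nb X w).card ≤ 9 * l ^ 2 := sa7_card_nb hX hx hy hwl
  have hcard : (((sa7_nb X w \ X).card : ℕ) : ℝ) ≤ 9 * (l : ℝ) ^ 2 := by
    have h1 : (sa7_nb X w \ X).card ≤ 9 * l ^ 2 :=
      (Finset.card_le_card Finset.sdiff_subset).trans hnbc
    exact_mod_cast h1
  -- the average boundary
  have hav : C * ((sa7_nb X w \ X).card / (l : ℝ) ^ (1 - om)) ≤ 9 * C * (l : ℝ) ^ (1 + om) := by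
    have h3 : ((sa7_nb X w \ X).card : ℝ) / (l : ℝ) ^ (1 - om) ≤
        9 * (l : ℝ) ^ 2 / (l : ℝ) ^ (1 - om) :=
      div_le_div_of_nonneg_right hcard (by positivity)
    have h4 : 9 * (l : ℝ) ^ 2 / (l : ℝ) ^ (1 - om) = 9 * (l : ℝ) ^ (1 + om) := by
      have h5 : (l : ℝ) ^ 2 = (l : ℝ) ^ (1 + om) * (l : ℝ) ^ (1 - om) := by
        rw [← Real.rpow_add hl0, ← Real.rpow_natCast (l : ℝ) 2]
        congr 1
        push_cast
        ring
      have hp : (l : ℝ) ^ (1 - om) ≠ 0 := (Real.rpow_pos_of_pos hl0 _).ne'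
      rw [h5]
      field_simp
    rw [h4] at h3
    calc C * ((sa7_nb X w \ X).card / (l : ℝ) ^ (1 - om)) ≤ C * (9 * (l : ℝ) ^ (1 + om)) :=
          mul_le_mul_of_nonneg_left h3 hC.le
      _ = _ := by ring
  -- entropies, linear in the boundary
  have hle : ∀ B : Finset (Site L), B ⊆ sa7_nb X w →
      S B ≤ Ca * (36 ^ κ * (l : ℝ) ^ (2 * κ)) * (bdry B : ℝ) := fun B hB => by
    refine (hnear B).trans (di_ent hlr (Nat.cast_nonneg _) hCa hκ0 ?_)
    have h1 : bdry B ≤ 36 * l ^ 2 := by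
      have h2 := bdry_le_card939 B
      have h3 := (Finset.card_le_card hB).trans hnbc
      omega
    exact_mod_cast h1
  have hpow : ∀ b : ℝ, b ≤ 9 * C * (l : ℝ) ^ (1 + om) →
      Ca * (36 ^ κ * (l : ℝ) ^ (2 * κ)) * b ≤ K * (l : ℝ) ^ (1 + 3 * m / 4) := fun b hb => by
    have h1 : Ca * (36 ^ κ * (l : ℝ) ^ (2 * κ)) * b ≤
        Ca * (36 ^ κ * (l : ℝ) ^ (2 * κ)) * (9 * C * (l : ℝ) ^ (1 + om)) :=
      mul_le_mul_of_nonneg_left hb (by positivity)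
    refine h1.trans ?_
    have h2 : Ca * (36 ^ κ * (l : ℝ) ^ (2 * κ)) * (9 * C * (l : ℝ) ^ (1 + om)) =
        K * ((l : ℝ) ^ (1 + om) * (l : ℝ) ^ (2 * κ)) := by rw [hK]; ring
    rw [h2, ← Real.rpow_add hl0]
    exact mul_le_mul_of_nonneg_left (Real.rpow_le_rpow_of_exponent_le hlr hexp) hK0
  have hSM : S M ≤ K * (l : ℝ) ^ (1 + 3 * m / 4) := by
    have h1 := hPQ 0 hn
    exact (hle M (h1.2.2.1.trans h1.2.2.2)).trans (hpow _ (hbM.trans hav))
  have hSPQ : ∑ k ∈ range n, (S (P k) + S (Q k)) ≤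
      n * (K * (l : ℝ) ^ (1 + 3 * m / 4)) := by
    have h1 : ∑ k ∈ range n, (S (P k) + S (Q k)) ≤
        Ca * (36 ^ κ * (l : ℝ) ^ (2 * κ)) *
          ∑ k ∈ range n, ((bdry (P k) : ℝ) + bdry (Q k)) := by
      rw [Finset.mul_sum]
      refine Finset.sum_le_sum fun k hk => ?_
      obtain ⟨h2, h3, h4, h5⟩ := hPQ k (Finset.mem_range.1 hk)
      have h6 := hle (P k) ((h3.trans h4).trans h5)
      have h7 := hle (Q k) h5
      rw [mul_add]
      linarith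
    refine h1.trans ?_
    have h2 := mul_le_mul_of_nonneg_left (hbd.trans (mul_le_mul_of_nonneg_left hav hn0.le))
      (by positivity : (0 : ℝ) ≤ Ca * (36 ^ κ * (l : ℝ) ^ (2 * κ)))
    refine h2.trans ?_
    have h3 := mul_le_mul_of_nonneg_left (hpow _ (le_refl (9 * C * (l : ℝ) ^ (1 + om)))) hn0.le
    refine le_trans (le_of_eq ?_) h3
    ring
  have hYQ : ∀ k < n, Y ⊆ (Q k)ᶜ := by
    intro k hk y hy'
    rw [Finset.mem_compl]
    intro hyQ
    obtain ⟨x, hx', hxy⟩ := sa7_mem_nb.1 ((hPQ k hk).2.2.2 hyQ)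
    have h1 := hXY x hx' y hy'
    have h2 : (dist1 x y : ℝ) ≤ w := by exact_mod_cast hxy
    have h3 : (l : ℝ) ^ (1 - om) ≤ (l : ℝ) ^ a := Real.rpow_le_rpow_of_exponent_le hlr hao
    have h5 : 0 < (l : ℝ) ^ a := Real.rpow_pos_of_pos hl0 _
    have h6 : 0 ≤ 2 * C * K + C := by positivity
    have h4 : (2 : ℝ) * (l : ℝ) ^ a ≤ (2 * C * K + C + 2) * (l : ℝ) ^ a :=
      mul_le_mul_of_nonneg_right (by linarith) h5.le
    linarith
  have hI : (n : ℝ) * mi S X Y ≤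
      (∑ k ∈ range n, (S (P k) + S (Q k))) - ∑ k ∈ range n, S (Q k \ P k) := by
    rw [← Finset.sum_sub_distrib]
    have h1 : ∑ k ∈ range n, mi S X Y ≤ ∑ k ∈ range n, (S (P k) + S (Q k) - S (Q k \ P k)) := by
      refine Finset.sum_le_sum fun k hk => ?_
      have hk' := Finset.mem_range.1 hk
      obtain ⟨h2, h3, h4, h5⟩ := hPQ k hk'
      exact di_mi hE h2 (h3.trans h4) (hYQ k hk')
    rw [Finset.sum_const, Finset.card_range, nsmul_eq_mul] at h1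
    exact h1
  exact di_sum hlr hK0 hC.le hn0 hmu hmc hm0 ham hI hSPQ hSM hineq

/-- **Decoupling** from the doubling inequality. -/
theorem decLaw_of_DI {q R : ℕ} {J Δ : ℝ} (hDI : DI q R J Δ)
    (hnear : ∀ κ : ℝ, 0 < κ → NearAll q R J Δ κ) :
    ∃ a : ℝ, 0 < a ∧ a < 1 ∧ DecLaw q R J Δ a := by
  obtain ⟨om, u, c, C, n₀, hom, hu, hc, hc1, hC, hDI⟩ := hDI
  have hom1 : om < 1 := by linarith
  obtain ⟨m, hm⟩ : ∃ m : ℝ, m = min u c := ⟨_, rfl⟩
  have hmu : m ≤ u := by rw [hm]; exact min_le_left _ _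
  have hmc : m ≤ c := by rw [hm]; exact min_le_right _ _
  have hmo : 2 * om < m := by rw [hm]; exact lt_min hu hc
  have hm0 : 0 < m := by linarith
  obtain ⟨κ, hκ⟩ : ∃ κ : ℝ, κ = m / 8 := ⟨_, rfl⟩
  have hκ0 : 0 < κ := by rw [hκ]; positivity
  obtain ⟨Ca, hCa, hnear⟩ := hnear κ hκ0
  obtain ⟨a, ha⟩ : ∃ a : ℝ, a = max (1 - om) (1 - m / 4) := ⟨_, rfl⟩
  have ha0 : 0 < a := by
    rw [ha]; exact lt_max_of_lt_left (by linarith)
  have ha1 : a < 1 := by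
    rw [ha]; exact max_lt (by linarith) (by linarith)
  have hao : 1 - om ≤ a := by rw [ha]; exact le_max_left _ _
  have ham : 1 - m / 4 ≤ a := by rw [ha]; exact le_max_right _ _
  obtain ⟨K, hK⟩ : ∃ K : ℝ, K = Ca * 36 ^ κ * (9 * C) := ⟨_, rfl⟩
  have hK0 : 0 ≤ K := by rw [hK]; positivity
  have hexp : 1 + om + 2 * κ ≤ 1 + 3 * m / 4 := by
    rw [hκ]
    linarith
  refine ⟨a, ha0, ha1, max n₀ 1, 2 * C * K + C + 2, by positivity, ?_⟩
  intro L H E Ω hadm hgap l x0 x1 y0 y1 hl hx hy X Y hX hXY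
  have hl1 : n₀ ≤ l := (le_max_left _ _).trans hl
  have hl3 : 1 ≤ l := (le_max_right _ _).trans hl
  have hlr : (1 : ℝ) ≤ l := by exact_mod_cast hl3
  obtain ⟨n, w, P, Q, M, hn, hw1, hPQ, hbM, hbd, hineq⟩ :=
    (hDI L H hadm E Ω hgap).out l x0 x1 y0 y1 hl1 hx hy X hX
  exact di_scale hom hom1 hC hCa hκ0 hmu hmc hm0 hexp hao ham hK (entLike Ω hgap.1)
    (hnear L H E Ω hadm hgap) hlr hw1 hx hy hX hXY hn hPQ hbM hbd hineq

/-- **The strict area law** from the doubling inequality and the near-area law. -/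
theorem strict_of_DI {q R : ℕ} (hq : 1 ≤ q) {J Δ : ℝ} (hDI : DI q R J Δ)
    (hnear : ∀ κ : ℝ, 0 < κ → NearAll q R J Δ κ) :
    ∃ C : ℝ, 0 < C ∧ ∀ (L : ℕ) (H : Op (Site L) q) (E : ℝ) (Ω : Conf (Site L) q → ℂ),
      Admissible L q R J H → GappedGround H Δ E Ω → ∀ A : Finset (Site L),
      entropyOf A Ω ≤ C * bdry A :=
  strict_of_laws hq (fun κ hκ => nearRect_of_all hκ.le (hnear κ hκ))
    (decLaw_of_DI hDI hnear)

end Vale.Agent.P356.GA
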