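import Vale.Agent.P356.GA.Pert185
import Mathlib.LinearAlgebra.Matrix.PosDef

/-!
The Hamiltonian with local detectors: `H + Λ ∑ (1 - P_b)`. Its ground state is close to the one of
`H`, the gap survives, and low energy states are seen by all detectors to be close to the ground
state of `H`.
-/

set_option linter.all false

namespace Vale.Agent.P356.GA

open Matrix Finset Vale.Agent.P356 Vale.Agent.P356.SV Vale.Agent.P356.Path Vale.Agent.P356.PH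
open scoped BigOperators ComplexOrder Kronecker Matrix.Norms.L2Operator

section det185
variable {N : Type*} [Fintype N] [DecidableEq N]

/-- nonnegative matrices have nonnegative expectations -/
theorem expv_nonneg_of_psd {A : Matrix N N ℂ} (hA : A.PosSemidef) (v : N → ℂ) : 0 ≤ expv v A := by
  have h := hA.dotProduct_mulVec_nonneg v
  exact (Complex.le_def.1 h).1

/-- the detector term -/
noncomputable def detH {ι : Type*} [Fintype ι] (Λ : ℝ) (P : ι → Matrix N N ℂ) : Matrix N N ℂ :=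
  (Λ : ℂ) • ∑ b, (1 - P b)

theorem detH_herm {ι : Type*} [Fintype ι] (Λ : ℝ) {P : ι → Matrix N N ℂ}
    (hP : ∀ b, (P b).IsHermitian) : (detH Λ P).IsHermitian := by
  rw [detH, Matrix.IsHermitian, conjTranspose_smul, conjTranspose_sum]
  congr 1
  · simp
  · refine Finset.sum_congr rfl fun b _ => ?_
    rw [conjTranspose_sub, conjTranspose_one, (hP b).eq]

theorem expv_detH {ι : Type*} [Fintype ι] (Λ : ℝ) (P : ι → Matrix N N ℂ) (v : N → ℂ) :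
    expv v (detH Λ P) = Λ * ∑ b, expv v (1 - P b) := by
  rw [detH, expv_csmul, expv_sum]

theorem expv_detH_nonneg {ι : Type*} [Fintype ι] {Λ : ℝ} (hΛ : 0 ≤ Λ) {P : ι → Matrix N N ℂ}
    (hP : ∀ b (v : N → ℂ), 0 ≤ expv v (1 - P b)) (v : N → ℂ) : 0 ≤ expv v (detH Λ P) := by
  rw [expv_detH]
  exact mul_nonneg hΛ (Finset.sum_nonneg fun b _ => hP b v)

/-- states with small distance have close expectations -/
theorem expv_close (ψ φ : N → ℂ) (X : Matrix N N ℂ) :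
    ‖star ψ ⬝ᵥ (X *ᵥ ψ) - star φ ⬝ᵥ (X *ᵥ φ)‖ ≤ ‖X‖ * (nrm (ψ - φ) * (nrm ψ + nrm φ)) := by
  have h : star ψ ⬝ᵥ (X *ᵥ ψ) - star φ ⬝ᵥ (X *ᵥ φ) =
      star (ψ - φ) ⬝ᵥ (X *ᵥ ψ) + star φ ⬝ᵥ (X *ᵥ (ψ - φ)) := by
    rw [star_sub, sub_dotProduct, mulVec_sub, dotProduct_sub]
    ring
  rw [h]
  refine (norm_add_le _ _).trans ?_
  have h1 := dot_le X (ψ - φ) ψ
  have h2 := dot_le X φ (ψ - φ)
  have e : ∀ v : N → ℂ, Real.sqrt (nsq v) = nrm v := fun _ => rfl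
  rw [e, e] at h1 h2
  calc _ ≤ ‖X‖ * (nrm (ψ - φ) * nrm ψ) + ‖X‖ * (nrm φ * nrm (ψ - φ)) := add_le_add h1 h2
    _ = _ := by ring

theorem expv_close_unit {ψ φ : N → ℂ} (hψ : nsq ψ = 1) (hφ : nsq φ = 1) {δ : ℝ}
    (h : nsq (ψ - φ) ≤ δ) (X : Matrix N N ℂ) :
    ‖star ψ ⬝ᵥ (X *ᵥ ψ) - star φ ⬝ᵥ (X *ᵥ φ)‖ ≤ 2 * Real.sqrt δ * ‖X‖ := by
  refine (expv_close ψ φ X).trans ?_
  have h1 : nrm ψ = 1 := by rw [nrm, hψ, Real.sqrt_one]
  have h2 : nrm φ = 1 := by rw [nrm, hφ, Real.sqrt_one]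
  have h3 : nrm (ψ - φ) ≤ Real.sqrt δ := Real.sqrt_le_sqrt h
  rw [h1, h2]
  have h4 := mul_le_mul_of_nonneg_left h3 (norm_nonneg X)
  nlinarith

/-- The Hamiltonian with detectors. -/
theorem det_ground {ι : Type*} [Fintype ι] {H : Matrix N N ℂ} {Δ E Λ δ : ℝ} {Ω : N → ℂ}
    (hH : H.IsHermitian) (hG : GappedGround H Δ E Ω) (hΛ : 0 < Λ) {P : ι → Matrix N N ℂ}
    (hP : ∀ b, (P b).PosSemidef) (hP1 : ∀ b, (1 - P b).PosSemidef)
    (hδ : ∀ b, expv Ω (1 - P b) ≤ δ) (hδΔ : Λ * (Fintype.card ι * δ) ≤ Δ / 2) (hΔ : 0 < Δ) :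
    ∃ (E' : ℝ) (Ω' : N → ℂ), GappedGround (H + detH Λ P) (Δ / 2) E' Ω' ∧
      E ≤ E' ∧ E' ≤ E + Λ * (Fintype.card ι * δ) ∧
      nsq (Ω' - Ω) ≤ 2 * (Λ * (Fintype.card ι * δ) / Δ) ∧
      (∀ X : Matrix N N ℂ, ‖star Ω' ⬝ᵥ (X *ᵥ Ω') - star Ω ⬝ᵥ (X *ᵥ Ω)‖ ≤
        2 * Real.sqrt (2 * (Λ * (Fintype.card ι * δ) / Δ)) * ‖X‖) ∧
      ∀ (ψ : N → ℂ) (K : ℝ), nsq ψ = 1 → expv ψ (H + detH Λ P) - E' ≤ K →
        ∑ b, expv ψ (1 - P b) ≤ K / Λ + Fintype.card ι * δ := by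
  classical
  set η : ℝ := Λ * (Fintype.card ι * δ) with hη
  have hsum : expv Ω (detH Λ P) ≤ η := by
    rw [expv_detH, hη]
    refine mul_le_mul_of_nonneg_left ?_ hΛ.le
    calc ∑ b, expv Ω (1 - P b) ≤ ∑ _b : ι, δ := Finset.sum_le_sum fun b _ => hδ b
      _ = _ := by rw [Finset.sum_const, Finset.card_univ, nsmul_eq_mul]
  have hpos : ∀ b (v : N → ℂ), 0 ≤ expv v (1 - P b) := fun b v => expv_nonneg_of_psd (hP1 b) v
  obtain ⟨E', Ω', h1, h2, h3, _, h5⟩ := gapped_perturb hH hG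
    (detH_herm Λ fun b => (hP b).isHermitian) (expv_detH_nonneg hΛ.le hpos) hsum
    (by linarith)
  refine ⟨E', Ω', ⟨h1.1, h1.2.1, fun ψ => ?_⟩, h2, h3, h5, fun X => ?_, fun ψ K hψ hK => ?_⟩
  · refine le_trans ?_ (h1.2.2 ψ)
    refine mul_le_mul_of_nonneg_right (by linarith) ?_
    have h6 := pow_le_pow_left₀ (norm_nonneg _) (nrm_ip_le Ω' ψ) 2
    rw [mul_pow, nrm_sq, nrm_sq, h1.1, one_mul] at h6
    linarith
  · exact expv_close_unit h1.1 hG.1 h5 X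
  · have h6 := gapped_ge hG hΔ.le ψ
    rw [hψ, mul_one] at h6
    rw [expv_add, expv_detH] at hK
    have h7 : Λ * ∑ b, expv ψ (1 - P b) ≤ K + η := by linarith
    have h8 : ∑ b, expv ψ (1 - P b) ≤ (K + η) / Λ := by
      rw [le_div_iff₀ hΛ]
      linarith
    have h9 : (K + η) / Λ = K / Λ + Fintype.card ι * δ := by
      rw [hη]
      field_simp
    rw [← h9]
    exact h8

/-- sum of the deviations of the marginals in terms of the sum of the detector defects -/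
theorem det_dev_sum {ι : Type*} [Fintype ι] {e x : ι → ℝ} {S : ℝ} (he : ∀ b, 0 ≤ e b)
    (hx : ∀ b, x b ≤ 3 * e b + 2 * Real.sqrt (e b)) (hS : ∑ b, e b ≤ S) :
    ∑ b, x b ≤ 3 * S + 2 * Real.sqrt (Fintype.card ι * S) := by
  have hS0 : 0 ≤ S := (Finset.sum_nonneg fun b _ => he b).trans hS
  have h1 : ∑ b, Real.sqrt (e b) ≤ Real.sqrt (Fintype.card ι * S) := by
    refine Real.le_sqrt_of_sq_le ?_
    have h2 := sq_sum_le_card_mul_sum_sq (s := (Finset.univ : Finset ι))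
      (f := fun b => Real.sqrt (e b))
    refine h2.trans ?_
    rw [Finset.card_univ]
    refine mul_le_mul_of_nonneg_left ?_ (Nat.cast_nonneg _)
    calc ∑ b, Real.sqrt (e b) ^ 2 = ∑ b, e b :=
          Finset.sum_congr rfl fun b _ => Real.sq_sqrt (he b)
      _ ≤ S := hS
  calc ∑ b, x b ≤ ∑ b, (3 * e b + 2 * Real.sqrt (e b)) := Finset.sum_le_sum fun b _ => hx b
    _ = 3 * ∑ b, e b + 2 * ∑ b, Real.sqrt (e b) := by
        rw [Finset.sum_add_distrib, Finset.mul_sum, Finset.mul_sum]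
    _ ≤ _ := by linarith

/-- the same for subfamilies: all `b` in `s` -/
theorem det_dev_sum_finset {ι : Type*} (s : Finset ι) {e x : ι → ℝ} {S : ℝ}
    (he : ∀ b ∈ s, 0 ≤ e b)
    (hx : ∀ b ∈ s, x b ≤ 3 * e b + 2 * Real.sqrt (e b)) (hS : ∑ b ∈ s, e b ≤ S) :
    ∑ b ∈ s, x b ≤ 3 * S + 2 * Real.sqrt (s.card * S) := by
  have hS0 : 0 ≤ S := (Finset.sum_nonneg fun b hb => he b hb).trans hS
  have h1 : ∑ b ∈ s, Real.sqrt (e b) ≤ Real.sqrt (s.card * S) := by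
    refine Real.le_sqrt_of_sq_le ?_
    have h2 := sq_sum_le_card_mul_sum_sq (s := s) (f := fun b => Real.sqrt (e b))
    refine h2.trans ?_
    refine mul_le_mul_of_nonneg_left ?_ (Nat.cast_nonneg _)
    calc ∑ b ∈ s, Real.sqrt (e b) ^ 2 = ∑ b ∈ s, e b :=
          Finset.sum_congr rfl fun b hb => Real.sq_sqrt (he b hb)
      _ ≤ S := hS
  calc ∑ b ∈ s, x b ≤ ∑ b ∈ s, (3 * e b + 2 * Real.sqrt (e b)) :=
        Finset.sum_le_sum fun b hb => hx b hb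
    _ = 3 * ∑ b ∈ s, e b + 2 * ∑ b ∈ s, Real.sqrt (e b) := by
        rw [Finset.sum_add_distrib, Finset.mul_sum, Finset.mul_sum]
    _ ≤ _ := by linarith

end det185

end Vale.Agent.P356.GA
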