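import Vale.Agent.P356.GA.Fun749
import Vale.Agent.P356.GA.Detect939
import Mathlib.Analysis.CStarAlgebra.Hom
import Mathlib.Analysis.Matrix.Order

/-!
Strictly local detectors. For a unit vector which nearly factorises between a window `b` and the
outside of `b ∪ C` there is an operator `P` on `b ∪ C`, between zero and one, with expectation
nearly one in this vector, and such that every vector in which `P` has expectation nearly one has
nearly the same marginal on `b`. The operator is built from the polar decomposition of the vector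
(seen as a matrix between `C` and the rest) and the canonical purifications of the marginals.
-/

set_option linter.all false

namespace Vale.Agent.P356.GA

open Matrix Finset Vale.Agent.P356 Vale.Agent.P356.SV Vale.Agent.P356.Path Vale.Agent.P356.PH
open scoped BigOperators ComplexOrder Kronecker Matrix.Norms.L2Operator

section spec
variable {n : Type*} [Fintype n] [DecidableEq n]

/-- function in a given eigenbasis -/
def dt384F (U : Matrix n n ℂ) (f : n → ℂ) : Matrix n n ℂ := U * diagonal f * Uᴴ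

theorem dt384F_mul {U : Matrix n n ℂ} (hU : Uᴴ * U = 1) (f g : n → ℂ) :
    dt384F U f * dt384F U g = dt384F U (fun i => f i * g i) := by
  rw [dt384F, dt384F, dt384F]
  calc U * diagonal f * Uᴴ * (U * diagonal g * Uᴴ) =
      U * diagonal f * (Uᴴ * U) * diagonal g * Uᴴ := by simp only [Matrix.mul_assoc]
    _ = U * (diagonal f * diagonal g) * Uᴴ := by
        rw [hU, Matrix.mul_one, Matrix.mul_assoc U]
    _ = _ := by rw [diagonal_mul_diagonal]

theorem dt384F_star (U : Matrix n n ℂ) (f : n → ℝ) :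
    (dt384F U (fun i => (f i : ℂ)))ᴴ = dt384F U (fun i => (f i : ℂ)) := by
  rw [dt384F, conjTranspose_mul, conjTranspose_mul, conjTranspose_conjTranspose,
    diagonal_conjTranspose, Matrix.mul_assoc]
  congr 3
  funext i
  simp only [Pi.star_apply, RCLike.star_def, Complex.conj_ofReal]

theorem dt384F_norm {U : Matrix n n ℂ} (hU : Uᴴ * U = 1) {f : n → ℂ} (hf : ∀ i, ‖f i‖ ≤ 1) :
    ‖dt384F U f‖ ≤ 1 := by
  have hU' : U * Uᴴ = 1 := mul_eq_one_comm.mp hU
  have h0 : U ∈ unitary (Matrix n n ℂ) := ⟨hU, hU'⟩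
  have h1 : Uᴴ ∈ unitary (Matrix n n ℂ) := Unitary.star_mem h0
  rw [dt384F, CStarRing.norm_mul_mem_unitary _ h1, CStarRing.norm_mem_unitary_mul _ h0,
    Matrix.l2_opNorm_diagonal]
  exact (pi_norm_le_iff_of_nonneg zero_le_one).2 hf

theorem dt384F_trace {U : Matrix n n ℂ} (hU : Uᴴ * U = 1) (f : n → ℂ) (Y : Matrix n n ℂ) :
    (Y * dt384F U f).trace = ∑ i, (Uᴴ * Y * U) i i * f i := by
  rw [dt384F, ← Matrix.mul_assoc, Matrix.trace_mul_comm, ← Matrix.mul_assoc, ← Matrix.mul_assoc]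
  simp only [Matrix.trace, Matrix.diag_apply, Matrix.mul_diagonal]

/-- spectral decomposition -/
theorem dt384_spec {X : Matrix n n ℂ} (hX : X.IsHermitian) :
    ∃ (U : Matrix n n ℂ) (x : n → ℝ), Uᴴ * U = 1 ∧ X = dt384F U (fun i => (x i : ℂ)) := by
  refine ⟨(hX.eigenvectorUnitary : Matrix n n ℂ), hX.eigenvalues, ?_, ?_⟩
  · have := hX.eigenvectorUnitary.2
    rw [Matrix.mem_unitaryGroup_iff] at this
    exact mul_eq_one_comm.mp this
  · have := hX.spectral_theorem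
    rw [Unitary.conjStarAlgAut_apply] at this
    exact this

theorem dt384_spec_nonneg {X : Matrix n n ℂ} (hX : X.PosSemidef) :
    ∃ (U : Matrix n n ℂ) (x : n → ℝ), Uᴴ * U = 1 ∧ (∀ i, 0 ≤ x i) ∧
      X = dt384F U (fun i => (x i : ℂ)) := by
  obtain ⟨U, x, hU, hx⟩ := dt384_spec hX.isHermitian
  refine ⟨U, x, hU, fun i => ?_, hx⟩
  have h1 := (hX.conjTranspose_mul_mul_same U).diag_nonneg (i := i)
  have h2 : Uᴴ * X * U = diagonal (fun i => (x i : ℂ)) := by
    rw [hx, dt384F]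
    calc Uᴴ * (U * diagonal (fun i => (x i : ℂ)) * Uᴴ) * U =
        (Uᴴ * U) * diagonal (fun i => (x i : ℂ)) * (Uᴴ * U) := by simp only [Matrix.mul_assoc]
      _ = _ := by rw [hU, Matrix.one_mul, Matrix.mul_one]
  rw [h2, diagonal_apply_eq] at h1
  exact_mod_cast h1

theorem dt384F_psd {U : Matrix n n ℂ} {f : n → ℝ} (hf : ∀ i, 0 ≤ f i) :
    (dt384F U (fun i => (f i : ℂ))).PosSemidef := by
  have h : (diagonal (fun i => (f i : ℂ)) : Matrix n n ℂ).PosSemidef := by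
    rw [posSemidef_diagonal_iff]
    intro i
    exact_mod_cast hf i
  exact h.mul_mul_conjTranspose_same U

/-- square root -/
theorem dt384_sqrt {X : Matrix n n ℂ} (hX : X.PosSemidef) :
    ∃ S : Matrix n n ℂ, S.PosSemidef ∧ S * S = X := by
  obtain ⟨U, x, hU, h0, hx⟩ := dt384_spec_nonneg hX
  refine ⟨dt384F U (fun i => ((Real.sqrt (x i) : ℝ) : ℂ)), dt384F_psd fun i => Real.sqrt_nonneg _,
    ?_⟩
  rw [dt384F_mul hU, hx]
  congr 1
  funext i
  rw [← Complex.ofReal_mul, Real.mul_self_sqrt (h0 i)]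

/-- Powers and Stoermer -/
theorem dt384_ps {S T : Matrix n n ℂ} (hS : S.PosSemidef) (hT : T.PosSemidef) :
    ∃ Z : Matrix n n ℂ, ‖Z‖ ≤ 1 ∧
      ((S - T) * (S - T)).trace.re ≤ ((S * S - T * T) * Z).trace.re := by
  obtain ⟨U, x, hU, hx⟩ := dt384_spec (hS.isHermitian.sub hT.isHermitian)
  set sg : n → ℝ := fun i => if 0 ≤ x i then 1 else -1 with hsg
  have hsx : ∀ i, sg i * x i = |x i| := fun i => by
    simp only [hsg]
    split_ifs with h
    · rw [one_mul, abs_of_nonneg h]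
    · rw [neg_one_mul, abs_of_neg (not_le.1 h)]
  refine ⟨dt384F U (fun i => (sg i : ℂ)), dt384F_norm hU fun i => ?_, ?_⟩
  · rw [Complex.norm_real, Real.norm_eq_abs]
    simp only [hsg]
    split_ifs
    · rw [abs_one]
    · rw [abs_neg, abs_one]
  set Z := dt384F U (fun i => (sg i : ℂ)) with hZ
  set G := dt384F U (fun i => ((|x i| : ℝ) : ℂ)) with hG
  have e1 : (S - T) * Z = G := by
    rw [hx, hZ, dt384F_mul hU, hG]
    congr 1
    funext i
    rw [← Complex.ofReal_mul, mul_comm, hsx]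
  have e2 : Z * (S - T) = G := by
    rw [hx, hZ, dt384F_mul hU, hG]
    congr 1
    funext i
    rw [← Complex.ofReal_mul, hsx]
  have e3 : ((S * S - T * T) * Z).trace = ((S + T) * G).trace := by
    have h1 : (2 : ℂ) * ((S * S - T * T) * Z).trace =
        (((S - T) * (S + T)) * Z).trace + (((S + T) * (S - T)) * Z).trace := by
      rw [← Matrix.trace_add, ← smul_eq_mul, ← Matrix.trace_smul]
      congr 1
      rw [← Matrix.add_mul, ← Matrix.smul_mul, two_smul]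
      congr 1
      rw [Matrix.sub_mul, Matrix.add_mul, Matrix.mul_add, Matrix.mul_add, Matrix.mul_sub,
        Matrix.mul_sub]
      abel
    have h2 : (((S - T) * (S + T)) * Z).trace = ((S + T) * G).trace := by
      rw [Matrix.mul_assoc, Matrix.trace_mul_comm, Matrix.mul_assoc, e2]
    have h3 : (((S + T) * (S - T)) * Z).trace = ((S + T) * G).trace := by
      rw [Matrix.mul_assoc, e1]
    rw [h2, h3] at h1
    linear_combination (1 / 2 : ℂ) * h1
  have e4 : ((S - T) * (S - T)).trace = ∑ i, ((x i * x i : ℝ) : ℂ) := by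
    rw [hx, dt384F_mul hU, ← Matrix.one_mul (dt384F U _), dt384F_trace hU]
    refine Finset.sum_congr rfl fun i _ => ?_
    rw [Matrix.mul_one, hU, Matrix.one_apply_eq, one_mul, Complex.ofReal_mul]
  rw [e3, hG, dt384F_trace hU, e4, Complex.re_sum, Complex.re_sum]
  refine Finset.sum_le_sum fun i _ => ?_
  have a1 := (hS.conjTranspose_mul_mul_same U).diag_nonneg (i := i)
  have a2 := (hT.conjTranspose_mul_mul_same U).diag_nonneg (i := i)
  have a1' : 0 ≤ ((Uᴴ * S * U) i i).re := (Complex.le_def.1 a1).1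
  have a2' : 0 ≤ ((Uᴴ * T * U) i i).re := (Complex.le_def.1 a2).1
  have a3 : (Uᴴ * (S + T) * U) i i = (Uᴴ * S * U) i i + (Uᴴ * T * U) i i := by
    rw [Matrix.mul_add, Matrix.add_mul, Matrix.add_apply]
  have a4 : (Uᴴ * S * U) i i - (Uᴴ * T * U) i i = (x i : ℂ) := by
    rw [← Matrix.sub_apply, ← Matrix.sub_mul, ← Matrix.mul_sub, hx, dt384F]
    have : Uᴴ * (U * diagonal (fun i => (x i : ℂ)) * Uᴴ) * U =
        (Uᴴ * U) * diagonal (fun i => (x i : ℂ)) * (Uᴴ * U) := by simp only [Matrix.mul_assoc]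
    rw [this, hU, Matrix.one_mul, Matrix.mul_one, diagonal_apply_eq]
  have a5 : ((Uᴴ * S * U) i i).re - ((Uᴴ * T * U) i i).re = x i := by
    rw [← Complex.sub_re, a4, Complex.ofReal_re]
  rw [a3, Complex.ofReal_re, Complex.re_mul_ofReal, Complex.add_re]
  have h3 : |x i| * |x i| = x i * x i := abs_mul_abs_self _
  have h4 : |x i| ≤ ((Uᴴ * S * U) i i).re + ((Uᴴ * T * U) i i).re := by
    rw [abs_le]
    constructor <;> linarith
  nlinarith [abs_nonneg (x i)]

end spec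

section polar
variable {m n : Type*} [Fintype m] [DecidableEq m] [Fintype n] [DecidableEq n]

/-- moving a rectangular operator to the other side -/
theorem dt384_ip (A : Matrix m n ℂ) (u : n → ℂ) (v : m → ℂ) :
    star (A *ᵥ u) ⬝ᵥ v = star u ⬝ᵥ (Aᴴ *ᵥ v) := by
  rw [star_mulVec, dotProduct_mulVec]

theorem dt384_nsq (A : Matrix m n ℂ) (v : n → ℂ) :
    star v ⬝ᵥ ((Aᴴ * A) *ᵥ v) = ((nsq (A *ᵥ v) : ℝ) : ℂ) := by
  rw [← ip_self, dt384_ip, mulVec_mulVec]

theorem dt384_contr {A : Matrix m n ℂ} (hA : ‖A‖ ≤ 1) (v : n → ℂ) : nsq (A *ᵥ v) ≤ nsq v := by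
  have h := Matrix.l2_opNorm_mulVec A (WithLp.toLp 2 v : EuclideanSpace ℂ n)
  rw [ph_nsq_eq, ph_nsq_eq]
  refine pow_le_pow_left₀ (norm_nonneg _) ?_ 2
  refine h.trans ?_
  exact mul_le_of_le_one_left (norm_nonneg _) hA

/-- a contraction has a complement -/
theorem dt384_compl {A : Matrix m n ℂ} (hA : ‖A‖ ≤ 1) :
    ∃ D : Matrix n n ℂ, Aᴴ * A + Dᴴ * D = 1 := by
  have h1 : (1 - Aᴴ * A).PosSemidef := by
    refine Matrix.PosSemidef.of_dotProduct_mulVec_nonneg ?_ fun v => ?_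
    · exact isHermitian_one.sub (isHermitian_conjTranspose_mul_self A)
    · rw [sub_mulVec, one_mulVec, dotProduct_sub, dt384_nsq, ip_self, ← Complex.ofReal_sub]
      have := dt384_contr hA v
      rw [Complex.zero_le_real]
      linarith
  obtain ⟨D, hD, hDD⟩ := dt384_sqrt h1
  refine ⟨D, ?_⟩
  rw [hD.isHermitian.eq, hDD]
  abel

/-- polar decomposition, in the form `W M = |M|` with a contraction `W` -/
theorem dt384_polar (M : Matrix m n ℂ) :
    ∃ (S : Matrix n n ℂ) (W : Matrix n m ℂ), S.PosSemidef ∧ S * S = Mᴴ * M ∧ W * M = S ∧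
      ‖W‖ ≤ 1 := by
  obtain ⟨U, x, hU, h0, hx⟩ := dt384_spec_nonneg (posSemidef_conjTranspose_mul_self M)
  set f : n → ℝ := fun i => Real.sqrt (x i) with hf
  set g : n → ℝ := fun i => (Real.sqrt (x i))⁻¹ with hg
  have hff : ∀ i, f i * f i = x i := fun i => Real.mul_self_sqrt (h0 i)
  have hgx : ∀ i, g i * x i = f i := fun i => by
    rw [← hff i]
    simp only [hg, hf]
    by_cases h : Real.sqrt (x i) = 0
    · rw [h, mul_zero, mul_zero]
    · rw [← mul_assoc, inv_mul_cancel₀ h, one_mul]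
  have hfg : ∀ i, |f i * g i| ≤ 1 := fun i => by
    simp only [hg, hf]
    by_cases h : Real.sqrt (x i) = 0
    · rw [h, zero_mul, abs_zero]
      exact zero_le_one
    · rw [mul_inv_cancel₀ h, abs_one]
  refine ⟨dt384F U (fun i => (f i : ℂ)), dt384F U (fun i => (g i : ℂ)) * Mᴴ,
    dt384F_psd fun i => Real.sqrt_nonneg _, ?_, ?_, ?_⟩
  · rw [dt384F_mul hU, hx]
    congr 1
    funext i
    rw [← Complex.ofReal_mul, hff]
  · rw [Matrix.mul_assoc, hx, dt384F_mul hU]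
    congr 1
    funext i
    rw [← Complex.ofReal_mul, hgx]
  · set W := dt384F U (fun i => (g i : ℂ)) * Mᴴ with hW
    have h1 : W * Wᴴ = dt384F U (fun i => ((f i * g i : ℝ) : ℂ)) := by
      rw [hW, conjTranspose_mul, conjTranspose_conjTranspose, dt384F_star]
      calc dt384F U (fun i => (g i : ℂ)) * Mᴴ * (M * dt384F U (fun i => (g i : ℂ))) =
          dt384F U (fun i => (g i : ℂ)) * (Mᴴ * M) * dt384F U (fun i => (g i : ℂ)) := by
            simp only [Matrix.mul_assoc]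
        _ = _ := by
            rw [hx, dt384F_mul hU, dt384F_mul hU]
            congr 1
            funext i
            rw [← Complex.ofReal_mul, ← Complex.ofReal_mul, hgx]
    have h2 : ‖W * Wᴴ‖ ≤ 1 := by
      rw [h1]
      refine dt384F_norm hU fun i => ?_
      rw [Complex.norm_real, Real.norm_eq_abs]
      exact hfg i
    have h3 : ‖W * Wᴴ‖ = ‖W‖ * ‖W‖ := by
      have := Matrix.l2_opNorm_conjTranspose_mul_self Wᴴ
      rw [conjTranspose_conjTranspose, Matrix.l2_opNorm_conjTranspose] at this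
      exact this
    rw [h3] at h2
    nlinarith [norm_nonneg W]

/-- closeness of the marginal, abstract form -/
theorem dt384_vec {H K' D' L : Type*} [Fintype H] [DecidableEq H] [Fintype K'] [DecidableEq K']
    [Fintype D'] [DecidableEq D'] [Fintype L] [DecidableEq L] (v : H → ℂ) (K : Matrix K' H ℂ)
    (D : Matrix D' H ℂ) (J : Matrix K' L ℂ) (XH : Matrix H H ℂ) (XK : Matrix K' K' ℂ)
    (XD : Matrix D' D' ℂ) (x : ℂ) (hKD : Kᴴ * K + Dᴴ * D = 1) (hJ : Jᴴ * J = 1)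
    (h1 : XK * K = K * XH) (h2 : XD * D = D * XH) (h3 : Jᴴ * XK * J = x • 1)
    (hXK : ‖XK‖ ≤ 1) (hXD : ‖XD‖ ≤ 1) (hx : ‖x‖ ≤ 1) (hv : nsq v = 1) {e : ℝ}
    (he : 1 - nsq ((Jᴴ * K) *ᵥ v) ≤ e) :
    ‖star v ⬝ᵥ (XH *ᵥ v) - x‖ ≤ 3 * e + 2 * Real.sqrt e := by
  set w := K *ᵥ v with hw
  set d := D *ᵥ v with hd
  set u := (Jᴴ * K) *ᵥ v with hu
  have hwd : nsq w + nsq d = 1 := by
    have h : (((nsq w + nsq d : ℝ)) : ℂ) = 1 := by
      rw [Complex.ofReal_add, hw, hd, ← dt384_nsq, ← dt384_nsq, ← dotProduct_add, ← add_mulVec, hKD,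
        one_mulVec, ip_self, hv, Complex.ofReal_one]
    exact_mod_cast h
  set r := w - J *ᵥ u with hr
  have hwr : w = J *ᵥ u + r := by rw [hr]; abel
  have hJu : nsq (J *ᵥ u) = nsq u := by
    have h : ((nsq (J *ᵥ u) : ℝ) : ℂ) = ((nsq u : ℝ) : ℂ) := by
      rw [← dt384_nsq, hJ, one_mulVec, ip_self]
    exact_mod_cast h
  have hJr : Jᴴ *ᵥ r = 0 := by
    rw [hr, mulVec_sub, hw, mulVec_mulVec, mulVec_mulVec, hJ, one_mulVec, ← hu, sub_self]
  have hort : star (J *ᵥ u) ⬝ᵥ r = 0 := by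
    rw [dt384_ip, hJr, dotProduct_zero]
  have hwr2 : nsq w = nsq u + nsq r := by
    rw [hwr, nsq_add, hort, Complex.zero_re, mul_zero, add_zero, hJu]
  have hr0 := nsq_nonneg' r
  have hd0 := nsq_nonneg' d
  have hu0 := nsq_nonneg' u
  have hre : nsq r ≤ e := by linarith
  have hde : nsq d ≤ e := by linarith
  have hu1 : nsq u ≤ 1 := by linarith
  have he0 : 0 ≤ e := hr0.trans hre
  have hmain : star v ⬝ᵥ (XH *ᵥ v) = star w ⬝ᵥ (XK *ᵥ w) + star d ⬝ᵥ (XD *ᵥ d) := by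
    rw [hw, hd, dt384_ip, dt384_ip]
    simp only [mulVec_mulVec]
    rw [h1, h2, ← Matrix.mul_assoc, ← Matrix.mul_assoc,
      ← dotProduct_add, ← add_mulVec, ← Matrix.add_mul, hKD, Matrix.one_mul]
  have hww : star w ⬝ᵥ (XK *ᵥ w) = x * (nsq u : ℂ) + star (J *ᵥ u) ⬝ᵥ (XK *ᵥ r) +
      star r ⬝ᵥ (XK *ᵥ (J *ᵥ u)) + star r ⬝ᵥ (XK *ᵥ r) := by
    have h4 : star (J *ᵥ u) ⬝ᵥ (XK *ᵥ (J *ᵥ u)) = x * (nsq u : ℂ) := by
      rw [dt384_ip]
      simp only [mulVec_mulVec]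
      rw [← Matrix.mul_assoc, h3, smul_mulVec, one_mulVec, dotProduct_smul, ip_self, smul_eq_mul]
    rw [← h4]
    conv_lhs => rw [hwr]
    rw [star_add, mulVec_add, add_dotProduct, dotProduct_add, dotProduct_add]
    ring
  have hdd : ‖star d ⬝ᵥ (XD *ᵥ d)‖ ≤ e := by
    refine (dot_le XD d d).trans ?_
    rw [Real.mul_self_sqrt hd0]
    nlinarith [norm_nonneg XD]
  have hrr : ‖star r ⬝ᵥ (XK *ᵥ r)‖ ≤ nsq r := by
    refine (dot_le XK r r).trans ?_
    rw [Real.mul_self_sqrt hr0]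
    nlinarith [norm_nonneg XK]
  have hsr : Real.sqrt (nsq r) ≤ Real.sqrt e := Real.sqrt_le_sqrt hre
  have hsu : Real.sqrt (nsq (J *ᵥ u)) ≤ 1 := by
    rw [hJu]
    exact Real.sqrt_le_one.2 hu1
  have hur : ‖star (J *ᵥ u) ⬝ᵥ (XK *ᵥ r)‖ ≤ Real.sqrt e := by
    refine (dot_le XK _ r).trans ?_
    have a1 : Real.sqrt (nsq (J *ᵥ u)) * Real.sqrt (nsq r) ≤ 1 * Real.sqrt e :=
      mul_le_mul hsu hsr (Real.sqrt_nonneg _) zero_le_one
    have a2 : ‖XK‖ * (Real.sqrt (nsq (J *ᵥ u)) * Real.sqrt (nsq r)) ≤ 1 * (1 * Real.sqrt e) :=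
      mul_le_mul hXK a1 (by positivity) zero_le_one
    linarith
  have hru : ‖star r ⬝ᵥ (XK *ᵥ (J *ᵥ u))‖ ≤ Real.sqrt e := by
    refine (dot_le XK r _).trans ?_
    have a1 : Real.sqrt (nsq r) * Real.sqrt (nsq (J *ᵥ u)) ≤ Real.sqrt e * 1 :=
      mul_le_mul hsr hsu (Real.sqrt_nonneg _) (Real.sqrt_nonneg _)
    have a2 : ‖XK‖ * (Real.sqrt (nsq r) * Real.sqrt (nsq (J *ᵥ u))) ≤ 1 * (Real.sqrt e * 1) :=
      mul_le_mul hXK a1 (by positivity) zero_le_one
    linarith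
  have hxu : ‖x * (nsq u : ℂ) - x‖ ≤ 1 - nsq u := by
    have : x * (nsq u : ℂ) - x = x * (((nsq u - 1 : ℝ)) : ℂ) := by
      push_cast
      ring
    rw [this, norm_mul, Complex.norm_real, Real.norm_eq_abs, abs_of_nonpos (by linarith)]
    nlinarith
  have hfin : star v ⬝ᵥ (XH *ᵥ v) - x = (x * (nsq u : ℂ) - x) + star (J *ᵥ u) ⬝ᵥ (XK *ᵥ r) +
      star r ⬝ᵥ (XK *ᵥ (J *ᵥ u)) + star r ⬝ᵥ (XK *ᵥ r) + star d ⬝ᵥ (XD *ᵥ d) := by
    rw [hmain, hww]
    ring
  rw [hfin]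
  refine (norm_add_le _ _).trans ?_
  refine (add_le_add_left (norm_add_le _ _) _).trans ?_
  refine (add_le_add_left (add_le_add_left (norm_add_le _ _) _) _).trans ?_
  refine (add_le_add_left (add_le_add_left (add_le_add_left (norm_add_le _ _) _) _) _).trans ?_
  linarith

end polar

section kron
variable {α β : Type*} [Fintype α] [DecidableEq α] [Fintype β] [DecidableEq β]

/-- tensoring with the identity -/
noncomputable def dt384K (α β : Type*) [Fintype α] [DecidableEq α] [Fintype β] [DecidableEq β] :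
    Matrix α α ℂ →⋆ₐ[ℂ] Matrix (α × β) (α × β) ℂ where
  toFun Y := Y ⊗ₖ (1 : Matrix β β ℂ)
  map_one' := one_kronecker_one
  map_mul' X Y := by rw [← mul_kronecker_mul, Matrix.one_mul]
  map_zero' := zero_kronecker _
  map_add' X Y := add_kronecker _ _ _
  commutes' c := by
    rw [Algebra.algebraMap_eq_smul_one, Algebra.algebraMap_eq_smul_one, smul_kronecker,
      one_kronecker_one]
  map_star' Y := by
    rw [star_eq_conjTranspose, star_eq_conjTranspose, conjTranspose_kronecker, conjTranspose_one]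

theorem dt384K_apply (Y : Matrix α α ℂ) : dt384K α β Y = Y ⊗ₖ (1 : Matrix β β ℂ) := rfl

theorem dt384_kron_norm (Y : Matrix α α ℂ) : ‖Y ⊗ₖ (1 : Matrix β β ℂ)‖ ≤ ‖Y‖ :=
  NonUnitalStarAlgHom.norm_apply_le (dt384K α β) Y

theorem dt384K_inj [Nonempty β] : Function.Injective (dt384K α β) := by
  intro X Y h
  obtain ⟨c⟩ := ‹Nonempty β›
  ext a a'
  have h1 := congrFun (congrFun h (a, c)) (a', c)
  rw [dt384K_apply, dt384K_apply, kroneckerMap_apply, kroneckerMap_apply, Matrix.one_apply_eq,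
    mul_one, mul_one] at h1
  exact h1

theorem dt384_kron_norm' [Nonempty β] (Y : Matrix α α ℂ) :
    ‖Y ⊗ₖ (1 : Matrix β β ℂ)‖ = ‖Y‖ :=
  NonUnitalStarAlgHom.norm_map (dt384K α β) dt384K_inj Y

theorem dt384_k1 {m n l : Type*} [Fintype m] [Fintype n] [Fintype l] (A : Matrix m n ℂ)
    (B' : Matrix m l ℂ) : (A ⊗ₖ (1 : Matrix β β ℂ))ᴴ * (B' ⊗ₖ (1 : Matrix β β ℂ)) =
      (Aᴴ * B') ⊗ₖ (1 : Matrix β β ℂ) := by
  rw [conjTranspose_kronecker, ← mul_kronecker_mul, conjTranspose_one, Matrix.mul_one]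

theorem dt384_k2 {m n l : Type*} [Fintype m] [Fintype n] [Fintype l] (A : Matrix m n ℂ)
    (B' : Matrix n l ℂ) : (A ⊗ₖ (1 : Matrix β β ℂ)) * (B' ⊗ₖ (1 : Matrix β β ℂ)) =
      (A * B') ⊗ₖ (1 : Matrix β β ℂ) := by
  rw [← mul_kronecker_mul, Matrix.mul_one]

theorem dt384_k3 {m n : Type*} [Fintype m] [Fintype n] [DecidableEq m] [DecidableEq n]
    (x : Matrix β β ℂ) (W : Matrix m n ℂ) :
    (x ⊗ₖ (1 : Matrix m m ℂ)) * ((1 : Matrix β β ℂ) ⊗ₖ W) =
      ((1 : Matrix β β ℂ) ⊗ₖ W) * (x ⊗ₖ (1 : Matrix n n ℂ)) := by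
  rw [← mul_kronecker_mul, ← mul_kronecker_mul, Matrix.mul_one, Matrix.one_mul, Matrix.one_mul,
    Matrix.mul_one]

theorem dt384_single_norm (a b : α) : ‖(Matrix.single a b 1 : Matrix α α ℂ)‖ ≤ 1 := by
  refine ph_norm_le zero_le_one fun v => ?_
  rw [one_pow, one_mul]
  have h : ∀ i, ((Matrix.single a b 1 : Matrix α α ℂ) *ᵥ v) i = if i = a then v b else 0 := by
    intro i
    rw [mulVec, dotProduct]
    by_cases hi : i = a
    · rw [if_pos hi, hi, Finset.sum_eq_single b]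
      · rw [Matrix.single_apply_same, one_mul]
      · intro j _ hj
        rw [Matrix.single_apply_of_ne, zero_mul]
        rintro ⟨-, h⟩
        exact hj h.symm
      · intro h
        exact absurd (Finset.mem_univ _) h
    · rw [if_neg hi]
      refine Finset.sum_eq_zero fun j _ => ?_
      rw [Matrix.single_apply_of_ne, zero_mul]
      rintro ⟨h, -⟩
      exact hi h.symm
  rw [nsq, nsq, Finset.sum_eq_single a]
  · rw [h, if_pos rfl]
    exact Finset.single_le_sum (f := fun s => ‖v s‖ ^ 2) (fun i _ => by positivity)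
      (Finset.mem_univ b)
  · intro i _ hi
    rw [h, if_neg hi, norm_zero]
    norm_num
  · intro h
    exact absurd (Finset.mem_univ _) h

theorem dt384_transpose_norm (A : Matrix α α ℂ) : ‖Aᵀ‖ ≤ ‖A‖ := by
  refine ph_norm_le (norm_nonneg _) fun v => ?_
  have h1 : Aᵀ *ᵥ v = star (Aᴴ *ᵥ star v) := by
    rw [star_mulVec, star_star, conjTranspose_conjTranspose, mulVec_transpose]
  have h2 : ∀ w : α → ℂ, nsq (star w) = nsq w := fun w => by
    simp only [nsq, Pi.star_apply, norm_star]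
  rw [h1, h2]
  refine (ph_nsq_mulVec_le _ _).trans ?_
  rw [Matrix.l2_opNorm_conjTranspose, h2]

theorem dt384_kronR_norm (y : Matrix β β ℂ) : ‖(1 : Matrix α α ℂ) ⊗ₖ y‖ ≤ ‖y‖ := by
  refine ph_norm_le (norm_nonneg _) fun v => ?_
  have h9 : nsq (((1 : Matrix α α ℂ) ⊗ₖ y) *ᵥ v) = ∑ b, nsq (y *ᵥ fun c => v (b, c)) := by
    rw [nsq, Fintype.sum_prod_type]
    refine Finset.sum_congr rfl fun b _ => ?_
    rw [nsq]
    refine Finset.sum_congr rfl fun c _ => ?_
    congr 2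
    rw [mulVec, dotProduct, Fintype.sum_prod_type, Finset.sum_eq_single b]
    · rw [mulVec, dotProduct]
      refine Finset.sum_congr rfl fun c' _ => ?_
      rw [kroneckerMap_apply, Matrix.one_apply_eq, one_mul]
    · intro b' _ hb
      refine Finset.sum_eq_zero fun c' _ => ?_
      rw [kroneckerMap_apply, Matrix.one_apply_ne (Ne.symm hb), zero_mul, zero_mul]
    · intro h
      exact absurd (Finset.mem_univ _) h
  rw [h9]
  calc ∑ b, nsq (y *ᵥ fun c => v (b, c)) ≤ ∑ b, ‖y‖ ^ 2 * nsq (fun c => v (b, c)) :=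
        Finset.sum_le_sum fun b _ => ph_nsq_mulVec_le _ _
    _ = ‖y‖ ^ 2 * nsq v := by
        rw [← Finset.mul_sum]
        simp only [nsq]
        rw [Fintype.sum_prod_type]

/-- a block of a contraction -/
theorem dt384_block_norm {Z : Matrix (α × β) (α × β) ℂ} (hZ : ‖Z‖ ≤ 1) (a b : α) :
    ‖(Matrix.of fun f f' => Z (a, f) (b, f') : Matrix β β ℂ)‖ ≤ 1 := by
  refine ph_norm_le zero_le_one fun v => ?_
  rw [one_pow, one_mul]
  set u : α × β → ℂ := fun p => if p.1 = b then v p.2 else 0 with hu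
  have h1 : nsq u = nsq v := by
    rw [nsq, nsq, Fintype.sum_prod_type, Finset.sum_eq_single b]
    · refine Finset.sum_congr rfl fun f _ => ?_
      simp only [hu, if_true]
    · intro i _ hi
      refine Finset.sum_eq_zero fun f _ => ?_
      simp only [hu, if_neg hi, norm_zero]
      norm_num
    · intro h
      exact absurd (Finset.mem_univ _) h
  have h2 : ∀ f, ((Matrix.of fun f f' => Z (a, f) (b, f') : Matrix β β ℂ) *ᵥ v) f =
      (Z *ᵥ u) (a, f) := by
    intro f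
    rw [mulVec, dotProduct, mulVec, dotProduct, Fintype.sum_prod_type, Finset.sum_eq_single b]
    · refine Finset.sum_congr rfl fun f' _ => ?_
      simp only [hu, if_true, Matrix.of_apply]
    · intro i _ hi
      refine Finset.sum_eq_zero fun f' _ => ?_
      simp only [hu, if_neg hi, mul_zero]
    · intro h
      exact absurd (Finset.mem_univ _) h
  have h3 := dt384_contr hZ u
  rw [h1] at h3
  refine le_trans ?_ h3
  have h4 : nsq ((Matrix.of fun f f' => Z (a, f) (b, f') : Matrix β β ℂ) *ᵥ v) =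
      ∑ f, ‖(Z *ᵥ u) (a, f)‖ ^ 2 := by
    rw [nsq]
    refine Finset.sum_congr rfl fun f _ => ?_
    rw [h2]
  rw [h4, nsq, Fintype.sum_prod_type]
  exact Finset.single_le_sum (f := fun i => ∑ f, ‖(Z *ᵥ u) (i, f)‖ ^ 2)
    (fun i _ => Finset.sum_nonneg fun f _ => by positivity) (Finset.mem_univ a)

end kron

section core
variable {B C F : Type*} [Fintype B] [DecidableEq B] [Fintype C] [DecidableEq C] [Fintype F]
  [DecidableEq F]

/-- the vector as a matrix between `C` and the rest -/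
def dt384M (Ω : (B × C) × F → ℂ) : Matrix C (B × F) ℂ := fun c p => Ω ((p.1, c), p.2)

/-- its Gram matrix -/
def dt384R (Ω : (B × C) × F → ℂ) : Matrix (B × F) (B × F) ℂ := (dt384M Ω)ᴴ * dt384M Ω

def dt384RB (Ω : (B × C) × F → ℂ) : Matrix B B ℂ := fun b b' => ∑ f, dt384R Ω (b, f) (b', f)

def dt384RF (Ω : (B × C) × F → ℂ) : Matrix F F ℂ := fun f f' => ∑ b, dt384R Ω (b, f) (b, f')

theorem dt384R_apply (Ω : (B × C) × F → ℂ) (b b' : B) (f f' : F) :
    dt384R Ω (b, f) (b', f') = ∑ c, star (Ω ((b, c), f)) * Ω ((b', c), f') := by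
  rw [dt384R, Matrix.mul_apply]
  rfl

theorem dt384RB_psd (Ω : (B × C) × F → ℂ) : (dt384RB Ω).PosSemidef := by
  set M : Matrix (C × F) B ℂ := fun p b => Ω ((b, p.1), p.2) with hM
  have h : dt384RB Ω = Mᴴ * M := by
    ext b b'
    rw [Matrix.mul_apply, Fintype.sum_prod_type, Finset.sum_comm, dt384RB]
    refine Finset.sum_congr rfl fun f _ => ?_
    rw [dt384R_apply]
    rfl
  rw [h]
  exact posSemidef_conjTranspose_mul_self M

theorem dt384RF_psd (Ω : (B × C) × F → ℂ) : (dt384RF Ω).PosSemidef := by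
  set M : Matrix (B × C) F ℂ := fun p f => Ω (p, f) with hM
  have h : dt384RF Ω = Mᴴ * M := by
    ext f f'
    rw [Matrix.mul_apply, Fintype.sum_prod_type, dt384RF]
    refine Finset.sum_congr rfl fun b _ => ?_
    rw [dt384R_apply]
    rfl
  rw [h]
  exact posSemidef_conjTranspose_mul_self M

theorem dt384_traceR (Ω : (B × C) × F → ℂ) : (dt384R Ω).trace = ((nsq Ω : ℝ) : ℂ) := by
  rw [Matrix.trace, Fintype.sum_prod_type]
  simp only [Matrix.diag_apply, dt384R_apply]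
  rw [nsq, Fintype.sum_prod_type, Fintype.sum_prod_type]
  push_cast
  refine Finset.sum_congr rfl fun b _ => ?_
  rw [Finset.sum_comm]
  refine Finset.sum_congr rfl fun c _ => Finset.sum_congr rfl fun f _ => ?_
  rw [RCLike.star_def, Complex.conj_mul']

theorem dt384_traceRB (Ω : (B × C) × F → ℂ) : (dt384RB Ω).trace = ((nsq Ω : ℝ) : ℂ) := by
  rw [← dt384_traceR, Matrix.trace, Matrix.trace, Fintype.sum_prod_type]
  rfl

theorem dt384_traceRF (Ω : (B × C) × F → ℂ) : (dt384RF Ω).trace = ((nsq Ω : ℝ) : ℂ) := by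
  rw [← dt384_traceR, Matrix.trace, Matrix.trace, Fintype.sum_prod_type, Finset.sum_comm]
  rfl

theorem dt384_mv (x : Matrix B B ℂ) (y : Matrix F F ℂ) (ψ : (B × C) × F → ℂ) (b : B) (c : C)
    (f : F) : (((x ⊗ₖ (1 : Matrix C C ℂ)) ⊗ₖ y) *ᵥ ψ) ((b, c), f) =
      ∑ b', ∑ f', x b b' * y f f' * ψ ((b', c), f') := by
  rw [mulVec, dotProduct, Fintype.sum_prod_type, Fintype.sum_prod_type]
  refine Finset.sum_congr rfl fun b' _ => ?_
  rw [Finset.sum_eq_single c]
  · refine Finset.sum_congr rfl fun f' _ => ?_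
    rw [kroneckerMap_apply, kroneckerMap_apply, Matrix.one_apply_eq, mul_one]
  · intro c' _ hc
    refine Finset.sum_eq_zero fun f' _ => ?_
    rw [kroneckerMap_apply, kroneckerMap_apply, Matrix.one_apply_ne (Ne.symm hc), mul_zero,
      zero_mul, zero_mul]
  · intro h
    exact absurd (Finset.mem_univ _) h

theorem dt384_ex (x : Matrix B B ℂ) (y : Matrix F F ℂ) (Ω : (B × C) × F → ℂ) :
    star Ω ⬝ᵥ (((x ⊗ₖ (1 : Matrix C C ℂ)) ⊗ₖ y) *ᵥ Ω) =
      ∑ b, ∑ b', ∑ f, ∑ f', x b b' * y f f' * dt384R Ω (b, f) (b', f') := by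
  rw [dotProduct, Fintype.sum_prod_type, Fintype.sum_prod_type]
  simp only [dt384_mv, Pi.star_apply, dt384R_apply, Finset.mul_sum]
  refine Finset.sum_congr rfl fun b _ => ?_
  calc ∑ c, ∑ f, ∑ b', ∑ f', star (Ω ((b, c), f)) * (x b b' * y f f' * Ω ((b', c), f')) =
      ∑ c, ∑ b', ∑ f, ∑ f', star (Ω ((b, c), f)) * (x b b' * y f f' * Ω ((b', c), f')) :=
        Finset.sum_congr rfl fun c _ => Finset.sum_comm
    _ = ∑ b', ∑ c, ∑ f, ∑ f', star (Ω ((b, c), f)) * (x b b' * y f f' * Ω ((b', c), f')) :=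
        Finset.sum_comm
    _ = _ := by
        refine Finset.sum_congr rfl fun b' _ => ?_
        rw [Finset.sum_comm]
        refine Finset.sum_congr rfl fun f _ => ?_
        rw [Finset.sum_comm]
        refine Finset.sum_congr rfl fun f' _ => Finset.sum_congr rfl fun c _ => ?_
        ring

theorem dt384_exB (x : Matrix B B ℂ) (Ω : (B × C) × F → ℂ) :
    star Ω ⬝ᵥ (((x ⊗ₖ (1 : Matrix C C ℂ)) ⊗ₖ (1 : Matrix F F ℂ)) *ᵥ Ω) =
      ∑ b, ∑ b', x b b' * dt384RB Ω b b' := by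
  rw [dt384_ex]
  refine Finset.sum_congr rfl fun b _ => Finset.sum_congr rfl fun b' _ => ?_
  rw [dt384RB, Finset.mul_sum]
  refine Finset.sum_congr rfl fun f _ => ?_
  rw [Finset.sum_eq_single f]
  · rw [Matrix.one_apply_eq, mul_one]
  · intro f' _ hf
    rw [Matrix.one_apply_ne (Ne.symm hf), mul_zero, zero_mul]
  · intro h
    exact absurd (Finset.mem_univ _) h

theorem dt384_exF (y : Matrix F F ℂ) (Ω : (B × C) × F → ℂ) :
    star Ω ⬝ᵥ ((((1 : Matrix B B ℂ) ⊗ₖ (1 : Matrix C C ℂ)) ⊗ₖ y) *ᵥ Ω) =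
      ∑ f, ∑ f', y f f' * dt384RF Ω f f' := by
  rw [dt384_ex]
  have h : ∀ b, ∑ b', ∑ f, ∑ f', (1 : Matrix B B ℂ) b b' * y f f' * dt384R Ω (b, f) (b', f') =
      ∑ f, ∑ f', y f f' * dt384R Ω (b, f) (b, f') := fun b => by
    rw [Finset.sum_eq_single b]
    · refine Finset.sum_congr rfl fun f _ => Finset.sum_congr rfl fun f' _ => ?_
      rw [Matrix.one_apply_eq, one_mul]
    · intro b' _ hb
      refine Finset.sum_eq_zero fun f _ => Finset.sum_eq_zero fun f' _ => ?_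
      rw [Matrix.one_apply_ne (Ne.symm hb), zero_mul, zero_mul]
    · intro h
      exact absurd (Finset.mem_univ _) h
  simp only [h, dt384RF, Finset.mul_sum]
  rw [Finset.sum_comm]
  refine Finset.sum_congr rfl fun f _ => ?_
  rw [Finset.sum_comm]

/-- the isometry which adds the purification `η` -/
def dt384J (F : Type*) [DecidableEq F] (η : Matrix B B ℂ) : Matrix (B × (B × F)) F ℂ :=
  fun p f => η p.2.1 p.1 * (if p.2.2 = f then 1 else 0)

theorem dt384J_form (η x : Matrix B B ℂ) :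
    (dt384J F η)ᴴ * (x ⊗ₖ (1 : Matrix (B × F) (B × F) ℂ)) * dt384J F η =
      (∑ b, ∑ b', x b b' * (ηᴴ * η) b b') • (1 : Matrix F F ℂ) := by
  have h1 : ∀ (b b' : B) (f' f : F),
      ((x ⊗ₖ (1 : Matrix (B × F) (B × F) ℂ)) * dt384J F η) (b, (b', f')) f =
        (∑ b1, x b b1 * η b' b1) * (if f' = f then 1 else 0) := by
    intro b b' f' f
    rw [Matrix.mul_apply, Fintype.sum_prod_type, Finset.sum_mul]
    refine Finset.sum_congr rfl fun b1 _ => ?_
    rw [Finset.sum_eq_single (b', f')]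
    · rw [kroneckerMap_apply, Matrix.one_apply_eq, mul_one, dt384J, mul_assoc]
    · intro p _ hp
      rw [kroneckerMap_apply, Matrix.one_apply_ne (Ne.symm hp), mul_zero, zero_mul]
    · intro h
      exact absurd (Finset.mem_univ _) h
  ext g f
  rw [Matrix.mul_assoc, Matrix.mul_apply, Fintype.sum_prod_type]
  simp only [Fintype.sum_prod_type, h1, conjTranspose_apply, dt384J]
  have h2 : ∀ b b' : B, ∑ f', star (η b' b * if f' = g then 1 else 0) *
      ((∑ b1, x b b1 * η b' b1) * if f' = f then 1 else 0) =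
      (if g = f then 1 else 0) * ∑ b1, x b b1 * (star (η b' b) * η b' b1) := by
    intro b b'
    rw [Finset.sum_eq_single g]
    · rw [if_pos rfl, mul_one, Finset.sum_mul, Finset.mul_sum, Finset.mul_sum]
      refine Finset.sum_congr rfl fun b1 _ => ?_
      ring
    · intro f' _ hf
      rw [if_neg hf, mul_zero, star_zero, zero_mul]
    · intro h
      exact absurd (Finset.mem_univ _) h
  simp only [h2]
  rw [Matrix.smul_apply, smul_eq_mul, Matrix.one_apply, mul_comm (∑ b, ∑ b', x b b' * (ηᴴ * η) b b')]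
  simp only [← Finset.mul_sum]
  congr 1
  refine Finset.sum_congr rfl fun b _ => ?_
  rw [Finset.sum_comm]
  refine Finset.sum_congr rfl fun b1 _ => ?_
  rw [Matrix.mul_apply, ← Finset.mul_sum]
  rfl

/-- the detector, as an operator from `B × C` to `F` -/
noncomputable def dt384Q (η : Matrix B B ℂ) (W : Matrix (B × F) C ℂ) : Matrix F (B × C) ℂ :=
  (dt384J F η)ᴴ * ((1 : Matrix B B ℂ) ⊗ₖ W)

theorem dt384Q_apply (η : Matrix B B ℂ) (W : Matrix (B × F) C ℂ) (f' : F) (b : B) (c : C) :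
    dt384Q η W f' (b, c) = ∑ b', star (η b' b) * W (b', f') c := by
  rw [dt384Q, Matrix.mul_apply, Fintype.sum_prod_type, Finset.sum_eq_single b]
  · rw [Fintype.sum_prod_type]
    refine Finset.sum_congr rfl fun b' _ => ?_
    rw [Finset.sum_eq_single f']
    · rw [kroneckerMap_apply, Matrix.one_apply_eq, one_mul, conjTranspose_apply, dt384J,
        if_pos rfl, mul_one]
    · intro f1 _ hf
      rw [conjTranspose_apply, dt384J, if_neg hf, mul_zero, star_zero, zero_mul]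
    · intro h
      exact absurd (Finset.mem_univ _) h
  · intro b1 _ hb
    refine Finset.sum_eq_zero fun p _ => ?_
    rw [kroneckerMap_apply, Matrix.one_apply_ne hb, zero_mul, mul_zero]
  · intro h
    exact absurd (Finset.mem_univ _) h

theorem dt384Q_mv (η : Matrix B B ℂ) (W : Matrix (B × F) C ℂ) (Ω : (B × C) × F → ℂ) (f' f : F) :
    ((dt384Q η W ⊗ₖ (1 : Matrix F F ℂ)) *ᵥ Ω) (f', f) =
      ∑ b, ∑ b', star (η b' b) * (W * dt384M Ω) (b', f') (b, f) := by
  rw [mulVec, dotProduct, Fintype.sum_prod_type, Fintype.sum_prod_type]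
  refine Finset.sum_congr rfl fun b _ => ?_
  have h1 : ∀ c, ∑ f1, (dt384Q η W ⊗ₖ (1 : Matrix F F ℂ)) (f', f) ((b, c), f1) * Ω ((b, c), f1) =
      ∑ b', star (η b' b) * (W (b', f') c * Ω ((b, c), f)) := fun c => by
    rw [Finset.sum_eq_single f]
    · rw [kroneckerMap_apply, Matrix.one_apply_eq, mul_one, dt384Q_apply, Finset.sum_mul]
      refine Finset.sum_congr rfl fun b' _ => ?_
      ring
    · intro f1 _ hf
      rw [kroneckerMap_apply, Matrix.one_apply_ne (Ne.symm hf), mul_zero, zero_mul]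
    · intro h
      exact absurd (Finset.mem_univ _) h
  simp only [h1]
  rw [Finset.sum_comm]
  refine Finset.sum_congr rfl fun b' _ => ?_
  rw [Matrix.mul_apply, Finset.mul_sum]
  rfl

/-- the overlap of the two canonical purifications -/
theorem dt384_overlap {η : Matrix B B ℂ} {ζ : Matrix F F ℂ} {S : Matrix (B × F) (B × F) ℂ}
    {W : Matrix (B × F) C ℂ} (Ω : (B × C) × F → ℂ) (hη : η.IsHermitian) (hζ : ζ.IsHermitian)
    (hW : W * dt384M Ω = S) :
    ((η ⊗ₖ ζ) * S).trace = star (fun p : F × F => ζ p.1 p.2) ⬝ᵥ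
      ((dt384Q η W ⊗ₖ (1 : Matrix F F ℂ)) *ᵥ Ω) := by
  rw [Matrix.trace, Fintype.sum_prod_type, dotProduct, Fintype.sum_prod_type]
  simp only [dt384Q_mv, hW]
  simp only [Matrix.diag_apply, Matrix.mul_apply, Fintype.sum_prod_type,
    Pi.star_apply, Finset.mul_sum, kroneckerMap_apply]
  have h1 : ∀ b b' : B, η b b' = star (η b' b) := fun b b' => (hη.apply b b').symm
  have h2 : ∀ f f' : F, ζ f f' = star (ζ f' f) := fun f f' => (hζ.apply f f').symm
  calc ∑ b, ∑ f, ∑ b', ∑ f', η b b' * ζ f f' * S (b', f') (b, f) =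
      ∑ b, ∑ f, ∑ f', ∑ b', η b b' * ζ f f' * S (b', f') (b, f) :=
        Finset.sum_congr rfl fun b _ => Finset.sum_congr rfl fun f _ => Finset.sum_comm
    _ = ∑ b, ∑ f', ∑ f, ∑ b', η b b' * ζ f f' * S (b', f') (b, f) :=
        Finset.sum_congr rfl fun b _ => Finset.sum_comm
    _ = ∑ f', ∑ b, ∑ f, ∑ b', η b b' * ζ f f' * S (b', f') (b, f) := Finset.sum_comm
    _ = ∑ f', ∑ f, ∑ b, ∑ b', η b b' * ζ f f' * S (b', f') (b, f) :=
        Finset.sum_congr rfl fun f' _ => Finset.sum_comm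
    _ = _ := by
        refine Finset.sum_congr rfl fun f' _ => Finset.sum_congr rfl fun f _ =>
          Finset.sum_congr rfl fun b _ => Finset.sum_congr rfl fun b' _ => ?_
        rw [h1 b b', h2 f f']
        ring

/-- the input of the detector: the defect in terms of the correlations -/
theorem dt384_corr {Ω : (B × C) × F → ℂ} {Z : Matrix (B × F) (B × F) ℂ} (hZ : ‖Z‖ ≤ 1) {ε : ℝ}
    (h : ∀ (x : Matrix B B ℂ) (y : Matrix F F ℂ), ‖x‖ ≤ 1 → ‖y‖ ≤ 1 →
      ‖star Ω ⬝ᵥ (((x ⊗ₖ (1 : Matrix C C ℂ)) ⊗ₖ y) *ᵥ Ω) -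
        (star Ω ⬝ᵥ (((x ⊗ₖ (1 : Matrix C C ℂ)) ⊗ₖ (1 : Matrix F F ℂ)) *ᵥ Ω)) *
        (star Ω ⬝ᵥ ((((1 : Matrix B B ℂ) ⊗ₖ (1 : Matrix C C ℂ)) ⊗ₖ y) *ᵥ Ω))‖ ≤ ε) :
    ‖((dt384R Ω - dt384RB Ω ⊗ₖ dt384RF Ω) * Z).trace‖ ≤ (Fintype.card B : ℝ) ^ 2 * ε := by
  have h1 : ((dt384R Ω - dt384RB Ω ⊗ₖ dt384RF Ω) * Z).trace = ∑ b, ∑ b',
      (star Ω ⬝ᵥ ((((Matrix.single b b' 1 : Matrix B B ℂ) ⊗ₖ (1 : Matrix C C ℂ)) ⊗ₖ
        (Matrix.of fun f f' => Z (b', f) (b, f') : Matrix F F ℂ)ᵀ) *ᵥ Ω) -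
      (star Ω ⬝ᵥ ((((Matrix.single b b' 1 : Matrix B B ℂ) ⊗ₖ (1 : Matrix C C ℂ)) ⊗ₖ
        (1 : Matrix F F ℂ)) *ᵥ Ω)) *
      (star Ω ⬝ᵥ ((((1 : Matrix B B ℂ) ⊗ₖ (1 : Matrix C C ℂ)) ⊗ₖ
        (Matrix.of fun f f' => Z (b', f) (b, f') : Matrix F F ℂ)ᵀ) *ᵥ Ω))) := by
    rw [Matrix.trace, Fintype.sum_prod_type]
    refine Finset.sum_congr rfl fun b _ => ?_
    simp only [Matrix.diag_apply, Matrix.mul_apply, Fintype.sum_prod_type]
    rw [Finset.sum_comm]
    refine Finset.sum_congr rfl fun b' _ => ?_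
    rw [dt384_ex, dt384_exB, dt384_exF]
    have hs : ∀ g : B → B → ℂ, ∑ i, ∑ j, (Matrix.single b b' 1 : Matrix B B ℂ) i j * g i j =
        g b b' := by
      intro g
      rw [Finset.sum_eq_single b]
      · rw [Finset.sum_eq_single b']
        · rw [Matrix.single_apply_same, one_mul]
        · intro j _ hj
          rw [Matrix.single_apply_of_ne, zero_mul]
          rintro ⟨-, h⟩
          exact hj h.symm
        · intro h
          exact absurd (Finset.mem_univ _) h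
      · intro i _ hi
        refine Finset.sum_eq_zero fun j _ => ?_
        rw [Matrix.single_apply_of_ne, zero_mul]
        rintro ⟨h, -⟩
        exact hi h.symm
      · intro h
        exact absurd (Finset.mem_univ _) h
    have hs1 : ∑ i, ∑ j, ∑ f, ∑ f', (Matrix.single b b' 1 : Matrix B B ℂ) i j *
        (Matrix.of fun f f' => Z (b', f) (b, f') : Matrix F F ℂ)ᵀ f f' * dt384R Ω (i, f) (j, f') =
        ∑ f, ∑ f', Z (b', f') (b, f) * dt384R Ω (b, f) (b', f') := by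
      rw [← hs fun i j => ∑ f, ∑ f', Z (b', f') (b, f) * dt384R Ω (i, f) (j, f')]
      refine Finset.sum_congr rfl fun i _ => Finset.sum_congr rfl fun j _ => ?_
      rw [Finset.mul_sum]
      refine Finset.sum_congr rfl fun f _ => ?_
      rw [Finset.mul_sum]
      refine Finset.sum_congr rfl fun f' _ => ?_
      rw [mul_assoc]
      rfl
    have hs2 : ∑ i, ∑ j, (Matrix.single b b' 1 : Matrix B B ℂ) i j * dt384RB Ω i j =
        dt384RB Ω b b' := hs fun i j => dt384RB Ω i j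
    rw [hs1, hs2]
    simp only [Matrix.sub_apply, kroneckerMap_apply, Finset.mul_sum, ← Finset.sum_sub_distrib]
    refine Finset.sum_congr rfl fun f _ => Finset.sum_congr rfl fun f' _ => ?_
    rw [Matrix.transpose_apply, Matrix.of_apply]
    ring
  rw [h1]
  refine (norm_sum_le _ _).trans ?_
  have h2 : ∀ b b' : B, ‖star Ω ⬝ᵥ ((((Matrix.single b b' 1 : Matrix B B ℂ) ⊗ₖ
      (1 : Matrix C C ℂ)) ⊗ₖ (Matrix.of fun f f' => Z (b', f) (b, f') : Matrix F F ℂ)ᵀ) *ᵥ Ω) -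
      (star Ω ⬝ᵥ ((((Matrix.single b b' 1 : Matrix B B ℂ) ⊗ₖ (1 : Matrix C C ℂ)) ⊗ₖ
        (1 : Matrix F F ℂ)) *ᵥ Ω)) *
      (star Ω ⬝ᵥ ((((1 : Matrix B B ℂ) ⊗ₖ (1 : Matrix C C ℂ)) ⊗ₖ
        (Matrix.of fun f f' => Z (b', f) (b, f') : Matrix F F ℂ)ᵀ) *ᵥ Ω))‖ ≤ ε := fun b b' =>
    h _ _ (dt384_single_norm b b') ((dt384_transpose_norm _).trans (dt384_block_norm hZ b' b))
  calc ∑ b, ‖∑ b', _‖ ≤ ∑ b : B, ∑ b' : B, ε := by
        refine Finset.sum_le_sum fun b _ => (norm_sum_le _ _).trans ?_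
        exact Finset.sum_le_sum fun b' _ => h2 b b'
    _ = _ := by
        rw [Finset.sum_const, Finset.sum_const, Finset.card_univ, nsmul_eq_mul, nsmul_eq_mul]
        ring

/-- the detector in coordinates -/
theorem dt384_core (Ω : (B × C) × F → ℂ) (hΩ : nsq Ω = 1) :
    ∃ Q : Matrix F (B × C) ℂ, ‖Q‖ ≤ 1 ∧
      (∀ ε : ℝ, (∀ (x : Matrix B B ℂ) (y : Matrix F F ℂ), ‖x‖ ≤ 1 → ‖y‖ ≤ 1 →
        ‖star Ω ⬝ᵥ (((x ⊗ₖ (1 : Matrix C C ℂ)) ⊗ₖ y) *ᵥ Ω) -
          (star Ω ⬝ᵥ (((x ⊗ₖ (1 : Matrix C C ℂ)) ⊗ₖ (1 : Matrix F F ℂ)) *ᵥ Ω)) *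
          (star Ω ⬝ᵥ ((((1 : Matrix B B ℂ) ⊗ₖ (1 : Matrix C C ℂ)) ⊗ₖ y) *ᵥ Ω))‖ ≤ ε) →
        1 - nsq ((Q ⊗ₖ (1 : Matrix F F ℂ)) *ᵥ Ω) ≤ (Fintype.card B : ℝ) ^ 2 * ε) ∧
      (∀ ψ : (B × C) × F → ℂ, nsq ψ = 1 → ∀ x : Matrix B B ℂ, ‖x‖ ≤ 1 →
        ‖star ψ ⬝ᵥ (((x ⊗ₖ (1 : Matrix C C ℂ)) ⊗ₖ (1 : Matrix F F ℂ)) *ᵥ ψ) -
          star Ω ⬝ᵥ (((x ⊗ₖ (1 : Matrix C C ℂ)) ⊗ₖ (1 : Matrix F F ℂ)) *ᵥ Ω)‖ ≤
        3 * (1 - nsq ((Q ⊗ₖ (1 : Matrix F F ℂ)) *ᵥ ψ)) +
          2 * Real.sqrt (1 - nsq ((Q ⊗ₖ (1 : Matrix F F ℂ)) *ᵥ ψ))) := by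
  obtain ⟨S, W, hS, hSS, hWM, hW1⟩ := dt384_polar (dt384M Ω)
  obtain ⟨η, hη, hηη⟩ := dt384_sqrt (dt384RB_psd Ω)
  obtain ⟨ζ, hζ, hζζ⟩ := dt384_sqrt (dt384RF_psd Ω)
  obtain ⟨D, hD⟩ := dt384_compl hW1
  have hηs : ηᴴ * η = dt384RB Ω := by rw [hη.isHermitian.eq, hηη]
  have hJJ : (dt384J F η)ᴴ * dt384J F η = 1 := by
    have h := dt384J_form (F := F) η (1 : Matrix B B ℂ)
    rw [one_kronecker_one, Matrix.mul_one] at h
    rw [h, hηs]
    have h2 : ∑ b, ∑ b', (1 : Matrix B B ℂ) b b' * dt384RB Ω b b' = 1 := by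
      have h3 : ∀ b, ∑ b', (1 : Matrix B B ℂ) b b' * dt384RB Ω b b' = dt384RB Ω b b := fun b => by
        rw [Finset.sum_eq_single b]
        · rw [Matrix.one_apply_eq, one_mul]
        · intro b' _ hb
          rw [Matrix.one_apply_ne (Ne.symm hb), zero_mul]
        · intro h
          exact absurd (Finset.mem_univ _) h
      simp only [h3]
      have h4 := dt384_traceRB Ω
      rw [hΩ, Complex.ofReal_one] at h4
      exact h4
    rw [h2, one_smul]
  have hKD : ((1 : Matrix B B ℂ) ⊗ₖ W)ᴴ * ((1 : Matrix B B ℂ) ⊗ₖ W) +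
      ((1 : Matrix B B ℂ) ⊗ₖ D)ᴴ * ((1 : Matrix B B ℂ) ⊗ₖ D) = 1 := by
    rw [conjTranspose_kronecker, conjTranspose_kronecker, ← mul_kronecker_mul,
      ← mul_kronecker_mul, conjTranspose_one, Matrix.mul_one, ← kronecker_add, hD,
      one_kronecker_one]
  refine ⟨dt384Q η W, ?_, ?_, ?_⟩
  · have h1 : ‖dt384J F η‖ ≤ 1 := by
      have h := Matrix.l2_opNorm_conjTranspose_mul_self (dt384J F η)
      rw [hJJ] at h
      have h2 : ‖(1 : Matrix F F ℂ)‖ ≤ 1 := by
        refine ph_norm_le zero_le_one fun v => ?_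
        rw [one_mulVec, one_pow, one_mul]
      rw [h] at h2
      nlinarith [norm_nonneg (dt384J F η)]
    have h2 : ‖(1 : Matrix B B ℂ) ⊗ₖ W‖ ≤ 1 := by
      have h3 : ∀ v : B × C → ℂ, nsq (((1 : Matrix B B ℂ) ⊗ₖ W) *ᵥ v) ≤ nsq v := by
        intro v
        have h4 : (((nsq (((1 : Matrix B B ℂ) ⊗ₖ W) *ᵥ v) +
            nsq (((1 : Matrix B B ℂ) ⊗ₖ D) *ᵥ v) : ℝ)) : ℂ) = ((nsq v : ℝ) : ℂ) := by
          rw [Complex.ofReal_add, ← dt384_nsq, ← dt384_nsq, ← dotProduct_add, ← add_mulVec, hKD,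
            one_mulVec, ip_self]
        have h5 : nsq (((1 : Matrix B B ℂ) ⊗ₖ W) *ᵥ v) + nsq (((1 : Matrix B B ℂ) ⊗ₖ D) *ᵥ v) =
            nsq v := by exact_mod_cast h4
        have := nsq_nonneg' (((1 : Matrix B B ℂ) ⊗ₖ D) *ᵥ v)
        linarith
      have h6 := Matrix.l2_opNorm_conjTranspose_mul_self ((1 : Matrix B B ℂ) ⊗ₖ W)
      have h7 : ‖((1 : Matrix B B ℂ) ⊗ₖ W)ᴴ * ((1 : Matrix B B ℂ) ⊗ₖ W)‖ ≤ 1 := by
        rw [conjTranspose_kronecker, ← mul_kronecker_mul, conjTranspose_one, Matrix.mul_one]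
        have h8 : ‖Wᴴ * W‖ ≤ 1 := by
          rw [Matrix.l2_opNorm_conjTranspose_mul_self]
          nlinarith [norm_nonneg W]
        exact (dt384_kronR_norm _).trans h8
      rw [h6] at h7
      nlinarith [norm_nonneg ((1 : Matrix B B ℂ) ⊗ₖ W)]
    rw [dt384Q]
    refine (Matrix.l2_opNorm_mul _ _).trans ?_
    rw [Matrix.l2_opNorm_conjTranspose]
    exact mul_le_one₀ h1 (norm_nonneg _) h2
  · intro ε hε
    set T := η ⊗ₖ ζ with hT
    have hTp : T.PosSemidef := hη.kronecker hζ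
    have hTT : T * T = dt384RB Ω ⊗ₖ dt384RF Ω := by rw [hT, ← mul_kronecker_mul, hηη, hζζ]
    obtain ⟨Z, hZ, hps⟩ := dt384_ps hS hTp
    have h1 : ((S * S - T * T) * Z).trace.re ≤ (Fintype.card B : ℝ) ^ 2 * ε := by
      rw [hSS, hTT]
      exact (Complex.re_le_norm _).trans (dt384_corr hZ hε)
    have h2 : (S * S).trace = 1 := by
      have h := dt384_traceR Ω
      rw [hΩ, Complex.ofReal_one] at h
      rw [hSS]
      exact h
    have h3 : (T * T).trace = 1 := by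
      rw [hTT, Matrix.trace_kronecker, dt384_traceRB, dt384_traceRF, hΩ, Complex.ofReal_one,
        mul_one]
    have h4 : ((S - T) * (S - T)).trace = 2 - 2 * (T * S).trace := by
      rw [Matrix.sub_mul, Matrix.mul_sub, Matrix.mul_sub, Matrix.trace_sub, Matrix.trace_sub,
        Matrix.trace_sub, h2, h3, Matrix.trace_mul_comm S T]
      ring
    have h5 : ((S - T) * (S - T)).trace.re = 2 - 2 * (T * S).trace.re := by
      rw [h4, Complex.sub_re, Complex.mul_re]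
      norm_num
    have h6 := dt384_overlap Ω hη.isHermitian hζ.isHermitian hWM
    rw [← hT] at h6
    set u := (dt384Q η W ⊗ₖ (1 : Matrix F F ℂ)) *ᵥ Ω with hu
    have h7 : nsq (fun p : F × F => ζ p.1 p.2) = 1 := by
      have h8 : ((nsq (fun p : F × F => ζ p.1 p.2) : ℝ) : ℂ) = (ζ * ζ).trace := by
        rw [Matrix.trace, nsq, Fintype.sum_prod_type]
        push_cast
        refine Finset.sum_congr rfl fun f _ => ?_
        rw [Matrix.diag_apply, Matrix.mul_apply]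
        refine Finset.sum_congr rfl fun f' _ => ?_
        rw [← hζ.isHermitian.apply f' f, RCLike.star_def, Complex.mul_conj']
      rw [hζζ, dt384_traceRF, hΩ] at h8
      exact_mod_cast h8
    have h8 : ‖(T * S).trace‖ ^ 2 ≤ nsq u := by
      rw [h6]
      have h9 := nrm_ip_le (fun p : F × F => ζ p.1 p.2) u
      have h10 : nrm (fun p : F × F => ζ p.1 p.2) = 1 := by
        rw [nrm, h7, Real.sqrt_one]
      rw [h10, one_mul] at h9
      have h11 := pow_le_pow_left₀ (norm_nonneg _) h9 2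
      rwa [nrm_sq] at h11
    have h9 : (T * S).trace.re ≤ ‖(T * S).trace‖ := Complex.re_le_norm _
    have h10 := nsq_nonneg' u
    have h11 : 1 - nsq u ≤ ((S - T) * (S - T)).trace.re := by
      rw [h5]
      rcases le_total 0 ((T * S).trace.re) with hp | hp
      · nlinarith [sq_nonneg ((T * S).trace.re - 1)]
      · linarith
    exact h11.trans (hps.trans h1)
  · intro ψ hψ x hx
    set X1 := (((1 : Matrix B B ℂ) ⊗ₖ W) ⊗ₖ (1 : Matrix F F ℂ)) with hX1
    set e := 1 - nsq ((dt384Q η W ⊗ₖ (1 : Matrix F F ℂ)) *ᵥ ψ) with he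
    have hxn : ‖star Ω ⬝ᵥ (((x ⊗ₖ (1 : Matrix C C ℂ)) ⊗ₖ (1 : Matrix F F ℂ)) *ᵥ Ω)‖ ≤ 1 := by
      refine (dot_le _ _ _).trans ?_
      rw [hΩ, Real.sqrt_one, mul_one, mul_one]
      exact (dt384_kron_norm _).trans ((dt384_kron_norm _).trans hx)
    refine dt384_vec (K' := (B × (B × F)) × F) (D' := (B × C) × F) (L := F × F) ψ X1
      (((1 : Matrix B B ℂ) ⊗ₖ D) ⊗ₖ (1 : Matrix F F ℂ)) (dt384J F η ⊗ₖ (1 : Matrix F F ℂ))
      _ ((x ⊗ₖ (1 : Matrix (B × F) (B × F) ℂ)) ⊗ₖ (1 : Matrix F F ℂ))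
      ((x ⊗ₖ (1 : Matrix C C ℂ)) ⊗ₖ (1 : Matrix F F ℂ)) _ ?_ ?_ ?_ ?_ ?_ ?_ ?_ hxn hψ ?_
    · rw [hX1, dt384_k1, dt384_k1, ← add_kronecker, hKD, one_kronecker_one]
    · rw [dt384_k1, hJJ, one_kronecker_one]
    · rw [hX1, dt384_k2, dt384_k2, dt384_k3]
    · rw [dt384_k2, dt384_k2, dt384_k3]
    · rw [dt384_k1, dt384_k2, dt384J_form, hηs, ← dt384_exB, smul_kronecker,
        one_kronecker_one]
    · exact (dt384_kron_norm _).trans ((dt384_kron_norm _).trans hx)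
    · exact (dt384_kron_norm _).trans ((dt384_kron_norm _).trans hx)
    · have h1 : (dt384J F η ⊗ₖ (1 : Matrix F F ℂ))ᴴ * X1 =
          dt384Q η W ⊗ₖ (1 : Matrix F F ℂ) := by
        rw [hX1, dt384_k1, dt384Q]
      rw [h1]

end core

section lattice
variable {V : Type*} [Fintype V] [DecidableEq V] {q : ℕ}

/-- configurations on `b`, on `C` and on the rest -/
def dt384E {V : Type*} [DecidableEq V] (q : ℕ) (b C : Finset V) (h : Disjoint b C) :
    Conf V q ≃ (({x // x ∈ b} → Fin q) × ({x // x ∈ C} → Fin q)) ×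
      ({x // x ∉ b ∪ C} → Fin q) where
  toFun s := ((fun x => s x, fun x => s x), fun x => s x)
  invFun p := fun x => if hb : x ∈ b then p.1.1 ⟨x, hb⟩ else
    if hC : x ∈ C then p.1.2 ⟨x, hC⟩ else
      p.2 ⟨x, fun h' => (Finset.mem_union.1 h').elim hb hC⟩
  left_inv s := by
    funext x
    by_cases hb : x ∈ b
    · simp only [dif_pos hb]
    · by_cases hC : x ∈ C
      · simp only [dif_neg hb, dif_pos hC]
      · simp only [dif_neg hb, dif_neg hC]
  right_inv p := by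
    obtain ⟨⟨p1, p2⟩, p3⟩ := p
    simp only [Prod.mk.injEq]
    refine ⟨⟨?_, ?_⟩, ?_⟩
    · funext x
      simp only [dif_pos x.2]
    · funext x
      have hb : (x : V) ∉ b := fun hb => Finset.disjoint_left.1 h hb x.2
      simp only [dif_neg hb, dif_pos x.2]
    · funext x
      have hb : (x : V) ∉ b := fun hb => x.2 (Finset.mem_union_left _ hb)
      have hC : (x : V) ∉ C := fun hC => x.2 (Finset.mem_union_right _ hC)
      simp only [dif_neg hb, dif_neg hC]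

theorem dt384_re {N N' : Type*} [Fintype N] [Fintype N'] (e : N ≃ N') (A : Matrix N' N' ℂ)
    (ψ : N → ℂ) : star ψ ⬝ᵥ (Matrix.reindex e.symm e.symm A *ᵥ ψ) =
      star (ψ ∘ e.symm) ⬝ᵥ (A *ᵥ (ψ ∘ e.symm)) := by
  rw [Matrix.reindex_apply, Matrix.submatrix_mulVec_equiv, Equiv.symm_symm]
  simp only [dotProduct, Pi.star_apply, Function.comp_apply]
  rw [← Equiv.sum_comp e.symm]
  refine Finset.sum_congr rfl fun i _ => ?_
  rw [Equiv.symm_symm, Equiv.apply_symm_apply]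

theorem dt384_reindex_norm {N N' : Type*} [Fintype N] [Fintype N'] [DecidableEq N]
    [DecidableEq N'] (e : N ≃ N') (A : Matrix N' N' ℂ) :
    ‖Matrix.reindex e.symm e.symm A‖ ≤ ‖A‖ := by
  refine ph_norm_le (norm_nonneg _) fun v => ?_
  rw [Matrix.reindex_apply, Matrix.submatrix_mulVec_equiv, Equiv.symm_symm, Equiv.symm_symm]
  have h1 : ∀ w : N' → ℂ, nsq (w ∘ e) = nsq w := fun w => Equiv.sum_comp e fun i => ‖w i‖ ^ 2
  have h2 : nsq (v ∘ e.symm) = nsq v := Equiv.sum_comp e.symm fun i => ‖v i‖ ^ 2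
  rw [h1, ← h2]
  exact ph_nsq_mulVec_le A _

theorem dt384_norm_reindex {N N' : Type*} [Fintype N] [Fintype N'] [DecidableEq N]
    [DecidableEq N'] (e : N ≃ N') (A : Matrix N' N' ℂ) :
    ‖A‖ ≤ ‖Matrix.reindex e.symm e.symm A‖ := by
  have h := dt384_reindex_norm e.symm (Matrix.reindex e.symm e.symm A)
  have h2 : Matrix.reindex e.symm.symm e.symm.symm (Matrix.reindex e.symm e.symm A) = A := by
    ext i j
    simp only [Matrix.reindex_apply, Matrix.submatrix_apply, Equiv.symm_symm,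
      Equiv.apply_symm_apply]
  rwa [h2] at h

/-- operators on `b` -/
theorem dt384_actB {b C : Finset V} (h : Disjoint b C) (X : Op V q) : ActsOn b X ↔
    ∃ x : Matrix ({x // x ∈ b} → Fin q) ({x // x ∈ b} → Fin q) ℂ,
      X = Matrix.reindex (dt384E q b C h).symm (dt384E q b C h).symm
        ((x ⊗ₖ (1 : Matrix ({x // x ∈ C} → Fin q) ({x // x ∈ C} → Fin q) ℂ)) ⊗ₖ
          (1 : Matrix ({x // x ∉ b ∪ C} → Fin q) ({x // x ∉ b ∪ C} → Fin q) ℂ)) := by
  have key : ∀ (x : Matrix ({x // x ∈ b} → Fin q) ({x // x ∈ b} → Fin q) ℂ) (s t : Conf V q),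
      Matrix.reindex (dt384E q b C h).symm (dt384E q b C h).symm
        ((x ⊗ₖ (1 : Matrix ({x // x ∈ C} → Fin q) ({x // x ∈ C} → Fin q) ℂ)) ⊗ₖ
          (1 : Matrix ({x // x ∉ b ∪ C} → Fin q) ({x // x ∉ b ∪ C} → Fin q) ℂ)) s t =
      if (∀ y, y ∉ b → s y = t y) then x (fun y => s y) (fun y => t y) else 0 := by
    intro x s t
    rw [Matrix.reindex_apply, Matrix.submatrix_apply, Equiv.symm_symm, kroneckerMap_apply,
      kroneckerMap_apply, Matrix.one_apply, Matrix.one_apply]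
    by_cases hst : ∀ y, y ∉ b → s y = t y
    · rw [if_pos hst, if_pos, if_pos, mul_one, mul_one]
      · rfl
      · funext y
        exact hst y fun hb => y.2 (Finset.mem_union_left _ hb)
      · funext y
        exact hst y fun hb => Finset.disjoint_left.1 h hb y.2
    · rw [if_neg hst]
      push Not at hst
      obtain ⟨y, hy, hne⟩ := hst
      by_cases hC : y ∈ C
      · have h1 : ((dt384E q b C h) s).1.2 ≠ ((dt384E q b C h) t).1.2 := fun hh =>
          hne (congrFun hh ⟨y, hC⟩)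
        rw [if_neg h1, mul_zero, zero_mul]
      · have hn : y ∉ b ∪ C := fun h' => (Finset.mem_union.1 h').elim hy hC
        have h1 : ((dt384E q b C h) s).2 ≠ ((dt384E q b C h) t).2 := fun hh =>
          hne (congrFun hh ⟨y, hn⟩)
        rw [if_neg h1, mul_zero]
  constructor
  · rintro ⟨k, hk⟩
    refine ⟨k, ?_⟩
    ext s t
    rw [key]
    by_cases hst : ∀ y, y ∉ b → s y = t y
    · rw [if_pos hst]
      exact (hk s t).1 hst
    · rw [if_neg hst]
      push Not at hst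
      exact (hk s t).2 hst
  · rintro ⟨x, rfl⟩
    refine ⟨x, fun s t => ⟨fun hst => ?_, fun hst => ?_⟩⟩
    · rw [key, if_pos hst]
    · rw [key, if_neg]
      push Not
      exact hst

/-- operators on the rest -/
theorem dt384_actF {b C : Finset V} (h : Disjoint b C)
    (y : Matrix ({x // x ∉ b ∪ C} → Fin q) ({x // x ∉ b ∪ C} → Fin q) ℂ) :
    ActsOn (b ∪ C)ᶜ (Matrix.reindex (dt384E q b C h).symm (dt384E q b C h).symm
      (((1 : Matrix ({x // x ∈ b} → Fin q) ({x // x ∈ b} → Fin q) ℂ) ⊗ₖ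
        (1 : Matrix ({x // x ∈ C} → Fin q) ({x // x ∈ C} → Fin q) ℂ)) ⊗ₖ y)) := by
  refine ⟨fun u v => y (fun x => u ⟨x, Finset.mem_compl.2 x.2⟩)
    (fun x => v ⟨x, Finset.mem_compl.2 x.2⟩), fun s t => ⟨fun hst => ?_, fun hst => ?_⟩⟩
  · rw [Matrix.reindex_apply, Matrix.submatrix_apply, Equiv.symm_symm, kroneckerMap_apply,
      kroneckerMap_apply, Matrix.one_apply, Matrix.one_apply, if_pos, if_pos, one_mul, one_mul]
    · rfl
    · funext x
      exact hst x fun hx => Finset.mem_compl.1 hx (Finset.mem_union_right _ x.2)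
    · funext x
      exact hst x fun hx => Finset.mem_compl.1 hx (Finset.mem_union_left _ x.2)
  · obtain ⟨x, hx, hne⟩ := hst
    rw [Finset.mem_compl, not_not] at hx
    rw [Matrix.reindex_apply, Matrix.submatrix_apply, Equiv.symm_symm, kroneckerMap_apply,
      kroneckerMap_apply, Matrix.one_apply, Matrix.one_apply]
    rcases Finset.mem_union.1 hx with hb | hC
    · have h1 : ((dt384E q b C h) s).1.1 ≠ ((dt384E q b C h) t).1.1 := fun hh =>
        hne (congrFun hh ⟨x, hb⟩)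
      rw [if_neg h1, zero_mul, zero_mul]
    · have h1 : ((dt384E q b C h) s).1.2 ≠ ((dt384E q b C h) t).1.2 := fun hh =>
        hne (congrFun hh ⟨x, hC⟩)
      rw [if_neg h1, mul_zero, zero_mul]

/-- operators on `b ∪ C` -/
theorem dt384_actBC {b C : Finset V} (h : Disjoint b C)
    (P : Matrix (({x // x ∈ b} → Fin q) × ({x // x ∈ C} → Fin q))
      (({x // x ∈ b} → Fin q) × ({x // x ∈ C} → Fin q)) ℂ) :
    ActsOn (b ∪ C) (Matrix.reindex (dt384E q b C h).symm (dt384E q b C h).symm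
      (P ⊗ₖ (1 : Matrix ({x // x ∉ b ∪ C} → Fin q) ({x // x ∉ b ∪ C} → Fin q) ℂ))) := by
  refine ⟨fun u v => P (fun x => u ⟨x, Finset.mem_union_left _ x.2⟩,
      fun x => u ⟨x, Finset.mem_union_right _ x.2⟩)
    (fun x => v ⟨x, Finset.mem_union_left _ x.2⟩,
      fun x => v ⟨x, Finset.mem_union_right _ x.2⟩), fun s t => ⟨fun hst => ?_, fun hst => ?_⟩⟩
  · rw [Matrix.reindex_apply, Matrix.submatrix_apply, Equiv.symm_symm, kroneckerMap_apply,
      Matrix.one_apply, if_pos, mul_one]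
    · rfl
    · funext x
      exact hst x x.2
  · obtain ⟨x, hx, hne⟩ := hst
    rw [Matrix.reindex_apply, Matrix.submatrix_apply, Equiv.symm_symm, kroneckerMap_apply,
      Matrix.one_apply, if_neg, mul_zero]
    exact fun hh => hne (congrFun hh ⟨x, hx⟩)

/-- The detector. -/
theorem dt384_detector (b C : Finset V) (hbC : Disjoint b C) {Om : Conf V q → ℂ}
    (hOm : nsq Om = 1) :
    ∃ P : Op V q, ActsOn (b ∪ C) P ∧ P.PosSemidef ∧ (1 - P).PosSemidef ∧
      (∀ ε : ℝ, (∀ X Y : Op V q, ActsOn b X → ActsOn (b ∪ C)ᶜ Y → ‖X‖ ≤ 1 → ‖Y‖ ≤ 1 →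
        ‖star Om ⬝ᵥ ((X * Y) *ᵥ Om) - (star Om ⬝ᵥ (X *ᵥ Om)) * (star Om ⬝ᵥ (Y *ᵥ Om))‖ ≤ ε) →
        expv Om (1 - P) ≤ (q : ℝ) ^ (2 * b.card) * ε) ∧
      (∀ ψ : Conf V q → ℂ, nsq ψ = 1 → ∀ X : Op V q, ActsOn b X → ‖X‖ ≤ 1 →
        ‖star ψ ⬝ᵥ (X *ᵥ ψ) - star Om ⬝ᵥ (X *ᵥ Om)‖ ≤
          3 * expv ψ (1 - P) + 2 * Real.sqrt (expv ψ (1 - P))) := by
  set e := dt384E q b C hbC with he
  have hOm' : nsq (Om ∘ e.symm) = 1 := by
    rw [← hOm]
    exact Equiv.sum_comp e.symm fun i => ‖Om i‖ ^ 2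
  obtain ⟨Q, hQ, hc, hd⟩ := dt384_core (Om ∘ e.symm) hOm'
  have hne : Nonempty (Conf V q) := by
    by_contra hn
    rw [not_nonempty_iff] at hn
    have : nsq Om = 0 := by
      rw [nsq, Finset.univ_eq_empty, Finset.sum_empty]
    rw [this] at hOm
    exact zero_ne_one hOm
  obtain ⟨s0⟩ := hne
  haveI : Nonempty ({x // x ∈ C} → Fin q) := ⟨fun x => s0 x⟩
  haveI : Nonempty ({x // x ∉ b ∪ C} → Fin q) := ⟨fun x => s0 x⟩
  set P0 := Qᴴ * Q with hP0
  have hP0n : ‖P0‖ ≤ 1 := by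
    rw [hP0, Matrix.l2_opNorm_conjTranspose_mul_self]
    nlinarith [norm_nonneg Q]
  set P : Op V q := Matrix.reindex e.symm e.symm
    (P0 ⊗ₖ (1 : Matrix ({x // x ∉ b ∪ C} → Fin q) ({x // x ∉ b ∪ C} → Fin q) ℂ)) with hP
  have hP0p : (P0 ⊗ₖ (1 : Matrix ({x // x ∉ b ∪ C} → Fin q)
      ({x // x ∉ b ∪ C} → Fin q) ℂ)).PosSemidef := by
    rw [hP0, ← dt384_k1]
    exact posSemidef_conjTranspose_mul_self _
  have hPp : P.PosSemidef := by
    rw [hP, Matrix.reindex_apply]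
    exact hP0p.submatrix _
  have hPn : ‖P‖ ≤ 1 := (dt384_reindex_norm e _).trans ((dt384_kron_norm _).trans hP0n)
  have hPex : ∀ ψ : Conf V q → ℂ, nsq ψ = 1 → expv ψ (1 - P) =
      1 - nsq ((Q ⊗ₖ (1 : Matrix ({x // x ∉ b ∪ C} → Fin q)
        ({x // x ∉ b ∪ C} → Fin q) ℂ)) *ᵥ (ψ ∘ e.symm)) := by
    intro ψ hψ
    rw [expv_sub, expv_one, hψ, expv, hP, dt384_re, hP0, ← dt384_k1, dt384_nsq,
      Complex.ofReal_re]
  refine ⟨P, dt384_actBC hbC P0, hPp, ?_, ?_, ?_⟩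
  · refine Matrix.PosSemidef.of_dotProduct_mulVec_nonneg
      (isHermitian_one.sub hPp.isHermitian) fun v => ?_
    have h1 : star v ⬝ᵥ ((1 - P) *ᵥ v) = ((nsq v - expv v P : ℝ) : ℂ) := by
      rw [sub_mulVec, one_mulVec, dotProduct_sub, ip_self, Complex.ofReal_sub]
      congr 1
      rw [expv]
      have h2 := hPp.dotProduct_mulVec_nonneg v
      have h3 := (Complex.le_def.1 h2).2
      refine Complex.ext ?_ ?_
      · rw [Complex.ofReal_re]
      · rw [Complex.ofReal_im, ← h3, Complex.zero_im]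
    rw [h1, Complex.zero_le_real]
    have h2 := expv_le v P
    have h3 : ‖P‖ * nsq v ≤ 1 * nsq v := mul_le_mul_of_nonneg_right hPn (nsq_nonneg' v)
    linarith
  · intro ε hε
    rw [hPex Om hOm]
    have h1 := hc ε fun x y hx hy => ?_
    · have h2 : (Fintype.card ({x // x ∈ b} → Fin q) : ℝ) ^ 2 = (q : ℝ) ^ (2 * b.card) := by
        rw [Fintype.card_fun, Fintype.card_fin, Fintype.card_coe, pow_mul']
        push_cast
        rfl
      rw [h2] at h1
      exact h1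
    · have h2 := hε (Matrix.reindex e.symm e.symm ((x ⊗ₖ
          (1 : Matrix ({x // x ∈ C} → Fin q) ({x // x ∈ C} → Fin q) ℂ)) ⊗ₖ
          (1 : Matrix ({x // x ∉ b ∪ C} → Fin q) ({x // x ∉ b ∪ C} → Fin q) ℂ)))
        (Matrix.reindex e.symm e.symm
          (((1 : Matrix ({x // x ∈ b} → Fin q) ({x // x ∈ b} → Fin q) ℂ) ⊗ₖ
          (1 : Matrix ({x // x ∈ C} → Fin q) ({x // x ∈ C} → Fin q) ℂ)) ⊗ₖ y))
        ((dt384_actB hbC _).2 ⟨x, rfl⟩) (dt384_actF hbC y)
        ((dt384_reindex_norm e _).trans ((dt384_kron_norm _).trans ((dt384_kron_norm _).trans hx)))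
        ((dt384_reindex_norm e _).trans ?_)
      · rw [← reindex_mul', ← mul_kronecker_mul, ← mul_kronecker_mul, Matrix.mul_one,
          Matrix.mul_one, Matrix.one_mul, dt384_re, dt384_re, dt384_re] at h2
        exact h2
      · have h3 : ‖((1 : Matrix ({x // x ∈ b} → Fin q) ({x // x ∈ b} → Fin q) ℂ) ⊗ₖ
            (1 : Matrix ({x // x ∈ C} → Fin q) ({x // x ∈ C} → Fin q) ℂ)) ⊗ₖ y‖ ≤ ‖y‖ := by
          rw [one_kronecker_one]
          exact dt384_kronR_norm y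
        exact h3.trans hy
  · intro ψ hψ X hX hXn
    obtain ⟨x, hx⟩ := (dt384_actB hbC X).1 hX
    have h1 : ‖x‖ ≤ 1 := by
      rw [hx] at hXn
      have h2 := (dt384_norm_reindex e _).trans hXn
      rwa [dt384_kron_norm', dt384_kron_norm'] at h2
    have hψ' : nsq (ψ ∘ e.symm) = 1 := by
      rw [← hψ]
      exact Equiv.sum_comp e.symm fun i => ‖ψ i‖ ^ 2
    have h2 := hd (ψ ∘ e.symm) hψ' x h1
    rw [← hPex ψ hψ, ← dt384_re, ← dt384_re, ← hx] at h2
    exact h2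

end lattice

end Vale.Agent.P356.GA
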