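import Vale.Agent.P356.GA.Det185
import Vale.Agent.P356.GA.Detector384
import Vale.Agent.P356.GA.Cluster939
import Vale.Agent.P356.PH.Act

/-!
The detectors on the lattice: windows `ball z r`, collars `ball z (r + N)`.
-/

set_option linter.all false

namespace Vale.Agent.P356.GA

open Matrix Finset Vale.Agent.P356 Vale.Agent.P356.SV Vale.Agent.P356.Path Vale.Agent.P356.PH
open scoped BigOperators ComplexOrder Kronecker Matrix.Norms.L2Operator

/-- error of the detectors -/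
noncomputable def detErr (q : ℕ) (C c : ℝ) (r N : ℕ) : ℝ :=
  (q : ℝ) ^ (2 * (2 * r + 1) ^ 2) * (C * ((2 * r + 1) ^ 2 + 1) * Real.exp (-(c * N)))

/-- scaling of a bound for operators of norm at most one -/
theorem dl_scale {V : Type*} [Fintype V] [DecidableEq V] {q : ℕ} {b : Finset V} {d : ℝ}
    {ψ φ : Conf V q → ℂ}
    (h : ∀ X : Op V q, ActsOn b X → ‖X‖ ≤ 1 →
      ‖star ψ ⬝ᵥ (X *ᵥ ψ) - star φ ⬝ᵥ (X *ᵥ φ)‖ ≤ d) (X : Op V q) (hX : ActsOn b X) :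
    ‖star ψ ⬝ᵥ (X *ᵥ ψ) - star φ ⬝ᵥ (X *ᵥ φ)‖ ≤ d * ‖X‖ := by
  rcases eq_or_ne X 0 with h0 | h0
  · simp [h0]
  · have hn : 0 < ‖X‖ := norm_pos_iff.2 h0
    have h1 := h (((‖X‖⁻¹ : ℝ) : ℂ) • X) (ph_acts_smul _ hX) (by
      rw [norm_smul, Complex.norm_real, Real.norm_of_nonneg (inv_nonneg.2 hn.le),
        inv_mul_cancel₀ hn.ne'])
    rw [Matrix.smul_mulVec, Matrix.smul_mulVec, dotProduct_smul, dotProduct_smul, ← smul_sub,
      norm_smul, Complex.norm_real, Real.norm_of_nonneg (inv_nonneg.2 hn.le),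
      inv_mul_le_iff₀ hn, mul_comm] at h1
    exact h1

/-- **The detectors**: one local operator for every window. -/
theorem det_windows {R : ℕ} {J Δ : ℝ} (hJ : 0 ≤ J) (hΔ : 0 < Δ) :
    ∃ C c : ℝ, 0 ≤ C ∧ 0 < c ∧ ∀ (L q : ℕ) (g : Finset (Site L) → Op (Site L) q),
      Terms L q R J g → ∀ (E : ℝ) (Ω : Conf (Site L) q → ℂ), GappedGround (∑ Z, g Z) Δ E Ω →
      ∀ r N : ℕ, ∃ P : Site L → Op (Site L) q,
        (∀ z, ActsOn (ball z (r + N)) (P z) ∧ (P z).PosSemidef ∧ (1 - P z).PosSemidef ∧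
          expv Ω (1 - P z) ≤ detErr q C c r N) ∧
        ∀ z (ψ : Conf (Site L) q → ℂ), nsq ψ = 1 → ∀ X : Op (Site L) q, ActsOn (ball z r) X →
          ‖star ψ ⬝ᵥ (X *ᵥ ψ) - star Ω ⬝ᵥ (X *ᵥ Ω)‖ ≤
            (3 * expv ψ (1 - P z) + 2 * Real.sqrt (expv ψ (1 - P z))) * ‖X‖ := by
  obtain ⟨C, c, hC, hc, hcl⟩ := clustering (R := R) hJ hΔ
  refine ⟨C, c, hC, hc, ?_⟩
  intro L q g hg E Ω hΩ r N
  have key : ∀ z : Site L, ∃ P : Op (Site L) q,
      (ActsOn (ball z (r + N)) P ∧ P.PosSemidef ∧ (1 - P).PosSemidef ∧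
          expv Ω (1 - P) ≤ detErr q C c r N) ∧
        ∀ (ψ : Conf (Site L) q → ℂ), nsq ψ = 1 → ∀ X : Op (Site L) q, ActsOn (ball z r) X →
          ‖star ψ ⬝ᵥ (X *ᵥ ψ) - star Ω ⬝ᵥ (X *ᵥ Ω)‖ ≤
            (3 * expv ψ (1 - P) + 2 * Real.sqrt (expv ψ (1 - P))) * ‖X‖ := by
    intro z
    -- the dimension is positive
    have hq : 1 ≤ q := by
      by_contra hq
      have hq0 : q = 0 := by omega
      subst hq0
      have : IsEmpty (Conf (Site L) 0) := ⟨fun σ => (σ z).elim0⟩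
      have h1 := hΩ.1
      rw [nsq, Finset.univ_eq_empty, Finset.sum_empty] at h1
      exact zero_ne_one h1
    have hsub : ball z r ⊆ ball z (r + N) := ball_mono z (Nat.le_add_right r N)
    obtain ⟨P, h1, h2, h3, h4, h5⟩ := dt384_detector (ball z r) (ball z (r + N) \ ball z r)
      disjoint_sdiff_self_right hΩ.1
    rw [Finset.union_sdiff_of_subset hsub] at h1 h4
    refine ⟨P, ⟨h1, h2, h3, ?_⟩, fun ψ hψ X hX => dl_scale (h5 ψ hψ) X hX⟩
    have hcard : ((ball z r).card : ℝ) ≤ (2 * r + 1) ^ 2 := by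
      exact_mod_cast card_ball z r
    have h6 := h4 (C * ((2 * r + 1) ^ 2 + 1) * Real.exp (-(c * N))) (by
      intro X Y hX hY hX1 hY1
      refine (hcl L q g hg E Ω hΩ N (ball z r) (ball z (r + N))ᶜ ?_ X Y hX hY).trans ?_
      · intro x hx y hy
        rw [Finset.mem_compl] at hy
        by_contra hcon
        apply hy
        rw [ball, Finset.mem_filter] at hx ⊢
        refine ⟨Finset.mem_univ y, ?_⟩
        have := dist1_tri y x z
        have := dist1_comm x y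
        omega
      · have e1 : ‖X‖ * ‖Y‖ ≤ 1 := by
          calc ‖X‖ * ‖Y‖ ≤ 1 * 1 := mul_le_mul hX1 hY1 (norm_nonneg _) (by norm_num)
            _ = 1 := mul_one _
        have e2 : C * (((ball z r).card : ℝ) + 1) ≤ C * ((2 * r + 1) ^ 2 + 1) :=
          mul_le_mul_of_nonneg_left (by linarith) hC
        refine mul_le_mul_of_nonneg_right ?_ (Real.exp_pos _).le
        calc C * (((ball z r).card : ℝ) + 1) * (‖X‖ * ‖Y‖)
            ≤ C * (((ball z r).card : ℝ) + 1) * 1 :=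
              mul_le_mul_of_nonneg_left e1 (by positivity)
          _ ≤ _ := by rw [mul_one]; exact e2)
    refine h6.trans ?_
    unfold detErr
    refine mul_le_mul_of_nonneg_right ?_ (by positivity)
    refine pow_le_pow_right₀ (by exact_mod_cast hq) ?_
    exact Nat.mul_le_mul_left 2 (card_ball z r)
  choose P hP1 hP2 using key
  exact ⟨P, hP1, hP2⟩

/-- **The Hamiltonian with detectors on the windows centred in `Z`.** -/
theorem det_lattice {R : ℕ} {J Δ : ℝ} (hJ : 0 ≤ J) (hΔ : 0 < Δ) :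
    ∃ C c : ℝ, 0 ≤ C ∧ 0 < c ∧ ∀ (L q : ℕ) (g : Finset (Site L) → Op (Site L) q),
      Terms L q R J g → ∀ (E : ℝ) (Ω : Conf (Site L) q → ℂ), GappedGround (∑ Z, g Z) Δ E Ω →
      ∀ (r N : ℕ) (Z : Finset (Site L)) (Λ : ℝ), 0 < Λ →
        Λ * (Z.card * detErr q C c r N) ≤ Δ / 2 →
        ∃ (P : Site L → Op (Site L) q) (E' : ℝ) (Ω' : Conf (Site L) q → ℂ),
          (∀ z, ActsOn (ball z (r + N)) (P z) ∧ (P z).PosSemidef ∧ (1 - P z).PosSemidef) ∧
          GappedGround (∑ Z, g Z + (Λ : ℂ) • ∑ z ∈ Z, (1 - P z)) (Δ / 2) E' Ω' ∧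
          E ≤ E' ∧ E' ≤ E + Λ * (Z.card * detErr q C c r N) ∧
          nsq (Ω' - Ω) ≤ 2 * (Λ * (Z.card * detErr q C c r N) / Δ) ∧
          ∀ (ψ : Conf (Site L) q → ℂ) (K : ℝ), nsq ψ = 1 →
            expv ψ (∑ Z, g Z + (Λ : ℂ) • ∑ z ∈ Z, (1 - P z)) - E' ≤ K →
            ∃ dev : Site L → ℝ, (∀ z, 0 ≤ dev z) ∧
              (∀ z ∈ Z, ∀ X : Op (Site L) q, ActsOn (ball z r) X →
                ‖star ψ ⬝ᵥ (X *ᵥ ψ) - star Ω' ⬝ᵥ (X *ᵥ Ω')‖ ≤ dev z * ‖X‖) ∧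
              ∑ z ∈ Z, expv ψ (1 - P z) ≤ K / Λ + Z.card * detErr q C c r N ∧
              ∑ z ∈ Z, dev z ≤ 3 * (K / Λ + Z.card * detErr q C c r N) +
                2 * Real.sqrt (Z.card * (K / Λ + Z.card * detErr q C c r N)) +
                Z.card * (2 * Real.sqrt (2 * (Λ * (Z.card * detErr q C c r N) / Δ))) := by
  obtain ⟨C, c, hC, hc, hdet⟩ := det_windows (R := R) hJ hΔ
  refine ⟨C, c, hC, hc, ?_⟩
  intro L q g hg E Ω hΩ r N Z Λ hΛ hsm
  obtain ⟨P, hP, hPψ⟩ := hdet L q g hg E Ω hΩ r N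
  have hH : (∑ X, g X).IsHermitian := by
    unfold Matrix.IsHermitian
    rw [Matrix.conjTranspose_sum]
    exact Finset.sum_congr rfl fun Y _ => hg.herm Y
  set δ := detErr q C c r N with hδ
  have hcard : Fintype.card {z // z ∈ Z} = Z.card := Fintype.card_coe Z
  have hsumP : detH Λ (fun z : {z // z ∈ Z} => P z) = (Λ : ℂ) • ∑ z ∈ Z, (1 - P z) := by
    unfold detH
    rw [← Finset.sum_coe_sort Z (fun z => 1 - P z)]
  obtain ⟨E', Ω', h1, h2, h3, h4, h5, h6⟩ := det_ground (ι := {z // z ∈ Z}) hH hΩ hΛ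
    (P := fun z => P z) (fun z => (hP z).2.1) (fun z => (hP z).2.2.1)
    (fun z => (hP z).2.2.2) (by rw [hcard]; exact hsm) hΔ
  rw [hsumP] at h1 h6
  rw [hcard] at h3 h4 h5 h6
  refine ⟨P, E', Ω', fun z => ⟨(hP z).1, (hP z).2.1, (hP z).2.2.1⟩, h1, h2, h3, h4, ?_⟩
  intro ψ K hψ hK
  have h7 : ∑ z ∈ Z, expv ψ (1 - P z) ≤ K / Λ + Z.card * δ := by
    rw [← Finset.sum_coe_sort Z (fun z => expv ψ (1 - P z))]
    exact h6 ψ K hψ hK
  set η : ℝ := 2 * Real.sqrt (2 * (Λ * (Z.card * δ) / Δ)) with hη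
  have hη0 : 0 ≤ η := by positivity
  have he : ∀ z, 0 ≤ expv ψ (1 - P z) := fun z => expv_nonneg_of_psd (hP z).2.2.1 ψ
  refine ⟨fun z => (3 * expv ψ (1 - P z) + 2 * Real.sqrt (expv ψ (1 - P z))) + η,
    fun z => by have := he z; positivity, ?_, h7, ?_⟩
  · intro z hz X hX
    have e1 := hPψ z ψ hψ X hX
    have e2 := h5 X
    have e3 : star ψ ⬝ᵥ (X *ᵥ ψ) - star Ω' ⬝ᵥ (X *ᵥ Ω') =
        (star ψ ⬝ᵥ (X *ᵥ ψ) - star Ω ⬝ᵥ (X *ᵥ Ω)) -
          (star Ω' ⬝ᵥ (X *ᵥ Ω') - star Ω ⬝ᵥ (X *ᵥ Ω)) := by ring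
    rw [e3]
    refine (norm_sub_le _ _).trans ?_
    rw [add_mul]
    exact add_le_add e1 e2
  · rw [Finset.sum_add_distrib, Finset.sum_const, nsmul_eq_mul]
    have e1 := det_dev_sum_finset Z (e := fun z => expv ψ (1 - P z))
      (x := fun z => 3 * expv ψ (1 - P z) + 2 * Real.sqrt (expv ψ (1 - P z)))
      (fun z _ => he z) (fun z _ => le_rfl) h7
    linarith

end Vale.Agent.P356.GA
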