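import Vale.Agent.P356.SA.Dbl
import Vale.Agent.P356.GA.DetLat841

/-!
Two copies of the lattice: the ground state and the gap of `H ⊗ 1 + 1 ⊗ H`, and the detectors of
one copy, seen by a pure state of the two copies.
-/

set_option linter.all false

namespace Vale.Agent.P356.GA

open Matrix Finset Vale.Agent.P356 Vale.Agent.P356.SV Vale.Agent.P356.Path Vale.Agent.P356.PH
open Vale.Agent.P356.SA Vale.Agent.P356.NA
open scoped BigOperators ComplexOrder Kronecker Matrix.Norms.L2Operator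

section dbl
variable {V W : Type} [Fintype V] [DecidableEq V] [Fintype W] [DecidableEq W] {q : ℕ}

/-- the slice of a vector at a fixed configuration of the second copy -/
def sl1 (ψ : Conf (V ⊕ W) q → ℂ) (b : Conf W q) : Conf V q → ℂ := fun a => ψ (Sum.elim a b)

/-- the slice of a vector at a fixed configuration of the first copy -/
def sl2 (ψ : Conf (V ⊕ W) q → ℂ) (a : Conf V q) : Conf W q → ℂ := fun b => ψ (Sum.elim a b)

theorem sl1_form (A : Op V q) (ψ : Conf (V ⊕ W) q → ℂ) :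
    star ψ ⬝ᵥ ((cp1 A : Op (V ⊕ W) q) *ᵥ ψ) = ∑ b, star (sl1 ψ b) ⬝ᵥ (A *ᵥ sl1 ψ b) := by
  unfold dotProduct
  rw [sa2_sum', Finset.sum_comm]
  refine Finset.sum_congr rfl fun b _ => Finset.sum_congr rfl fun a _ => ?_
  rw [sa2_cp1_apply]
  rfl

theorem sl2_form (A : Op W q) (ψ : Conf (V ⊕ W) q → ℂ) :
    star ψ ⬝ᵥ ((cp2 A : Op (V ⊕ W) q) *ᵥ ψ) = ∑ a, star (sl2 ψ a) ⬝ᵥ (A *ᵥ sl2 ψ a) := by
  unfold dotProduct
  rw [sa2_sum']
  refine Finset.sum_congr rfl fun a _ => Finset.sum_congr rfl fun b _ => ?_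
  rw [sa2_cp2_apply]
  rfl

theorem sl1_nsq (ψ : Conf (V ⊕ W) q → ℂ) : nsq ψ = ∑ b, nsq (sl1 ψ b) := sa2_nsq_one ψ

theorem sl2_nsq (ψ : Conf (V ⊕ W) q → ℂ) : nsq ψ = ∑ a, nsq (sl2 ψ a) := sa2_nsq_two ψ

theorem sl1_expv (A : Op V q) (ψ : Conf (V ⊕ W) q → ℂ) :
    expv ψ (cp1 A : Op (V ⊕ W) q) = ∑ b, expv (sl1 ψ b) A := by
  unfold expv
  rw [sl1_form, Complex.re_sum]

theorem sl2_expv (A : Op W q) (ψ : Conf (V ⊕ W) q → ℂ) :
    expv ψ (cp2 A : Op (V ⊕ W) q) = ∑ a, expv (sl2 ψ a) A := by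
  unfold expv
  rw [sl2_form, Complex.re_sum]

/-- homogeneous form of the detector inequality -/
theorem det_hom {N : Type*} [Fintype N] [DecidableEq N] {X D : Matrix N N ℂ} {x : ℂ} {c : ℝ}
    (h : ∀ ψ : N → ℂ, nsq ψ = 1 → ‖star ψ ⬝ᵥ (X *ᵥ ψ) - x‖ ≤
      (3 * expv ψ D + 2 * Real.sqrt (expv ψ D)) * c) (v : N → ℂ) :
    ‖star v ⬝ᵥ (X *ᵥ v) - (nsq v : ℂ) * x‖ ≤
      (3 * expv v D + 2 * Real.sqrt (nsq v * expv v D)) * c := by
  rcases eq_or_lt_of_le (nsq_nonneg' v) with h0 | h0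
  · have hv : v = 0 := by
      funext i
      have h5 : ∀ i ∈ (Finset.univ : Finset N), 0 ≤ ‖v i‖ ^ 2 := fun i _ => sq_nonneg _
      have h6 := (Finset.sum_eq_zero_iff_of_nonneg h5).1 h0.symm i (Finset.mem_univ i)
      simpa using h6
    subst hv
    have h1 : nsq (0 : N → ℂ) = 0 := h0.symm
    rw [h1]
    simp [expv]
  · set s : ℝ := Real.sqrt (nsq v) with hs
    have hs0 : 0 < s := Real.sqrt_pos.2 h0
    have hs2 : s * s = nsq v := Real.mul_self_sqrt h0.le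
    have hu : nsq (((s⁻¹ : ℝ) : ℂ) • v) = 1 := by
      rw [nsq_smul, Complex.norm_real, Real.norm_of_nonneg (inv_nonneg.2 hs0.le), ← hs2]
      field_simp
    have e1 : ∀ A : Matrix N N ℂ, star (((s⁻¹ : ℝ) : ℂ) • v) ⬝ᵥ (A *ᵥ (((s⁻¹ : ℝ) : ℂ) • v)) =
        (((s⁻¹ * s⁻¹ : ℝ)) : ℂ) * (star v ⬝ᵥ (A *ᵥ v)) := by
      intro A
      rw [Matrix.mulVec_smul, star_smul, smul_dotProduct, dotProduct_smul, RCLike.star_def,
        Complex.conj_ofReal, smul_eq_mul, smul_eq_mul, Complex.ofReal_mul]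
      ring
    have h1 := h _ hu
    have e2 : expv (((s⁻¹ : ℝ) : ℂ) • v) D = (s⁻¹ * s⁻¹) * expv v D := by
      unfold expv
      rw [e1, Complex.re_ofReal_mul]
    rw [e1, e2] at h1
    have h2 := mul_le_mul_of_nonneg_left h1 (mul_nonneg hs0.le hs0.le)
    have e3 : (s * s) * ‖(((s⁻¹ * s⁻¹ : ℝ)) : ℂ) * (star v ⬝ᵥ (X *ᵥ v)) - x‖ =
        ‖star v ⬝ᵥ (X *ᵥ v) - (nsq v : ℂ) * x‖ := by
      rw [← Real.norm_of_nonneg (mul_nonneg hs0.le hs0.le), ← Complex.norm_real, ← norm_mul,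
        mul_sub, ← mul_assoc, ← Complex.ofReal_mul, hs2]
      have : nsq v * (s⁻¹ * s⁻¹) = 1 := by
        rw [← hs2]
        field_simp
      rw [this, Complex.ofReal_one, one_mul]
    have e4 : (s * s) * ((3 * ((s⁻¹ * s⁻¹) * expv v D) +
        2 * Real.sqrt ((s⁻¹ * s⁻¹) * expv v D)) * c) =
        (3 * expv v D + 2 * Real.sqrt (nsq v * expv v D)) * c := by
      have e5 : Real.sqrt ((s⁻¹ * s⁻¹) * expv v D) = s⁻¹ * Real.sqrt (expv v D) := by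
        rw [Real.sqrt_mul (mul_nonneg (inv_nonneg.2 hs0.le) (inv_nonneg.2 hs0.le)),
          Real.sqrt_mul_self (inv_nonneg.2 hs0.le)]
      have e6 : Real.sqrt (nsq v * expv v D) = s * Real.sqrt (expv v D) := by
        rw [Real.sqrt_mul h0.le, ← hs]
      rw [e5, e6]
      field_simp
    rw [e3, e4] at h2
    exact h2

theorem dd_sum_sqrt {ι : Type*} [Fintype ι] (a b : ι → ℝ) (ha : ∀ i, 0 ≤ a i)
    (hb : ∀ i, 0 ≤ b i) :
    ∑ i, Real.sqrt (a i * b i) ≤ Real.sqrt ((∑ i, a i) * ∑ i, b i) := by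
  refine Real.le_sqrt_of_sq_le ?_
  have h := Finset.sum_mul_sq_le_sq_mul_sq Finset.univ (fun i => Real.sqrt (a i))
    (fun i => Real.sqrt (b i))
  have e1 : ∀ i, Real.sqrt (a i * b i) = Real.sqrt (a i) * Real.sqrt (b i) := fun i =>
    Real.sqrt_mul (ha i) _
  simp only [e1]
  refine h.trans (le_of_eq ?_)
  congr 1
  · exact Finset.sum_congr rfl fun i _ => Real.sq_sqrt (ha i)
  · exact Finset.sum_congr rfl fun i _ => Real.sq_sqrt (hb i)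

/-- **One-copy detectors, first copy.** -/
theorem det_copy1 {X D : Op V q} {x : ℂ} {c : ℝ} (hc : 0 ≤ c) (hD : ∀ v, 0 ≤ expv v D)
    (h : ∀ ψ : Conf V q → ℂ, nsq ψ = 1 → ‖star ψ ⬝ᵥ (X *ᵥ ψ) - x‖ ≤
      (3 * expv ψ D + 2 * Real.sqrt (expv ψ D)) * c) (ψ : Conf (V ⊕ W) q → ℂ)
    (hψ : nsq ψ = 1) :
    ‖star ψ ⬝ᵥ ((cp1 X : Op (V ⊕ W) q) *ᵥ ψ) - x‖ ≤
      (3 * expv ψ (cp1 D : Op (V ⊕ W) q) +
        2 * Real.sqrt (expv ψ (cp1 D : Op (V ⊕ W) q))) * c := by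
  have h1 : star ψ ⬝ᵥ ((cp1 X : Op (V ⊕ W) q) *ᵥ ψ) - x =
      ∑ b, (star (sl1 ψ b) ⬝ᵥ (X *ᵥ sl1 ψ b) - (nsq (sl1 ψ b) : ℂ) * x) := by
    rw [Finset.sum_sub_distrib, ← sl1_form, ← Finset.sum_mul, ← Complex.ofReal_sum, ← sl1_nsq,
      hψ, Complex.ofReal_one, one_mul]
  rw [h1, sl1_expv]
  refine (norm_sum_le _ _).trans ?_
  refine (Finset.sum_le_sum fun b _ => det_hom h (sl1 ψ b)).trans ?_
  rw [← Finset.sum_mul]
  refine mul_le_mul_of_nonneg_right ?_ hc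
  rw [Finset.sum_add_distrib, ← Finset.mul_sum, ← Finset.mul_sum]
  have h2 := dd_sum_sqrt (fun b => nsq (sl1 ψ b)) (fun b => expv (sl1 ψ b) D)
    (fun b => nsq_nonneg' _) (fun b => hD _)
  rw [← sl1_nsq, hψ, one_mul] at h2
  linarith

/-- **One-copy detectors, second copy.** -/
theorem det_copy2 {X D : Op W q} {x : ℂ} {c : ℝ} (hc : 0 ≤ c) (hD : ∀ v, 0 ≤ expv v D)
    (h : ∀ ψ : Conf W q → ℂ, nsq ψ = 1 → ‖star ψ ⬝ᵥ (X *ᵥ ψ) - x‖ ≤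
      (3 * expv ψ D + 2 * Real.sqrt (expv ψ D)) * c) (ψ : Conf (V ⊕ W) q → ℂ)
    (hψ : nsq ψ = 1) :
    ‖star ψ ⬝ᵥ ((cp2 X : Op (V ⊕ W) q) *ᵥ ψ) - x‖ ≤
      (3 * expv ψ (cp2 D : Op (V ⊕ W) q) +
        2 * Real.sqrt (expv ψ (cp2 D : Op (V ⊕ W) q))) * c := by
  have h1 : star ψ ⬝ᵥ ((cp2 X : Op (V ⊕ W) q) *ᵥ ψ) - x =
      ∑ b, (star (sl2 ψ b) ⬝ᵥ (X *ᵥ sl2 ψ b) - (nsq (sl2 ψ b) : ℂ) * x) := by
    rw [Finset.sum_sub_distrib, ← sl2_form, ← Finset.sum_mul, ← Complex.ofReal_sum, ← sl2_nsq,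
      hψ, Complex.ofReal_one, one_mul]
  rw [h1, sl2_expv]
  refine (norm_sum_le _ _).trans ?_
  refine (Finset.sum_le_sum fun b _ => det_hom h (sl2 ψ b)).trans ?_
  rw [← Finset.sum_mul]
  refine mul_le_mul_of_nonneg_right ?_ hc
  rw [Finset.sum_add_distrib, ← Finset.mul_sum, ← Finset.mul_sum]
  have h2 := dd_sum_sqrt (fun b => nsq (sl2 ψ b)) (fun b => expv (sl2 ψ b) D)
    (fun b => nsq_nonneg' _) (fun b => hD _)
  rw [← sl2_nsq, hψ, one_mul] at h2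
  linarith

end dbl

section gap
variable {V : Type} [Fintype V] [DecidableEq V] {q : ℕ}

/-- the projected norms in the two copies -/
theorem dd_proj (Ω : Conf V q → ℂ) (hΩ : nsq Ω = 1) (ψ : Conf (V ⊕ V) q → ℂ) :
    ∑ b, ‖star Ω ⬝ᵥ sl1 ψ b‖ ^ 2 + ∑ a, ‖star Ω ⬝ᵥ sl2 ψ a‖ ^ 2 ≤
      nsq ψ + ‖star (dbl Ω Ω) ⬝ᵥ ψ‖ ^ 2 := by
  -- the vector with the component along Ω in the first copy removed
  set χ : Conf V q → ℂ := fun b => star Ω ⬝ᵥ sl1 ψ b with hχ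
  set ψ' : Conf (V ⊕ V) q → ℂ := fun s => ψ s - Ω (s ∘ Sum.inl) * χ (s ∘ Sum.inr) with hψ'
  have hsl : ∀ b, sl1 ψ' b = sl1 ψ b - χ b • Ω := by
    intro b
    funext a
    simp only [sl1, hψ', Pi.sub_apply, Pi.smul_apply, smul_eq_mul, sa2_elim_inl, sa2_elim_inr]
    ring
  have hn1 : ∀ b, nsq (sl1 ψ' b) = nsq (sl1 ψ b) - ‖χ b‖ ^ 2 := by
    intro b
    have h1 : sl1 ψ b = χ b • Ω + sl1 ψ' b := by rw [hsl]; abel
    have h2 : star Ω ⬝ᵥ sl1 ψ' b = 0 := by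
      rw [hsl, dotProduct_sub, dotProduct_smul, ip_self, hΩ]
      simp [hχ]
    have h3 : nsq (sl1 ψ b) = ‖χ b‖ ^ 2 + nsq (sl1 ψ' b) := by
      conv_lhs => rw [h1]
      rw [nsq_add, nsq_smul, hΩ, star_smul, smul_dotProduct, h2]
      simp
    linarith
  have hn : nsq ψ' = nsq ψ - ∑ b, ‖χ b‖ ^ 2 := by
    rw [sl1_nsq, sl1_nsq ψ, ← Finset.sum_sub_distrib]
    exact Finset.sum_congr rfl fun b _ => hn1 b
  set c : ℂ := star Ω ⬝ᵥ χ with hc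
  have hcc : star (dbl Ω Ω) ⬝ᵥ ψ = c := by
    rw [hc, hχ]
    unfold dotProduct
    rw [sa2_sum', Finset.sum_comm]
    refine Finset.sum_congr rfl fun b _ => ?_
    simp only [Pi.star_apply, dbl, sa2_elim_inl, sa2_elim_inr, star_mul']
    rw [Finset.mul_sum]
    refine Finset.sum_congr rfl fun a _ => ?_
    simp only [sl1]
    ring
  -- the components along Ω in the second copy
  set ξ : Conf V q → ℂ := fun a => star Ω ⬝ᵥ sl2 ψ a with hξ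
  have hsl2 : ∀ a, sl2 ψ' a = sl2 ψ a - Ω a • χ := by
    intro a
    funext b
    simp only [sl2, hψ', Pi.sub_apply, Pi.smul_apply, smul_eq_mul, sa2_elim_inl, sa2_elim_inr]
  have hξ' : ∀ a, star Ω ⬝ᵥ sl2 ψ' a = (ξ - c • Ω) a := by
    intro a
    rw [hsl2, dotProduct_sub, dotProduct_smul, Pi.sub_apply, Pi.smul_apply, ← hc, smul_eq_mul,
      smul_eq_mul, mul_comm]
  have hξc : star Ω ⬝ᵥ ξ = c := by
    rw [← hcc, hξ]
    unfold dotProduct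
    rw [sa2_sum']
    refine Finset.sum_congr rfl fun a _ => ?_
    simp only [Pi.star_apply, dbl, sa2_elim_inl, sa2_elim_inr, star_mul']
    rw [Finset.mul_sum]
    refine Finset.sum_congr rfl fun b _ => ?_
    simp only [sl2]
    ring
  have hnξ : nsq (ξ - c • Ω) = nsq ξ - ‖c‖ ^ 2 := by
    have h1 : ξ = c • Ω + (ξ - c • Ω) := by abel
    have h2 : star Ω ⬝ᵥ (ξ - c • Ω) = 0 := by
      rw [dotProduct_sub, dotProduct_smul, ip_self, hΩ, hξc]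
      simp
    have h3 : nsq ξ = ‖c‖ ^ 2 + nsq (ξ - c • Ω) := by
      conv_lhs => rw [h1]
      rw [nsq_add, nsq_smul, hΩ, star_smul, smul_dotProduct, h2]
      simp
    linarith
  have hle : nsq (ξ - c • Ω) ≤ nsq ψ' := by
    rw [sl2_nsq ψ', nsq]
    refine Finset.sum_le_sum fun a _ => ?_
    rw [← hξ' a]
    have h1 := pow_le_pow_left₀ (norm_nonneg _) (nrm_ip_le Ω (sl2 ψ' a)) 2
    rw [mul_pow, nrm_sq, nrm_sq, hΩ, one_mul] at h1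
    exact h1
  have h9 : nsq ξ = ∑ a, ‖star Ω ⬝ᵥ sl2 ψ a‖ ^ 2 := rfl
  rw [hcc, ← h9]
  rw [hnξ, hn] at hle
  linarith

/-- **The ground state and the gap of two copies.** -/
theorem gapped_double {H : Op V q} {Δ E : ℝ} {Ω : Conf V q → ℂ} (hΔ : 0 ≤ Δ)
    (hG : GappedGround H Δ E Ω) :
    GappedGround (cp1 H + cp2 H : Op (V ⊕ V) q) Δ (2 * E) (dbl Ω Ω) := by
  refine ⟨by rw [nsq_dbl, hG.1, one_mul], ?_, fun ψ => ?_⟩
  · rw [Matrix.add_mulVec, cp1_dbl, cp2_dbl, hG.2.1]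
    funext s
    simp only [Pi.add_apply, dbl, Pi.smul_apply, smul_eq_mul]
    push_cast
    ring
  · have h1 : ∀ v : Conf V q → ℂ, E * nsq v + Δ * (nsq v - ‖star Ω ⬝ᵥ v‖ ^ 2) ≤ expv v H :=
      fun v => by
        have := hG.2.2 v
        unfold expv
        linarith
    have h2 : E * nsq ψ + Δ * (nsq ψ - ∑ b, ‖star Ω ⬝ᵥ sl1 ψ b‖ ^ 2) ≤
        expv ψ (cp1 H : Op (V ⊕ V) q) := by
      rw [sl1_expv]
      refine le_trans (le_of_eq ?_) (Finset.sum_le_sum fun b _ => h1 (sl1 ψ b))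
      rw [Finset.sum_add_distrib, ← Finset.mul_sum, ← Finset.mul_sum, Finset.sum_sub_distrib,
        ← sl1_nsq]
    have h3 : E * nsq ψ + Δ * (nsq ψ - ∑ a, ‖star Ω ⬝ᵥ sl2 ψ a‖ ^ 2) ≤
        expv ψ (cp2 H : Op (V ⊕ V) q) := by
      rw [sl2_expv]
      refine le_trans (le_of_eq ?_) (Finset.sum_le_sum fun b _ => h1 (sl2 ψ b))
      rw [Finset.sum_add_distrib, ← Finset.mul_sum, ← Finset.mul_sum, Finset.sum_sub_distrib,
        ← sl2_nsq]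
    have h4 := mul_le_mul_of_nonneg_left (dd_proj Ω hG.1 ψ) hΔ
    have h5 : (star ψ ⬝ᵥ ((cp1 H + cp2 H : Op (V ⊕ V) q) *ᵥ ψ)).re =
        expv ψ (cp1 H : Op (V ⊕ V) q) + expv ψ (cp2 H : Op (V ⊕ V) q) := by
      rw [Matrix.add_mulVec, dotProduct_add, Complex.add_re]
      rfl
    rw [h5]
    nlinarith

theorem cp1_expv_nonneg {W : Type} [Fintype W] [DecidableEq W] {A : Op V q}
    (hA : ∀ v, 0 ≤ expv v A) (ψ : Conf (V ⊕ W) q → ℂ) : 0 ≤ expv ψ (cp1 A : Op (V ⊕ W) q) := by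
  rw [sl1_expv]
  exact Finset.sum_nonneg fun b _ => hA _

theorem cp2_expv_nonneg {W : Type} [Fintype W] [DecidableEq W] {A : Op W q}
    (hA : ∀ v, 0 ≤ expv v A) (ψ : Conf (V ⊕ W) q → ℂ) : 0 ≤ expv ψ (cp2 A : Op (V ⊕ W) q) := by
  rw [sl2_expv]
  exact Finset.sum_nonneg fun b _ => hA _

/-- the sum of the detector defects of a state of two copies -/
theorem dbl_defect {H : Op V q} {Δ E E' Λ η : ℝ} {Ω : Conf V q → ℂ} (hΔ : 0 ≤ Δ) (hΛ : 0 < Λ)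
    (hG : GappedGround H Δ E Ω) (hE : E' ≤ E + Λ * η) {ι : Type*} (Z : Finset ι)
    (D : ι → Op V q) {ψ : Conf (V ⊕ V) q → ℂ} {K : ℝ} (hψ : nsq ψ = 1)
    (hK : expv ψ (cp1 (H + (Λ : ℂ) • ∑ z ∈ Z, D z) + cp2 (H + (Λ : ℂ) • ∑ z ∈ Z, D z) :
      Op (V ⊕ V) q) - 2 * E' ≤ K) :
    ∑ z ∈ Z, (expv ψ (cp1 (D z) : Op (V ⊕ V) q) + expv ψ (cp2 (D z) : Op (V ⊕ V) q)) ≤
      K / Λ + 2 * η := by
  have h1 := gapped_ge (gapped_double hΔ hG) hΔ ψ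
  rw [hψ, mul_one] at h1
  have h2 : (cp1 (H + (Λ : ℂ) • ∑ z ∈ Z, D z) + cp2 (H + (Λ : ℂ) • ∑ z ∈ Z, D z) :
      Op (V ⊕ V) q) = (cp1 H + cp2 H) +
        (Λ : ℂ) • ∑ z ∈ Z, ((cp1 (D z) : Op (V ⊕ V) q) + cp2 (D z)) := by
    rw [cp1_add, cp2_add, cp1_smul, cp2_smul, cp1_sum, cp2_sum, Finset.sum_add_distrib, smul_add]
    abel
  rw [h2, expv_add, expv_csmul, expv_sum] at hK
  have h3 : ∀ z, expv ψ ((cp1 (D z) : Op (V ⊕ V) q) + cp2 (D z)) =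
      expv ψ (cp1 (D z) : Op (V ⊕ V) q) + expv ψ (cp2 (D z) : Op (V ⊕ V) q) := fun z =>
    expv_add _ _ _
  simp only [h3] at hK
  have h4 : Λ * ∑ z ∈ Z, (expv ψ (cp1 (D z) : Op (V ⊕ V) q) +
      expv ψ (cp2 (D z) : Op (V ⊕ V) q)) ≤ K + 2 * (Λ * η) := by linarith
  have h5 : ∑ z ∈ Z, (expv ψ (cp1 (D z) : Op (V ⊕ V) q) +
      expv ψ (cp2 (D z) : Op (V ⊕ V) q)) ≤ (K + 2 * (Λ * η)) / Λ := by
    rw [le_div_iff₀ hΛ]
    linarith
  refine h5.trans (le_of_eq ?_)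
  field_simp

end gap

section lattice2
variable {R : ℕ} {J Δ : ℝ}

/-- **The Hamiltonian with detectors, one and two copies.** -/
theorem det_lattice2 (hJ : 0 ≤ J) (hΔ : 0 < Δ) :
    ∃ C c : ℝ, 0 ≤ C ∧ 0 < c ∧ ∀ (L q : ℕ) (g : Finset (Site L) → Op (Site L) q),
      Terms L q R J g → ∀ (E : ℝ) (Ω : Conf (Site L) q → ℂ), GappedGround (∑ Z, g Z) Δ E Ω →
      ∀ (r N : ℕ) (Z : Finset (Site L)) (Λ : ℝ), 0 < Λ →
        Λ * (Z.card * detErr q C c r N) ≤ Δ / 2 →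
        ∃ (P : Site L → Op (Site L) q) (E' : ℝ) (Ω' : Conf (Site L) q → ℂ),
          (∀ z, ActsOn (ball z (r + N)) (P z) ∧ (P z).PosSemidef ∧ (1 - P z).PosSemidef) ∧
          GappedGround (∑ Z, g Z + (Λ : ℂ) • ∑ z ∈ Z, (1 - P z)) (Δ / 2) E' Ω' ∧
          E ≤ E' ∧ E' ≤ E + Λ * (Z.card * detErr q C c r N) ∧
          nsq (Ω' - Ω) ≤ 2 * (Λ * (Z.card * detErr q C c r N) / Δ) ∧
          (∀ (ψ : Conf (Site L) q → ℂ) (K : ℝ), nsq ψ = 1 →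
            expv ψ (∑ Z, g Z + (Λ : ℂ) • ∑ z ∈ Z, (1 - P z)) - E' ≤ K →
            ∃ dev : Site L → ℝ, (∀ z, 0 ≤ dev z) ∧
              (∀ z, ∀ X : Op (Site L) q, ActsOn (ball z r) X →
                ‖star ψ ⬝ᵥ (X *ᵥ ψ) - star Ω' ⬝ᵥ (X *ᵥ Ω')‖ ≤ dev z * ‖X‖) ∧
              ∑ z ∈ Z, dev z ≤ 3 * (K / Λ + Z.card * detErr q C c r N) +
                2 * Real.sqrt (Z.card * (K / Λ + Z.card * detErr q C c r N)) +
                Z.card * (2 * Real.sqrt (2 * (Λ * (Z.card * detErr q C c r N) / Δ)))) ∧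
          GappedGround (cp1 (∑ Z, g Z + (Λ : ℂ) • ∑ z ∈ Z, (1 - P z)) +
            cp2 (∑ Z, g Z + (Λ : ℂ) • ∑ z ∈ Z, (1 - P z)) : Op (Site L ⊕ Site L) q) (Δ / 2)
              (2 * E') (dbl Ω' Ω') ∧
          ∀ (ψ : Conf (Site L ⊕ Site L) q → ℂ) (K : ℝ), nsq ψ = 1 →
            expv ψ (cp1 (∑ Z, g Z + (Λ : ℂ) • ∑ z ∈ Z, (1 - P z)) +
              cp2 (∑ Z, g Z + (Λ : ℂ) • ∑ z ∈ Z, (1 - P z)) : Op (Site L ⊕ Site L) q) -
                2 * E' ≤ K →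
            ∃ dev1 dev2 : Site L → ℝ, (∀ z, 0 ≤ dev1 z ∧ 0 ≤ dev2 z) ∧
              (∀ z, ∀ X : Op (Site L) q, ActsOn (ball z r) X →
                ‖star ψ ⬝ᵥ ((cp1 X : Op (Site L ⊕ Site L) q) *ᵥ ψ) -
                  star Ω' ⬝ᵥ (X *ᵥ Ω')‖ ≤ dev1 z * ‖X‖ ∧
                ‖star ψ ⬝ᵥ ((cp2 X : Op (Site L ⊕ Site L) q) *ᵥ ψ) -
                  star Ω' ⬝ᵥ (X *ᵥ Ω')‖ ≤ dev2 z * ‖X‖) ∧
              ∑ z ∈ Z, (dev1 z + dev2 z) ≤
                2 * (3 * (K / Λ + 2 * (Z.card * detErr q C c r N)) +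
                2 * Real.sqrt (Z.card * (K / Λ + 2 * (Z.card * detErr q C c r N))) +
                Z.card * (2 * Real.sqrt (2 * (Λ * (Z.card * detErr q C c r N) / Δ)))) := by
  obtain ⟨C, c, hC, hc, hdet⟩ := det_windows (R := R) hJ hΔ
  refine ⟨C, c, hC, hc, ?_⟩
  intro L q g hg E Ω hΩ r N Z Λ hΛ hsm
  obtain ⟨P, hP, hPψ⟩ := hdet L q g hg E Ω hΩ r N
  have hH : (∑ X, g X).IsHermitian := by
    unfold Matrix.IsHermitian
    rw [Matrix.conjTranspose_sum]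
    exact Finset.sum_congr rfl fun Y _ => hg.herm Y
  set δ := detErr q C c r N with hδ
  have hcard : Fintype.card {z // z ∈ Z} = Z.card := Fintype.card_coe Z
  have hsumP : detH Λ (fun z : {z // z ∈ Z} => P z) = (Λ : ℂ) • ∑ z ∈ Z, (1 - P z) := by
    unfold detH
    rw [← Finset.sum_coe_sort Z (fun z => 1 - P z)]
  obtain ⟨E', Ω', h1, h2, h3, h4, h5, h6⟩ := det_ground (ι := {z // z ∈ Z}) hH hΩ hΛ
    (P := fun z => P z) (fun z => (hP z).2.1) (fun z => (hP z).2.2.1)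
    (fun z => (hP z).2.2.2) (by rw [hcard]; exact hsm) hΔ
  rw [hsumP] at h1 h6
  rw [hcard] at h3 h4 h5 h6
  set η : ℝ := 2 * Real.sqrt (2 * (Λ * (Z.card * δ) / Δ)) with hη
  have hη0 : 0 ≤ η := by positivity
  have hpos : ∀ z (v : Conf (Site L) q → ℂ), 0 ≤ expv v (1 - P z) := fun z v =>
    expv_nonneg_of_psd (hP z).2.2.1 v
  refine ⟨P, E', Ω', fun z => ⟨(hP z).1, (hP z).2.1, (hP z).2.2.1⟩, h1, h2, h3, h4, ?_,
    gapped_double (by positivity) h1, ?_⟩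
  · intro ψ K hψ hK
    have h7 : ∑ z ∈ Z, expv ψ (1 - P z) ≤ K / Λ + Z.card * δ := by
      rw [← Finset.sum_coe_sort Z (fun z => expv ψ (1 - P z))]
      exact h6 ψ K hψ hK
    refine ⟨fun z => (3 * expv ψ (1 - P z) + 2 * Real.sqrt (expv ψ (1 - P z))) + η,
      fun z => by have := hpos z ψ; positivity, ?_, ?_⟩
    · intro z X hX
      have e1 := hPψ z ψ hψ X hX
      have e2 := h5 X
      have e3 : star ψ ⬝ᵥ (X *ᵥ ψ) - star Ω' ⬝ᵥ (X *ᵥ Ω') =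
          (star ψ ⬝ᵥ (X *ᵥ ψ) - star Ω ⬝ᵥ (X *ᵥ Ω)) -
            (star Ω' ⬝ᵥ (X *ᵥ Ω') - star Ω ⬝ᵥ (X *ᵥ Ω)) := by ring
      rw [e3]
      refine (norm_sub_le _ _).trans ?_
      rw [add_mul]
      exact add_le_add e1 e2
    · rw [Finset.sum_add_distrib, Finset.sum_const, nsmul_eq_mul]
      have e1 := det_dev_sum_finset Z (e := fun z => expv ψ (1 - P z))
        (x := fun z => 3 * expv ψ (1 - P z) + 2 * Real.sqrt (expv ψ (1 - P z)))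
        (fun z _ => hpos z ψ) (fun z _ => le_rfl) h7
      linarith
  · intro ψ K hψ hK
    set e1 : Site L → ℝ := fun z => expv ψ (cp1 (1 - P z) : Op (Site L ⊕ Site L) q) with he1
    set e2 : Site L → ℝ := fun z => expv ψ (cp2 (1 - P z) : Op (Site L ⊕ Site L) q) with he2
    have hp1 : ∀ z, 0 ≤ e1 z := fun z => cp1_expv_nonneg (hpos z) ψ
    have hp2 : ∀ z, 0 ≤ e2 z := fun z => cp2_expv_nonneg (hpos z) ψ
    have h7 := dbl_defect hΔ.le hΛ hΩ h3 Z (fun z => 1 - P z) hψ hK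
    have h71 : ∑ z ∈ Z, e1 z ≤ K / Λ + 2 * (Z.card * δ) := by
      refine le_trans (Finset.sum_le_sum fun z _ => ?_) h7
      have := hp2 z
      simp only [he1, he2] at this ⊢
      linarith
    have h72 : ∑ z ∈ Z, e2 z ≤ K / Λ + 2 * (Z.card * δ) := by
      refine le_trans (Finset.sum_le_sum fun z _ => ?_) h7
      have := hp1 z
      simp only [he1, he2] at this ⊢
      linarith
    refine ⟨fun z => (3 * e1 z + 2 * Real.sqrt (e1 z)) + η,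
      fun z => (3 * e2 z + 2 * Real.sqrt (e2 z)) + η,
      fun z => ⟨by have := hp1 z; positivity, by have := hp2 z; positivity⟩, ?_, ?_⟩
    · intro z X hX
      have b1 := det_copy1 (W := Site L) (norm_nonneg X) (hpos z)
        (fun φ hφ => hPψ z φ hφ X hX) ψ hψ
      have b2 := det_copy2 (V := Site L) (norm_nonneg X) (hpos z)
        (fun φ hφ => hPψ z φ hφ X hX) ψ hψ
      have b3 := h5 X
      constructor
      · have e3 : star ψ ⬝ᵥ ((cp1 X : Op (Site L ⊕ Site L) q) *ᵥ ψ) - star Ω' ⬝ᵥ (X *ᵥ Ω') =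
            (star ψ ⬝ᵥ ((cp1 X : Op (Site L ⊕ Site L) q) *ᵥ ψ) - star Ω ⬝ᵥ (X *ᵥ Ω)) -
              (star Ω' ⬝ᵥ (X *ᵥ Ω') - star Ω ⬝ᵥ (X *ᵥ Ω)) := by ring
        rw [e3]
        refine (norm_sub_le _ _).trans ?_
        rw [add_mul]
        exact add_le_add b1 b3
      · have e3 : star ψ ⬝ᵥ ((cp2 X : Op (Site L ⊕ Site L) q) *ᵥ ψ) - star Ω' ⬝ᵥ (X *ᵥ Ω') =
            (star ψ ⬝ᵥ ((cp2 X : Op (Site L ⊕ Site L) q) *ᵥ ψ) - star Ω ⬝ᵥ (X *ᵥ Ω)) -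
              (star Ω' ⬝ᵥ (X *ᵥ Ω') - star Ω ⬝ᵥ (X *ᵥ Ω)) := by ring
        rw [e3]
        refine (norm_sub_le _ _).trans ?_
        rw [add_mul]
        exact add_le_add b2 b3
    · have b1 := det_dev_sum_finset Z (e := e1)
        (x := fun z => 3 * e1 z + 2 * Real.sqrt (e1 z)) (fun z _ => hp1 z) (fun z _ => le_rfl)
        h71
      have b2 := det_dev_sum_finset Z (e := e2)
        (x := fun z => 3 * e2 z + 2 * Real.sqrt (e2 z)) (fun z _ => hp2 z) (fun z _ => le_rfl)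
        h72
      have c1 : ∑ z ∈ Z, ((3 * e1 z + 2 * Real.sqrt (e1 z)) + η) =
          ∑ z ∈ Z, (3 * e1 z + 2 * Real.sqrt (e1 z)) + Z.card * η := by
        rw [Finset.sum_add_distrib, Finset.sum_const, nsmul_eq_mul]
      have c2 : ∑ z ∈ Z, ((3 * e2 z + 2 * Real.sqrt (e2 z)) + η) =
          ∑ z ∈ Z, (3 * e2 z + 2 * Real.sqrt (e2 z)) + Z.card * η := by
        rw [Finset.sum_add_distrib, Finset.sum_const, nsmul_eq_mul]
      have c3 : ∑ z ∈ Z, (((3 * e1 z + 2 * Real.sqrt (e1 z)) + η) +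
          ((3 * e2 z + 2 * Real.sqrt (e2 z)) + η)) =
          ∑ z ∈ Z, ((3 * e1 z + 2 * Real.sqrt (e1 z)) + η) +
          ∑ z ∈ Z, ((3 * e2 z + 2 * Real.sqrt (e2 z)) + η) := Finset.sum_add_distrib
      rw [c3, c1, c2]
      linarith

end lattice2

end Vale.Agent.P356.GA
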