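import Vale.Agent.P356.GA.EntLow865
import Vale.Agent.P356.SA.DblEnt

/-!
# GA, block UPFIN: from closeness of the maximiser to the upper bound of the tilt functional
-/

set_option linter.all false

namespace Vale.Agent.P356.GA

open Matrix Finset Vale.Agent.P356 Vale.Agent.P356.SV Vale.Agent.P356.Path Vale.Agent.P356.NA
  Vale.Agent.P356.SA
open scoped BigOperators ComplexOrder Kronecker

section gap
variable {N : Type*} [Fintype N]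

/-- distance to the multiple given by the overlap -/
theorem nsq_sub_ip (ψ Φ : N → ℂ) (hΦ : nsq Φ = 1) :
    nsq (ψ - (star Φ ⬝ᵥ ψ) • Φ) = nsq ψ - ‖star Φ ⬝ᵥ ψ‖ ^ 2 := by
  have h := nsq_add ψ (-((star Φ ⬝ᵥ ψ) • Φ))
  rw [← sub_eq_add_neg] at h
  rw [h]
  have h1 : (star ψ ⬝ᵥ (-((star Φ ⬝ᵥ ψ) • Φ))).re = -‖star Φ ⬝ᵥ ψ‖ ^ 2 := by
    rw [dotProduct_neg, dotProduct_smul, smul_eq_mul, Complex.neg_re]
    have h2 : star ψ ⬝ᵥ Φ = star (star Φ ⬝ᵥ ψ) := by rw [star_dotProduct]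
    rw [h2, Complex.star_def, Complex.mul_conj, Complex.normSq_eq_norm_sq, Complex.ofReal_re]
  have h3 : nsq (-((star Φ ⬝ᵥ ψ) • Φ)) = ‖star Φ ⬝ᵥ ψ‖ ^ 2 := by
    have : -((star Φ ⬝ᵥ ψ) • Φ) = (-(star Φ ⬝ᵥ ψ)) • Φ := by rw [neg_smul]
    rw [this, nsq_smul, norm_neg, hΦ, mul_one]
  rw [h1, h3]
  ring

/-- small energy means close to the ground state, with a reference vector `Φ` close to it -/
theorem close_of_energy {H : Matrix N N ℂ} {Δ E η ε : ℝ} {Φ' Φ ψ : N → ℂ}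
    (hg : GappedGround H Δ E Φ') (hΔ : 0 < Δ) (hψ : nsq ψ = 1)
    (he : (star ψ ⬝ᵥ (H *ᵥ ψ)).re ≤ E + η) (hε : nrm (Φ' - Φ) ≤ ε) :
    ∃ c : ℂ, ‖c‖ ≤ 1 ∧ nrm (ψ - c • Φ) ≤ Real.sqrt (η / Δ) + ε := by
  obtain ⟨hn, -, hg⟩ := hg
  refine ⟨star Φ' ⬝ᵥ ψ, ?_, ?_⟩
  · have h := nrm_ip_le Φ' ψ
    rwa [nrm, nrm, hn, hψ, Real.sqrt_one, one_mul] at h
  have hc : ‖star Φ' ⬝ᵥ ψ‖ ≤ 1 := by
    have h := nrm_ip_le Φ' ψ
    rwa [nrm, nrm, hn, hψ, Real.sqrt_one, one_mul] at h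
  have h1 : nrm (ψ - (star Φ' ⬝ᵥ ψ) • Φ') ≤ Real.sqrt (η / Δ) := by
    rw [nrm]
    refine Real.sqrt_le_sqrt ?_
    rw [nsq_sub_ip ψ Φ' hn, le_div_iff₀ hΔ]
    have h2 := hg ψ
    rw [hψ] at h2 ⊢
    linarith
  have e : ψ - (star Φ' ⬝ᵥ ψ) • Φ = (ψ - (star Φ' ⬝ᵥ ψ) • Φ') + (star Φ' ⬝ᵥ ψ) • (Φ' - Φ) := by
    rw [smul_sub]
    abel
  rw [e]
  refine (nrm_add_le _ _).trans (add_le_add h1 ?_)
  have h3 : nrm ((star Φ' ⬝ᵥ ψ) • (Φ' - Φ)) = ‖star Φ' ⬝ᵥ ψ‖ * nrm (Φ' - Φ) := by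
    rw [nrm, nsq_smul, Real.sqrt_mul (sq_nonneg _), Real.sqrt_sq (norm_nonneg _)]
    rfl
  rw [h3]
  calc ‖star Φ' ⬝ᵥ ψ‖ * nrm (Φ' - Φ) ≤ 1 * nrm (Φ' - Φ) :=
        mul_le_mul_of_nonneg_right hc (nrm_nonneg _)
    _ ≤ ε := by rw [one_mul]; exact hε

end gap

section reg
variable {V : Type*} [Fintype V] [DecidableEq V] {q : ℕ}

/-- entropy of a region: `ψ` is not much smaller than the reference vector, clean form -/
theorem entropy_low_clean (A : Finset V) (ψ Φ : Conf V q → ℂ) (hψ : nsq ψ = 1) (hΦ : nsq Φ = 1)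
    (c : ℂ) (hc : ‖c‖ ≤ 1) {δ K₀ s : ℝ} (hδ : 0 ≤ δ) (hs : 0 ≤ s)
    (hd : nrm (ψ - c • Φ) ≤ δ) (hT : TailLe (rdm A Φ) K₀) :
    entropyOf A Φ ≤ entropyOf A ψ + ((4 * Real.exp (-s) + 2 * δ ^ 2) * entropyOf A Φ +
      ((4 + 2 * Real.sqrt K₀) * (2 + s) + s)) := by
  have hSΦ : 0 ≤ entropyOf A Φ := entropy_nonneg A Φ hΦ
  have hSψ : 0 ≤ entropyOf A ψ := entropy_nonneg A ψ hψ
  set b : ℝ := 4 + 2 * Real.sqrt K₀ with hb
  have hb4 : 4 ≤ b := by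
    have := Real.sqrt_nonneg K₀
    rw [hb]; linarith
  have hlog6 : Real.log 6 ≤ 2 := by
    have h1 : (6 : ℝ) ≤ Real.exp 2 := by
      have h2 := Real.exp_one_gt_d9
      have h3 : Real.exp 2 = Real.exp 1 * Real.exp 1 := by rw [← Real.exp_add]; norm_num
      rw [h3]
      nlinarith
    rw [Real.log_le_iff_le_exp (by norm_num)]
    exact h1
  have hlog60 : 0 ≤ Real.log 6 := Real.log_nonneg (by norm_num)
  -- the choice of `u`
  set u : ℝ := b * (Real.log 6 + s) with hu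
  have hu0 : 0 ≤ u := by positivity
  have e1 : 6 * Real.exp (-(u / b)) = Real.exp (-s) := by
    have h1 : u / b = Real.log 6 + s := by
      rw [hu]; field_simp
    rw [h1, neg_add, Real.exp_add, Real.exp_neg, Real.exp_log (by norm_num)]
    ring
  have hub : u ≤ b * (2 + s) := by
    rw [hu]
    exact mul_le_mul_of_nonneg_left (by linarith) (by linarith)
  set κ : ℝ := Real.sqrt (6 * Real.exp (-(u / b)) + Real.exp (-s)) + δ with hκ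
  have hκ0 : 0 ≤ κ := by positivity
  have hκ2 : κ ^ 2 ≤ 4 * Real.exp (-s) + 2 * δ ^ 2 := by
    have h1 : Real.sqrt (6 * Real.exp (-(u / b)) + Real.exp (-s)) ^ 2 = 2 * Real.exp (-s) := by
      rw [Real.sq_sqrt (by positivity), e1]; ring
    rw [hκ]
    nlinarith [sq_nonneg (Real.sqrt (6 * Real.exp (-(u / b)) + Real.exp (-s)) - δ)]
  by_cases hk1 : κ ≤ 1
  · have h := entropyOf_low A ψ Φ hψ c hc hd hu0 hT (s := s) hk1
    have h2 : (1 - κ ^ 2) * (entropyOf A Φ - u - s) ≤ entropyOf A ψ := h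
    have h3 : κ ^ 2 * entropyOf A Φ ≤ (4 * Real.exp (-s) + 2 * δ ^ 2) * entropyOf A Φ :=
      mul_le_mul_of_nonneg_right hκ2 hSΦ
    have h4 : 0 ≤ κ ^ 2 * (u + s) := mul_nonneg (sq_nonneg _) (add_nonneg hu0 hs)
    have h5 : (1 - κ ^ 2) * (entropyOf A Φ - u - s) =
        entropyOf A Φ - κ ^ 2 * entropyOf A Φ - (u + s) + κ ^ 2 * (u + s) := by ring
    linarith
  · have h1 : 1 ≤ κ ^ 2 := by
      push Not at hk1
      nlinarith
    have h2 : entropyOf A Φ ≤ (4 * Real.exp (-s) + 2 * δ ^ 2) * entropyOf A Φ := by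
      have := mul_le_mul_of_nonneg_right (h1.trans hκ2) hSΦ
      linarith
    have h3 : 0 ≤ b * (2 + s) + s :=
      add_nonneg (mul_nonneg (by linarith) (by linarith)) hs
    linarith

end reg

end Vale.Agent.P356.GA
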