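import Vale.Agent.P356.GA.TiltB412
import Vale.Agent.P356.GA.UpFin551
import Vale.Agent.P356.GA.DIDef960
import Vale.Agent.P356.GA.Fannes686
import Vale.Agent.P356.GA.DblGap932
import Vale.Agent.P356.SA.Decouple

/-!
# GA, block DI-ASM (helper178): from the energy theorem to the doubled inequality

* `Ecut P Q` : the cut of the doubled lattice, everything outside `P` in the first copy and `Q` in
  the second copy.
* `core_ineq` : the doubled inequality at one scale, from the closeness of the tilted states.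
* `EnProp` : the interface of the energy theorem.
* `di_of_en` : `EnProp → DI`.
-/

set_option linter.all false

namespace Vale.Agent.P356.GA

open Matrix Finset Vale.Agent.P356 Vale.Agent.P356.SV Vale.Agent.P356.Path Vale.Agent.P356.NA
  Vale.Agent.P356.SA
open scoped BigOperators ComplexOrder Kronecker Matrix.Norms.L2Operator

section cuts
variable {V : Type} [Fintype V] [DecidableEq V] {q : ℕ}

/-- the outer region of the doubled lattice: first copy outside `P`, second copy inside `Q` -/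
def Ecut (P Q : Finset V) : Finset (V ⊕ V) := Pᶜ.disjSum Q

theorem Ecut_anti {P P' Q Q' : Finset V} (hP : P ⊆ P') (hQ : Q' ⊆ Q) : Ecut P' Q' ⊆ Ecut P Q := by
  intro y hy
  rw [Ecut, Finset.mem_disjSum] at hy ⊢
  rcases hy with ⟨x, hx, rfl⟩ | ⟨x, hx, rfl⟩
  · exact Or.inl ⟨x, Finset.mem_compl.mpr fun h => Finset.mem_compl.mp hx (hP h), rfl⟩
  · exact Or.inr ⟨x, hQ hx, rfl⟩

theorem Ecut_ful {M P Q : Finset V} (hP : P ⊆ M) (hQ : M ⊆ Q) : Ful M (Ecut P Q) := by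
  intro x
  rw [ixB]
  split_ifs with h
  · rw [Ecut, Finset.inr_mem_disjSum]
    exact hQ h
  · rw [Ecut, Finset.inl_mem_disjSum, Finset.mem_compl]
    exact fun h' => h (hP h')

theorem Ecut_wr {M P Q : Finset V} (hP : P ⊆ M) (hQ : M ⊆ Q) : Wr M (Ecut P Q) = Q \ P := by
  ext x
  rw [mem_Wr, ixA, Finset.mem_sdiff]
  split_ifs with h
  · rw [Ecut, Finset.inl_mem_disjSum, Finset.mem_compl]
    exact ⟨fun h' => ⟨hQ h, h'⟩, fun h' => h'.2⟩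
  · rw [Ecut, Finset.inr_mem_disjSum]
    exact ⟨fun h' => ⟨h', fun h'' => h (hP h'')⟩, fun h' => h'.1⟩

theorem Ecut_card (P Q : Finset V) : ((Ecut P Q).card : ℝ) ≤ 2 * Fintype.card V := by
  rw [Ecut, Finset.card_disjSum]
  have h1 := Finset.card_le_univ Pᶜ
  have h2 := Finset.card_le_univ Q
  have : (Pᶜ.card + Q.card : ℕ) ≤ 2 * Fintype.card V := by omega
  exact_mod_cast this

theorem Ecut_entropy (P Q : Finset V) {Φ : Conf V q → ℂ} (hΦ : nsq Φ = 1) :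
    entropyOf (Ecut P Q) (dbl Φ Φ) = entropyOf P Φ + entropyOf Q Φ := by
  rw [Ecut, entropy_dbl _ _ hΦ hΦ, entropy_compl P Φ hΦ]

theorem Ecut_tail (P Q : Finset V) {Φ : Conf V q → ℂ} (hΦ : nsq Φ = 1)
    {κ : ℝ} (hκ : 0 ≤ κ) {bd : Finset V → ℕ} (hbd : ∀ A, bd Aᶜ ≤ bd A)
    (hT : ∀ A : Finset V, TailLe (rdm A Φ) (κ * bd A)) :
    TailLe (rdm (Ecut P Q) (dbl Φ Φ))
      ((10 + 6 * Real.sqrt (κ * ((bd P : ℝ) + bd Q))) ^ 2) := by
  refine tail_dbl _ _ hΦ hΦ (by positivity) ?_ ?_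
  · refine na_k_tail_mono ?_ (hT Pᶜ)
    refine mul_le_mul_of_nonneg_left ?_ hκ
    have h1 : (bd Pᶜ : ℝ) ≤ bd P := by exact_mod_cast hbd P
    have h2 : (0 : ℝ) ≤ bd Q := Nat.cast_nonneg _
    linarith
  · refine na_k_tail_mono ?_ (hT Q)
    refine mul_le_mul_of_nonneg_left ?_ hκ
    have h2 : (0 : ℝ) ≤ bd P := Nat.cast_nonneg _
    linarith

/-- the error of the entropy comparison for a cut with `b` boundary edges -/
noncomputable def eErr (κ s b : ℝ) : ℝ :=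
  (4 + 2 * (10 + 6 * Real.sqrt (κ * b))) * (2 + s) + s

theorem eErr_nonneg {κ s b : ℝ} (hs : 0 ≤ s) : 0 ≤ eErr κ s b := by
  rw [eErr]
  positivity

/-- entropy of a cut of the doubled lattice, in a state close to the doubled ground state -/
theorem cut_low {Ω Ω' : Conf V q → ℂ} (hΩ : nsq Ω = 1) (hΩ' : nsq Ω' = 1) {κ : ℝ}
    (hκ : 0 ≤ κ) {bd : Finset V → ℕ} (hbd : ∀ A, bd Aᶜ ≤ bd A)
    (hT : ∀ A : Finset V, TailLe (rdm A Ω) (κ * bd A))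
    (P Q : Finset V) {ψ : Conf (V ⊕ V) q → ℂ} (hψ : nsq ψ = 1) {a : ℂ}
    (ha : ‖a‖ ≤ 1) {δ₁ δ₂ s : ℝ} (h1 : nrm (ψ - a • dbl Ω' Ω') ≤ δ₁) (h2 : nrm (Ω' - Ω) ≤ δ₂)
    (hs : 0 ≤ s) :
    (1 - (4 * Real.exp (-s) + 2 * (δ₁ + 2 * δ₂) ^ 2)) * (entropyOf P Ω + entropyOf Q Ω) -
      eErr κ s ((bd P : ℝ) + bd Q) ≤ entropyOf (Ecut P Q) ψ := by
  have hδ1 : 0 ≤ δ₁ := (nrm_nonneg _).trans h1
  have hδ2 : 0 ≤ δ₂ := (nrm_nonneg _).trans h2
  have hd : nrm (ψ - a • dbl Ω Ω) ≤ δ₁ + 2 * δ₂ := by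
    have e : ψ - a • dbl Ω Ω = (ψ - a • dbl Ω' Ω') + a • (dbl Ω' Ω' - dbl Ω Ω) := by
      rw [smul_sub]; abel
    rw [e]
    refine (nrm_add_le _ _).trans (add_le_add h1 ?_)
    rw [nrm_smul]
    have h3 : nrm (dbl Ω' Ω' - dbl Ω Ω) ≤ 2 * δ₂ := by
      have h4 := dg_close (Ω₁ := Ω') (Ω₂ := Ω) (Φ₁ := Ω') (Φ₂ := Ω) hΩ' hΩ
      linarith
    calc ‖a‖ * nrm (dbl Ω' Ω' - dbl Ω Ω) ≤ 1 * (2 * δ₂) :=
          mul_le_mul ha h3 (nrm_nonneg _) zero_le_one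
      _ = _ := one_mul _
  have hΩ2 : nsq (dbl Ω Ω) = 1 := by rw [nsq_dbl, hΩ, one_mul]
  have h := entropy_low_clean (Ecut P Q) ψ (dbl Ω Ω) hψ hΩ2 a ha
    (add_nonneg hδ1 (mul_nonneg (by norm_num) hδ2)) hs hd
    (Ecut_tail P Q hΩ hκ hbd hT)
  have h0 : (0 : ℝ) ≤ 10 + 6 * Real.sqrt (κ * ((bd P : ℝ) + bd Q)) :=
    add_nonneg (by norm_num) (mul_nonneg (by norm_num) (Real.sqrt_nonneg _))
  rw [Ecut_entropy P Q hΩ, Real.sqrt_sq h0] at h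
  rw [eErr]
  linarith

theorem pow_exp_le_one (hq : 1 ≤ q) {m n : ℕ} (hm : (m : ℝ) ≤ n) {Mc : ℝ}
    (hMc : n * Real.log q ≤ Mc) : (q : ℝ) ^ m * Real.exp (-Mc) ≤ 1 := by
  have hq0 : (0 : ℝ) < q := by exact_mod_cast hq
  have hl : 0 ≤ Real.log q := Real.log_nonneg (by exact_mod_cast hq)
  have h1 : (q : ℝ) ^ m = Real.exp (m * Real.log q) := by
    rw [mul_comm, Real.exp_mul, Real.exp_log hq0, Real.rpow_natCast]
  rw [h1, ← Real.exp_add, Real.exp_le_one_iff]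
  have h2 : (m : ℝ) * Real.log q ≤ n * Real.log q := mul_le_mul_of_nonneg_right hm hl
  linarith

/-- **The doubled inequality at one scale**, from the closeness of the tilted states to the ground
state and the bound for the healing generator. -/
theorem core_ineq (hq : 1 ≤ q) {Ω Ω' : Conf V q → ℂ} (hΩ : nsq Ω = 1) (hΩ' : nsq Ω' = 1)
    {κ : ℝ} (hκ : 0 ≤ κ) {bd : Finset V → ℕ} (hbd : ∀ A, bd Aᶜ ≤ bd A)
    (hT : ∀ A : Finset V, TailLe (rdm A Ω) (κ * bd A))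
    (P Q : ℕ → Finset V) (M : Finset V) {n : ℕ} (hn : 1 ≤ n)
    (hPM : ∀ k, k < n → P k ⊆ M) (hMQ : ∀ k, k < n → M ⊆ Q k)
    (hP : ∀ j k, j ≤ k → P j ⊆ P k) (hQ : ∀ j k, j ≤ k → Q k ⊆ Q j)
    {U : ℝ} (hU : 0 < U) {M₀ B ε τ₀ δ₁ δ₂ s f G : ℝ} {Γ₁ Γ₂ : Op V q}
    (h1 : ActsOn M Γ₁) (h2 : ActsOn Mᶜ Γ₂) (hΓ : (Γ₁ + Γ₂).IsHermitian) (hB : ‖Γ₁ + Γ₂‖ ≤ B)
    (hε : 0 < ε) (hε1 : ε ≤ 1) (hτ : 1 + 2 / ε ≤ Real.cosh τ₀) (hτ0 : 0 ≤ τ₀)
    (hEN : ∀ Mc : ℝ, M₀ ≤ Mc → ∀ τ : ℝ, |τ| ≤ τ₀ → ∀ t : ℝ, 0 < t → t ≤ 1 →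
      ∀ ψ : Conf (V ⊕ V) q → ℂ,
      TState (fun k => cut (Ecut (P k) (Q k)) q) (fun _ => U / n) Mc
        (cp1 Γ₁ + cp2 Γ₂ : Op (V ⊕ V) q) (dbl Ω' Ω') (1 + τ * Complex.I) n t ψ →
      (∃ a : ℂ, ‖a‖ ≤ 1 ∧ nrm (ψ - a • dbl Ω' Ω') ≤ δ₁) ∧
      ((1 + τ * Complex.I) * FT (fun k => cut (Ecut (P k) (Q k)) q) ψ
        (gL (fun k => cut (Ecut (P k) (Q k)) q) ψ (fun _ => U / n) Mc) n
        (cp1 Γ₁ + cp2 Γ₂ : Op (V ⊕ V) q) (fun _ => (t : ℂ) * (1 + τ * Complex.I))).re ≤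
        (star Ω' ⬝ᵥ ((Γ₁ + Γ₂) *ᵥ Ω')).re + G)
    (hc : nrm (Ω' - Ω) ≤ δ₂) (hs : 0 ≤ s)
    (hf : ∀ k, k < n → entropyOf (Q k \ P k) Ω' ≤ entropyOf (Q k \ P k) Ω + f)
    (hfM : entropyOf M Ω' ≤ entropyOf M Ω + f) :
    (1 - (4 * Real.exp (-s) + 2 * (δ₁ + 2 * δ₂) ^ 2)) *
        ∑ k ∈ range n, (entropyOf (P k) Ω + entropyOf (Q k) Ω) ≤
      (1 + ε) * ∑ k ∈ range n, entropyOf (Q k \ P k) Ω +
        ∑ k ∈ range n, eErr κ s ((bd (P k) : ℝ) + bd (Q k)) +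
        n * ((1 + ε) * f + ((1 + ε) * (entropyOf M Ω + f) + G + 2 * ε * B) / U + 1) := by
  have hn0 : (0 : ℝ) < n := by exact_mod_cast hn
  set θ : ℝ := U / n with hθ
  have hθ0 : 0 < θ := div_pos hU hn0
  set η : ℝ := 4 * Real.exp (-s) + 2 * (δ₁ + 2 * δ₂) ^ 2 with hη
  have hlq : 0 ≤ Real.log q := Real.log_nonneg (by exact_mod_cast hq)
  set Mc : ℝ := max M₀ ((2 * Fintype.card V : ℕ) * Real.log q) with hMc
  have hMc0 : 0 ≤ Mc := le_trans (mul_nonneg (Nat.cast_nonneg _) hlq) (le_max_right _ _)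
  set g : ℝ := (star Ω' ⬝ᵥ ((Γ₁ + Γ₂) *ᵥ Ω')).re with hg
  have hgB : |g| ≤ B := by
    have h := expv_abs_le Ω' (Γ₁ + Γ₂)
    rw [hΩ', mul_one] at h
    exact h.trans hB
  set C : ℝ := -(θ * ∑ k ∈ range n, ((1 - η) * (entropyOf (P k) Ω + entropyOf (Q k) Ω) -
    eErr κ s ((bd (P k) : ℝ) + bd (Q k)))) + g + G with hC
  have hmain := tilt_stepB M (fun k => Ecut (P k) (Q k))
    (fun j k hjk => Ecut_anti (hP j k hjk) (hQ j k hjk)) n
    (fun k hk => Ecut_ful (hPM k hk) (hMQ k hk)) (θ := fun _ => θ) (fun _ => hθ0) hMc0 h1 h2 hΓ hB hΩ'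
    hε hε1 hτ hτ0 C (by
      intro τ hτ' t ht0 ht1 ψ hψ
      obtain ⟨⟨a, ha, hd⟩, hre⟩ := hEN Mc (le_max_left _ _) τ hτ' t ht0 ht1 ψ hψ
      have hψ1 : nsq ψ = 1 := hψ.1
      have hsum : θ * ∑ k ∈ range n, ((1 - η) * (entropyOf (P k) Ω + entropyOf (Q k) Ω) -
          eErr κ s ((bd (P k) : ℝ) + bd (Q k))) ≤
          ∑ k ∈ range n, θ * entropyOf (Ecut (P k) (Q k)) ψ := by
        rw [Finset.mul_sum]
        refine Finset.sum_le_sum fun k _ => mul_le_mul_of_nonneg_left ?_ hθ0.le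
        exact cut_low hΩ hΩ' hκ hbd hT (P k) (Q k) hψ1 ha hd hc hs
      rw [hC]
      linarith)
  have hpen : ∑ k ∈ range n, θ * ((q : ℝ) ^ (Ecut (P k) (Q k)).card * Real.exp (-Mc)) ≤
      n * θ := by
    calc _ ≤ ∑ k ∈ range n, θ * 1 := by
          refine Finset.sum_le_sum fun k _ => mul_le_mul_of_nonneg_left ?_ hθ0.le
          refine pow_exp_le_one hq (n := 2 * Fintype.card V) ?_ (le_max_right _ _)
          have := Ecut_card (P k) (Q k)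
          push_cast
          exact this
      _ = _ := by rw [Finset.sum_const, card_range, nsmul_eq_mul, mul_one]
  have hwr : ∑ k ∈ range n, θ * entropyOf (Wr M (Ecut (P k) (Q k))) Ω' ≤
      θ * (∑ k ∈ range n, entropyOf (Q k \ P k) Ω + n * f) := by
    have e : (n : ℝ) * f = ∑ k ∈ range n, f := by
      rw [Finset.sum_const, card_range, nsmul_eq_mul]
    rw [e, ← Finset.sum_add_distrib, Finset.mul_sum]
    refine Finset.sum_le_sum fun k hk => mul_le_mul_of_nonneg_left ?_ hθ0.le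
    have hk' := Finset.mem_range.mp hk
    rw [Ecut_wr (hPM k hk') (hMQ k hk')]
    exact hf k hk'
  have hεg : -(ε * g) ≤ ε * B := by
    have := mul_le_mul_of_nonneg_left (abs_le.mp hgB).1 hε.le
    linarith
  have e1 : ∑ k ∈ range n, ((1 - η) * (entropyOf (P k) Ω + entropyOf (Q k) Ω) -
      eErr κ s ((bd (P k) : ℝ) + bd (Q k))) =
      (1 - η) * ∑ k ∈ range n, (entropyOf (P k) Ω + entropyOf (Q k) Ω) -
      ∑ k ∈ range n, eErr κ s ((bd (P k) : ℝ) + bd (Q k)) := by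
    rw [Finset.sum_sub_distrib, Finset.mul_sum]
  rw [e1] at hC
  set A1 := ∑ k ∈ range n, (entropyOf (P k) Ω + entropyOf (Q k) Ω) with hA1
  set A2 := ∑ k ∈ range n, eErr κ s ((bd (P k) : ℝ) + bd (Q k)) with hA2
  set A3 := ∑ k ∈ range n, entropyOf (Q k \ P k) Ω with hA3
  have hkey : θ * ((1 - η) * A1) ≤ θ * A2 + (1 + ε) * (θ * (A3 + n * f) + (entropyOf M Ω + f)) +
      G + 2 * ε * B + n * θ := by
    have h3 : (1 + ε) * (∑ k ∈ range n, θ * entropyOf (Wr M (Ecut (P k) (Q k))) Ω' +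
        entropyOf M Ω') ≤ (1 + ε) * (θ * (A3 + n * f) + (entropyOf M Ω + f)) :=
      mul_le_mul_of_nonneg_left (add_le_add hwr hfM) (by linarith)
    have h4 : 0 ≤ C + ((1 + ε) * (∑ k ∈ range n, θ * entropyOf (Wr M (Ecut (P k) (Q k))) Ω' +
        entropyOf M Ω') - (1 + ε) * g + ε * B) +
        ∑ k ∈ range n, θ * ((q : ℝ) ^ (Ecut (P k) (Q k)).card * Real.exp (-Mc)) := by
      have e2 : (1 + ε) * (∑ k ∈ range n, θ * entropyOf (Wr M (Ecut (P k) (Q k))) Ω' +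
          entropyOf M Ω' - g) = (1 + ε) * (∑ k ∈ range n, θ * entropyOf (Wr M (Ecut (P k) (Q k))) Ω' +
          entropyOf M Ω') - (1 + ε) * g := by ring
      rw [e2] at hmain
      linarith
    rw [hC] at h4
    have e3 : (1 + ε) * g = g + ε * g := by ring
    rw [e3] at h4
    have e4 : θ * ((1 - η) * A1 - A2) = θ * ((1 - η) * A1) - θ * A2 := by ring
    rw [e4] at h4
    linarith
  have hθn : θ * n = U := by rw [hθ]; field_simp
  have e5 : θ * ((1 + ε) * A3 + A2 + n * ((1 + ε) * f + ((1 + ε) * (entropyOf M Ω + f) + G +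
      2 * ε * B) / U + 1)) =
      θ * A2 + (1 + ε) * (θ * (A3 + n * f) + (entropyOf M Ω + f)) + G + 2 * ε * B + n * θ := by
    have e6 : θ * (n * ((1 + ε) * f + ((1 + ε) * (entropyOf M Ω + f) + G + 2 * ε * B) / U + 1)) =
        θ * n * ((1 + ε) * f + 1) + ((1 + ε) * (entropyOf M Ω + f) + G + 2 * ε * B) := by
      have e7 : θ * (n * ((1 + ε) * f + ((1 + ε) * (entropyOf M Ω + f) + G + 2 * ε * B) / U + 1)) =
          (θ * n) * ((1 + ε) * f + 1) +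
            (θ * n) * (((1 + ε) * (entropyOf M Ω + f) + G + 2 * ε * B) / U) := by ring
      rw [e7, hθn]
      congr 1
      field_simp
    rw [mul_add, e6]
    ring
  refine le_of_mul_le_mul_left ?_ hθ0
  rw [e5]
  exact hkey

end cuts

end Vale.Agent.P356.GA
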