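import Vale.Agent.P356.GA.Detect939

/-!
The ground state of `H + D` for a gapped `H` and a nonnegative `D` of small expectation.
-/

set_option linter.all false

namespace Vale.Agent.P356.GA

open Matrix Finset Vale.Agent.P356 Vale.Agent.P356.SV Vale.Agent.P356.Path Vale.Agent.P356.PH
open scoped BigOperators ComplexOrder Kronecker Matrix.Norms.L2Operator

section pert185
variable {N : Type*} [Fintype N] [DecidableEq N]

/-- eigenvector coordinates of a Hermitian matrix -/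
theorem herm_coords185 {H : Matrix N N ℂ} (hH : H.IsHermitian) :
    ∃ (u : N → N → ℂ) (l : N → ℝ), (∀ i, nsq (u i) = 1) ∧ (∀ i, H *ᵥ u i = (l i : ℂ) • u i) ∧
      (∀ i j, i ≠ j → star (u i) ⬝ᵥ u j = 0) ∧
      (∀ φ : N → ℂ, (star φ ⬝ᵥ (H *ᵥ φ)).re = ∑ i, l i * ‖star (u i) ⬝ᵥ φ‖ ^ 2) ∧
      (∀ φ : N → ℂ, nsq φ = ∑ i, ‖star (u i) ⬝ᵥ φ‖ ^ 2) := by
  classical
  set U : Matrix N N ℂ := (hH.eigenvectorUnitary : Matrix N N ℂ) with hU
  have hU1 : U * Uᴴ = 1 := by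
    have := hH.eigenvectorUnitary.2
    rw [Matrix.mem_unitaryGroup_iff] at this
    exact this
  have hU2 : Uᴴ * U = 1 := mul_eq_one_comm.mp hU1
  have hd : Uᴴ * H * U = diagonal (fun i => (hH.eigenvalues i : ℂ)) := by
    have := hH.conjStarAlgAut_star_eigenvectorUnitary
    rw [Unitary.conjStarAlgAut_star_apply] at this
    exact this
  have hcol : ∀ i, H *ᵥ (U *ᵥ Pi.single i 1) =
      (hH.eigenvalues i : ℂ) • (U *ᵥ Pi.single i 1) := by
    intro i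
    have h1 : H * U = U * diagonal (fun i => (hH.eigenvalues i : ℂ)) := by
      rw [← hd, ← Matrix.mul_assoc, ← Matrix.mul_assoc, hU1, Matrix.one_mul]
    rw [mulVec_mulVec, h1, ← mulVec_mulVec, ← mulVec_smul]
    congr 1
    funext j
    rw [mulVec_diagonal]
    by_cases hj : j = i
    · subst hj
      simp
    · simp [Pi.single_eq_of_ne hj]
  have hin : ∀ (i : N) (φ : N → ℂ), star (U *ᵥ Pi.single i (1 : ℂ)) ⬝ᵥ φ = (Uᴴ *ᵥ φ) i := by
    intro i φ
    rw [star_mulVec, ← dotProduct_mulVec]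
    simp
  have hort : ∀ i j, star (U *ᵥ Pi.single i (1 : ℂ)) ⬝ᵥ (U *ᵥ Pi.single j 1) =
      if i = j then 1 else 0 := by
    intro i j
    rw [hin, mulVec_mulVec, hU2, one_mulVec, Pi.single_apply]
  refine ⟨fun i => U *ᵥ Pi.single i 1, hH.eigenvalues, fun i => ?_, hcol, fun i j hij => ?_,
    fun φ => ?_, fun φ => ?_⟩
  · rw [← ip_self_re, hort, if_pos rfl, Complex.one_re]
  · rw [hort, if_neg hij]
  · have hH2 : H = U * diagonal (fun i => (hH.eigenvalues i : ℂ)) * Uᴴ := by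
      rw [← hd]
      calc H = (U * Uᴴ) * H * (U * Uᴴ) := by rw [hU1, Matrix.one_mul, Matrix.mul_one]
        _ = _ := by simp only [Matrix.mul_assoc]
    have h1 : star φ ⬝ᵥ (H *ᵥ φ) =
        star (Uᴴ *ᵥ φ) ⬝ᵥ (diagonal (fun i => (hH.eigenvalues i : ℂ)) *ᵥ (Uᴴ *ᵥ φ)) := by
      conv_lhs => rw [hH2]
      rw [← mulVec_mulVec, ← mulVec_mulVec, star_mulVec, conjTranspose_conjTranspose,
        ← dotProduct_mulVec]
    rw [h1, dotProduct, Complex.re_sum]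
    refine Finset.sum_congr rfl fun i _ => ?_
    rw [mulVec_diagonal, Pi.star_apply, mul_left_comm, Complex.star_def,
      Complex.conj_mul', ← Complex.ofReal_pow, ← Complex.ofReal_mul, Complex.ofReal_re, hin]
  · have h1 : star (Uᴴ *ᵥ φ) ⬝ᵥ (Uᴴ *ᵥ φ) = star φ ⬝ᵥ φ := by
      rw [star_mulVec, conjTranspose_conjTranspose, ← dotProduct_mulVec, mulVec_mulVec, hU1,
        one_mulVec]
    have h2 := ip_self_re (Uᴴ *ᵥ φ)
    rw [h1, ip_self_re] at h2
    rw [h2]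
    exact Finset.sum_congr rfl fun i _ => by rw [hin]

/-- in the span of two vectors there is a unit vector orthogonal to a given one -/
theorem exists_orth185 (u v Ω : N → ℂ) (hu : nsq u = 1) (hv : nsq v = 1)
    (huv : star u ⬝ᵥ v = 0) :
    ∃ a b : ℂ, ‖a‖ ^ 2 + ‖b‖ ^ 2 = 1 ∧ star Ω ⬝ᵥ (a • u + b • v) = 0 := by
  set x : ℂ := star Ω ⬝ᵥ u with hx
  set y : ℂ := star Ω ⬝ᵥ v with hy
  by_cases h0 : x = 0
  · refine ⟨1, 0, by simp, ?_⟩
    rw [dotProduct_add, dotProduct_smul, dotProduct_smul, ← hx, h0]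
    simp
  · have hr : 0 < ‖x‖ ^ 2 + ‖y‖ ^ 2 := by
      have : 0 < ‖x‖ := norm_pos_iff.2 h0
      positivity
    set r : ℝ := Real.sqrt (‖x‖ ^ 2 + ‖y‖ ^ 2) with hrr
    have hr1 : 0 < r := Real.sqrt_pos.2 hr
    have hr2 : r ^ 2 = ‖x‖ ^ 2 + ‖y‖ ^ 2 := Real.sq_sqrt hr.le
    refine ⟨y / r, -x / r, ?_, ?_⟩
    · rw [norm_div, norm_div, norm_neg, Complex.norm_real, Real.norm_of_nonneg hr1.le, div_pow,
        div_pow, ← add_div, hr2, add_comm, div_self hr.ne']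
    · rw [dotProduct_add, dotProduct_smul, dotProduct_smul, ← hx, ← hy]
      simp only [smul_eq_mul]
      ring

/-- the ground state of `H + D` -/
theorem gapped_perturb {H D : Matrix N N ℂ} {Δ E δ : ℝ} {Ω : N → ℂ} (hH : H.IsHermitian)
    (hG : GappedGround H Δ E Ω) (hD : D.IsHermitian) (hDp : ∀ v : N → ℂ, 0 ≤ expv v D)
    (hδ : expv Ω D ≤ δ) (hδΔ : δ < Δ) :
    ∃ (E' : ℝ) (Ω' : N → ℂ), GappedGround (H + D) (Δ - δ) E' Ω' ∧ E ≤ E' ∧ E' ≤ E + δ ∧
      1 - ‖star Ω ⬝ᵥ Ω'‖ ^ 2 ≤ δ / Δ ∧ nsq (Ω' - Ω) ≤ 2 * (δ / Δ) := by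
  classical
  have hδ0 : 0 ≤ δ := (hDp Ω).trans hδ
  have hΔ : 0 < Δ := lt_of_le_of_lt hδ0 hδΔ
  obtain ⟨u, l, hu1, hu2, hu3, hu4, hu5⟩ := herm_coords185 (hH.add hD)
  -- the form of H + D
  have hform : ∀ v : N → ℂ, (star v ⬝ᵥ ((H + D) *ᵥ v)).re = expv v H + expv v D := fun v => by
    rw [add_mulVec, dotProduct_add, Complex.add_re, expv, expv]
  have hlow : ∀ v : N → ℂ, E * nsq v + Δ * (nsq v - ‖star Ω ⬝ᵥ v‖ ^ 2) ≤
      (star v ⬝ᵥ ((H + D) *ᵥ v)).re := fun v => by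
    have h1 := hG.2.2 v
    rw [hform, expv]
    have h2 := hDp v
    linarith
  -- eigenvalues
  have hl : ∀ i, (star (u i) ⬝ᵥ ((H + D) *ᵥ u i)).re = l i := fun i => by
    rw [hu2 i, dotProduct_smul, ip_self, hu1 i]
    simp
  have hne : (Finset.univ : Finset N).Nonempty := by
    by_contra hemp
    rw [Finset.not_nonempty_iff_eq_empty] at hemp
    have h1 := hG.1
    rw [nsq, hemp, Finset.sum_empty] at h1
    exact zero_ne_one h1
  obtain ⟨i0, _, hi0⟩ := Finset.exists_min_image Finset.univ l hne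
  have hE'le : l i0 ≤ E + δ := by
    have h1 : (star Ω ⬝ᵥ ((H + D) *ᵥ Ω)).re ≤ E + δ := by
      rw [hform]
      have h2 : expv Ω H = E := by
        rw [expv, hG.2.1, dotProduct_smul, ip_self, hG.1]
        simp
      rw [h2]
      linarith
    rw [hu4 Ω] at h1
    have h3 : l i0 = ∑ i, l i0 * ‖star (u i) ⬝ᵥ Ω‖ ^ 2 := by
      rw [← Finset.mul_sum, ← hu5 Ω, hG.1, mul_one]
    have h4 : ∑ i, l i0 * ‖star (u i) ⬝ᵥ Ω‖ ^ 2 ≤ ∑ i, l i * ‖star (u i) ⬝ᵥ Ω‖ ^ 2 :=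
      Finset.sum_le_sum fun i _ => mul_le_mul_of_nonneg_right (hi0 i (Finset.mem_univ i))
        (sq_nonneg _)
    linarith
  have hEle : ∀ i, E ≤ l i := fun i => by
    have h1 := hlow (u i)
    rw [hl i, hu1 i, mul_one] at h1
    have h2 : ‖star Ω ⬝ᵥ u i‖ ^ 2 ≤ 1 := by
      have h3 := pow_le_pow_left₀ (norm_nonneg _) (nrm_ip_le Ω (u i)) 2
      rw [mul_pow, nrm_sq, nrm_sq, hG.1, hu1 i, one_mul] at h3
      exact h3
    have h4 : 0 ≤ Δ * (1 - ‖star Ω ⬝ᵥ u i‖ ^ 2) := mul_nonneg hΔ.le (by linarith)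
    linarith
  -- the other eigenvalues
  have hother : ∀ i, i ≠ i0 → E + Δ ≤ l i := by
    intro i hi
    obtain ⟨a, b, hab, horth⟩ := exists_orth185 (u i0) (u i) Ω (hu1 i0) (hu1 i)
      (hu3 i0 i (Ne.symm hi))
    set w : N → ℂ := a • u i0 + b • u i with hw
    have hc : ∀ j, star (u j) ⬝ᵥ w = (if j = i0 then a else 0) + (if j = i then b else 0) := by
      intro j
      rw [hw, dotProduct_add, dotProduct_smul, dotProduct_smul]
      congr 1
      · by_cases h1 : j = i0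
        · rw [if_pos h1, h1, ip_self, hu1 i0]; simp
        · rw [if_neg h1, hu3 j i0 h1]; simp
      · by_cases h1 : j = i
        · rw [if_pos h1, h1, ip_self, hu1 i]; simp
        · rw [if_neg h1, hu3 j i h1]; simp
    have hsum : ∀ f : N → ℝ, ∑ j, f j * ‖star (u j) ⬝ᵥ w‖ ^ 2 = f i0 * ‖a‖ ^ 2 + f i * ‖b‖ ^ 2 := by
      intro f
      have h1 : ∀ j, f j * ‖star (u j) ⬝ᵥ w‖ ^ 2 =
          (if j = i0 then f i0 * ‖a‖ ^ 2 else 0) + (if j = i then f i * ‖b‖ ^ 2 else 0) := by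
        intro j
        rw [hc j]
        by_cases h2 : j = i0
        · subst h2
          rw [if_pos rfl, if_neg (Ne.symm hi), if_pos rfl, if_neg (Ne.symm hi), add_zero,
            add_zero]
        · by_cases h3 : j = i
          · subst h3
            rw [if_neg h2, if_pos rfl, if_neg h2, if_pos rfl, zero_add, zero_add]
          · rw [if_neg h2, if_neg h3, if_neg h2, if_neg h3, add_zero, norm_zero, add_zero]
            simp
      rw [Finset.sum_congr rfl fun j _ => h1 j, Finset.sum_add_distrib,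
        Finset.sum_ite_eq' Finset.univ i0, Finset.sum_ite_eq' Finset.univ i,
        if_pos (Finset.mem_univ _), if_pos (Finset.mem_univ _)]
    have hnw : nsq w = 1 := by
      rw [hu5 w]
      have h1 := hsum (fun _ => 1)
      simp only [one_mul] at h1
      rw [h1, hab]
    have h1 := hlow w
    rw [horth, hnw, norm_zero, hu4 w, hsum l] at h1
    have h2 : l i0 * ‖a‖ ^ 2 + l i * ‖b‖ ^ 2 ≤ l i := by
      have h3 : l i0 ≤ l i := hi0 i (Finset.mem_univ i)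
      have h4 := mul_le_mul_of_nonneg_right h3 (sq_nonneg ‖a‖)
      have h5 : l i = l i * ‖a‖ ^ 2 + l i * ‖b‖ ^ 2 := by
        rw [← mul_add, hab, mul_one]
      linarith
    have h6 : E * 1 + Δ * (1 - 0 ^ 2) = E + Δ := by ring
    rw [h6] at h1
    linarith
  -- the eigenvector with the right phase
  set x : ℂ := star Ω ⬝ᵥ u i0 with hx
  obtain ⟨c, hc1, hc2⟩ : ∃ c : ℂ, ‖c‖ = 1 ∧ c * x = (‖x‖ : ℂ) := by
    by_cases h0 : x = 0
    · exact ⟨1, norm_one, by rw [h0]; simp⟩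
    · refine ⟨star x / ‖x‖, ?_, ?_⟩
      · rw [norm_div, Complex.star_def, RCLike.norm_conj, Complex.norm_real, norm_norm,
          div_self (norm_ne_zero_iff.2 h0)]
      · have hx0 : (‖x‖ : ℂ) ≠ 0 := by
          rw [Ne, Complex.ofReal_eq_zero]
          exact norm_ne_zero_iff.2 h0
        rw [div_mul_eq_mul_div, Complex.star_def, Complex.conj_mul', sq, mul_div_assoc,
          div_self hx0, mul_one]
  have hn' : nsq (c • u i0) = 1 := by
    rw [nsq_smul, hc1, hu1 i0]; norm_num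
  have hin : ∀ ψ : N → ℂ, ‖star (c • u i0) ⬝ᵥ ψ‖ = ‖star (u i0) ⬝ᵥ ψ‖ := fun ψ => by
    rw [star_smul, smul_dotProduct, norm_smul, norm_star, hc1, one_mul]
  have hov : star Ω ⬝ᵥ (c • u i0) = (‖x‖ : ℂ) := by
    rw [dotProduct_smul, ← hx, smul_eq_mul, hc2]
  have hx1 : ‖x‖ ≤ 1 := by
    have h3 := nrm_ip_le Ω (u i0)
    rw [nrm, nrm, hG.1, hu1 i0, Real.sqrt_one, one_mul] at h3
    exact h3
  have hov2 : 1 - ‖x‖ ^ 2 ≤ δ / Δ := by
    have h1 := hlow (u i0)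
    rw [hl i0, hu1 i0, ← hx] at h1
    rw [le_div_iff₀ hΔ]
    nlinarith
  refine ⟨l i0, c • u i0, ⟨hn', ?_, fun ψ => ?_⟩, hEle i0, hE'le, ?_, ?_⟩
  · rw [mulVec_smul, hu2 i0, smul_comm]
  · rw [hu4 ψ, hin, hu5 ψ, ← Finset.add_sum_erase Finset.univ (fun i => ‖star (u i) ⬝ᵥ ψ‖ ^ 2)
      (Finset.mem_univ i0), ← Finset.add_sum_erase Finset.univ
      (fun i => l i * ‖star (u i) ⬝ᵥ ψ‖ ^ 2) (Finset.mem_univ i0)]
    have h1 : (E + Δ) * ∑ i ∈ Finset.univ.erase i0, ‖star (u i) ⬝ᵥ ψ‖ ^ 2 ≤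
        ∑ i ∈ Finset.univ.erase i0, l i * ‖star (u i) ⬝ᵥ ψ‖ ^ 2 := by
      rw [Finset.mul_sum]
      refine Finset.sum_le_sum fun i hi => mul_le_mul_of_nonneg_right
        (hother i (Finset.ne_of_mem_erase hi)) (sq_nonneg _)
    have h2 : 0 ≤ ∑ i ∈ Finset.univ.erase i0, ‖star (u i) ⬝ᵥ ψ‖ ^ 2 :=
      Finset.sum_nonneg fun i _ => sq_nonneg _
    nlinarith
  · rw [hov, Complex.norm_real, norm_norm]
    exact hov2
  · have h1 : nsq (c • u i0 - Ω) = 2 - 2 * ‖x‖ := by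
      have h2 := nsq_add (c • u i0) (-Ω)
      rw [← sub_eq_add_neg, hn'] at h2
      have h3 : nsq (-Ω) = 1 := by
        rw [← hG.1, nsq, nsq]
        exact Finset.sum_congr rfl fun i _ => by rw [Pi.neg_apply, norm_neg]
      have h4 : (star (c • u i0) ⬝ᵥ (-Ω)).re = -‖x‖ := by
        rw [ip_comm_re, star_neg, neg_dotProduct, hov, Complex.neg_re, Complex.ofReal_re]
      rw [h2, h3, h4]
      ring
    rw [h1]
    have h5 : 0 ≤ ‖x‖ := norm_nonneg _
    nlinarith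

end pert185

end Vale.Agent.P356.GA
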