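import Vale.Agent.P356.GA.DiAsm178
import Vale.Agent.P356.GA.Defs341
import Vale.Agent.P356.GA.DiGeo939
import Vale.Agent.P356.GA.Pert185

/-!
# GA, block DI-ASM (helper178): `DI_of_Core`

The output `Core` of the analytic part implies the doubled inequality `DI`.
-/

set_option linter.all false

namespace Vale.Agent.P356.GA

open Matrix Finset Vale.Agent.P356 Vale.Agent.P356.SV Vale.Agent.P356.Path Vale.Agent.P356.NA
  Vale.Agent.P356.SA Vale.Agent.P356.PH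
open scoped BigOperators ComplexOrder Kronecker Matrix.Norms.L2Operator

namespace DiCore

section geo
variable {L : ℕ}

theorem mem_loT {T : Site L → ℝ} {t : ℝ} {x : Site L} : x ∈ loT T t ↔ T x ≤ t := by
  classical
  rw [loT, Finset.mem_filter]
  exact ⟨fun h => h.2, fun h => ⟨Finset.mem_univ _, h⟩⟩

theorem mem_slT {T : Site L → ℝ} {t u : ℝ} {x : Site L} : x ∈ slT T t u ↔ t < T x ∧ T x ≤ u := by
  classical
  rw [slT, Finset.mem_filter]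
  exact ⟨fun h => h.2, fun h => ⟨Finset.mem_univ _, h⟩⟩

theorem loT_mono (T : Site L → ℝ) {t u : ℝ} (h : t ≤ u) : loT T t ⊆ loT T u := fun x hx =>
  mem_loT.mpr ((mem_loT.mp hx).trans h)

variable (g : Gd L)

theorem R_eq (k : ℕ) : g.R k = Ecut (g.P k) (g.Q k) := by
  classical
  ext y
  rw [Gd.R, Finset.mem_filter, Ecut, Finset.mem_disjSum]
  rcases y with x | x
  · constructor
    · rintro ⟨-, h⟩
      refine Or.inl ⟨x, ?_, rfl⟩
      rw [Finset.mem_compl, Gd.P, mem_loT, not_le]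
      exact h
    · rintro (⟨a, ha, hax⟩ | ⟨a, ha, hax⟩)
      · rw [Sum.inl.injEq] at hax
        rw [← hax]
        rw [Finset.mem_compl, Gd.P, mem_loT, not_le] at ha
        exact ⟨Finset.mem_univ _, ha⟩
      · exact absurd hax (by simp)
  · constructor
    · rintro ⟨-, h⟩
      refine Or.inr ⟨x, ?_, rfl⟩
      rw [Gd.Q, mem_loT]
      exact h
    · rintro (⟨a, ha, hax⟩ | ⟨a, ha, hax⟩)
      · exact absurd hax (by simp)
      · rw [Sum.inr.injEq] at hax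
        rw [← hax]
        rw [Gd.Q, mem_loT] at ha
        exact ⟨Finset.mem_univ _, ha⟩

theorem P_mono {j k : ℕ} (h : j ≤ k) : g.P j ⊆ g.P k := by
  have h' : (j : ℝ) ≤ k := by exact_mod_cast h
  exact loT_mono _ (by linarith)

theorem Q_anti {j k : ℕ} (h : j ≤ k) : g.Q k ⊆ g.Q j := by
  have h' : (j : ℝ) ≤ k := by exact_mod_cast h
  exact loT_mono _ (by linarith)

theorem P_sub {k : ℕ} (h : k ≤ g.m) : g.P k ⊆ g.Mid := by
  have h' : (k : ℝ) ≤ g.m := by exact_mod_cast h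
  exact loT_mono _ (by linarith)

theorem Mid_sub {k : ℕ} (h : g.m + k ≤ g.N) : g.Mid ⊆ g.Q k := by
  have h' : (g.m : ℝ) + k ≤ g.N := by exact_mod_cast h
  exact loT_mono _ (by linarith)

theorem s1_sub {k : ℕ} (h : k + g.mp ≤ g.m) : g.s1 k ⊆ g.Mid := fun x hx => by
  have h' : (k : ℝ) + g.mp ≤ g.m := by exact_mod_cast h
  have hx' := (mem_slT.mp hx).2
  exact mem_loT.mpr (by linarith)

theorem s2_sub {k : ℕ} (h : g.m + k + g.mp ≤ g.N) : g.s2 k ⊆ g.Midᶜ := fun x hx => by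
  have h' : (g.m : ℝ) + k + g.mp ≤ g.N := by exact_mod_cast h
  have hx' := (mem_slT.mp hx).1
  rw [Finset.mem_compl, Gd.Mid, mem_loT, not_le]
  linarith

variable {q : ℕ} {Kt : Finset (Site L) → Op (Site L) q}

theorem acts1 (hK : ∀ b, ActsOn b (Kt b)) (θ : ℝ) (h : g.n + g.mp ≤ g.m) :
    ActsOn g.Mid (g.Gm1 θ Kt) := by
  rw [Gd.Gm1]
  refine ph_acts_sum _ fun k hk => ph_acts_sum _ fun j _ => ph_acts_smul _ ?_
  refine ph_acts_mono (Finset.inter_subset_left.trans (s1_sub g ?_)) (hK _)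
  have := Finset.mem_range.mp hk
  omega

theorem acts2 (hK : ∀ b, ActsOn b (Kt b)) (θ : ℝ) (h : g.m + g.n + g.mp ≤ g.N) :
    ActsOn g.Midᶜ (g.Gm2 θ Kt) := by
  rw [Gd.Gm2]
  refine ph_acts_sum _ fun k hk => ph_acts_sum _ fun j _ => ph_acts_smul _ ?_
  refine ph_acts_mono (Finset.inter_subset_left.trans (s2_sub g ?_)) (hK _)
  have := Finset.mem_range.mp hk
  omega

theorem smul_herm {N : Type*} {A : Matrix N N ℂ} (hA : A.IsHermitian) (r : ℝ) :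
    ((r : ℂ) • A).IsHermitian := by
  rw [Matrix.IsHermitian, conjTranspose_smul, hA.eq, RCLike.star_def, Complex.conj_ofReal]

theorem sum_herm {N ι : Type*} (s : Finset ι) {A : ι → Matrix N N ℂ}
    (hA : ∀ i ∈ s, (A i).IsHermitian) : (∑ i ∈ s, A i).IsHermitian := by
  classical
  rw [Matrix.IsHermitian, conjTranspose_sum]
  exact Finset.sum_congr rfl fun i hi => hA i hi

theorem herm1 (hK : ∀ b, (Kt b).IsHermitian) (θ : ℝ) : (g.Gm1 θ Kt).IsHermitian := by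
  rw [Gd.Gm1]
  exact sum_herm _ fun k _ => sum_herm _ fun j _ => smul_herm (hK _) _

theorem herm2 (hK : ∀ b, (Kt b).IsHermitian) (θ : ℝ) : (g.Gm2 θ Kt).IsHermitian := by
  rw [Gd.Gm2]
  exact sum_herm _ fun k _ => sum_herm _ fun j _ => smul_herm (hK _) _

end geo

section num

theorem eErr_le {x κ b : ℝ} (hx : 1 ≤ x) (hκ : 0 ≤ κ) (hb : 0 ≤ b) :
    eErr κ (Real.log x) b ≤ 308 * x ^ (5 / 8 : ℝ) + 60 * κ * x ^ (-(3 / 8) : ℝ) * b := by
  have hx0 : (0 : ℝ) < x := by linarith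
  have hlog : Real.log x ≤ 8 * x ^ (1 / 8 : ℝ) := by
    have h := Real.log_le_rpow_div hx0.le (ε := 1 / 8) (by norm_num)
    linarith
  have hlog0 : 0 ≤ Real.log x := Real.log_nonneg hx
  have h1 : 1 ≤ x ^ (1 / 8 : ℝ) := Real.one_le_rpow hx (by norm_num)
  have h8 : 0 < x ^ (1 / 8 : ℝ) := by linarith
  have hsq : Real.sqrt (κ * b) ≤ (κ * b * x ^ (-(1 / 2) : ℝ) + x ^ (1 / 2 : ℝ)) / 2 := by
    have ha : 0 ≤ κ * b * x ^ (-(1 / 2) : ℝ) :=
      mul_nonneg (mul_nonneg hκ hb) (Real.rpow_nonneg hx0.le _)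
    have hb' : 0 ≤ x ^ (1 / 2 : ℝ) := Real.rpow_nonneg hx0.le _
    rw [Real.sqrt_le_left (by linarith)]
    have e : κ * b = (κ * b * x ^ (-(1 / 2) : ℝ)) * x ^ (1 / 2 : ℝ) := by
      rw [mul_assoc, ← Real.rpow_add hx0]
      norm_num
    have key : ∀ α β : ℝ, α * β ≤ ((α + β) / 2) ^ 2 := fun α β => by
      nlinarith [sq_nonneg (α - β)]
    have h3 := key (κ * b * x ^ (-(1 / 2) : ℝ)) (x ^ (1 / 2 : ℝ))
    rw [← e] at h3
    exact h3
  have e58 : x ^ (1 / 8 : ℝ) * x ^ (1 / 2 : ℝ) = x ^ (5 / 8 : ℝ) := by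
    rw [← Real.rpow_add hx0]; norm_num
  have e38 : x ^ (1 / 8 : ℝ) * x ^ (-(1 / 2) : ℝ) = x ^ (-(3 / 8) : ℝ) := by
    rw [← Real.rpow_add hx0]; norm_num
  have h12 : 1 ≤ x ^ (1 / 2 : ℝ) := Real.one_le_rpow hx (by norm_num)
  have h18 : x ^ (1 / 8 : ℝ) ≤ x ^ (5 / 8 : ℝ) :=
    Real.rpow_le_rpow_of_exponent_le hx (by norm_num)
  rw [eErr]
  have hs0 := Real.sqrt_nonneg (κ * b)
  calc (4 + 2 * (10 + 6 * Real.sqrt (κ * b))) * (2 + Real.log x) + Real.log x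
      ≤ (24 + 12 * ((κ * b * x ^ (-(1 / 2) : ℝ) + x ^ (1 / 2 : ℝ)) / 2)) *
          (10 * x ^ (1 / 8 : ℝ)) + 8 * x ^ (1 / 8 : ℝ) := by
        refine add_le_add ?_ hlog
        refine mul_le_mul ?_ ?_ ?_ ?_
        · linarith
        · linarith
        · linarith
        · linarith
    _ = 248 * x ^ (1 / 8 : ℝ) + 60 * κ * (x ^ (1 / 8 : ℝ) * x ^ (-(1 / 2) : ℝ)) * b +
          60 * (x ^ (1 / 8 : ℝ) * x ^ (1 / 2 : ℝ)) := by ring
    _ ≤ _ := by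
        rw [e58, e38]
        linarith

theorem num_final {xu xc η ε f B V G n A1 A2 A3 SM C₁ C₂ C₃ C' y : ℝ}
    (hn : 0 ≤ n) (hA1 : 0 ≤ A1) (hSM : 0 ≤ SM)
    (h : (1 - η) * A1 ≤ (1 + ε) * A3 + A2 +
      n * ((1 + ε) * f + ((1 + ε) * (SM + f) + G + 2 * ε * B) * V + 1))
    (hη : η ≤ C₁ * xc) (hA2 : A2 ≤ n * (C₂ * y)) (hεA3 : ε * A3 ≤ n * C₃) (hC₃ : 0 ≤ C₃)
    (hε0 : 0 ≤ ε) (hε1 : ε ≤ 1) (hf : 0 ≤ f) (hV0 : 0 ≤ V) (hV : V ≤ 2 * xu) (hV1 : V ≤ 2)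
    (hG0 : 0 ≤ G) (hG : G ≤ y) (hy : 1 ≤ y) (hεB : ε * B ≤ 1) (hxc : 0 ≤ xc) (hxu : 0 ≤ xu)
    (hC1 : C₁ ≤ C') (hC4 : 4 ≤ C') (hC : C₂ + C₃ + 6 * f + 7 ≤ C') :
    (1 - C' * xc) * A1 ≤ A3 + n * (C' * xu * SM + C' * y) := by
  have h1 : (1 - C' * xc) * A1 ≤ (1 - η) * A1 := by
    refine mul_le_mul_of_nonneg_right ?_ hA1
    have := mul_le_mul_of_nonneg_right hC1 hxc
    linarith
  have h2 : (1 + ε) * f ≤ 2 * f := mul_le_mul_of_nonneg_right (by linarith) hf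
  have h3 : ((1 + ε) * (SM + f) + G + 2 * ε * B) * V ≤ 4 * xu * SM + 4 * f + 2 * y + 4 := by
    have h4 : (1 + ε) * SM * V ≤ 2 * SM * (2 * xu) := by
      refine mul_le_mul ?_ hV hV0 (by linarith)
      exact mul_le_mul_of_nonneg_right (by linarith) hSM
    have h5 : (1 + ε) * f * V ≤ 2 * f * 2 := mul_le_mul h2 hV1 hV0 (by linarith)
    have h6 : G * V ≤ y * 2 := mul_le_mul hG hV1 hV0 (by linarith)
    have h7 : 2 * (ε * B) * V ≤ 2 * V := mul_le_mul_of_nonneg_right (by linarith) hV0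
    calc ((1 + ε) * (SM + f) + G + 2 * ε * B) * V
        = (1 + ε) * SM * V + (1 + ε) * f * V + G * V + 2 * (ε * B) * V := by ring
      _ ≤ 2 * SM * (2 * xu) + 2 * f * 2 + y * 2 + 2 * V := by linarith
      _ ≤ _ := by linarith
  have h8 : n * ((1 + ε) * f + ((1 + ε) * (SM + f) + G + 2 * ε * B) * V + 1) ≤
      n * (4 * xu * SM + 6 * f + 2 * y + 5) := mul_le_mul_of_nonneg_left (by linarith) hn
  have h9 : n * (C₂ * y) + n * C₃ + n * (4 * xu * SM + 6 * f + 2 * y + 5) ≤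
      n * (C' * xu * SM + C' * y) := by
    have e : n * (C₂ * y) + n * C₃ + n * (4 * xu * SM + 6 * f + 2 * y + 5) =
        n * (4 * xu * SM + (C₂ * y + C₃ + 6 * f + 2 * y + 5)) := by ring
    rw [e]
    refine mul_le_mul_of_nonneg_left ?_ hn
    have h10 : 4 * xu * SM ≤ C' * xu * SM :=
      mul_le_mul_of_nonneg_right (mul_le_mul_of_nonneg_right hC4 hxu) hSM
    have h11 : C₂ * y + C₃ + 6 * f + 2 * y + 5 ≤ (C₂ + C₃ + 6 * f + 7) * y := by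
      have h12 : C₃ * 1 ≤ C₃ * y := mul_le_mul_of_nonneg_left hy hC₃
      have h13 : f * 1 ≤ f * y := mul_le_mul_of_nonneg_left hy hf
      linarith
    have h14 : (C₂ + C₃ + 6 * f + 7) * y ≤ C' * y := mul_le_mul_of_nonneg_right hC (by linarith)
    linarith
  have e2 : (1 + ε) * A3 = A3 + ε * A3 := by ring
  rw [e2] at h
  linarith

end num

section main
variable {L q R : ℕ}

theorem bdry_univ' : bdry (Finset.univ : Finset (Site L)) = 0 := by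
  rw [bdry, Finset.card_eq_zero, Finset.filter_eq_empty_iff]
  intro p _ hp
  exact absurd (Finset.mem_univ p.2) hp.2.1

theorem nb_univ {X : Finset (Site L)} (hX : X.Nonempty) {w : ℕ} (hw : 2 * L ≤ w) :
    sa7_nb X w = Finset.univ := by
  obtain ⟨x, hx⟩ := hX
  refine Finset.eq_univ_iff_forall.mpr fun y => ?_
  rw [sa7_mem_nb]
  refine ⟨x, hx, ?_⟩
  rw [dist1]
  have h1 := x.1.isLt
  have h2 := x.2.isLt
  have h3 := y.1.isLt
  have h4 := y.2.isLt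
  omega

theorem dis_univ {S : Finset (Site L) → ℝ} (hS : EntLike S) {ω u c C : ℝ} {l w : ℕ} (hl : 1 ≤ l)
    (hC : 0 ≤ C) {X : Finset (Site L)} (hX : X.Nonempty) (hw : 2 * L ≤ w)
    (hwl : (w : ℝ) ≤ (l : ℝ) ^ (1 - ω)) :
    ∃ (n w : ℕ) (P Q : ℕ → Finset (Site L)) (M : Finset (Site L)),
      1 ≤ n ∧ (w : ℝ) ≤ (l : ℝ) ^ (1 - ω) ∧
      (∀ k, k < n → X ⊆ P k ∧ P k ⊆ M ∧ M ⊆ Q k ∧ Q k ⊆ sa7_nb X w) ∧
      (bdry M : ℝ) ≤ C * ((sa7_nb X w \ X).card / (l : ℝ) ^ (1 - ω)) ∧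
      ∑ k ∈ range n, ((bdry (P k) : ℝ) + bdry (Q k)) ≤
        n * (C * ((sa7_nb X w \ X).card / (l : ℝ) ^ (1 - ω))) ∧
      (1 - C * (l : ℝ) ^ (-c)) * ∑ k ∈ range n, (S (P k) + S (Q k)) ≤
        ∑ k ∈ range n, S (Q k \ P k) +
          n * (C * (l : ℝ) ^ (-u) * S M + C * (l : ℝ) ^ (1 - c)) := by
  have hl0 : (0 : ℝ) < l := by exact_mod_cast hl
  have hp := Real.rpow_nonneg hl0.le (1 - ω)
  have hp2 := Real.rpow_nonneg hl0.le (1 - c)
  have hun : S univ = 0 := by rw [← Finset.compl_empty, hS.compl, hS.empty]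
  refine ⟨1, w, fun _ => univ, fun _ => univ, univ, le_refl _, hwl, ?_, ?_, ?_, ?_⟩
  · intro k _
    refine ⟨Finset.subset_univ _, Finset.Subset.refl _, Finset.Subset.refl _, ?_⟩
    rw [nb_univ hX hw]
  · rw [bdry_univ', Nat.cast_zero]
    positivity
  · simp only [bdry_univ', Nat.cast_zero, add_zero, Finset.sum_const_zero]
    positivity
  · simp only [Finset.sdiff_self, hun, hS.empty, add_zero, mul_zero, Finset.sum_const_zero,
      zero_add]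
    positivity

/-- entropies of a region of the box in two close states -/
theorem ent_close (hq : 1 ≤ q) {Ω Ω' : Conf (Site L) q → ℂ} (hΩ : nsq Ω = 1) (hΩ' : nsq Ω' = 1)
    {l : ℕ} (hl : 1 ≤ l) (h : nsq (Ω' - Ω) ≤ (l : ℝ) ^ (-20 : ℝ)) {A : Finset (Site L)}
    (hA : A.card ≤ 9 * l ^ 2) : entropyOf A Ω' ≤ entropyOf A Ω + (18 * Real.log q + 3) := by
  have hx : (1 : ℝ) ≤ l := by exact_mod_cast hl
  have hx0 : (0 : ℝ) < l := by linarith
  have hlq : 0 ≤ Real.log q := Real.log_nonneg (by exact_mod_cast hq)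
  have hδ0 : Real.sqrt ((l : ℝ) ^ (-20 : ℝ)) = (l : ℝ) ^ (-10 : ℝ) := by
    rw [Real.sqrt_eq_rpow, ← Real.rpow_mul hx0.le]
    norm_num
  have h1 := fn_subregion_abs (Finset.univ : Finset (Site L)) (ψ := Ω') (Ω := Ω) hΩ' hΩ
    (δ := 2 * (l : ℝ) ^ (-10 : ℝ)) (fun X _ _ hX1 => by
      have h2 := expv_close_unit hΩ' hΩ h X
      rw [hδ0] at h2
      have h3 : |(star Ω' ⬝ᵥ (X *ᵥ Ω')).re - (star Ω ⬝ᵥ (X *ᵥ Ω)).re| ≤
          ‖star Ω' ⬝ᵥ (X *ᵥ Ω') - star Ω ⬝ᵥ (X *ᵥ Ω)‖ := by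
        rw [← Complex.sub_re]
        exact Complex.abs_re_le_norm _
      refine h3.trans (h2.trans ?_)
      have h4 : 0 ≤ 2 * (l : ℝ) ^ (-10 : ℝ) := mul_nonneg zero_le_two (Real.rpow_nonneg hx0.le _)
      exact mul_le_of_le_one_right h4 hX1)
    (Finset.subset_univ A) (ε := 1 / 2) (by norm_num) (by norm_num)
  have h2 := (abs_le.mp h1).2
  have hcard : (A.card : ℝ) ≤ 9 * (l : ℝ) ^ 2 := by exact_mod_cast hA
  have hlog2 : Real.log (1 / (1 / 2)) ≤ 1 := by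
    have := Real.log_two_lt_d9
    have e : (1 / (1 / 2) : ℝ) = 2 := by norm_num
    rw [e]
    linarith
  have h3 : 2 * (l : ℝ) ^ (-10 : ℝ) * (A.card * Real.log q + Real.log (1 / (1 / 2))) ≤
      2 * (l : ℝ) ^ (-10 : ℝ) * (9 * (l : ℝ) ^ 2 * Real.log q + 1) := by
    refine mul_le_mul_of_nonneg_left ?_
      (mul_nonneg zero_le_two (Real.rpow_nonneg hx0.le _))
    exact add_le_add (mul_le_mul_of_nonneg_right hcard hlq) hlog2
  have h4 : (l : ℝ) ^ (-10 : ℝ) * (l : ℝ) ^ 2 ≤ 1 := by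
    rw [← Real.rpow_natCast, ← Real.rpow_add hx0]
    exact Real.rpow_le_one_of_one_le_of_nonpos hx (by norm_num)
  have h5 : (l : ℝ) ^ (-10 : ℝ) ≤ 1 := Real.rpow_le_one_of_one_le_of_nonpos hx (by norm_num)
  have h6 : 2 * (l : ℝ) ^ (-10 : ℝ) * (9 * (l : ℝ) ^ 2 * Real.log q + 1) =
      18 * Real.log q * ((l : ℝ) ^ (-10 : ℝ) * (l : ℝ) ^ 2) + 2 * (l : ℝ) ^ (-10 : ℝ) := by ring
  have h7 : 18 * Real.log q * ((l : ℝ) ^ (-10 : ℝ) * (l : ℝ) ^ 2) ≤ 18 * Real.log q * 1 :=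
    mul_le_mul_of_nonneg_left h4 (by linarith)
  linarith

/-- the constant of the doubled inequality -/
noncomputable def dcC (q : ℕ) (κ Δ C : ℝ) : ℝ :=
  C + (20 + 8 / Δ) + (308 + 540 * κ * C) + 9 * Real.log q + 6 * (18 * Real.log q + 3) + 11

theorem cosh_large {x : ℝ} (hx : 2 ≤ x) :
    1 + 2 / x ^ (-6 : ℝ) ≤ Real.cosh (10 * Real.log x) := by
  have hx0 : 0 < x := by linarith
  have h1 : Real.exp (10 * Real.log x) = x ^ (10 : ℝ) := by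
    rw [Real.rpow_def_of_pos hx0, mul_comm]
  have h2 : x ^ (10 : ℝ) / 2 ≤ Real.cosh (10 * Real.log x) := by
    rw [Real.cosh_eq, h1]
    have := Real.exp_pos (-(10 * Real.log x))
    linarith
  refine le_trans ?_ h2
  have h3 : 2 / x ^ (-6 : ℝ) = 2 * x ^ (6 : ℝ) := by
    rw [Real.rpow_neg hx0.le, div_inv_eq_mul]
  have h4 : x ^ (10 : ℝ) = x ^ (6 : ℝ) * x ^ (4 : ℝ) := by
    rw [← Real.rpow_add hx0]; norm_num
  have h5 : (1 : ℝ) ≤ x ^ (6 : ℝ) := Real.one_le_rpow (by linarith) (by norm_num)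
  have h6 : (16 : ℝ) ≤ x ^ (4 : ℝ) := by
    have h7 : x ^ (4 : ℝ) = x ^ (4 : ℕ) := by rw [← Real.rpow_natCast]; norm_num
    rw [h7]
    have h8 := pow_le_pow_left₀ (by norm_num : (0 : ℝ) ≤ 2) hx 4
    linarith
  rw [h3, h4]
  nlinarith

/-- relative error -/
theorem rel_err {x Δ c : ℝ} (hx1 : 1 ≤ x) (hΔ : 0 < Δ) (hc0 : 0 < c) (hc1 : c < 1 / 10) :
    4 * Real.exp (-Real.log x) + 2 * (Real.sqrt (x ^ (-(2 * c)) / (Δ / 2)) +
      2 * x ^ (-10 : ℝ)) ^ 2 ≤ (20 + 8 / Δ) * x ^ (-c) := by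
  have hx0 : 0 < x := by linarith
  have e1 : Real.exp (-Real.log x) ≤ x ^ (-c) := by
    rw [Real.exp_neg, Real.exp_log hx0, ← Real.rpow_neg_one]
    exact Real.rpow_le_rpow_of_exponent_le hx1 (by linarith)
  have e2 : Real.sqrt (x ^ (-(2 * c)) / (Δ / 2)) ^ 2 ≤ 2 / Δ * x ^ (-c) := by
    rw [Real.sq_sqrt (div_nonneg (Real.rpow_nonneg hx0.le _) (by linarith))]
    have h1 : x ^ (-(2 * c)) ≤ x ^ (-c) :=
      Real.rpow_le_rpow_of_exponent_le hx1 (by linarith)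
    have h2 : x ^ (-(2 * c)) / (Δ / 2) = 2 / Δ * x ^ (-(2 * c)) := by
      field_simp
    rw [h2]
    exact mul_le_mul_of_nonneg_left h1 (by positivity)
  have e3 : (x ^ (-10 : ℝ)) ^ 2 ≤ x ^ (-c) := by
    rw [← Real.rpow_natCast, ← Real.rpow_mul hx0.le]
    exact Real.rpow_le_rpow_of_exponent_le hx1 (by norm_num; linarith)
  generalize Real.sqrt (x ^ (-(2 * c)) / (Δ / 2)) = a at *
  generalize x ^ (-10 : ℝ) = b at *
  have e4 : (a + 2 * b) ^ 2 ≤ 2 * a ^ 2 + 8 * b ^ 2 := by nlinarith [sq_nonneg (a - 2 * b)]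
  have e5 : (20 + 8 / Δ) * x ^ (-c) = 4 * x ^ (-c) +
      2 * (2 * (2 / Δ * x ^ (-c)) + 8 * x ^ (-c)) := by ring
  rw [e5]
  linarith

/-- the sum of the spread errors -/
theorem spread_sum {x κ C om c r : ℝ} {n : ℕ} (hx1 : 1 ≤ x) (hκ : 0 ≤ κ) (hC : 0 ≤ C)
    (hn0 : (0 : ℝ) ≤ n) (hoc : 5 / 8 + om ≤ 1 - c) {b : ℕ → ℝ} (hb : ∀ k, 0 ≤ b k)
    (hr : r ≤ 9 * x ^ 2)
    (hbs : ∑ k ∈ range n, b k ≤ n * (C * (r / x ^ (1 - om)))) (hom : 0 < om) :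
    ∑ k ∈ range n, eErr κ (Real.log x) (b k) ≤ n * ((308 + 540 * κ * C) * x ^ (1 - c)) := by
  have hx0 : 0 < x := by linarith
  have hκC : 0 ≤ 540 * κ * C := by positivity
  have h1 : ∀ k ∈ range n, eErr κ (Real.log x) (b k) ≤
      308 * x ^ (5 / 8 : ℝ) + 60 * κ * x ^ (-(3 / 8) : ℝ) * b k :=
    fun k _ => eErr_le hx1 hκ (hb k)
  have h2 := Finset.sum_le_sum h1
  rw [Finset.sum_add_distrib, Finset.sum_const, card_range, nsmul_eq_mul,
    ← Finset.mul_sum] at h2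
  refine h2.trans ?_
  have h4 : C * (r / x ^ (1 - om)) ≤ C * (9 * x ^ (1 + om)) := by
    refine mul_le_mul_of_nonneg_left ?_ hC
    rw [div_le_iff₀ (Real.rpow_pos_of_pos hx0 _), mul_assoc, ← Real.rpow_add hx0]
    have : (1 + om + (1 - om) : ℝ) = ((2 : ℕ) : ℝ) := by push_cast; ring
    rw [this, Real.rpow_natCast]
    exact hr
  have h5 : ∑ k ∈ range n, b k ≤ n * (C * (9 * x ^ (1 + om))) :=
    hbs.trans (mul_le_mul_of_nonneg_left h4 hn0)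
  have h6 : 60 * κ * x ^ (-(3 / 8) : ℝ) * ∑ k ∈ range n, b k ≤
      60 * κ * x ^ (-(3 / 8) : ℝ) * (n * (C * (9 * x ^ (1 + om)))) :=
    mul_le_mul_of_nonneg_left h5
      (mul_nonneg (by linarith) (Real.rpow_nonneg hx0.le _))
  have h7 : x ^ (-(3 / 8) : ℝ) * x ^ (1 + om) ≤ x ^ (1 - c) := by
    rw [← Real.rpow_add hx0]
    exact Real.rpow_le_rpow_of_exponent_le hx1 (by linarith)
  have h8 : x ^ (5 / 8 : ℝ) ≤ x ^ (1 - c) :=
    Real.rpow_le_rpow_of_exponent_le hx1 (by linarith)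
  have h9 : 60 * κ * x ^ (-(3 / 8) : ℝ) * (n * (C * (9 * x ^ (1 + om)))) =
      n * (540 * κ * C * (x ^ (-(3 / 8) : ℝ) * x ^ (1 + om))) := by ring
  rw [h9] at h6
  have h10 : (n : ℝ) * (540 * κ * C * (x ^ (-(3 / 8) : ℝ) * x ^ (1 + om))) ≤
      n * (540 * κ * C * x ^ (1 - c)) :=
    mul_le_mul_of_nonneg_left (mul_le_mul_of_nonneg_left h7 hκC) hn0
  have h11 : (n : ℝ) * (308 * x ^ (5 / 8 : ℝ)) ≤ n * (308 * x ^ (1 - c)) :=
    mul_le_mul_of_nonneg_left (mul_le_mul_of_nonneg_left h8 (by norm_num)) hn0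
  have h12 : (n : ℝ) * ((308 + 540 * κ * C) * x ^ (1 - c)) =
      n * (308 * x ^ (1 - c)) + n * (540 * κ * C * x ^ (1 - c)) := by ring
  rw [h12]
  linarith

/-- small multiple of the entropies of the rings -/
theorem ring_sum (hq : 1 ≤ q) {l : ℕ} (hx1 : (1 : ℝ) ≤ l) (S : Finset (Site L) → ℝ)
    (hS : ∀ A, S A ≤ Real.log q * A.card) {n : ℕ} (A : ℕ → Finset (Site L))
    (hA : ∀ k, (A k).card ≤ 9 * l ^ 2) :
    (l : ℝ) ^ (-6 : ℝ) * ∑ k ∈ range n, S (A k) ≤ n * (9 * Real.log q) := by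
  have hx0 : (0 : ℝ) < l := by linarith
  have hlq : 0 ≤ Real.log q := Real.log_nonneg (by exact_mod_cast hq)
  have h1 : ∀ k ∈ range n, S (A k) ≤ Real.log q * (9 * (l : ℝ) ^ 2) := by
    intro k _
    refine (hS _).trans (mul_le_mul_of_nonneg_left ?_ hlq)
    exact_mod_cast hA k
  have h2 := Finset.sum_le_sum h1
  rw [Finset.sum_const, card_range, nsmul_eq_mul] at h2
  have h3 := mul_le_mul_of_nonneg_left h2 (Real.rpow_nonneg hx0.le (-6 : ℝ))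
  refine h3.trans ?_
  have h4 : (l : ℝ) ^ (-6 : ℝ) * (l : ℝ) ^ 2 ≤ 1 := by
    rw [← Real.rpow_natCast, ← Real.rpow_add hx0]
    exact Real.rpow_le_one_of_one_le_of_nonpos hx1 (by norm_num)
  have h5 : (l : ℝ) ^ (-6 : ℝ) * (n * (Real.log q * (9 * (l : ℝ) ^ 2))) =
      n * (9 * Real.log q * ((l : ℝ) ^ (-6 : ℝ) * (l : ℝ) ^ 2)) := by ring
  rw [h5]
  have h6 : 9 * Real.log q * ((l : ℝ) ^ (-6 : ℝ) * (l : ℝ) ^ 2) ≤ 9 * Real.log q * 1 :=
    mul_le_mul_of_nonneg_left h4 (by linarith)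
  rw [mul_one] at h6
  exact mul_le_mul_of_nonneg_left h6 (Nat.cast_nonneg n)

theorem dis_at (hq : 1 ≤ q) {J Δ : ℝ} (hJ : 0 < J) (hΔ : 0 < Δ) {om u c C : ℝ} (hom : 0 < om)
    (hu : 2 * om < u) (hc : 2 * om < c) (hc1 : c < 1 / 10) (hC : 0 < C)
    {H : Op (Site L) q} (hadm : Admissible L q R J H) {E : ℝ} {Ω : Conf (Site L) q → ℂ}
    (hgap : GappedGround H Δ E Ω) {l w : ℕ} (hl : 2 ≤ l) {X : Finset (Site L)}
    (hcard : (sa7_nb X w).card ≤ 9 * l ^ 2) (hw : (w : ℝ) ≤ (l : ℝ) ^ (1 - om))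
    (hcore : CoreAt L q Δ om u c C Ω l w X) {C' : ℝ}
    (hC' : dcC q (spread_const q R * (J / Δ)) Δ C ≤ C') :
    ∃ (n w : ℕ) (P Q : ℕ → Finset (Site L)) (M : Finset (Site L)),
      1 ≤ n ∧ (w : ℝ) ≤ (l : ℝ) ^ (1 - om) ∧
      (∀ k, k < n → X ⊆ P k ∧ P k ⊆ M ∧ M ⊆ Q k ∧ Q k ⊆ sa7_nb X w) ∧
      (bdry M : ℝ) ≤ C' * ((sa7_nb X w \ X).card / (l : ℝ) ^ (1 - om)) ∧
      ∑ k ∈ range n, ((bdry (P k) : ℝ) + bdry (Q k)) ≤
        n * (C' * ((sa7_nb X w \ X).card / (l : ℝ) ^ (1 - om))) ∧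
      (1 - C' * (l : ℝ) ^ (-c)) * ∑ k ∈ range n, (entropyOf (P k) Ω + entropyOf (Q k) Ω) ≤
        ∑ k ∈ range n, entropyOf (Q k \ P k) Ω +
          n * (C' * (l : ℝ) ^ (-u) * entropyOf M Ω + C' * (l : ℝ) ^ (1 - c)) := by
  obtain ⟨g, Kt, H', E', Ω', θ, M₁, hn, hθ, hXP, hQX, hm, hN, hbM, hbs, hKt, hGn, hgap', hclose,
    hen⟩ := hcore
  have hx2 : (2 : ℝ) ≤ l := by exact_mod_cast hl
  have hx1 : (1 : ℝ) ≤ l := by linarith
  have hx0 : (0 : ℝ) < l := by linarith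
  have hlq : 0 ≤ Real.log q := Real.log_nonneg (by exact_mod_cast hq)
  have hΩ : nsq Ω = 1 := hgap.1
  have hΩ' : nsq Ω' = 1 := hgap'.1
  set κ : ℝ := spread_const q R * (J / Δ) with hκ
  have hκ0 : 0 ≤ κ := by
    rw [hκ, spread_const]
    positivity
  have hdc : C + (20 + 8 / Δ) + (308 + 540 * κ * C) + 9 * Real.log q +
      6 * (18 * Real.log q + 3) + 11 ≤ C' := hC'
  have hΔ8 : 0 ≤ 8 / Δ := by positivity
  have hκC : 0 ≤ 540 * κ * C := by positivity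
  have hPM : ∀ k, k < g.n → g.P k ⊆ g.Mid := fun k hk => P_sub g (by omega)
  have hMQ : ∀ k, k < g.n → g.Mid ⊆ g.Q k := fun k hk => Mid_sub g (by omega)
  have hXP' : ∀ k, X ⊆ g.P k := fun k => hXP.trans (P_mono g (Nat.zero_le k))
  have hQX' : ∀ k, g.Q k ⊆ sa7_nb X w := fun k => (Q_anti g (Nat.zero_le k)).trans hQX
  have hCC : C ≤ C' := by linarith
  have hr0 : (0 : ℝ) ≤ (sa7_nb X w \ X).card / (l : ℝ) ^ (1 - om) := by positivity
  have hn0 : (0 : ℝ) ≤ g.n := Nat.cast_nonneg _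
  refine ⟨g.n, w, g.P, g.Q, g.Mid, hn, hw, fun k hk => ⟨hXP' k, hPM k hk, hMQ k hk, hQX' k⟩,
    hbM.trans (mul_le_mul_of_nonneg_right hCC hr0),
    hbs.trans (mul_le_mul_of_nonneg_left (mul_le_mul_of_nonneg_right hCC hr0) hn0), ?_⟩
  -- the core inequality
  have hR : g.R = fun k => Ecut (g.P k) (g.Q k) := funext (R_eq g)
  have hxu : (0 : ℝ) < (l : ℝ) ^ u := Real.rpow_pos_of_pos hx0 u
  have hU : (0 : ℝ) < (l : ℝ) ^ u / 2 := by positivity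
  have hθ' : θ = (l : ℝ) ^ u / 2 / g.n := by
    rw [hθ]
    field_simp
  have hcardA : ∀ A : Finset (Site L), A ⊆ sa7_nb X w → A.card ≤ 9 * l ^ 2 := fun A hA =>
    (Finset.card_le_card hA).trans hcard
  have hK1 : ∀ b, (Kt b).IsHermitian := fun b => (hKt b).1
  have hK2 : ∀ b, ActsOn b (Kt b) := fun b => (hKt b).2
  have hdelta2 : nrm (Ω' - Ω) ≤ (l : ℝ) ^ (-10 : ℝ) := by
    have h1 : Real.sqrt ((l : ℝ) ^ (-20 : ℝ)) = (l : ℝ) ^ (-10 : ℝ) := by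
      rw [Real.sqrt_eq_rpow, ← Real.rpow_mul hx0.le]
      norm_num
    rw [← h1]
    exact Real.sqrt_le_sqrt hclose
  have hmain := core_ineq (V := Site L) hq hΩ hΩ' hκ0 (bd := bdry) (fun A => na_k_bdry_compl A)
    (fun A => (spread_law hJ hΔ hq hadm hgap A).2.1) g.P g.Q g.Mid hn hPM hMQ
    (fun j k h => P_mono g h) (fun j k h => Q_anti g h) hU (M₀ := M₁) (B := (l : ℝ) ^ (4 : ℝ))
    (ε := (l : ℝ) ^ (-6 : ℝ)) (τ₀ := 10 * Real.log l)
    (δ₁ := Real.sqrt ((l : ℝ) ^ (-(2 * c)) / (Δ / 2))) (δ₂ := (l : ℝ) ^ (-10 : ℝ))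
    (s := Real.log l) (f := 18 * Real.log q + 3) (G := (l : ℝ) ^ (1 - c))
    (acts1 g hK2 θ hm) (acts2 g hK2 θ hN) ((herm1 g hK1 θ).add (herm2 g hK1 θ)) hGn
    (Real.rpow_pos_of_pos hx0 _) (Real.rpow_le_one_of_one_le_of_nonpos hx1 (by norm_num))
    (cosh_large hx2) (mul_nonneg (by norm_num) (Real.log_nonneg hx1))
    (by
      intro Mc hMc τ hτ t ht0 ht1 ψ hψ
      have hψ1 : nsq ψ = 1 := hψ.1
      have hSt : g.St θ Mc Kt Ω' τ t ψ := by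
        rw [Gd.St, hR, hθ']
        rw [hθ'] at hψ
        exact hψ
      obtain ⟨h1, h2⟩ := hen Mc hMc τ hτ t ht0 ht1 ψ hSt
      constructor
      · have h3 := close_of_energy (dg_gapped_dbl (by linarith) hgap' hgap') (by linarith) hψ1
          (η := (l : ℝ) ^ (-(2 * c))) (ε := 0) (Φ := dbl Ω' Ω') (by
            have h4 : (star ψ ⬝ᵥ ((cp1 H' + cp2 H') *ᵥ ψ)).re - (E' + E') ≤
              (l : ℝ) ^ (-(2 * c)) := h1
            linarith) (by rw [sub_self, nrm]; simp [nsq])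
        rw [add_zero] at h3
        exact h3
      · rw [Gd.wkv, hR] at h2
        rw [hθ'] at h2
        have h5 : expv (dbl Ω' Ω') (g.Gm ((l : ℝ) ^ u / 2 / g.n) Kt) =
            (star Ω' ⬝ᵥ ((g.Gm1 ((l : ℝ) ^ u / 2 / g.n) Kt +
              g.Gm2 ((l : ℝ) ^ u / 2 / g.n) Kt) *ᵥ Ω')).re := by
          rw [Gd.Gm, expv, add_mulVec, dotProduct_add, dg_exp_one hΩ', dg_exp_two hΩ',
            add_mulVec, dotProduct_add]
        rw [h5] at h2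
        rw [hθ']
        exact h2)
    hdelta2 (Real.log_nonneg hx1)
    (fun k hk => ent_close hq hΩ hΩ' (by omega) hclose
      (hcardA _ (Finset.sdiff_subset.trans (hQX' k))))
    (ent_close hq hΩ hΩ' (by omega) hclose (hcardA _ ((hMQ 0 (by omega)).trans (hQX' 0))))
  have hdiv : ∀ a : ℝ, a / ((l : ℝ) ^ u / 2) = a * (2 * (l : ℝ) ^ (-u)) := by
    intro a
    rw [Real.rpow_neg hx0.le]
    field_simp
  rw [hdiv] at hmain
  have hxc : (0 : ℝ) ≤ (l : ℝ) ^ (-c) := Real.rpow_nonneg hx0.le _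
  have hxu' : (0 : ℝ) ≤ (l : ℝ) ^ (-u) := Real.rpow_nonneg hx0.le _
  have hxu1 : (l : ℝ) ^ (-u) ≤ 1 := Real.rpow_le_one_of_one_le_of_nonpos hx1 (by linarith)
  have hy1 : 1 ≤ (l : ℝ) ^ (1 - c) := Real.one_le_rpow hx1 (by linarith)
  have hSn : ∀ A : Finset (Site L), 0 ≤ entropyOf A Ω := fun A => entropy_nonneg A Ω hΩ
  refine num_final (ε := (l : ℝ) ^ (-6 : ℝ)) (f := 18 * Real.log q + 3) (B := (l : ℝ) ^ (4 : ℝ))
    (V := 2 * (l : ℝ) ^ (-u)) (G := (l : ℝ) ^ (1 - c)) (C₁ := 20 + 8 / Δ)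
    (C₂ := 308 + 540 * κ * C) (C₃ := 9 * Real.log q) hn0
    (Finset.sum_nonneg fun k _ => add_nonneg (hSn _) (hSn _)) (hSn _) hmain ?_ ?_ ?_
    (by linarith) (Real.rpow_nonneg hx0.le _)
    (Real.rpow_le_one_of_one_le_of_nonpos hx1 (by norm_num)) (by linarith) (by linarith)
    le_rfl (by linarith) (by linarith) le_rfl hy1 ?_ hxc hxu' (by linarith) (by linarith)
    (by linarith)
  · exact rel_err hx1 hΔ (by linarith) hc1
  · exact spread_sum hx1 hκ0 hC.le hn0 (by linarith) (fun k => add_nonneg (Nat.cast_nonneg _)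
      (Nat.cast_nonneg _)) (by exact_mod_cast hcardA _ Finset.sdiff_subset) hbs hom
  · exact ring_sum hq hx1 (fun A => entropyOf A Ω) (fun A => entropy_le_card hq A Ω hΩ)
      (fun k => g.Q k \ g.P k) fun k =>
        hcardA _ (Finset.sdiff_subset.trans (hQX' k))
  · rw [← Real.rpow_add hx0]
    exact Real.rpow_le_one_of_one_le_of_nonpos hx1 (by norm_num)

end main

/-- **DI from Core**. -/
theorem _root_.Vale.Agent.P356.GA.DI_of_Core {q R : ℕ} (hq : 1 ≤ q) {J Δ : ℝ} (hJ : 0 < J)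
    (hΔ : 0 < Δ) (h : Core q R J Δ) : DI q R J Δ := by
  obtain ⟨om, u, c, C, n₀, hom, hu, hc, hc1, hC, h⟩ := h
  set C' : ℝ := max 1 (dcC q (spread_const q R * (J / Δ)) Δ C) with hC'
  have hC'1 : 1 ≤ C' := le_max_left _ _
  refine ⟨om, u, c, C', max n₀ 2, hom, hu, hc, by linarith, by linarith, ?_⟩
  intro L H hadm E Ω hgap
  refine ⟨?_⟩
  intro l x0 x1 y0 y1 hl hx hy X hX
  have hl1 : n₀ ≤ l := (le_max_left _ _).trans hl
  have hl2 : 2 ≤ l := (le_max_right _ _).trans hl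
  have hΩ : nsq Ω = 1 := hgap.1
  have hS : EntLike (fun A => entropyOf A Ω) := entLike Ω hΩ
  rcases X.eq_empty_or_nonempty with hXe | hXn
  · subst hXe
    have hl3 : 1 ≤ l := by omega
    have hC'0 : 0 ≤ C' := by linarith
    exact dis_empty (S := fun A => entropyOf A Ω) hl3 hS.empty hC'0
  set w : ℕ := ⌊(l : ℝ) ^ (1 - om)⌋₊ with hw
  have hx1 : (1 : ℝ) ≤ l := by exact_mod_cast (show 1 ≤ l by omega)
  have hp : (0 : ℝ) ≤ (l : ℝ) ^ (1 - om) := Real.rpow_nonneg (by linarith) _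
  have hw1 : (w : ℝ) ≤ (l : ℝ) ^ (1 - om) := Nat.floor_le hp
  have hw2 : (l : ℝ) ^ (1 - om) < (w : ℝ) + 1 := Nat.lt_floor_add_one _
  rcases Nat.lt_or_ge w (2 * L) with hwL | hwL
  · have hwl : w ≤ l := by
      have h1 : (l : ℝ) ^ (1 - om) ≤ l := by
        calc (l : ℝ) ^ (1 - om) ≤ (l : ℝ) ^ (1 : ℝ) :=
              Real.rpow_le_rpow_of_exponent_le hx1 (by linarith)
          _ = l := Real.rpow_one _
      exact_mod_cast hw1.trans h1
    exact dis_at hq hJ hΔ hom hu hc hc1 hC hadm hgap hl2 (sa7_card_nb hX hx hy hwl) hw1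
      (h L H hadm E Ω hgap l w x0 x1 y0 y1 X hl1 hw1 hw2 hx hy hX hXn hwL) (le_max_right _ _)
  · have hl3 : 1 ≤ l := by omega
    have hC'0 : 0 ≤ C' := by linarith
    exact dis_univ (S := fun A => entropyOf A Ω) hS hl3 hC'0 hXn hwL hw1

end DiCore

end Vale.Agent.P356.GA
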