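import Vale.Agent.P356.GA.Close749
import Vale.Agent.P356.SV.Typ
import Mathlib.LinearAlgebra.Lagrange

/-!
Duality for functions of reduced states of a pure state: a function of the reduced state of a
region acts on the state as the same function of the reduced state of the complement.
-/

set_option linter.all false

namespace Vale.Agent.P356.GA

open Matrix Finset Vale.Agent.P356 Vale.Agent.P356.SV Vale.Agent.P356.Path Vale.Agent.P356.PH
open scoped BigOperators ComplexOrder Kronecker Matrix.Norms.L2Operator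

section dual
variable {V : Type*} [Fintype V] [DecidableEq V] {q : ℕ}

/-- function (of a real variable) of the reduced state of `S` -/
noncomputable def fr (S : Finset V) (ψ : Conf V q → ℂ) (f : ℝ → ℂ) : Op V q :=
  cr S ψ (fun i => f (eigp (ψ ∘ (cut S q).symm) i))

theorem fr_acts (S : Finset V) (ψ : Conf V q → ℂ) (f : ℝ → ℂ) : ActsOn S (fr S ψ f) :=
  cr_acts S ψ _

theorem fr_mul (S : Finset V) (ψ : Conf V q → ℂ) (f g : ℝ → ℂ) :
    fr S ψ f * fr S ψ g = fr S ψ (fun p => f p * g p) := cr_mul S ψ _ _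

theorem fr_add (S : Finset V) (ψ : Conf V q → ℂ) (f g : ℝ → ℂ) :
    fr S ψ (fun p => f p + g p) = fr S ψ f + fr S ψ g := (cr_add S ψ _ _).symm

theorem fr_smul (S : Finset V) (ψ : Conf V q → ℂ) (c : ℂ) (f : ℝ → ℂ) :
    fr S ψ (fun p => c * f p) = c • fr S ψ f :=
  (crL S ψ).map_smul c (fun i => f (eigp (ψ ∘ (cut S q).symm) i))

theorem fr_one (S : Finset V) (ψ : Conf V q → ℂ) : fr S ψ (fun _ => 1) = 1 := cr_one S ψ

theorem fr_conj (S : Finset V) (ψ : Conf V q → ℂ) (f : ℝ → ℂ) :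
    (fr S ψ f)ᴴ = fr S ψ (fun p => star (f p)) := cr_conj S ψ _

theorem fr_norm (S : Finset V) (ψ : Conf V q → ℂ) (f : ℝ → ℂ) {C : ℝ} (hC : 0 ≤ C)
    (hf : ∀ p, ‖f p‖ ≤ C) : ‖fr S ψ f‖ ≤ C := cr_norm S ψ _ hC fun i => hf _

theorem fr_pow (S : Finset V) (ψ : Conf V q → ℂ) (k : ℕ) :
    fr S ψ (fun p => (p : ℂ) ^ k) = (fr S ψ (fun p => (p : ℂ))) ^ k := by
  induction k with
  | zero => simpa using fr_one S ψ
  | succ k ih => rw [pow_succ, ← ih, fr_mul]; rfl

theorem fr_poly (S : Finset V) (ψ : Conf V q → ℂ) (P : Polynomial ℂ) :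
    fr S ψ (fun p => P.eval (p : ℂ)) = Polynomial.aeval (fr S ψ (fun p => (p : ℂ))) P := by
  induction P using Polynomial.induction_on' with
  | add P Q hP hQ =>
    rw [map_add, ← hP, ← hQ, ← fr_add]
    simp only [Polynomial.eval_add]
  | monomial k c =>
    rw [Polynomial.aeval_monomial, ← fr_pow, ← Algebra.smul_def, ← fr_smul]
    simp only [Polynomial.eval_monomial]

theorem fr_rho (S : Finset V) (ψ : Conf V q → ℂ) :
    fr S ψ (fun p => (p : ℂ)) = opOn S (rdm S ψ) := cr_rho S ψ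

/-- the reduced state and the reduced state of the complement agree on the state -/
theorem rho_dual (S : Finset V) (ψ : Conf V q → ℂ) :
    opOn S (rdm S ψ) *ᵥ ψ = opOn Sᶜ (rdm Sᶜ ψ) *ᵥ ψ := by
  classical
  funext s
  obtain ⟨⟨b, c⟩, rfl⟩ := (cut Sᶜ q).symm.surjective s
  rw [b6b_opOn_apply, b6b_cut_compl, b6b_opOn_apply]
  have h1 : ∀ b', (rdm Sᶜ ψ) b b' = ∑ c' : {x // x ∈ S} → Fin q,
      ψ ((cut S q).symm (c', fun x => b ⟨x.1, Finset.mem_compl.mpr x.2⟩)) *
        star (ψ ((cut S q).symm (c', fun x => b' ⟨x.1, Finset.mem_compl.mpr x.2⟩))) := by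
    intro b'
    show ∑ c', ψ ((cut Sᶜ q).symm (b, c')) * star (ψ ((cut Sᶜ q).symm (b', c'))) = _
    rw [← (b6b_equiv S q).sum_comp]
    refine Finset.sum_congr rfl fun c' _ => ?_
    rw [b6b_cut_compl, b6b_cut_compl]
    rfl
  have h2 : ∀ a a', (rdm S ψ) a a' = ∑ b' : {x // x ∈ Sᶜ} → Fin q,
      ψ ((cut S q).symm (a, fun x => b' ⟨x.1, Finset.mem_compl.mpr x.2⟩)) *
        star (ψ ((cut S q).symm (a', fun x => b' ⟨x.1, Finset.mem_compl.mpr x.2⟩))) := by
    intro a a'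
    show ∑ b', ψ ((cut S q).symm (a, b')) * star (ψ ((cut S q).symm (a', b'))) = _
    let E : ({x // x ∈ Sᶜ} → Fin q) ≃ ({x // ¬ x ∈ S} → Fin q) :=
      { toFun := fun b' x => b' ⟨x.1, Finset.mem_compl.mpr x.2⟩
        invFun := fun b' x => b' ⟨x.1, Finset.mem_compl.mp x.2⟩
        left_inv := fun _ => rfl
        right_inv := fun _ => rfl }
    rw [← E.sum_comp]
    rfl
  simp only [h1, h2, Finset.sum_mul]
  rw [Finset.sum_comm]
  refine Finset.sum_congr rfl fun b' _ => ?_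
  refine Finset.sum_congr rfl fun a' _ => ?_
  rw [b6b_cut_compl]
  ring

/-- functions of commuting operators agreeing on the state -/
theorem aeval_agree {A B : Op V q} (hc : A * B = B * A) {ψ : Conf V q → ℂ}
    (h : A *ᵥ ψ = B *ᵥ ψ) (P : Polynomial ℂ) :
    Polynomial.aeval A P *ᵥ ψ = Polynomial.aeval B P *ᵥ ψ := by
  have hpow : ∀ k : ℕ, A ^ k *ᵥ ψ = B ^ k *ᵥ ψ := by
    intro k
    induction k with
    | zero => rfl
    | succ k ih =>
      have hcomm : A ^ k * B = B * A ^ k := ((Commute.pow_left (hc : Commute A B)) k)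
      calc A ^ (k + 1) *ᵥ ψ = A ^ k *ᵥ (A *ᵥ ψ) := by rw [pow_succ, Matrix.mulVec_mulVec]
        _ = A ^ k *ᵥ (B *ᵥ ψ) := by rw [h]
        _ = B *ᵥ (A ^ k *ᵥ ψ) := by rw [Matrix.mulVec_mulVec, hcomm, Matrix.mulVec_mulVec]
        _ = B *ᵥ (B ^ k *ᵥ ψ) := by rw [ih]
        _ = _ := by rw [Matrix.mulVec_mulVec, ← pow_succ']
  induction P using Polynomial.induction_on' with
  | add P Q hP hQ => rw [map_add, map_add, Matrix.add_mulVec, Matrix.add_mulVec, hP, hQ]
  | monomial k c =>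
    rw [Polynomial.aeval_monomial, Polynomial.aeval_monomial, ← Algebra.smul_def,
      ← Algebra.smul_def, Matrix.smul_mulVec, Matrix.smul_mulVec, hpow]

/-- DUALITY -/
theorem fr_dual (S : Finset V) (ψ : Conf V q → ℂ) (f : ℝ → ℂ) :
    fr S ψ f *ᵥ ψ = fr Sᶜ ψ f *ᵥ ψ := by
  classical
  let T : Finset ℝ := (Finset.univ.image fun i => eigp (ψ ∘ (cut S q).symm) i) ∪
    (Finset.univ.image fun i => eigp (ψ ∘ (cut Sᶜ q).symm) i)
  let P : Polynomial ℂ := Lagrange.interpolate T (fun p : ℝ => (p : ℂ)) f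
  have hP : ∀ p ∈ T, P.eval (p : ℂ) = f p := by
    intro p hp
    exact Lagrange.eval_interpolate_at_node f (fun x _ y _ hxy => by exact_mod_cast hxy) hp
  have e1 : fr S ψ f = fr S ψ (fun p => P.eval (p : ℂ)) := by
    unfold fr
    congr 1
    funext i
    exact (hP _ (Finset.mem_union_left _ (Finset.mem_image_of_mem _ (Finset.mem_univ i)))).symm
  have e2 : fr Sᶜ ψ f = fr Sᶜ ψ (fun p => P.eval (p : ℂ)) := by
    unfold fr
    congr 1
    funext i
    exact (hP _ (Finset.mem_union_right _ (Finset.mem_image_of_mem _ (Finset.mem_univ i)))).symm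
  rw [e1, e2, fr_poly, fr_poly, fr_rho, fr_rho]
  refine aeval_agree ?_ (rho_dual S ψ) P
  exact ph_acts_comm disjoint_compl_right (ph_acts_opOn S _) (ph_acts_opOn Sᶜ _)

end dual

end Vale.Agent.P356.GA
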