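import Vale.Agent.P356.GA.E11_185
import Vale.Agent.P356.GA.DetSum841
import Vale.Agent.P356.GA.Scales227

/-!
# The first order term of `Core`, with the detectors of DETSUM and the scales (helper185)

* `gamma_core_det185`: `gamma_core185` with the output of `det_sum`.
* `ev_gamma185`: the second output of `CoreAt` at the scales of `Scales227`, for all large `l`.
-/

set_option linter.all false

namespace Vale.Agent.P356.GA

open Matrix Finset Vale.Agent.P356 Vale.Agent.P356.SV Vale.Agent.P356.Path Vale.Agent.P356.NA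
open Vale.Agent.P356.SA Vale.Agent.P356.PH
open scoped BigOperators ComplexOrder Kronecker Matrix.Norms.L2Operator

section det
variable {L q : ℕ}

theorem gamma_core_det185 (g : Gd L) {θ M τ t κ D η : ℝ} {Kt : Finset (Site L) → Op (Site L) q}
    {Ω Ω' : Conf (Site L) q → ℂ} {ψ : Conf (Site L ⊕ Site L) q → ℂ} {r : ℕ}
    {Z : Finset (Site L)} {dv : Site L ⊕ Site L → ℝ} (hψ : nsq ψ = 1) (hΩ : nsq Ω = 1)
    (hΩ' : nsq Ω' = 1)
    (hq : 1 ≤ q) (hM : Fintype.card (Site L ⊕ Site L) * Real.log q ≤ M) (hθ : 0 < θ)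
    (htl : 1 ≤ g.tl) (hmp : 1 ≤ g.mp) (hN : g.n + g.mp ≤ g.N)
    (hT : ∀ x y, |g.T x - g.T y| ≤ 2 * dist1 x y)
    (hKt : ∀ b, (Kt b).IsHermitian ∧ ActsOn b (Kt b)) (hκ : 0 ≤ κ)
    (hKn : ∀ b, ‖Kt b‖ ≤ b.card * κ)
    (hζ : ‖(t : ℂ) * (1 + τ * Complex.I)‖ *
      (g.mp * θ * (4 * (g.tl : ℝ) ^ 2 * Real.log q + 2)) ≤ 1)
    (hZ : g.ring185 ⊆ Z) (hr : 2 * g.tl ≤ r) (hd0 : ∀ v, 0 ≤ dv v)
    (hdev : ∀ v, ∀ X : Op (Site L ⊕ Site L) q, ActsOn (lyr (fun z => ball z r) v) X →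
      ‖star ψ ⬝ᵥ (X *ᵥ ψ) - star (dbl Ω Ω) ⬝ᵥ (X *ᵥ dbl Ω Ω)‖ ≤ dv v * ‖X‖)
    (hη0 : 0 ≤ η)
    (hη : ∀ X : Op (Site L) q, ‖star Ω' ⬝ᵥ (X *ᵥ Ω') - star Ω ⬝ᵥ (X *ᵥ Ω)‖ ≤ η * ‖X‖)
    (hD : ∑ v ∈ Z.disjSum Z, dv v ≤ D) :
    ((1 + (τ : ℂ) * Complex.I) * g.wkv θ M τ t ψ (g.Gm θ Kt)).re ≤
      expv (dbl Ω' Ω') (g.Gm θ Kt) + (1 + |τ|) * (θ / 2 * κ *
        ((g.mp + 4 * g.tl) * (g.tl : ℝ) ^ 2 * (D + 2 * Z.card * η) +
          4 * Real.exp 1 * (‖(t : ℂ) * (1 + τ * Complex.I)‖ *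
            (g.mp * θ * (4 * (g.tl : ℝ) ^ 2 * Real.log q + 2))) * (g.mp * g.ring185.card))) := by
  refine gamma_core185 g (dev1 := fun z => dv (Sum.inl z) + η) (dev2 := fun z => dv (Sum.inr z) + η)
    (r := r) (Z := Z) hψ hΩ' hq hM hθ htl hmp hN hT hKt hκ hKn hζ hZ hr
    (fun z => ⟨add_nonneg (hd0 _) hη0, add_nonneg (hd0 _) hη0⟩) ?_ ?_
  · intro z X hX
    have h0 := hη X
    constructor
    · have h1 := hdev (Sum.inl z) (cp1 X) (cp1_acts hX)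
      rw [dg_exp_one hΩ] at h1
      have h2 := h1.trans (mul_le_mul_of_nonneg_left (dg_norm_one X) (hd0 (Sum.inl z)))
      have h3 := norm_sub_le_norm_sub_add_norm_sub
        (star ψ ⬝ᵥ ((cp1 X : Op (Site L ⊕ Site L) q) *ᵥ ψ)) (star Ω ⬝ᵥ (X *ᵥ Ω))
        (star Ω' ⬝ᵥ (X *ᵥ Ω'))
      rw [norm_sub_rev (star Ω ⬝ᵥ (X *ᵥ Ω))] at h3
      rw [add_mul]
      linarith
    · have h1 := hdev (Sum.inr z) (cp2 X) (cp2_acts hX)
      rw [dg_exp_two hΩ] at h1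
      have h2 := h1.trans (mul_le_mul_of_nonneg_left (dg_norm_two X) (hd0 (Sum.inr z)))
      have h3 := norm_sub_le_norm_sub_add_norm_sub
        (star ψ ⬝ᵥ ((cp2 X : Op (Site L ⊕ Site L) q) *ᵥ ψ)) (star Ω ⬝ᵥ (X *ᵥ Ω))
        (star Ω' ⬝ᵥ (X *ᵥ Ω'))
      rw [norm_sub_rev (star Ω ⬝ᵥ (X *ᵥ Ω))] at h3
      rw [add_mul]
      linarith
  · rw [Finset.sum_disjSum] at hD
    simp only [Finset.sum_add_distrib, Finset.sum_const, nsmul_eq_mul]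
    linarith

end det

section scales
open Par Filter

/-- an upper bound of the error, as a function of `l` -/
noncomputable def gErr185 (a : ℝ) (q : ℕ) (C : ℝ) (l : ℕ) : ℝ :=
  (1 + 10 * Real.log l) * (C / 2 * (l : ℝ) ^ (xu a + xom a - 1) / 2 * Real.log (q / cE l) *
    (((cP l : ℝ) + 4 * cM l) * (cM l : ℝ) ^ 2 * (C * (l : ℝ) ^ (3 / 2 : ℝ) + 2 * (C * (l : ℝ))) +
      4 * Real.exp 1 * ((1 + 10 * Real.log l) *
        ((cP l : ℝ) * (C / 2 * (l : ℝ) ^ (xu a + xom a - 1)) *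
          (4 * (cM l : ℝ) ^ 2 * Real.log q + 2))) * ((cP l : ℝ) * (C * (l : ℝ) ^ (2 : ℝ)))))

theorem up_log10_185 {e : ℝ} (he : 0 < e) : Up (fun l : ℕ => 1 + 10 * Real.log l) e := by
  refine ((Up.one_add_log he).cmul 10).of_le ?_
  filter_upwards [ev_one] with l hl
  have h0 : 0 ≤ Real.log l := Real.log_nonneg (by exact_mod_cast hl)
  rw [abs_of_nonneg (by positivity), abs_of_nonneg (by positivity)]
  linarith

theorem up_theta_185 {a : ℝ} (ha : 0 < a) (ha1 : a ≤ 1) (q : ℕ) (C : ℝ) :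
    Up (fun l : ℕ => (1 + 10 * Real.log l) *
        ((cP l : ℝ) * (C / 2 * (l : ℝ) ^ (xu a + xom a - 1)) *
          (4 * (cM l : ℝ) ^ 2 * Real.log q + 2))) (-(9 / 10)) := by
  have hx := e0_le ha1
  have hx0 := e0_pos ha
  have h1 : Up (fun l : ℕ => 4 * (cM l : ℝ) ^ 2 * Real.log q + 2) (2 * xm) := by
    refine Up.add ?_ ((Up.const 2).mono (by unfold xm; norm_num))
    refine Up.mulc _ ?_
    exact ((up_cM.pow 2).cmul 4).mono (by push_cast; exact le_rfl)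
  refine ((up_log10_185 (e := 1 / 1000) (by norm_num)).mul
    ((up_cP.mul ((Up.pow_self _).cmul _)).mul h1)).mono ?_
  unfold xu xom xr xm
  norm_num at hx ⊢
  linarith

theorem up_gErr185 {a : ℝ} (ha : 0 < a) (ha1 : a ≤ 1) {q : ℕ} (hq : 1 ≤ q) (C : ℝ) :
    Up (gErr185 a q C) (3 / 4) := by
  have hx := e0_le ha1
  have hx0 := e0_pos ha
  have hA := up_log10_185 (e := 1 / 1000) (by norm_num)
  have hth : Up (fun l : ℕ => C / 2 * (l : ℝ) ^ (xu a + xom a - 1) / 2)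
      (xu a + xom a - 1) := by
    have := ((Up.pow_self (xu a + xom a - 1)).cmul (C / 2)).mulc (1 / 2)
    refine this.congr' (Eventually.of_forall fun l => ?_)
    ring
  have hk : Up (fun l : ℕ => Real.log (q / cE l)) (1 / 1000) :=
    up_logE q (by exact_mod_cast hq) (by norm_num)
  have hw : Up (fun l : ℕ => (cP l : ℝ) + 4 * cM l) xm :=
    (up_cP.mono (by unfold xr xm; norm_num)).add (up_cM.cmul 4)
  have hD : Up (fun l : ℕ => C * (l : ℝ) ^ (3 / 2 : ℝ) + 2 * (C * (l : ℝ))) (3 / 2) := by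
    refine ((Up.pow_self _).cmul C).add ?_
    exact ((Up.self.cmul C).cmul 2).mono (by norm_num)
  have h1 : Up (fun l : ℕ => ((cP l : ℝ) + 4 * cM l) * (cM l : ℝ) ^ 2 *
      (C * (l : ℝ) ^ (3 / 2 : ℝ) + 2 * (C * (l : ℝ)))) (8 / 5) := by
    refine ((hw.mul (up_cM.pow 2)).mul hD).mono ?_
    push_cast
    unfold xm
    norm_num
  have h2 : Up (fun l : ℕ => 4 * Real.exp 1 * ((1 + 10 * Real.log l) *
        ((cP l : ℝ) * (C / 2 * (l : ℝ) ^ (xu a + xom a - 1)) *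
          (4 * (cM l : ℝ) ^ 2 * Real.log q + 2))) * ((cP l : ℝ) * (C * (l : ℝ) ^ (2 : ℝ))))
      (8 / 5) := by
    refine (((up_theta_185 ha ha1 q C).cmul _).mul (up_cP.mul ((Up.pow_self 2).cmul C))).mono ?_
    unfold xr
    norm_num
  refine (hA.mul ((hth.mul hk).mul (h1.add h2))).mono ?_
  unfold xu xom
  norm_num at hx ⊢
  linarith

/-- **(E11)** the second output of `CoreAt` at the scales of `Scales227`. -/
theorem ev_gamma185 {a : ℝ} (ha : 0 < a) (ha1 : a ≤ 1) {q : ℕ} (hq : 1 ≤ q) (C : ℝ) :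
    ∀ᶠ l : ℕ in atTop, ∀ (L : ℕ) (g : Gd L) (θ M τ t D η : ℝ)
      (Kt : Finset (Site L) → Op (Site L) q) (Ω Ω' : Conf (Site L) q → ℂ)
      (ψ : Conf (Site L ⊕ Site L) q → ℂ) (r : ℕ) (Z : Finset (Site L))
      (dv : Site L ⊕ Site L → ℝ), (l : ℝ) ^ (1 - xom a) ≤ C * g.n →
      θ = (l : ℝ) ^ (xu a) / (2 * g.n) → g.mp = cP l → g.tl = cM l → g.n + g.mp ≤ g.N →
      (∀ x y, |g.T x - g.T y| ≤ 2 * dist1 x y) →
      (∀ b, (Kt b).IsHermitian ∧ ActsOn b (Kt b)) →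
      (∀ b, ‖Kt b‖ ≤ b.card * Real.log (q / cE l)) →
      g.ring185 ⊆ Z → (Z.card : ℝ) ≤ C * (l : ℝ) ^ (2 : ℝ) → 2 * g.tl ≤ r →
      nsq ψ = 1 → nsq Ω = 1 → nsq Ω' = 1 →
      Fintype.card (Site L ⊕ Site L) * Real.log q ≤ M → |τ| ≤ 10 * Real.log l → 0 < t → t ≤ 1 →
      (∀ v, 0 ≤ dv v) →
      (∀ v, ∀ X : Op (Site L ⊕ Site L) q, ActsOn (lyr (fun z => ball z r) v) X →
        ‖star ψ ⬝ᵥ (X *ᵥ ψ) - star (dbl Ω Ω) ⬝ᵥ (X *ᵥ dbl Ω Ω)‖ ≤ dv v * ‖X‖) →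
      0 ≤ η → η ≤ (l : ℝ)⁻¹ →
      (∀ X : Op (Site L) q, ‖star Ω' ⬝ᵥ (X *ᵥ Ω') - star Ω ⬝ᵥ (X *ᵥ Ω)‖ ≤ η * ‖X‖) →
      ∑ v ∈ Z.disjSum Z, dv v ≤ D → D ≤ C * (l : ℝ) ^ (3 / 2 : ℝ) →
      ((1 + (τ : ℂ) * Complex.I) * g.wkv θ M τ t ψ (g.Gm θ Kt)).re ≤
        expv (dbl Ω' Ω') (g.Gm θ Kt) + (l : ℝ) ^ (1 - xc a) := by
  have hx := e0_le ha1
  have hx0 := e0_pos ha
  have e1 : (3 / 4 : ℝ) < 1 - xc a := by
    unfold xc
    norm_num at hx ⊢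
    linarith
  filter_upwards [(up_gErr185 ha ha1 hq C).le e1 one_pos,
    (up_theta_185 ha ha1 q C).le_const (by norm_num) one_pos, ev_one] with l h1 h2 hl
  intro L g θ M τ t D η Kt Ω Ω' ψ r Z dv hn hθ hmp htl hN hT hKt hKn hZ hZc hr hψ hΩ hΩ' hM hτ ht
    ht1 hd0 hdev hη0 hηl hη hD hDl
  have hl0 : (0 : ℝ) < l := by exact_mod_cast hl
  have hl1 : (1 : ℝ) ≤ l := by exact_mod_cast hl
  obtain ⟨hn1, hθ0, hθ1⟩ := Par.theta_le hl hn
  rw [← hθ] at hθ0 hθ1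
  have hlog : 0 ≤ Real.log l := Real.log_nonneg hl1
  have hlogq : 0 ≤ Real.log q := Real.log_nonneg (by exact_mod_cast hq)
  have hC0 : 0 < C := by
    by_contra h
    have h3 : 0 < (l : ℝ) ^ (1 - xom a) := Real.rpow_pos_of_pos hl0 _
    have h4 : C * g.n ≤ 0 := mul_nonpos_of_nonpos_of_nonneg (not_lt.1 h) (Nat.cast_nonneg _)
    linarith
  have hκ : 0 ≤ Real.log (q / cE l) := by
    refine Real.log_nonneg ?_
    have h4 : 0 < cE l := Real.rpow_pos_of_pos hl0 _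
    have h5 : cE l ≤ 1 := Real.rpow_le_one_of_one_le_of_nonpos hl1 (by norm_num)
    rw [le_div_iff₀ h4, one_mul]
    exact h5.trans (by exact_mod_cast hq)
  have htl1 : 1 ≤ g.tl := by rw [htl]; exact one_le_sc hl
  have hmp1 : 1 ≤ g.mp := by
    rw [hmp]
    have h6 : 1 ≤ sc xr l := one_le_sc hl
    unfold cP cR
    omega
  have hA : 1 + |τ| ≤ 1 + 10 * Real.log l := by linarith
  have hζ : ‖(t : ℂ) * (1 + τ * Complex.I)‖ ≤ 1 + 10 * Real.log l := by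
    rw [norm_mul, Complex.norm_real, Real.norm_of_nonneg ht.le]
    have h7 : ‖(1 : ℂ) + τ * Complex.I‖ ≤ 1 + |τ| := by
      refine (norm_add_le _ _).trans ?_
      rw [norm_one, norm_mul, Complex.norm_I, mul_one, Complex.norm_real, Real.norm_eq_abs]
    have h8 : t * ‖(1 : ℂ) + τ * Complex.I‖ ≤ 1 * ‖(1 : ℂ) + τ * Complex.I‖ :=
      mul_le_mul_of_nonneg_right ht1 (norm_nonneg _)
    linarith
  have hΘ : (g.mp : ℝ) * θ * (4 * (g.tl : ℝ) ^ 2 * Real.log q + 2) ≤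
      (cP l : ℝ) * (C / 2 * (l : ℝ) ^ (xu a + xom a - 1)) *
        (4 * (cM l : ℝ) ^ 2 * Real.log q + 2) := by
    rw [hmp, htl]
    refine mul_le_mul_of_nonneg_right ?_ (by positivity)
    exact mul_le_mul_of_nonneg_left hθ1 (Nat.cast_nonneg _)
  have hζΘ : ‖(t : ℂ) * (1 + τ * Complex.I)‖ *
      (g.mp * θ * (4 * (g.tl : ℝ) ^ 2 * Real.log q + 2)) ≤ (1 + 10 * Real.log l) *
        ((cP l : ℝ) * (C / 2 * (l : ℝ) ^ (xu a + xom a - 1)) *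
          (4 * (cM l : ℝ) ^ 2 * Real.log q + 2)) :=
    mul_le_mul hζ hΘ (by positivity) (by positivity)
  refine (gamma_core_det185 g hψ hΩ hΩ' hq hM hθ0 htl1 hmp1 hN hT hKt hκ hKn
    (hζΘ.trans ((le_abs_self _).trans h2)) hZ hr hd0 hdev hη0 hη hD).trans ?_
  refine add_le_add le_rfl ?_
  refine le_trans ?_ (((le_abs_self _).trans h1).trans (le_of_eq (one_mul _)))
  unfold gErr185
  have hring : (g.ring185.card : ℝ) ≤ C * (l : ℝ) ^ (2 : ℝ) := by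
    have : (g.ring185.card : ℝ) ≤ Z.card := by exact_mod_cast Finset.card_le_card hZ
    exact this.trans hZc
  have hZη : (Z.card : ℝ) * η ≤ C * (l : ℝ) := by
    have h9 := mul_le_mul hZc hηl hη0 (by positivity)
    refine h9.trans (le_of_eq ?_)
    rw [Real.rpow_two]
    field_simp
  have hD2 : D + 2 * Z.card * η ≤ C * (l : ℝ) ^ (3 / 2 : ℝ) + 2 * (C * (l : ℝ)) := by
    have h10 : 2 * (Z.card : ℝ) * η = 2 * (Z.card * η) := by ring
    rw [h10]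
    linarith
  have hD0 : 0 ≤ D := (Finset.sum_nonneg fun v _ => hd0 v).trans hD
  rw [hmp, htl] at *
  have hc1 : (0 : ℝ) ≤ (cP l : ℝ) := Nat.cast_nonneg _
  have hc2 : (0 : ℝ) ≤ (cM l : ℝ) := Nat.cast_nonneg _
  have hZ0 : (0 : ℝ) ≤ Z.card := Nat.cast_nonneg _
  have hn0 := norm_nonneg ((t : ℂ) * (1 + τ * Complex.I))
  refine mul_le_mul hA ?_ (by positivity) (by positivity)
  refine mul_le_mul (mul_le_mul_of_nonneg_right (by linarith) hκ) ?_ (by positivity)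
    (by positivity)
  refine add_le_add (mul_le_mul_of_nonneg_left hD2 (by positivity)) ?_
  refine mul_le_mul (mul_le_mul_of_nonneg_left hζΘ (by positivity))
    (mul_le_mul_of_nonneg_left hring hc1) (by positivity) (by positivity)

end scales

end Vale.Agent.P356.GA
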