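import Vale.Agent.P356.GA.EnDefs394
import Vale.Agent.P356.GA.Crude87

/-!
# GA, E3 (helper87): the crude facts about one observable on the two-layer lattice

In the notation of `EnDefs394` (`QV`), the fields `non`, `irr`, `lnC`, `slC` of helper770's `LF`.
-/

set_option linter.all false

namespace Vale.Agent.P356.GA.ENa

open Matrix Finset Vale.Agent.P356 Vale.Agent.P356.SV Vale.Agent.P356.Path Vale.Agent.P356.PH
open Vale.Agent.P356.GA
open scoped BigOperators ComplexOrder Kronecker Matrix.Norms.L2Operator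

variable {L q : ℕ}

/-- `toC` of a sum of lines -/
theorem toC_ln (g : Gd L) (s : Finset ℕ) :
    g.toC (∑ k ∈ s, Sum.ln k) = (fun k => if k ∈ s then 1 else 0, 0) := by
  classical
  refine Prod.ext (funext fun k => ?_) (funext fun p => ?_)
  · show (∑ k ∈ s, (Sum.ln k : Sum.Gn (SS L) → ℝ)) (Sum.inl k) = _
    rw [Finset.sum_apply]
    simp only [Sum.ln]
    by_cases hk : k ∈ s
    · rw [Finset.sum_eq_single_of_mem k hk fun j _ hj => by
        rw [Pi.single_eq_of_ne]; exact fun h => hj (Sum.inl_injective h).symm]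
      rw [Pi.single_eq_same, if_pos hk]
    · rw [Finset.sum_eq_zero fun j hj => by
        rw [Pi.single_eq_of_ne]; exact fun h => hk (Sum.inl_injective h ▸ hj), if_neg hk]
  · show (∑ k ∈ s, (Sum.ln k : Sum.Gn (SS L) → ℝ)) (Sum.inr ((p.1 : ℕ), p.2)) = _
    rw [Finset.sum_apply]
    simp only [Sum.ln]
    rw [Finset.sum_eq_zero fun j hj => by
      rw [Pi.single_eq_of_ne]; exact fun h => Sum.inr_ne_inl h]
    rfl

theorem GamK_zero {N : Type*} [Fintype N] [DecidableEq N] {ι : Type*} [Fintype ι]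
    (K : ι → Matrix N N ℂ) : GamK K 0 = 0 := by
  rw [GamK]
  exact Finset.sum_eq_zero fun b _ => by rw [Pi.zero_apply, zero_smul]

/-- **`non`** -/
theorem QV_non (g : Gd L) (ψ : Conf (SS L) q → ℂ) (M : ℝ) (K : Finset (SS L) → Op (SS L) q)
    {c : Finset (SS L)} {P : Op (SS L) q} (hP : ActsOn c P) (s : Finset ℕ)
    (hs : ∀ k ∈ s, k < g.n ∧ ¬ Sum.Cuts g.R c k) : g.QV ψ M K P (∑ k ∈ s, Sum.ln k) = 0 := by
  rw [Gd.QV]
  refine QF_lines_free g.R_anti394 ψ _ g.n (g.KV K) hP ?_ fun k hk => ?_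
  · rw [toC_ln]
    exact GamK_zero _
  · rw [toC_ln]
    have h : ¬ k ∈ s := fun h => by
      classical
      rw [crs107, Finset.mem_filter] at hk
      exact (hs k h).2 hk.2
    simp only [if_neg h]

/-- the line alone -/
theorem toC_ln1 (g : Gd L) (k : ℕ) :
    g.toC (Sum.ln k) = (fun i => if i = k then 1 else 0, 0) := by
  have h := toC_ln g {k}
  rw [Finset.sum_singleton] at h
  rw [h]
  simp only [Finset.mem_singleton]

/-- **`lnC`** -/
theorem QV_lnC (g : Gd L) {ψ : Conf (SS L) q → ℂ} (hψ : nsq ψ = 1) (hq : 1 ≤ q) {M : ℝ}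
    (hM : Fintype.card (SS L) * Real.log q ≤ M) (K : Finset (SS L) → Op (SS L) q)
    {c : Finset (SS L)} {P : Op (SS L) q} (hP : ActsOn c P) (k : ℕ) :
    |g.QV ψ M K P (Sum.ln k)| ≤ Real.exp 1 * ‖P‖ * (4 * c.card * Real.log q + 2) ^ 2 := by
  rw [Gd.QV]
  refine QF_line_crude g.R_anti394 hψ hq hM g.n (g.KV K) hP ?_ (s := k) (fun i _ hi => ?_) ?_
  · rw [toC_ln1]
    exact GamK_zero _
  · rw [toC_ln1]
    simp only [if_neg hi]
  · rw [toC_ln1]
    simp only [if_true, abs_one, le_refl]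

theorem toC_sl (g : Gd L) (p : ℕ × SS L) :
    g.toC (-Sum.sl p) = (0, fun p' => if ((p'.1 : ℕ), p'.2) = p then -1 else 0) := by
  refine Prod.ext (funext fun k => ?_) (funext fun p' => ?_)
  · show (-Sum.sl p : Sum.Gn (SS L) → ℝ) (Sum.inl k) = 0
    rw [Pi.neg_apply, Sum.sl, Pi.single_eq_of_ne, neg_zero]
    exact fun h => Sum.inl_ne_inr h
  · show (-Sum.sl p : Sum.Gn (SS L) → ℝ) (Sum.inr ((p'.1 : ℕ), p'.2)) = _
    rw [Pi.neg_apply, Sum.sl]
    by_cases h : ((p'.1 : ℕ), p'.2) = p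
    · simp only [if_pos h]
      rw [h, Pi.single_eq_same]
    · simp only [if_neg h]
      rw [Pi.single_eq_of_ne, neg_zero]
      exact fun h' => h (Sum.inr_injective h')

/-- the combination of the slab operators for one slab -/
theorem GamK_sl (g : Gd L) (K : Finset (SS L) → Op (SS L) q) {p : ℕ × SS L} (hp : p.1 < g.n) :
    GamK (g.KV K) (g.toC (-Sum.sl p)).2 = K (g.Wd p) := by
  classical
  rw [toC_sl, GamK, Finset.sum_eq_single (⟨p.1, hp⟩, p.2)]
  · simp only [if_true, Gd.KV, neg_smul, one_smul, neg_neg]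
  · intro p' _ hp'
    have h : ¬ ((p'.1 : ℕ), p'.2) = p := by
      intro h
      have h1 : (p'.1 : ℕ) = p.1 := congrArg Prod.fst h
      have h2 : p'.2 = p.2 := congrArg Prod.snd h
      exact hp' (Prod.ext (Fin.ext h1) h2)
    simp only [if_neg h, zero_smul]
  · intro h
    exact absurd (Finset.mem_univ _) h

/-- **`slC`**, for all slabs -/
theorem QV_slC (g : Gd L) {ψ : Conf (SS L) q → ℂ} (hψ : nsq ψ = 1) (hq : 1 ≤ q) (M : ℝ) {ε : ℝ}
    (h0 : 0 < ε) (h1 : ε ≤ 1) {Ω : Conf (SS L) q → ℂ} (hΩ : nsq Ω = 1) {c : Finset (SS L)}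
    {P : Op (SS L) q} (hP : ActsOn c P) (p : ℕ × SS L) :
    |g.QV ψ M (Kt ε Ω) P (-Sum.sl p)| ≤
      Real.exp 1 * ‖P‖ * (2 + c.card * Real.log ((q : ℝ) ^ 2 / ε)) ^ 2 := by
  have hq1 : (1 : ℝ) ≤ (q : ℝ) ^ 2 / ε := by
    rw [le_div_iff₀ h0, one_mul]
    have : (1 : ℝ) ≤ q := by exact_mod_cast hq
    nlinarith
  have hL := Real.log_nonneg hq1
  rw [Gd.QV]
  by_cases hp : p.1 < g.n
  · have h := QF_slab_crude g.R hψ hq M g.n (g.KV (Kt ε Ω)) h0 h1 hΩ hP (g.Wd p) (x := 1)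
      (by rw [abs_one]) (c := g.toC (-Sum.sl p))
      (by rw [GamK_sl g _ hp, Complex.ofReal_one, one_smul]) (fun k _ => by rw [toC_sl]; rfl)
    refine h.trans (mul_le_mul_of_nonneg_left ?_ (by positivity))
    have h2 : ((g.Wd p ∩ c).card : ℝ) ≤ c.card := by
      exact_mod_cast Finset.card_le_card Finset.inter_subset_right
    have h3 : ((g.Wd p ∩ c).card : ℝ) * Real.log ((q : ℝ) ^ 2 / ε) ≤
        c.card * Real.log ((q : ℝ) ^ 2 / ε) := mul_le_mul_of_nonneg_right h2 hL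
    exact pow_le_pow_left₀ (by positivity) (by linarith) 2
  · have h : g.toC (-Sum.sl p) = 0 := by
      rw [toC_sl]
      refine Prod.ext rfl (funext fun p' => ?_)
      have h : ¬ ((p'.1 : ℕ), p'.2) = p := by
        intro h
        rw [← h] at hp
        exact hp p'.1.2
      simp only [if_neg h]
      rfl
    rw [h, QF_zero, abs_zero]
    positivity

/-- **`irr`**: only the slabs in tiles which meet the core matter -/
theorem QV_irr (g : Gd L) (ψ : Conf (SS L) q → ℂ) (M : ℝ) {K : Finset (SS L) → Op (SS L) q}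
    (hK : ∀ b, ActsOn b (K b)) {a : Finset (SS L)} {P : Op (SS L) q} (hP : ActsOn a P)
    {c c' : Sum.Gn (SS L) → ℝ} (h1 : ∀ k, c (Sum.inl k) = c' (Sum.inl k))
    (h2 : ∀ p : ℕ × SS L, p.1 < g.n → ¬ Disjoint a (g.tB p.2) →
      c (Sum.inr p) = c' (Sum.inr p)) : g.QV ψ M K P c = g.QV ψ M K P c' := by
  classical
  -- one vector is the other one plus irrelevant slabs
  have key : ∀ c c' : Sum.Gn (SS L) → ℝ, (∀ k, c (Sum.inl k) = c' (Sum.inl k)) →
      (∀ p : ℕ × SS L, p.1 < g.n → ¬ Disjoint a (g.tB p.2) → c (Sum.inr p) = c' (Sum.inr p)) →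
      (∀ p : ℕ × SS L, Disjoint a (g.tB p.2) → c' (Sum.inr p) = 0) →
      g.QV ψ M K P c = g.QV ψ M K P c' := by
    intro c c' h1 h2 h3
    set γ : Fin g.n × SS L → ℝ := fun p => c (Sum.inr ((p.1 : ℕ), p.2)) -
      c' (Sum.inr ((p.1 : ℕ), p.2)) with hγ
    have e : g.toC c = ((g.toC c').1, (g.toC c').2 + γ) := by
      refine Prod.ext (funext fun k => h1 k) (funext fun p => ?_)
      show c (Sum.inr ((p.1 : ℕ), p.2)) = c' (Sum.inr ((p.1 : ℕ), p.2)) + γ p
      rw [hγ]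
      ring
    have hγ0 : ∀ p, ¬ Disjoint a (g.tB p.2) → γ p = 0 := fun p hp => by
      rw [hγ]
      simp only
      rw [h2 _ p.1.2 hp, sub_self]
    rw [Gd.QV, Gd.QV, e]
    have hcomm : ∀ p p' : Fin g.n × SS L, Disjoint (g.tB p.2) (g.tB p'.2) →
        Commute (g.KV K p) (g.KV K p') := fun p p' h =>
      ph_acts_comm h (g.KV_acts hK p) (g.KV_acts hK p')
    refine QF_slab_irr _ ψ _ g.n (g.KV K) (g.toC c') ?_ ?_
    · rw [GamK, GamK]
      refine Commute.sum_left _ _ _ fun p _ => Commute.sum_right _ _ _ fun p' _ => ?_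
      by_cases hp : Disjoint a (g.tB p.2)
      · by_cases hp' : Disjoint a (g.tB p'.2)
        · have : (g.toC c').2 p' = 0 := h3 ((p'.1 : ℕ), p'.2) hp'
          rw [this, zero_smul]
          exact Commute.zero_right _
        · have hne : p.2 ≠ p'.2 := fun h => hp' (h ▸ hp)
          exact ((hcomm p p' (g.tB_disj hne)).smul_left _).smul_right _
      · rw [hγ0 p hp, zero_smul]
        exact Commute.zero_left _
    · rw [GamK]
      refine Commute.sum_left _ _ _ fun p _ => ?_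
      by_cases hp : Disjoint a (g.tB p.2)
      · exact Commute.smul_left (ph_acts_comm hp.symm (g.KV_acts hK p) hP) _
      · rw [hγ0 p hp, zero_smul]
        exact Commute.zero_left _
  set c₀ : Sum.Gn (SS L) → ℝ := fun i => Sum.elim (fun k => c (Sum.inl k))
    (fun p => if Disjoint a (g.tB p.2) then 0 else c (Sum.inr p)) i with hc₀
  have hd : ∀ p : ℕ × SS L, Disjoint a (g.tB p.2) → c₀ (Sum.inr p) = 0 := fun p hp => by
    simp only [hc₀, Sum.elim_inr, if_pos hp]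
  rw [key c c₀ (fun k => rfl) (fun p _ hp => by simp only [hc₀, Sum.elim_inr, if_neg hp]) hd,
    key c' c₀ (fun k => (h1 k).symm) (fun p hpn hp => by
      simp only [hc₀, Sum.elim_inr, if_neg hp]; exact (h2 p hpn hp).symm) hd]

/-- **`irr`**, only the nonempty windows in tiles which meet the core matter -/
theorem QV_irr_ne (g : Gd L) (ψ : Conf (SS L) q → ℂ) (M : ℝ) {K : Finset (SS L) → Op (SS L) q}
    (hK : ∀ b, ActsOn b (K b)) (hK0 : K ∅ = 0) {a : Finset (SS L)} {P : Op (SS L) q}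
    (hP : ActsOn a P) {c c' : Sum.Gn (SS L) → ℝ} (h1 : ∀ k, c (Sum.inl k) = c' (Sum.inl k))
    (h2 : ∀ p : ℕ × SS L, p.1 < g.n → ¬ Disjoint a (g.tB p.2) → (g.Wd p).Nonempty →
      c (Sum.inr p) = c' (Sum.inr p)) : g.QV ψ M K P c = g.QV ψ M K P c' := by
  classical
  set c₁ : Sum.Gn (SS L) → ℝ := fun i => Sum.elim (fun k => c (Sum.inl k))
    (fun p => if (g.Wd p).Nonempty then c' (Sum.inr p) else c (Sum.inr p)) i with hc₁
  have e1 : g.QV ψ M K P c = g.QV ψ M K P c₁ := by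
    refine QV_irr g ψ M hK hP (fun k => rfl) fun p hp hd => ?_
    simp only [hc₁, Sum.elim_inr]
    by_cases hn : (g.Wd p).Nonempty
    · rw [if_pos hn]
      exact h2 p hp hd hn
    · rw [if_neg hn]
  rw [e1, Gd.QV, Gd.QV]
  refine QF_congr fun ζ => ?_
  rw [fQ_GenR, fQ_GenR]
  have e2 : (g.toC c₁).1 = (g.toC c').1 := funext fun k => h1 k
  have e3 : GamK (g.KV K) (g.toC c₁).2 = GamK (g.KV K) (g.toC c').2 := by
    rw [GamK, GamK]
    refine Finset.sum_congr rfl fun p _ => ?_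
    by_cases hn : (g.Wd ((p.1 : ℕ), p.2)).Nonempty
    · have : (g.toC c₁).2 p = (g.toC c').2 p := by
        show c₁ (Sum.inr ((p.1 : ℕ), p.2)) = c' (Sum.inr ((p.1 : ℕ), p.2))
        simp only [hc₁, Sum.elim_inr, if_pos hn]
      rw [this]
    · have : g.KV K p = 0 := by
        rw [Gd.KV, Finset.not_nonempty_iff_eq_empty.1 hn, hK0, neg_zero]
      rw [this, smul_zero, smul_zero]
  rw [e2, e3]

/-- the constant of the crude bounds -/
noncomputable def C2e (q : ℕ) (ε nP : ℝ) (m : ℕ) : ℝ :=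
  Real.exp 1 * nP * (2 + 2 * m * Real.log ((q : ℝ) ^ 2 / ε)) ^ 2

/-- both crude bounds with one constant -/
theorem QV_C2 (g : Gd L) {ψ : Conf (SS L) q → ℂ} (hψ : nsq ψ = 1) (hq : 1 ≤ q) {M : ℝ}
    (hM : Fintype.card (SS L) * Real.log q ≤ M) {ε : ℝ}
    (h0 : 0 < ε) (h1 : ε ≤ 1) {Ω : Conf (SS L) q → ℂ} (hΩ : nsq Ω = 1) {c : Finset (SS L)}
    {P : Op (SS L) q} (hP : ActsOn c P) {nP : ℝ} (hnP : ‖P‖ ≤ nP) {m : ℕ} (hm : c.card ≤ m) :
    (∀ k, g.QV ψ M (Kt ε Ω) P (Sum.ln k) ≤ C2e q ε nP m) ∧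
      ∀ p, g.QV ψ M (Kt ε Ω) P (-Sum.sl p) ≤ C2e q ε nP m := by
  have hq' : (1 : ℝ) ≤ q := by exact_mod_cast hq
  have hq0 : (0 : ℝ) < q := by linarith
  have hlq : 0 ≤ Real.log q := Real.log_nonneg hq'
  have hle : 0 ≤ -Real.log ε := by
    have := Real.log_nonpos h0.le h1
    linarith
  have hlog : Real.log ((q : ℝ) ^ 2 / ε) = 2 * Real.log q + -Real.log ε := by
    rw [Real.log_div (by positivity) h0.ne', Real.log_pow]
    push_cast
    ring
  have hc : (c.card : ℝ) ≤ m := by exact_mod_cast hm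
  have hc0 : (0 : ℝ) ≤ c.card := Nat.cast_nonneg _
  have hL : 0 ≤ Real.log ((q : ℝ) ^ 2 / ε) := by rw [hlog]; positivity
  have hcL : (c.card : ℝ) * Real.log ((q : ℝ) ^ 2 / ε) ≤ m * Real.log ((q : ℝ) ^ 2 / ε) :=
    mul_le_mul_of_nonneg_right hc hL
  have hmL : 0 ≤ (m : ℝ) * Real.log ((q : ℝ) ^ 2 / ε) := by positivity
  have gen : ∀ A : ℝ, 0 ≤ A → A ≤ 2 + 2 * m * Real.log ((q : ℝ) ^ 2 / ε) →
      Real.exp 1 * ‖P‖ * A ^ 2 ≤ C2e q ε nP m := by
    intro A hA0 hA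
    unfold C2e
    have hn0 : 0 ≤ nP := (norm_nonneg P).trans hnP
    have e1 : Real.exp 1 * ‖P‖ ≤ Real.exp 1 * nP :=
      mul_le_mul_of_nonneg_left hnP (Real.exp_pos 1).le
    exact mul_le_mul e1 (pow_le_pow_left₀ hA0 hA 2) (sq_nonneg _) (by positivity)
  refine ⟨fun k => ?_, fun p => ?_⟩
  · refine (le_abs_self _).trans ((QV_lnC g hψ hq hM (Kt ε Ω) hP k).trans (gen _ ?_ ?_))
    · positivity
    · have : (c.card : ℝ) * Real.log q ≤ m * Real.log q := mul_le_mul_of_nonneg_right hc hlq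
      have h3 : (0:ℝ) ≤ m * (-Real.log ε) := mul_nonneg (Nat.cast_nonneg _) hle
      rw [hlog]
      nlinarith
  · refine (le_abs_self _).trans ((QV_slC g hψ hq M h0 h1 hΩ hP p).trans (gen _ ?_ ?_))
    · positivity
    · nlinarith

end Vale.Agent.P356.GA.ENa
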