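import Vale.Agent.P356.GA.Scales227
import Vale.Agent.P356.GA.DetSum841

/-!
# Numerical conditions of the construction (helper227)

Eventual inequalities between the scales of `Scales227`, with all constants quantified first.
`W a l w` is the condition on the width `w = ⌊l^(1 - om)⌋`.
-/

set_option linter.all false

namespace Vale.Agent.P356.GA.Par

open Filter Asymptotics

/-- `w = ⌊l^(1 - om)⌋` -/
def W (a : ℝ) (l w : ℕ) : Prop :=
  (w : ℝ) ≤ (l : ℝ) ^ (1 - xom a) ∧ (l : ℝ) ^ (1 - xom a) < (w : ℝ) + 1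

section
variable {a : ℝ}

theorem W.le (ha : 0 < a) {l w : ℕ} (hl : 1 ≤ l) (h : W a l w) : w ≤ l := by
  have h1 : (l : ℝ) ^ (1 - xom a) ≤ l := by
    conv_rhs => rw [← Real.rpow_one (l : ℝ)]
    exact Real.rpow_le_rpow_of_exponent_le (by exact_mod_cast hl) (by linarith [xom_pos ha])
  have h2 : (w : ℝ) ≤ l := h.1.trans h1
  exact_mod_cast h2

/-- half width of the end bands -/
noncomputable def cb (a : ℝ) (l : ℕ) : ℕ := cP l + 8 * cD a l + 8

theorem up_cb (ha : 0 < a) (ha1 : a ≤ 1) : Up (fun l => (cb a l : ℝ)) xr := by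
  have h1 : xd a ≤ xr := by
    have := e0_le ha1; have := e0_pos ha; unfold xd xr; norm_num at *; linarith
  have h := ((up_cP).add (((up_cD ha).mono h1).cmul 8)).add
    ((Up.const 8).mono (by unfold xr; norm_num))
  refine h.congr' (Eventually.of_forall fun l => ?_)
  simp [cb]

theorem gd_arith (S P D w K : ℕ) (hK : K = 1000) (h : K * (S + P + 1) ≤ w) (h' : 8 * D ≤ S) :
    32 * S + 32 * (P + 8 * D + 8) + 400 ≤ w ∧ 32 * P ≤ w := by
  have h2 : (1000 : ℕ) * (S + P + 1) ≤ w := by rw [← hK]; exact h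
  constructor
  · linarith
  · linarith

/-- **hypotheses of `exists_gd`** -/
theorem ev_gd (ha : 0 < a) (ha1 : a ≤ 1) : ∀ᶠ l : ℕ in atTop, ∀ w, W a l w →
    1 ≤ cD a l ∧ 8 * cD a l ≤ cS a l ∧ cS a l ≤ cR l ∧
      32 * cS a l + 32 * cb a l + 400 ≤ w ∧ 32 * cP l ≤ w ∧ w ≤ l := by
  obtain ⟨K, hK⟩ : ∃ K : ℕ, K = 1000 := ⟨_, rfl⟩
  filter_upwards [ev_fit ha ha1 K, ev_one] with l h1 hl w hw
  have h2 := h1 w hw.2
  have h3 := cD_cS ha hl
  have h4 := gd_arith (cS a l) (cP l) (cD a l) w K hK h2 h3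
  exact ⟨one_le_cD hl, h3, cS_cR ha ha1 hl, h4.1, h4.2, hw.le ha hl⟩

/-- lower bound of the width in the form `l^(1-om) ≤ 2 w` -/
theorem ev_w2 (ha1 : a ≤ 1) : ∀ᶠ l : ℕ in atTop, ∀ w, W a l w →
    (l : ℝ) ^ (1 - xom a) ≤ 2 * w ∧ 1 ≤ w := by
  filter_upwards [ev_width 2 (by norm_num) ha1, ev_one] with l h hl w hw
  have h1 := h w hw.2
  refine ⟨h1, ?_⟩
  have h2 : 0 < (l : ℝ) ^ (1 - xom a) :=
    Real.rpow_pos_of_pos (by exact_mod_cast hl) _
  by_contra h3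
  have h4 : w = 0 := by omega
  subst h4
  simp at h1
  linarith

/-- **size of `θ = l^u / (2 n)`** for `w ≤ 16 n` -/
theorem ev_theta (ha1 : a ≤ 1) : ∀ᶠ l : ℕ in atTop, ∀ w, W a l w → ∀ n : ℕ, w ≤ 16 * n →
    1 ≤ n ∧ 0 < (l : ℝ) ^ (xu a) / (2 * n) ∧
      (l : ℝ) ^ (xu a) / (2 * n) ≤ 16 * (l : ℝ) ^ (xu a + xom a - 1) := by
  filter_upwards [ev_w2 ha1, ev_one] with l h hl w hw n hn
  have hn' : (w : ℝ) ≤ 16 * n := by exact_mod_cast hn
  have h1 := theta_le (a := a) (n := n) (K := 32) hl (by linarith [(h w hw).1])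
  norm_num at h1 ⊢
  exact h1

theorem thexp_lt (ha1 : a ≤ 1) : xu a + xom a - 1 < -(99 / 100) := by
  have := e0_le ha1; unfold xu xom; norm_num at *; linarith

/-- products of small powers -/
theorem up_small {f : ℕ → ℝ} {e : ℝ} (hf : Up f e) (p : ℕ) (h : p * e < 1 / 100) :
    ∀ᶠ l : ℕ in atTop, |f l ^ p| ≤ (l : ℝ) ^ ((1 : ℝ) / 100) := by
  filter_upwards [(hf.pow p).le (e' := (1:ℝ)/100) (c := 1) h one_pos] with l hl
  linarith

/-! ### the detectors -/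

/-- the error of the detectors is smaller than every power -/
theorem ev_detErr (q : ℕ) {C c : ℝ} (hC : 0 ≤ C) (hc : 0 < c) (A : ℝ) :
    ∀ᶠ l : ℕ in atTop, detErr q C c (cB l) (cN l) ≤ (l : ℝ) ^ (-A) := by
  have h1 : Up (fun l => (2 * Real.log q + 1) * (2 * (cB l : ℝ) + 1) ^ 2 + 1) (2 * xm) := by
    have h2 : Up (fun l => 2 * (cB l : ℝ) + 1) xm :=
      (up_cB.cmul 2).add ((Up.const 1).mono (by unfold xm; norm_num))
    have h3 := (h2.pow 2).cmul (2 * Real.log q + 1)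
    refine Up.add ?_ ((Up.const 1).mono (by unfold xm; norm_num))
    simpa using h3
  have h4 : Up (fun l => C * Real.exp (-(c / 2 * (l : ℝ) ^ xn))) (-(A + 1)) :=
    (Up.exp_neg (by unfold xn; norm_num) (by positivity) _).cmul C
  filter_upwards [h1.le (e' := xn) (c := c / 2) (by unfold xm xn; norm_num) (by positivity),
    h4.le (e' := -A) (c := 1) (by linarith) one_pos] with l hl hl'
  refine (detErr_le hC hc (B := c / 2 * (l : ℝ) ^ xn) ?_).trans ?_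
  · have h5 : (l : ℝ) ^ xn ≤ cN l := sc_ge _ _
    have h6 := (le_abs_self _).trans hl
    nlinarith
  · rw [one_mul] at hl'
    exact (le_abs_self _).trans hl'

theorem cLam_pos {l : ℕ} (hl : 1 ≤ l) : 0 < cLam l :=
  Real.rpow_pos_of_pos (by exact_mod_cast hl) _

theorem cLam_le_one {l : ℕ} (hl : 1 ≤ l) : cLam l ≤ 1 :=
  Real.rpow_le_one_of_one_le_of_nonpos (by exact_mod_cast hl) (by unfold xlam; norm_num)

/-- **hypotheses of `det_sum`** and the distance of the two ground states -/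
theorem ev_det (q : ℕ) {C c Δ : ℝ} (hC : 0 ≤ C) (hc : 0 < c) (hΔ : 0 < Δ) (κ : ℝ) :
    ∀ᶠ l : ℕ in atTop, ∀ A : ℝ, 0 ≤ A → A ≤ κ * (l : ℝ) ^ 2 →
      0 < cLam l ∧ cLam l * (A * detErr q C c (cB l) (cN l)) ≤ Δ / 2 ∧
      2 * (cLam l * (A * detErr q C c (cB l) (cN l)) / Δ) ≤ (l : ℝ) ^ (-(20 : ℝ)) ∧
      A * detErr q C c (cB l) (cN l) ≤ (l : ℝ) ^ (-(20 : ℝ)) := by
  have h1 : Up (fun l : ℕ => κ * (l : ℝ) ^ 2 * (l : ℝ) ^ (-(30 : ℝ))) (-28) := by
    have h2 : Up (fun l : ℕ => (l : ℝ) ^ 2) 2 := by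
      simpa using Up.self.pow 2
    have h3 := (h2.cmul κ).mul (Up.pow_self (-(30 : ℝ)))
    exact h3.mono (by norm_num)
  filter_upwards [ev_detErr q hC hc 30, h1.le (e' := -20) (c := 1) (by norm_num) one_pos,
    h1.le (e' := -20) (c := Δ / 2) (by norm_num) (by positivity),
    h1.le (e' := 0) (c := Δ / 2) (by norm_num) (by positivity), ev_one]
    with l h2 h3 h4 h5 hl A hA0 hA
  have hE : 0 ≤ detErr q C c (cB l) (cN l) := by
    unfold detErr; positivity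
  have h6 : A * detErr q C c (cB l) (cN l) ≤ κ * (l : ℝ) ^ 2 * (l : ℝ) ^ (-(30 : ℝ)) :=
    mul_le_mul hA h2 hE (hA0.trans hA)
  have h7 : 0 ≤ A * detErr q C c (cB l) (cN l) := mul_nonneg hA0 hE
  have h8 : cLam l * (A * detErr q C c (cB l) (cN l)) ≤ A * detErr q C c (cB l) (cN l) :=
    mul_le_of_le_one_left h7 (cLam_le_one hl)
  have h3' := (le_abs_self _).trans h3
  have h4' := (le_abs_self _).trans h4
  have h5' := (le_abs_self _).trans h5
  rw [Real.rpow_zero, mul_one] at h5'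
  rw [one_mul] at h3'
  refine ⟨cLam_pos hl, by linarith, ?_, by linarith⟩
  rw [← mul_div_assoc, div_le_iff₀ hΔ]
  nlinarith

/-- **sum of the deviations**, from the crude energy bound `K ≤ l^(1/1000)` -/
theorem ev_dev (q : ℕ) {C c : ℝ} (hC : 0 ≤ C) (hc : 0 < c) (κ : ℝ) :
    ∀ᶠ l : ℕ in atTop, ∀ A K : ℝ, 0 ≤ A → A ≤ κ * (l : ℝ) ^ 2 → 0 ≤ K →
      K ≤ (l : ℝ) ^ ((1 : ℝ) / 1000) →
      K / cLam l + 2 * (A * detErr q C c (cB l) (cN l)) ≤ (l : ℝ) ^ ((1 : ℝ) / 100) ∧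
      3 * (K / cLam l + 2 * (A * detErr q C c (cB l) (cN l))) +
        2 * Real.sqrt (2 * A * (K / cLam l + 2 * (A * detErr q C c (cB l) (cN l)))) ≤
          (l : ℝ) ^ ((101 : ℝ) / 100) := by
  have h1 : Up (fun l : ℕ => (l : ℝ) ^ ((1 : ℝ) / 1000) * (cLam l)⁻¹ + 2) (2 / 1000) := by
    refine Up.add ?_ ((Up.const 2).mono (by norm_num))
    refine ((Up.pow_self _).mul up_cLam_inv).mono ?_
    unfold xlam; norm_num
  have h2 : Up (fun l : ℕ => 3 * (l : ℝ) ^ ((1 : ℝ) / 100) +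
      2 * Real.sqrt (2 * (κ * (l : ℝ) ^ 2) * (l : ℝ) ^ ((1 : ℝ) / 100))) (1 + 1 / 200) := by
    refine Up.add (((Up.pow_self _).cmul 3).mono (by norm_num)) ?_
    refine Up.cmul 2 ?_
    have h3 : Up (fun l : ℕ => (l : ℝ) ^ 2) 2 := by simpa using Up.self.pow 2
    have h4 := (((h3.cmul κ).cmul 2).mul (Up.pow_self ((1 : ℝ) / 100))).sqrt
    exact h4.mono (by norm_num)
  filter_upwards [ev_det q hC hc one_pos κ, h1.le (e' := 1 / 100) (c := 1) (by norm_num) one_pos,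
    h2.le (e' := 101 / 100) (c := 1) (by norm_num) one_pos, ev_one] with l h3 h4 h5 hl A K hA0 hA
    hK0 hK
  obtain ⟨-, -, -, h6⟩ := h3 A hA0 hA
  have h7 : (l : ℝ) ^ (-(20 : ℝ)) ≤ 1 :=
    Real.rpow_le_one_of_one_le_of_nonpos (by exact_mod_cast hl) (by norm_num)
  have hL := cLam_pos hl
  have h8 : K / cLam l + 2 * (A * detErr q C c (cB l) (cN l)) ≤ (l : ℝ) ^ ((1 : ℝ) / 100) := by
    rw [one_mul] at h4
    refine le_trans ?_ ((le_abs_self _).trans h4)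
    rw [div_eq_mul_inv]
    have := mul_le_mul_of_nonneg_right hK (inv_nonneg.2 hL.le)
    linarith
  refine ⟨h8, ?_⟩
  rw [one_mul] at h5
  refine le_trans ?_ ((le_abs_self _).trans h5)
  have h9 : 0 ≤ detErr q C c (cB l) (cN l) := by unfold detErr; positivity
  have h10 : 0 ≤ K / cLam l + 2 * (A * detErr q C c (cB l) (cN l)) := by positivity
  refine add_le_add (by linarith) (mul_le_mul_of_nonneg_left (Real.sqrt_le_sqrt ?_) (by norm_num))
  exact mul_le_mul (by linarith) h8 h10 (by linarith)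

/-! ### the first order term -/

theorem norm_c_le {t τ : ℝ} {l : ℕ} (ht : 0 < t) (ht1 : t ≤ 1) (hτ : |τ| ≤ 10 * Real.log l) :
    ‖(t : ℂ) * (1 + τ * Complex.I)‖ ≤ 10 * (1 + Real.log l) := by
  have h1 : ‖(t : ℂ)‖ ≤ 1 := by
    rw [Complex.norm_real, Real.norm_eq_abs, abs_of_pos ht]; exact ht1
  have h2 : ‖(1 + τ * Complex.I : ℂ)‖ ≤ 1 + |τ| := by
    refine (norm_add_le _ _).trans ?_
    simp [Complex.norm_real]
  rw [norm_mul]
  calc ‖(t : ℂ)‖ * ‖(1 + τ * Complex.I : ℂ)‖ ≤ 1 * (1 + |τ|) :=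
        mul_le_mul h1 h2 (norm_nonneg _) zero_le_one
    _ ≤ 10 * (1 + Real.log l) := by linarith

/-- **radius condition and size of the error in `gamma_core185`** -/
theorem ev_gamma (ha : 0 < a) (ha1 : a ≤ 1) (q : ℕ) (hq : 1 ≤ q) (Q κ₀ : ℝ) (hQ : 1 ≤ Q) :
    ∀ᶠ l : ℕ in atTop, ∀ (θ τ t D ring : ℝ), 0 < θ →
      θ ≤ 16 * (l : ℝ) ^ (xu a + xom a - 1) → |τ| ≤ 10 * Real.log l → 0 < t → t ≤ 1 →
      0 ≤ D → D ≤ (l : ℝ) ^ ((11 : ℝ) / 10) → 0 ≤ ring → ring ≤ κ₀ * (l : ℝ) ^ 2 →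
      ‖(t : ℂ) * (1 + τ * Complex.I)‖ *
        (cP l * θ * (4 * (cM l : ℝ) ^ 2 * Real.log q + 2)) ≤ 1 ∧
      (1 + |τ|) * (θ / 2 * Real.log (Q / cE l) *
        ((cP l + 4 * cM l) * (cM l : ℝ) ^ 2 * D +
          4 * Real.exp 1 * (‖(t : ℂ) * (1 + τ * Complex.I)‖ *
            (cP l * θ * (4 * (cM l : ℝ) ^ 2 * Real.log q + 2))) * (cP l * ring))) ≤
        1 / 2 * (l : ℝ) ^ (1 - xc a) := by
  have hx := e0_le ha1
  have hx0 := e0_pos ha
  have hsm : (0 : ℝ) < 1 / 10 ^ 6 := by norm_num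
  set T : ℕ → ℝ := fun l => 16 * (l : ℝ) ^ (xu a + xom a - 1) with hT
  have uT : Up T (-(99 / 100)) :=
    ((Up.pow_self (xu a + xom a - 1)).cmul 16).mono (thexp_lt ha1).le
  have uL : Up (fun l => 10 * (1 + Real.log l)) (1 / 10 ^ 6) := (Up.one_add_log hsm).cmul 10
  have uP : Up (fun l => (cP l : ℝ)) (1 / 10 ^ 6) := up_cP.mono (by unfold xr; norm_num)
  have uM : Up (fun l => (cM l : ℝ)) (1 / 10 ^ 6) := up_cM.mono (by unfold xm; norm_num)
  have uc : ∀ c : ℝ, Up (fun _ => c) (1 / 10 ^ 6) := fun c => (Up.const c).mono hsm.le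
  have uM2 : Up (fun l => (cM l : ℝ) ^ 2) (2 * (1 / 10 ^ 6)) := by simpa using uM.pow 2
  have uA : Up (fun l => 4 * (cM l : ℝ) ^ 2 * Real.log q + 2) (2 * (1 / 10 ^ 6)) :=
    ((uM2.cmul 4).mulc _).add ((Up.const 2).mono (by norm_num))
  have uTH : Up (fun l => cP l * T l * (4 * (cM l : ℝ) ^ 2 * Real.log q + 2))
      (1 / 10 ^ 6 + -(99 / 100) + 2 * (1 / 10 ^ 6)) := (uP.mul uT).mul uA
  have u1 := uL.mul uTH
  have uE : Up (fun l => Real.log (Q / cE l)) (1 / 10 ^ 6) := up_logE Q (by linarith) hsm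
  have u2 : Up (fun l : ℕ => ((cP l : ℝ) + 4 * cM l) * (cM l : ℝ) ^ 2 *
      (l : ℝ) ^ ((11 : ℝ) / 10)) (1 / 10 ^ 6 + 2 * (1 / 10 ^ 6) + 11 / 10) :=
    ((uP.add (uM.cmul 4)).mul uM2).mul (Up.pow_self _)
  have u3 : Up (fun l : ℕ => 4 * Real.exp 1 * (10 * (1 + Real.log l) *
      (cP l * T l * (4 * (cM l : ℝ) ^ 2 * Real.log q + 2))) * (cP l * (κ₀ * (l : ℝ) ^ 2)))
      (1 / 10 ^ 6 + (1 / 10 ^ 6 + -(99 / 100) + 2 * (1 / 10 ^ 6)) + (1 / 10 ^ 6 + 2)) := by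
    have h3 : Up (fun l : ℕ => (l : ℝ) ^ 2) 2 := by simpa using Up.self.pow 2
    exact (u1.cmul _).mul (uP.mul (h3.cmul κ₀))
  have u4 : Up (fun l : ℕ => 10 * (1 + Real.log l) * (T l / 2 * Real.log (Q / cE l) *
      (((cP l : ℝ) + 4 * cM l) * (cM l : ℝ) ^ 2 * (l : ℝ) ^ ((11 : ℝ) / 10) +
        4 * Real.exp 1 * (10 * (1 + Real.log l) *
          (cP l * T l * (4 * (cM l : ℝ) ^ 2 * Real.log q + 2))) * (cP l * (κ₀ * (l : ℝ) ^ 2)))))
      (1 / 2) := by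
    have h5 : Up (fun l => T l / 2) (-(99 / 100)) := by
      refine (uT.cmul (1 / 2)).congr' (Eventually.of_forall fun l => by ring)
    have h6 := uL.mul ((h5.mul uE).mul ((u2.mono (e' := 11 / 10 + 1 / 100) (by norm_num)).add
      (u3.mono (e' := 11 / 10 + 1 / 100) (by norm_num))))
    exact h6.mono (by norm_num)
  filter_upwards [u1.le_const (c := 1) (by norm_num) one_pos,
    u4.le (e' := 1 - xc a) (c := 1 / 2) (by unfold xc; norm_num at hx ⊢; linarith) (by norm_num),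
    ev_one] with l h1 h2 hl θ τ t D ring hθ hθT hτ ht ht1 hD0 hD hr0 hr
  have hlog : 0 ≤ Real.log q := Real.log_nonneg (by exact_mod_cast hq)
  have hll : 0 ≤ Real.log l := Real.log_nonneg (by exact_mod_cast hl)
  have hl0 : (0 : ℝ) < l := by exact_mod_cast hl
  have hn := norm_c_le ht ht1 hτ
  have hE : 0 ≤ Real.log (Q / cE l) := by
    have e1 : 0 < cE l := Real.rpow_pos_of_pos hl0 _
    have e2 : cE l ≤ 1 :=
      Real.rpow_le_one_of_one_le_of_nonpos (by exact_mod_cast hl) (by norm_num)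
    refine Real.log_nonneg ?_
    rw [one_le_div e1]
    exact e2.trans hQ
  have hP0 : (0 : ℝ) ≤ cP l := Nat.cast_nonneg _
  have hM0 : (0 : ℝ) ≤ cM l := Nat.cast_nonneg _
  have hT0 : 0 ≤ T l := hθ.le.trans hθT
  have hA0 : 0 ≤ 4 * (cM l : ℝ) ^ 2 * Real.log q + 2 := by positivity
  have hTH : cP l * θ * (4 * (cM l : ℝ) ^ 2 * Real.log q + 2) ≤
      cP l * T l * (4 * (cM l : ℝ) ^ 2 * Real.log q + 2) :=
    mul_le_mul_of_nonneg_right (mul_le_mul_of_nonneg_left hθT hP0) hA0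
  have hTH0 : 0 ≤ cP l * θ * (4 * (cM l : ℝ) ^ 2 * Real.log q + 2) := by positivity
  have hmain : ‖(t : ℂ) * (1 + τ * Complex.I)‖ *
      (cP l * θ * (4 * (cM l : ℝ) ^ 2 * Real.log q + 2)) ≤ 10 * (1 + Real.log l) *
      (cP l * T l * (4 * (cM l : ℝ) ^ 2 * Real.log q + 2)) :=
    mul_le_mul hn hTH hTH0 (by positivity)
  refine ⟨hmain.trans ((le_abs_self _).trans h1), ?_⟩
  refine le_trans ?_ ((le_abs_self _).trans h2)
  have hτ1 : 1 + |τ| ≤ 10 * (1 + Real.log l) := by linarith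
  refine mul_le_mul hτ1 ?_ (by positivity) (by positivity)
  refine mul_le_mul (mul_le_mul_of_nonneg_right (by linarith) hE) ?_ (by positivity)
    (by positivity)
  refine add_le_add (mul_le_mul_of_nonneg_left hD (by positivity)) ?_
  refine mul_le_mul (mul_le_mul_of_nonneg_left hmain (by positivity))
    (mul_le_mul_of_nonneg_left hr hP0) (by positivity) (by positivity)

end

end Vale.Agent.P356.GA.Par
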