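import Vale.Agent.P356.GA.E6Rad412
import Vale.Agent.P356.GA.CData551
import Vale.Agent.P356.GA.Num227

/-!
# GA, block E6 (helper412): the energy of the tilted states for the data `CData`

* `e6_data`: for large `l`, every `d : CData`, every tilted state: crude bound
  `|⟨H₂⟩ - 2 E'| ≤ l ^ (1/1000)` and
  `⟨H₂⟩ - 2 E' ≤ t² (1 + τ²) ∑_{v ∈ Nr} QF (Tv v) + l ^ (-1/2000)`.
-/

set_option linter.all false

namespace Vale.Agent.P356.GA

open Matrix Finset Vale.Agent.P356 Vale.Agent.P356.SV Vale.Agent.P356.Path Vale.Agent.P356.NA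
open Vale.Agent.P356.SA Vale.Agent.P356.PH Vale.Agent.P356.GA.Par
open scoped BigOperators ComplexOrder Kronecker Matrix.Norms.L2Operator

namespace E6

open Terms412 (cpb T6 Hp Nn near zone mem_zone InZone Rad E6D off_zone crs_far win_far fQ_far
  cpb_norm cpb_acts e6_form e6_crude e6_QF norm_le_one_psd)
open Level (bal mem_bal dist1_self_le mem_bal_of_dist1)

/-! ### numbers -/

section numbers
open Filter

/-- radius of the largest supports -/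
noncomputable def rhoN (l : ℕ) : ℕ := cB l + cN l + cM l

/-- inverse radius for unit coefficients -/
noncomputable def aN (q l : ℕ) : ℝ :=
  400 * (rhoN l : ℝ) ^ 3 * (Real.log q + 1 + Real.log (q / cE l) * cP l)

/-- bound of `θ` -/
noncomputable def thN (a : ℝ) (l : ℕ) : ℝ := 16 * (l : ℝ) ^ (xu a + xom a - 1)

/-- inverse radius for the coefficients of the tilted states -/
noncomputable def iN (q : ℕ) (a : ℝ) (l : ℕ) : ℝ := thN a l * aN q l

/-- sum of the norms of the near terms -/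
noncomputable def nN (R : ℕ) (J : ℝ) (l : ℕ) : ℝ :=
  2 * (NR R * J * (9 * (l : ℝ) ^ 2) + cLam l * (25 * (l : ℝ) ^ 2))

theorem up_rhoN : Up (fun l => (rhoN l : ℝ)) xn := by
  have h1 : Up (fun l => (cB l : ℝ)) xn := up_cB.mono (by unfold xm xn; norm_num)
  have h2 : Up (fun l => (cM l : ℝ)) xn := up_cM.mono (by unfold xm xn; norm_num)
  refine ((h1.add up_cN).add h2).congr' (Eventually.of_forall fun l => ?_)
  simp [rhoN]

theorem up_aN {q : ℕ} (hq : 1 ≤ q) : Up (aN q) (1 / 10 ^ 6) := by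
  have hq0 : (0 : ℝ) < q := by exact_mod_cast hq
  have h1 := (up_rhoN.pow 3).cmul 400
  have h2 : Up (fun l => Real.log (q / cE l)) (1 / 10 ^ 8) := up_logE q hq0 (by norm_num)
  have h3 := h2.mul up_cP
  have h4 : Up (fun l => Real.log q + 1 + Real.log (q / cE l) * cP l) (1 / 10 ^ 8 + xr) :=
    ((Up.const (Real.log q + 1)).mono (by unfold xr; norm_num)).add h3
  have h5 := h1.mul h4
  refine (h5.mono ?_).congr' (Eventually.of_forall fun l => rfl)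
  unfold xn xr
  norm_num

theorem up_thN (a : ℝ) : Up (thN a) (xu a + xom a - 1) := (Up.pow_self _).cmul 16

theorem up_iN {q : ℕ} (hq : 1 ≤ q) (a : ℝ) : Up (iN q a) (xu a + xom a - 1 + 1 / 10 ^ 6) :=
  (up_thN a).mul (up_aN hq)

theorem up_nN (R : ℕ) (J : ℝ) : Up (nN R J) 2 := by
  have h2 : Up (fun l : ℕ => (l : ℝ) ^ 2) 2 := by simpa using Up.self.pow 2
  have h3 : Up (fun l => cLam l * (25 * (l : ℝ) ^ 2)) 2 :=
    (up_cLam.mul (h2.cmul 25)).mono (by unfold xlam; norm_num)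
  exact (((h2.cmul 9).cmul (NR R * J)).add h3).cmul 2

theorem up_tau {e : ℝ} (he : 0 < e) : Up (fun l => 2 + 10 * Real.log l) e :=
  ((Up.const 2).mono he.le).add ((Up.log he).cmul 10)

/-- crude constant -/
noncomputable def kN (q R : ℕ) (J a : ℝ) (l : ℕ) : ℝ :=
  (2 + 10 * Real.log l) ^ 3 * (8 * (nN R J l * iN q a l ^ 2))

/-- third order constant -/
noncomputable def tN (q R : ℕ) (J a : ℝ) (l : ℕ) : ℝ :=
  (2 + 10 * Real.log l) ^ 4 * (16 * (nN R J l * iN q a l ^ 3))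

/-- constant of the detectors -/
noncomputable def dN (q : ℕ) (a : ℝ) (l : ℕ) : ℝ :=
  (2 + 10 * Real.log l) ^ 2 * (cLam l * (400 * (l : ℝ) ^ 2 * iN q a l ^ 2))

theorem exp_small {a : ℝ} (ha1 : a ≤ 1) : xu a + xom a ≤ 1 / 10 ^ 6 := by
  have := e0_le ha1; unfold xu xom; norm_num at *; linarith

theorem ev_kN {q : ℕ} (hq : 1 ≤ q) (R : ℕ) (J : ℝ) {a : ℝ} (ha1 : a ≤ 1) :
    ∀ᶠ l : ℕ in atTop, kN q R J a l ≤ (l : ℝ) ^ ((1 : ℝ) / 1000) := by
  have h1 := ((up_tau (e := 1 / 10 ^ 6) (by norm_num)).pow 3).mul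
    (((up_nN R J).mul ((up_iN hq a).pow 2)).cmul 8)
  have h2 : Up (kN q R J a) (1 / 10 ^ 4) := by
    refine (h1.mono ?_).congr' (Eventually.of_forall fun l => rfl)
    have := exp_small ha1
    push_cast
    norm_num at this ⊢
    linarith
  filter_upwards [h2.le (e' := (1 : ℝ) / 1000) (c := 1) (by norm_num) one_pos] with l hl
  rw [one_mul] at hl
  exact (le_abs_self _).trans hl

theorem ev_tN {q : ℕ} (hq : 1 ≤ q) (R : ℕ) (J : ℝ) {a : ℝ} (ha1 : a ≤ 1) :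
    ∀ᶠ l : ℕ in atTop, tN q R J a l ≤ 1 / 2 * (l : ℝ) ^ (-((1 : ℝ) / 2000)) := by
  have h1 := ((up_tau (e := 1 / 10 ^ 6) (by norm_num)).pow 4).mul
    (((up_nN R J).mul ((up_iN hq a).pow 3)).cmul 16)
  have h2 : Up (tN q R J a) (-(1 / 2)) := by
    refine (h1.mono ?_).congr' (Eventually.of_forall fun l => rfl)
    have := exp_small ha1
    push_cast
    norm_num at this ⊢
    linarith
  filter_upwards [h2.le (e' := -((1 : ℝ) / 2000)) (c := 1 / 2) (by norm_num) (by norm_num)]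
    with l hl
  exact (le_abs_self _).trans hl

theorem ev_dN {q : ℕ} (hq : 1 ≤ q) {a : ℝ} (ha1 : a ≤ 1) :
    ∀ᶠ l : ℕ in atTop, dN q a l ≤ 1 / 2 * (l : ℝ) ^ (-((1 : ℝ) / 2000)) := by
  have h0 : Up (fun l : ℕ => (l : ℝ) ^ 2) 2 := by simpa using Up.self.pow 2
  have h1 := ((up_tau (e := 1 / 10 ^ 6) (by norm_num)).pow 2).mul
    (up_cLam.mul ((h0.cmul 400).mul ((up_iN hq a).pow 2)))
  have h2 : Up (dN q a) (-(1 / 1500)) := by
    refine (h1.mono ?_).congr' (Eventually.of_forall fun l => rfl)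
    have := exp_small ha1
    unfold xlam
    push_cast
    norm_num at this ⊢
    linarith
  filter_upwards [h2.le (e' := -((1 : ℝ) / 2000)) (c := 1 / 2) (by norm_num) (by norm_num)]
    with l hl
  exact (le_abs_self _).trans hl

/-- the admissible values of the flow parameter are inside the radius -/
theorem ev_rad {q : ℕ} (hq : 1 ≤ q) {a : ℝ} (ha1 : a ≤ 1) :
    ∀ᶠ l : ℕ in atTop, (2 + 10 * Real.log l) * (2 * iN q a l) ≤ 1 := by
  have h1 := (up_tau (e := 1 / 10 ^ 6) (by norm_num)).mul ((up_iN hq a).cmul 2)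
  have h2 : Up (fun l => (2 + 10 * Real.log l) * (2 * iN q a l)) (-(1 / 2)) := by
    refine h1.mono ?_
    have := exp_small ha1
    norm_num at this ⊢
    linarith
  filter_upwards [h2.le_const (c := 1) (by norm_num) one_pos] with l hl
  exact (le_abs_self _).trans hl

end numbers

/-! ### the energy of the tilted states -/

section main
variable {q R : ℕ} {J Δ a C₁ C₂ : ℝ} {L l : ℕ}

/-- the radius hypothesis, simplified form -/
theorem rad_one {g : Gd L} (htl : 1 ≤ g.tl) (hT : ∀ x y, |g.T x - g.T y| ≤ 2 * dist1 x y)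
    {K : Finset (SS L) → Op (SS L) q} (hKH : ∀ b, (K b).IsHermitian)
    (hKa : ∀ b, ActsOn b (K b)) {κ : ℝ} (hκ0 : 0 ≤ κ) (hκ : ∀ b, ‖K b‖ ≤ κ * b.card)
    {ψ : Conf (SS L) q → ℂ} (hψ : nsq ψ = 1) (hq : 1 ≤ q) {M : ℝ}
    (hM : Fintype.card (SS L) * Real.log q ≤ M) (c : (ℕ → ℝ) × (Fin g.n × SS L → ℝ))
    {α : ℝ} (h1 : ∀ k, |c.1 k| ≤ α) (h2 : ∀ w, |c.2 w| ≤ α)
    {r ρ : ℕ} (hρ : r + g.tl ≤ ρ) {r₀ : ℝ} (hr0 : 0 ≤ r₀)
    (hr : r₀ * (α * (400 * ρ ^ 3 * (Real.log q + 1 + κ * g.mp))) ≤ 1) :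
    Rad g ψ M (g.KV K) c r r₀ := by
  intro b z X hX ζ hζ
  have hX' := cpb_acts b hX
  cases b
  · refine Gd.gd_radius_one htl hT hKH hKa hκ0 hκ hψ hq hM c h1 h2 hρ (v := Sum.inl z)
      (Z := Terms412.lay false (ball z r)) ?_ hX' hr0 hr hζ
    rw [show Terms412.lay false (ball z r) = inL (ball z r) from (inL_eq _).symm]
    exact Finset.map_subset_map.2 (ball_sub_bal z r)
  · refine Gd.gd_radius_one htl hT hKH hKa hκ0 hκ hψ hq hM c h1 h2 hρ (v := Sum.inr z)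
      (Z := Terms412.lay true (ball z r)) ?_ hX' hr0 hr hζ
    rw [show Terms412.lay true (ball z r) = inR (ball z r) from (inR_eq _).symm]
    exact Finset.map_subset_map.2 (ball_sub_bal z r)

/-- the noisy modular Hamiltonians on the two-layer lattice -/
noncomputable def K2 (d : CData q R J Δ a C₁ C₂ L l) (b : Finset (SS L)) : Op (SS L) q :=
  Kt (cE l) (dbl d.Ω d.Ω) b

/-- the strictly local terms on the two layers -/
noncomputable def Tv (d : CData q R J Δ a C₁ C₂ L l) (v : SS L) : Op (SS L) q :=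
  Sum.elim (fun z => cp1 (d.T z)) (fun z => cp2 (d.T z)) v

theorem sum_Tv (d : CData q R J Δ a C₁ C₂ L l) : ∑ v, Tv d v =
    cp1 (∑ X, d.h X) + cp2 (∑ X, d.h X) - (((2 * d.e : ℝ)) : ℂ) • (1 : Op (SS L) q) := by
  rw [Fintype.sum_sum_type]
  have e1 : ∑ z, Tv d (Sum.inl z) = cp1 (∑ z, d.T z) := by rw [cp1_sum]; rfl
  have e2 : ∑ z, Tv d (Sum.inr z) = cp2 (∑ z, d.T z) := by rw [cp2_sum]; rfl
  rw [e1, e2, d.Tsum, cp1_sub, cp2_sub, cp1_smul, cp2_smul, cp1_one, cp2_one]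
  push_cast
  rw [mul_smul, two_smul]
  abel

theorem nsq2 (d : CData q R J Δ a C₁ C₂ L l) : nsq (dbl d.Ω d.Ω) = 1 := by
  rw [nsq_dbl, d.gap.1, mul_one]

theorem cE_pos (hl : 1 ≤ l) : 0 < cE l := Real.rpow_pos_of_pos (by exact_mod_cast hl) _

theorem cE_le (hl : 1 ≤ l) : cE l ≤ 1 :=
  Real.rpow_le_one_of_one_le_of_nonpos (by exact_mod_cast hl) (by norm_num)

theorem K2_inL (d : CData q R J Δ a C₁ C₂ L l) (hl : 1 ≤ l) (b : Finset (Site L)) :
    K2 d (inL b) = cp1 (d.K b) := by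
  rw [K2, inL_eq, Kt_dbl1 (cE_pos hl).le (cE_le hl) d.Ω d.gap.1]
  rfl

theorem K2_inR (d : CData q R J Δ a C₁ C₂ L l) (hl : 1 ≤ l) (b : Finset (Site L)) :
    K2 d (inR b) = cp2 (d.K b) := by
  rw [K2, inR_eq, Kt_dbl2 (cE_pos hl).le (cE_le hl) d.Ω d.gap.1]
  rfl

theorem lay_ball_sub (v : SS L) (r : ℕ) :
    lay v (fun z => ball z r) ⊆ lay v (fun z => bal z r) := by
  rcases v with z | z
  · exact Finset.map_subset_map.2 (ball_sub_bal z r)
  · exact Finset.map_subset_map.2 (ball_sub_bal z r)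

theorem Tv_acts (d : CData q R J Δ a C₁ C₂ L l) (v : SS L) :
    ActsOn (lay v (fun z => ball z (Par.cD a l))) (Tv d v) := by
  rcases v with z | z
  · have h := cp1_acts (W := Site L) (d.Tloc z).2.1
    rw [← inL_eq] at h
    exact h
  · have h := cp2_acts (V := Site L) (d.Tloc z).2.1
    rw [← inR_eq] at h
    exact h

/-- the data of block E6 -/
theorem e6e (d : CData q R J Δ a C₁ C₂ L l) (hJ : 0 ≤ J) (hl : 1 ≤ l) (hR : R ≤ cB l)
    (hbw : 4 * Par.cD a l ≤ bw a l) {Nr : Finset (SS L)}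
    (hNr : ∀ v, pj v ∈ sa7_nb d.X d.w \ d.X → v ∈ Nr) :
    E6E d.g R J (cLam l) 1 d.e d.h d.P (sa7_nb d.X (2 * d.w)) (K2 d) (Tv d) (Par.cD a l)
      (cB l + cN l) (cB l + cN l) Nr where
  terms := d.terms
  hJ := hJ
  hΛ := (cLam_pos hl).le
  hP := fun z => ⟨(d.det z).2.1, (d.det z).2.2.1⟩
  hPa := fun z _ => (d.det z).1
  hT := d.lip
  hN := by have := d.mid1; have := d.mid2; omega
  herm := fun b => Kt_herm _ _ b
  acts := fun b => Kt_acts (cE_pos hl) (cE_le hl) (nsq2 d) b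
  hR := le_trans hR (Nat.le_add_right _ _)
  hrb := le_rfl
  hM := fun v => PH.ph_acts_mono (lay_ball_sub v _) (Tv_acts d v)
  hsum := by rw [Complex.ofReal_one, one_smul, sum_Tv]
  hNr := by
    intro v hv
    rw [mem_zone] at hv
    have h4 : (4 : ℝ) * (Par.cD a l : ℕ) ≤ (bw a l : ℕ) := by exact_mod_cast hbw
    exact hNr v (d.near _ (by linarith [hv.1]) (by linarith [hv.2]))

theorem Nn_le (d : CData q R J Δ a C₁ C₂ L l) (hJ : 0 ≤ J) (hl : 1 ≤ l)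
    (hbw : 2 * R ≤ bw a l) : Nn R J (cLam l) d.g (sa7_nb d.X (2 * d.w)) ≤ nN R J l := by
  have h1 : zone d.g (2 * R) ⊆ sa7_nb d.X d.w \ d.X := by
    intro z hz
    rw [mem_zone] at hz
    have h4 : (2 : ℝ) * R ≤ (bw a l : ℕ) := by exact_mod_cast hbw
    exact d.near _ (by linarith [hz.1]) (by linarith [hz.2])
  have h2 : ((zone d.g (2 * R)).card : ℝ) ≤ 9 * (l : ℝ) ^ 2 :=
    le_trans (by exact_mod_cast Finset.card_le_card h1) d.area
  have h3 : 0 ≤ (NR R : ℝ) * J := by positivity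
  rw [Nn, nN]
  have h5 := mul_le_mul_of_nonneg_left h2 h3
  have h6 := mul_le_mul_of_nonneg_left d.areaZ (cLam_pos hl).le
  linarith

/-- numeric hypotheses on `l` -/
structure Ok (q R : ℕ) (J a : ℝ) (l : ℕ) : Prop where
  one : 1 ≤ l
  hR : R ≤ cB l
  bw4 : 4 * Par.cD a l ≤ bw a l
  bw2 : 2 * R ≤ bw a l
  th : ∀ w, W a l w → ∀ n : ℕ, w ≤ 16 * n →
    1 ≤ n ∧ 0 < (l : ℝ) ^ (xu a) / (2 * n) ∧
      (l : ℝ) ^ (xu a) / (2 * n) ≤ 16 * (l : ℝ) ^ (xu a + xom a - 1)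
  rad : (2 + 10 * Real.log l) * (2 * iN q a l) ≤ 1
  k : kN q R J a l ≤ (l : ℝ) ^ ((1 : ℝ) / 1000)
  t : tN q R J a l ≤ 1 / 2 * (l : ℝ) ^ (-((1 : ℝ) / 2000))
  d : dN q a l ≤ 1 / 2 * (l : ℝ) ^ (-((1 : ℝ) / 2000))

open Filter in
theorem ev_ok (hq : 1 ≤ q) (R : ℕ) (J : ℝ) (ha : 0 < a) (ha1 : a ≤ 1) :
    ∀ᶠ l : ℕ in atTop, Ok q R J a l := by
  filter_upwards [ev_one, ev_const_cF ha (2 * R), ev_theta ha1, ev_rad hq ha1, ev_kN hq R J ha1,
    ev_tN hq R J ha1, ev_dN hq ha1] with l h1 h2 h3 h4 h5 h6 h7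
  have h8 : cF a l ≤ cM l := by
    refine sc_mono ?_ h1
    have := e0_le ha1
    unfold xd xm
    norm_num at *
    linarith
  refine ⟨h1, ?_, ?_, ?_, h3, h4, h5, h6, h7⟩
  · rw [cB]; omega
  · rw [bw]; omega
  · rw [bw, cD_eq]; omega

theorem aN_pos (hq : 1 ≤ q) (hl : 1 ≤ l) : 0 < aN q l := by
  have hq1 : (1 : ℝ) ≤ q := by exact_mod_cast hq
  have h1 : 0 ≤ Real.log q := Real.log_nonneg hq1
  have h2 : 0 ≤ Real.log (q / cE l) := by
    refine Real.log_nonneg ?_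
    rw [le_div_iff₀ (cE_pos hl)]
    linarith [cE_le hl]
  have h3 : (0 : ℝ) < rhoN l := by
    have h4 : 1 ≤ cM l := one_le_sc hl
    have : 1 ≤ rhoN l := by rw [rhoN]; omega
    exact_mod_cast this
  rw [aN]
  positivity

/-- **E6 for `CData`.** -/
theorem e6_data_ok (hJ : 0 ≤ J) (d : CData q R J Δ a C₁ C₂ L l) (ok : Ok q R J a l) {M : ℝ}
    (hM : Fintype.card (SS L) * Real.log q ≤ M) {τ : ℝ} (hτ : |τ| ≤ 10 * Real.log l) {t : ℝ}
    (ht : 0 < t) (ht1 : t ≤ 1) {ψ : Conf (SS L) q → ℂ} (hS : d.St M τ t ψ) :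
    |expv ψ d.H2 - (d.E' + d.E')| ≤ (l : ℝ) ^ ((1 : ℝ) / 1000) ∧
    ∀ Nr : Finset (SS L), (∀ v, pj v ∈ sa7_nb d.X d.w \ d.X → v ∈ Nr) →
      expv ψ d.H2 - (d.E' + d.E') ≤ t ^ 2 * (1 + τ ^ 2) *
        ∑ v ∈ Nr, QF ψ (d.g.GN ψ M (K2 d)) (d.g.n + 1) (Tv d v)
          (fun _ => d.θ, fun _ => -d.θ / 2) + (l : ℝ) ^ (-((1 : ℝ) / 2000)) := by
  have hl := ok.one
  have hq := d.q1
  have hlog : 0 ≤ Real.log l := Real.log_nonneg (by exact_mod_cast hl)
  obtain ⟨hn1, hθ0, hθ1⟩ := ok.th d.w ⟨d.wle, d.wgt⟩ d.g.n d.n16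
  have hθ : 0 < d.θ := hθ0
  have hθN : d.θ ≤ thN a l := hθ1
  have haN := aN_pos (q := q) hq hl
  have hthN : 0 < thN a l := hθ.trans_le hθN
  have hiN : 0 < iN q a l := mul_pos hthN haN
  set r₀ : ℝ := (iN q a l)⁻¹ with hr₀
  have hr : 0 < r₀ := inv_pos.2 hiN
  have hψ : nsq ψ = 1 := hS.1
  have htl : 1 ≤ d.g.tl := by rw [d.tl]; exact one_le_sc hl
  have hlogE : 0 ≤ Real.log (q / cE l) := by
    refine Real.log_nonneg ?_
    rw [le_div_iff₀ (cE_pos hl)]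
    have hq1 : (1 : ℝ) ≤ q := by exact_mod_cast hq
    linarith [cE_le hl]
  have hrad : Rad d.g ψ M (d.g.KV (K2 d)) (fun _ => d.θ, fun _ => -d.θ / 2) (cB l + cN l) r₀ := by
    refine rad_one (κ := Real.log (q / cE l)) (α := d.θ) (ρ := rhoN l) htl d.lip
      (fun b => Kt_herm _ _ b) (fun b => Kt_acts (cE_pos hl) (cE_le hl) (nsq2 d) b) hlogE
      (fun b => ?_) hψ hq hM _ (fun k => ?_) (fun w => ?_) (by rw [d.tl, rhoN]) hr.le ?_
    · rw [mul_comm]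
      exact Kt_norm (cE_pos hl) (cE_le hl) (nsq2 d) b
    · show |d.θ| ≤ d.θ
      rw [abs_of_pos hθ]
    · show |-d.θ / 2| ≤ d.θ
      rw [neg_div, abs_neg, abs_of_pos (by positivity)]
      linarith
    · rw [d.mp, hr₀]
      show (iN q a l)⁻¹ * (d.θ * aN q l) ≤ 1
      rw [inv_mul_le_iff₀ hiN, mul_one]
      exact mul_le_mul_of_nonneg_right hθN haN.le
  set c := ‖(t : ℂ) * (1 + τ * Complex.I)‖ with hc
  have hc1 : c ≤ 2 + 10 * Real.log l := by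
    rw [hc, norm_mul, Complex.norm_real, Real.norm_of_nonneg ht.le]
    have h1 : ‖(1 : ℂ) + τ * Complex.I‖ ≤ 1 + |τ| := by
      refine (norm_add_le _ _).trans ?_
      rw [norm_one, norm_mul, Complex.norm_I, mul_one, Complex.norm_real, Real.norm_eq_abs]
    have h2 : t * ‖(1 : ℂ) + τ * Complex.I‖ ≤ 1 * (1 + |τ|) :=
      mul_le_mul ht1 h1 (norm_nonneg _) zero_le_one
    linarith
  have hs : c ≤ r₀ / 2 := by
    refine hc1.trans ?_
    have h1 := ok.rad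
    rw [hr₀, le_div_iff₀ (by norm_num : (0:ℝ) < 2), ← one_div, le_div_iff₀ hiN]
    linarith
  have hE : Hp d.h d.P (sa7_nb d.X (2 * d.w)) (cLam l) *ᵥ d.Ω' = (d.E' : ℂ) • d.Ω' := d.gap'.2.1
  have hNn := Nn_le d hJ hl ok.bw2
  have hNn0 : 0 ≤ Nn R J (cLam l) d.g (sa7_nb d.X (2 * d.w)) := by
    have := (cLam_pos hl).le
    rw [Nn]
    positivity
  have hT0 : (0 : ℝ) ≤ 2 + 10 * Real.log l := by linarith
  have hτ2 : t ^ 2 * (1 + τ ^ 2) ≤ (2 + 10 * Real.log l) ^ 2 := by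
    have h1 : t ^ 2 ≤ 1 := by nlinarith
    have h2 : 1 + τ ^ 2 ≤ (2 + 10 * Real.log l) ^ 2 := by
      rw [← sq_abs τ]
      nlinarith [abs_nonneg τ]
    have h3 : (0 : ℝ) ≤ 1 + τ ^ 2 := by positivity
    nlinarith
  constructor
  · have h1 := e6_K (e6e d hJ hl ok.hR ok.bw4 (Nr := Finset.univ) (fun v _ => Finset.mem_univ v))
      (K2_inL d hl) (K2_inR d hl) hE hS hr hrad hs
    refine le_trans h1 (le_trans ?_ ok.k)
    have e1 : 8 * Nn R J (cLam l) d.g (sa7_nb d.X (2 * d.w)) / r₀ ^ 2 ≤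
        8 * (nN R J l * iN q a l ^ 2) := by
      rw [hr₀, inv_pow, div_inv_eq_mul]
      have := mul_le_mul_of_nonneg_right hNn (by positivity : 0 ≤ iN q a l ^ 2)
      linarith
    have e2 : (2 + |τ|) * (t ^ 2 * (1 + τ ^ 2)) ≤ (2 + 10 * Real.log l) ^ 3 := by
      calc (2 + |τ|) * (t ^ 2 * (1 + τ ^ 2)) ≤
            (2 + 10 * Real.log l) * (2 + 10 * Real.log l) ^ 2 :=
            mul_le_mul (by linarith) hτ2 (by positivity) hT0
        _ = _ := by ring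
    rw [kN]
    exact mul_le_mul e2 e1 (by positivity) (by positivity)
  · intro Nr hNr
    have h1 := e6_upper (e6e d hJ hl ok.hR ok.bw4 hNr) (K2_inL d hl) (K2_inR d hl) hE hS hr hrad hs
    refine h1.trans ?_
    rw [one_mul]
    have e1 : t ^ 2 * (1 + τ ^ 2) * (cLam l * (2 * ((sa7_nb d.X (2 * d.w)).card : ℝ) *
        (8 / r₀ ^ 2))) ≤ 1 / 2 * (l : ℝ) ^ (-((1 : ℝ) / 2000)) := by
      refine le_trans ?_ ok.d
      have h2 : 2 * ((sa7_nb d.X (2 * d.w)).card : ℝ) * (8 / r₀ ^ 2) ≤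
          400 * (l : ℝ) ^ 2 * iN q a l ^ 2 := by
        rw [hr₀, inv_pow, div_inv_eq_mul]
        have := mul_le_mul_of_nonneg_right d.areaZ (by positivity : 0 ≤ iN q a l ^ 2)
        linarith
      rw [dN]
      have h3 := mul_le_mul_of_nonneg_left h2 (cLam_pos hl).le
      exact mul_le_mul hτ2 h3 (mul_nonneg (cLam_pos hl).le (by positivity)) (by positivity)
    have e2 : (1 + |τ|) * (16 * Nn R J (cLam l) d.g (sa7_nb d.X (2 * d.w)) * (c / r₀) ^ 3) ≤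
        1 / 2 * (l : ℝ) ^ (-((1 : ℝ) / 2000)) := by
      refine le_trans ?_ ok.t
      have h2 : (c / r₀) ^ 3 ≤ (2 + 10 * Real.log l) ^ 3 * iN q a l ^ 3 := by
        rw [hr₀, div_inv_eq_mul, ← mul_pow]
        refine pow_le_pow_left₀ (mul_nonneg (norm_nonneg _) hiN.le) ?_ 3
        exact mul_le_mul_of_nonneg_right hc1 hiN.le
      have h3 : 16 * Nn R J (cLam l) d.g (sa7_nb d.X (2 * d.w)) * (c / r₀) ^ 3 ≤
          16 * nN R J l * ((2 + 10 * Real.log l) ^ 3 * iN q a l ^ 3) := by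
        refine mul_le_mul (by linarith) h2 ?_ (by linarith)
        exact pow_nonneg (div_nonneg (norm_nonneg _) hr.le) 3
      calc (1 + |τ|) * (16 * Nn R J (cLam l) d.g (sa7_nb d.X (2 * d.w)) * (c / r₀) ^ 3) ≤
            (2 + 10 * Real.log l) *
              (16 * nN R J l * ((2 + 10 * Real.log l) ^ 3 * iN q a l ^ 3)) := by
            refine mul_le_mul (by linarith) h3 ?_ hT0
            have : 0 ≤ (c / r₀) ^ 3 := pow_nonneg (div_nonneg (norm_nonneg _) hr.le) 3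
            positivity
        _ = tN q R J a l := by rw [tN]; ring
    rw [mul_add]
    linarith

/-- **E6 for `CData`**, with the threshold. -/
theorem e6_data (q R : ℕ) {J : ℝ} (hJ : 0 ≤ J) (Δ : ℝ) {a : ℝ} (ha : 0 < a) (ha1 : a ≤ 1)
    (C₁ C₂ : ℝ) : ∃ n₀ : ℕ, ∀ (L l : ℕ) (d : CData q R J Δ a C₁ C₂ L l), n₀ ≤ l →
    ∀ M : ℝ, Fintype.card (SS L) * Real.log q ≤ M → ∀ τ : ℝ, |τ| ≤ 10 * Real.log l →
    ∀ t : ℝ, 0 < t → t ≤ 1 → ∀ ψ : Conf (SS L) q → ℂ, d.St M τ t ψ →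
      |expv ψ d.H2 - (d.E' + d.E')| ≤ (l : ℝ) ^ ((1 : ℝ) / 1000) ∧
      ∀ Nr : Finset (SS L), (∀ v, pj v ∈ sa7_nb d.X d.w \ d.X → v ∈ Nr) →
        expv ψ d.H2 - (d.E' + d.E') ≤ t ^ 2 * (1 + τ ^ 2) *
          ∑ v ∈ Nr, QF ψ (d.g.GN ψ M (K2 d)) (d.g.n + 1) (Tv d v)
            (fun _ => d.θ, fun _ => -d.θ / 2) + (l : ℝ) ^ (-((1 : ℝ) / 2000)) := by
  rcases Nat.eq_zero_or_pos q with hq | hq
  · refine ⟨0, fun L l d => ?_⟩
    exact absurd d.q1 (by omega)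
  · obtain ⟨n₀, h0⟩ := threshold (ev_ok hq R J ha ha1)
    refine ⟨n₀, fun L l d hl M hM τ hτ t ht ht1 ψ hS => ?_⟩
    exact e6_data_ok hJ d (h0 l hl) hM hτ ht ht1 hS

end main

end E6

end Vale.Agent.P356.GA
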