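import Vale.Agent.P356.GA.EnDefs394
import Vale.Agent.P356.GA.Level795b

/-!
# GA, block E5 (helper621): radius of the dressed local terms on the two-layer lattice

Common objects of `EnDefs394`: `SS L`, `g.R`, `g.Wd`, `g.KV K`, `g.GN ψ M K`.

* `bl v r`: the sup-ball of radius `r` around `v` in its layer; `g.zB j`: tile `j` cut with the zone
  `R 0 \ R (n + mp)` of the slabs.
* `crs_card`: at most `8 ρ` lines cross a set inside `bl v ρ`; `slab_card`: a site lies in at most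
  `mp` slabs; `win_sum`, `win_cost`: windows near a ball.
* `gd_radius`: `‖fQ ψ (g.GN ψ M K) (n + 1) X c ζ‖ ≤ 8 ‖X‖` for `‖ζ‖ ≤ r₀`, `X` acting inside
  `bl v r`, every coefficient vector `c` with `|c.1| ≤ a₁`, `|c.2| ≤ a₂`;
  `gd_radius_one`: `a₁ = a₂ = a`, simplified radius.
* `gd_free`: far terms do not feel the flow; `gd_energy`: energy identity and crude bound for `g.St`.
-/

set_option linter.all false

namespace Vale.Agent.P356.GA

open Matrix Finset Vale.Agent.P356 Vale.Agent.P356.SV Vale.Agent.P356.Path Vale.Agent.P356.NA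
open Vale.Agent.P356.SA Vale.Agent.P356.GA.Level
open scoped BigOperators ComplexOrder Kronecker Matrix.Norms.L2Operator

/-- a finite set of naturals of diameter less than `m` -/
theorem nat_card_le621 {S : Finset ℕ} {m : ℕ} (h : ∀ x ∈ S, ∀ y ∈ S, (x : ℝ) < y + m) :
    S.card ≤ m := by
  rcases S.eq_empty_or_nonempty with h0 | h0
  · rw [h0, Finset.card_empty]
    exact Nat.zero_le _
  · have h1 : S ⊆ Finset.Ico (S.min' h0) (S.min' h0 + m) := by
      intro x hx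
      rw [Finset.mem_Ico]
      refine ⟨S.min'_le x hx, ?_⟩
      have := h x hx _ (S.min'_mem h0)
      exact_mod_cast this
    have h2 := Finset.card_le_card h1
    rwa [Nat.card_Ico, Nat.add_sub_cancel_left] at h2

section ball
variable {L : ℕ}

/-- the ball of radius `r` around `v` in its layer -/
def bl (v : SS L) (r : ℕ) : Finset (SS L) := lay v (fun z => bal z r)

theorem inl_mem_bl {z x : Site L} {r : ℕ} :
    (Sum.inl x : SS L) ∈ bl (Sum.inl z) r ↔ x ∈ bal z r := mem_inL_inl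

theorem inr_mem_bl {z x : Site L} {r : ℕ} :
    (Sum.inr x : SS L) ∈ bl (Sum.inr z) r ↔ x ∈ bal z r := mem_inR_inr

theorem inr_notMem_bl {z x : Site L} {r : ℕ} : (Sum.inr x : SS L) ∉ bl (Sum.inl z) r := mem_inL_inr

theorem inl_notMem_bl {z x : Site L} {r : ℕ} : (Sum.inl x : SS L) ∉ bl (Sum.inr z) r := mem_inR_inl

theorem bl_mono (v : SS L) {r r' : ℕ} (h : r ≤ r') : bl v r ⊆ bl v r' := by
  rcases v with z | z
  · rintro (x | x) hx
    · rw [inl_mem_bl] at hx ⊢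
      exact bal_mono z h hx
    · exact absurd hx inr_notMem_bl
  · rintro (x | x) hx
    · exact absurd hx inl_notMem_bl
    · rw [inr_mem_bl] at hx ⊢
      exact bal_mono z h hx

theorem card_bl (v : SS L) (r : ℕ) : (bl v r).card ≤ (2 * r + 1) ^ 2 := by
  rcases v with z | z
  · exact (le_of_eq (Finset.card_map _)).trans (card_bal z r)
  · exact (le_of_eq (Finset.card_map _)).trans (card_bal z r)

/-- the position of a site of the two-layer lattice -/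
def pos (v : SS L) : Site L := Sum.elim id id v

end ball

namespace Gd
variable {L : ℕ} {g : Gd L} {q : ℕ}

/-- the zone of the slabs -/
noncomputable def zone (g : Gd L) : Finset (SS L) := g.R 0 \ g.R (g.n + g.mp)

/-- tiles cut with the zone -/
noncomputable def zB (g : Gd L) (j : SS L) : Finset (SS L) := g.zone ∩ g.tB j

theorem zB_disj (i j : SS L) (h : i ≠ j) : Disjoint (g.zB i) (g.zB j) :=
  (g.tB_disj h).mono Finset.inter_subset_right Finset.inter_subset_right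

theorem Wd_zB {k : ℕ} (hk : k < g.n) (j : SS L) : g.Wd (k, j) ⊆ g.zB j := by
  intro v hv
  rw [Wd, Sum.mem_slab] at hv
  rw [zB, Finset.mem_inter, zone, Finset.mem_sdiff]
  exact ⟨⟨g.R_anti394 0 k (Nat.zero_le _) hv.1.1,
    fun h => hv.1.2 (g.R_anti394 (k + g.mp) (g.n + g.mp) (by omega) h)⟩, hv.2⟩

theorem KV_zB {K : Finset (SS L) → Op (SS L) q} (hK : ∀ b, ActsOn b (K b))
    (p : Fin g.n × SS L) : ActsOn (g.zB p.2) (g.KV K p) :=
  PH.act_neg (PH.act_mono (Wd_zB p.1.2 p.2) (hK (g.Wd (p.1, p.2))))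

/-! ### counting -/

theorem tileB_bal {M : ℕ} (hM : 1 ≤ M) {j x y : Site L} (hx : x ∈ tileB L M j)
    (hy : y ∈ tileB L M j) : y ∈ bal x M := by
  simp only [tileB, Finset.mem_filter, Finset.mem_univ, true_and] at hx hy
  rw [mem_bal]
  have h1 := Nat.div_add_mod (x.1 : ℕ) M
  have h2 := Nat.mod_lt (x.1 : ℕ) hM
  have h3 := Nat.div_add_mod (y.1 : ℕ) M
  have h4 := Nat.mod_lt (y.1 : ℕ) hM
  have h5 := Nat.div_add_mod (x.2 : ℕ) M
  have h6 := Nat.mod_lt (x.2 : ℕ) hM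
  have h7 := Nat.div_add_mod (y.2 : ℕ) M
  have h8 := Nat.mod_lt (y.2 : ℕ) hM
  rw [hx.1] at h1
  rw [hy.1] at h3
  rw [hx.2] at h5
  rw [hy.2] at h7
  omega

theorem mem_tB_ll {x j : Site L} :
    (Sum.inl x : SS L) ∈ g.tB (Sum.inl j) ↔ x ∈ tileB L g.tl j := mem_inL_inl

theorem mem_tB_rr {x j : Site L} :
    (Sum.inr x : SS L) ∈ g.tB (Sum.inr j) ↔ x ∈ tileB L g.tl j := mem_inR_inr

theorem mem_tB_lr {x j : Site L} : (Sum.inr x : SS L) ∉ g.tB (Sum.inl j) := mem_inL_inr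

theorem mem_tB_rl {x j : Site L} : (Sum.inl x : SS L) ∉ g.tB (Sum.inr j) := mem_inR_inl

/-- a tile which meets a ball lies in the larger ball -/
theorem tB_bl (htl : 1 ≤ g.tl) {v : SS L} {r : ℕ} {Z : Finset (SS L)} (hZ : Z ⊆ bl v r) {j : SS L}
    (hm : ¬ Disjoint (g.tB j) Z) : g.tB j ⊆ bl v (r + g.tl) := by
  rw [Finset.not_disjoint_iff] at hm
  obtain ⟨u, hu, hu'⟩ := hm
  have hu2 := hZ hu'
  clear hu' hZ
  intro w hw
  rcases v with z | z
  · rcases u with x | x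
    swap
    · exact absurd hu2 inr_notMem_bl
    rcases j with j | j
    swap
    · exact absurd hu mem_tB_rl
    rcases w with y | y
    swap
    · exact absurd hw mem_tB_lr
    rw [inl_mem_bl] at hu2 ⊢
    rw [mem_tB_ll] at hu hw
    exact bal_trans hu2 (tileB_bal htl hu hw)
  · rcases u with x | x
    · exact absurd hu2 inl_notMem_bl
    rcases j with j | j
    · exact absurd hu mem_tB_lr
    rcases w with y | y
    · exact absurd hw mem_tB_rl
    rw [inr_mem_bl] at hu2 ⊢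
    rw [mem_tB_rr] at hu hw
    exact bal_trans hu2 (tileB_bal htl hu hw)

theorem zB_bl (htl : 1 ≤ g.tl) {v : SS L} {r : ℕ} {Z : Finset (SS L)} (hZ : Z ⊆ bl v r) {j : SS L}
    (hm : ¬ Disjoint (g.zB j) Z) : g.tB j ⊆ bl v (r + g.tl) :=
  tB_bl htl hZ fun h => hm (h.mono_left Finset.inter_subset_right)

theorem star1_sub (htl : 1 ≤ g.tl) {v : SS L} {r : ℕ} {Z : Finset (SS L)} (hZ : Z ⊆ bl v r) :
    star1 Finset.univ g.zB Z ⊆ bl v (r + g.tl) := by
  rw [star1]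
  refine Finset.union_subset (hZ.trans (bl_mono v (Nat.le_add_right _ _))) ?_
  rw [Finset.biUnion_subset]
  intro j hj
  exact Finset.inter_subset_right.trans (zB_bl htl hZ (Finset.mem_filter.1 hj).2)

theorem T_bal (hT : ∀ x y, |g.T x - g.T y| ≤ 2 * dist1 x y) {z x y : Site L} {ρ : ℕ}
    (hx : x ∈ bal z ρ) (hy : y ∈ bal z ρ) : g.T x - g.T y ≤ 8 * ρ := by
  have h1 := (le_abs_self _).trans (hT x y)
  have h2 : (dist1 x y : ℝ) ≤ 4 * ρ := by exact_mod_cast dist1_le_of_bal hx hy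
  linarith

/-- at most `8 ρ` lines cross a region inside a ball of radius `ρ` -/
theorem crs_card (hT : ∀ x y, |g.T x - g.T y| ≤ 2 * dist1 x y) {v : SS L} {ρ : ℕ}
    {Z : Finset (SS L)} (hZ : Z ⊆ bl v ρ) (n : ℕ) : (crs107 Z g.R n).card ≤ 8 * ρ := by
  classical
  refine nat_card_le621 fun k hk k' hk' => ?_
  rw [crs107, Finset.mem_filter] at hk hk'
  obtain ⟨-, h1, h2⟩ := hk
  obtain ⟨-, h1', h2'⟩ := hk'
  rw [Finset.not_subset] at h1 h1'
  rw [Finset.not_disjoint_iff] at h2 h2'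
  obtain ⟨a, ha, ha'⟩ := h1
  obtain ⟨b, hb, hb'⟩ := h2
  obtain ⟨c, hc, hc'⟩ := h1'
  obtain ⟨d, hd, hd'⟩ := h2'
  have hA := hZ ha
  have hB := hZ hb
  have hC := hZ hc
  have hD := hZ hd
  push_cast
  rcases v with z | z
  · rcases a with a | a
    swap
    · exact absurd hA inr_notMem_bl
    rcases b with b | b
    swap
    · exact absurd hB inr_notMem_bl
    rcases c with c | c
    swap
    · exact absurd hC inr_notMem_bl
    rw [inl_mem_bl] at hB hC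
    rw [mem_R_inl] at hb' hc'
    have := T_bal hT hB hC
    linarith [not_lt.1 hc']
  · rcases a with a | a
    · exact absurd hA inl_notMem_bl
    rcases b with b | b
    · exact absurd hB inl_notMem_bl
    rcases c with c | c
    · exact absurd hC inl_notMem_bl
    rw [inr_mem_bl] at hB hC
    rw [mem_R_inr] at hb' hc'
    have := T_bal hT hC hB
    linarith [not_le.1 hc']

/-- a site lies in at most `mp` slabs -/
theorem slab_card (v : SS L) (n : ℕ) :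
    ((Finset.range n).filter fun k => v ∈ g.R k ∧ v ∉ g.R (k + g.mp)).card ≤ g.mp := by
  refine nat_card_le621 fun k hk k' hk' => ?_
  have h1 := (Finset.mem_filter.1 hk).2.1
  have h2 := (Finset.mem_filter.1 hk').2.2
  rcases v with x | x
  · rw [mem_R_inl] at h1 h2
    push_cast at h2
    linarith [not_lt.1 h2]
  · rw [mem_R_inr] at h1 h2
    push_cast at h2
    linarith [not_le.1 h2]

/-- total size of the windows near a ball -/
theorem win_sum (htl : 1 ≤ g.tl) {v : SS L} {r : ℕ} {Z : Finset (SS L)} (hZ : Z ⊆ bl v r) :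
    ∑ w : Fin g.n × SS L with ¬ Disjoint (g.zB w.2) Z, (g.Wd (w.1, w.2)).card ≤
      g.mp * (2 * (r + g.tl) + 1) ^ 2 := by
  classical
  set ρ := r + g.tl with hρ
  have h1 : ∑ w : Fin g.n × SS L with ¬ Disjoint (g.zB w.2) Z, (g.Wd (w.1, w.2)).card ≤
      ∑ k : Fin g.n, ((g.R k \ g.R (k + g.mp)) ∩ bl v ρ).card := by
    rw [← Finset.sum_fiberwise_of_maps_to (s := Finset.univ.filter fun w : Fin g.n × SS L =>
      ¬ Disjoint (g.zB w.2) Z) (t := Finset.univ) (g := fun w : Fin g.n × SS L => w.1)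
      (fun _ _ => Finset.mem_univ _)]
    refine Finset.sum_le_sum fun k _ => ?_
    set S := (Finset.univ.filter fun w : Fin g.n × SS L => ¬ Disjoint (g.zB w.2) Z).filter
      fun w => w.1 = k with hS
    have h2 : ∀ w ∈ S, w.1 = k ∧ g.tB w.2 ⊆ bl v ρ := by
      intro w hw
      rw [hS, Finset.mem_filter, Finset.mem_filter] at hw
      exact ⟨hw.2, zB_bl htl hZ hw.1.2⟩
    rw [← Finset.card_biUnion]
    · refine Finset.card_le_card ?_
      rw [Finset.biUnion_subset]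
      intro w hw u hu
      obtain ⟨h4, h5⟩ := h2 w hw
      rw [Wd, Sum.mem_slab, h4] at hu
      rw [Finset.mem_inter, Finset.mem_sdiff]
      exact ⟨hu.1, h5 hu.2⟩
    · intro w hw w' hw' hne
      obtain ⟨h4, -⟩ := h2 w hw
      obtain ⟨h4', -⟩ := h2 w' hw'
      have h6 : w.2 ≠ w'.2 := fun h => hne (Prod.ext (h4.trans h4'.symm) h)
      exact (g.tB_disj h6).mono (g.Wd_sub _) (g.Wd_sub _)
  refine h1.trans ?_
  have h3 : ∑ k : Fin g.n, ((g.R k \ g.R (k + g.mp)) ∩ bl v ρ).card =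
      ∑ x ∈ bl v ρ, ((Finset.range g.n).filter fun k => x ∈ g.R k ∧ x ∉ g.R (k + g.mp)).card := by
    rw [Fin.sum_univ_eq_sum_range (fun k => ((g.R k \ g.R (k + g.mp)) ∩ bl v ρ).card)]
    have e1 : ∀ k, ((g.R k \ g.R (k + g.mp)) ∩ bl v ρ).card =
        ∑ x ∈ bl v ρ, if x ∈ g.R k ∧ x ∉ g.R (k + g.mp) then 1 else 0 := by
      intro k
      rw [← Finset.card_filter]
      congr 1
      ext x
      rw [Finset.mem_inter, Finset.mem_sdiff, Finset.mem_filter]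
      tauto
    simp only [e1]
    rw [Finset.sum_comm]
    refine Finset.sum_congr rfl fun x _ => ?_
    rw [Finset.card_filter]
  rw [h3]
  calc ∑ x ∈ bl v ρ, ((Finset.range g.n).filter fun k => x ∈ g.R k ∧ x ∉ g.R (k + g.mp)).card
      ≤ ∑ x ∈ bl v ρ, g.mp := Finset.sum_le_sum fun x _ => slab_card x g.n
    _ = (bl v ρ).card * g.mp := by rw [Finset.sum_const, smul_eq_mul]
    _ ≤ (2 * ρ + 1) ^ 2 * g.mp := Nat.mul_le_mul_right _ (card_bl v ρ)
    _ = g.mp * (2 * ρ + 1) ^ 2 := Nat.mul_comm _ _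

/-- cost of the windows near a ball -/
theorem win_cost (htl : 1 ≤ g.tl) {K : Finset (SS L) → Op (SS L) q} {κ : ℝ} (hκ0 : 0 ≤ κ)
    (hκ : ∀ b, ‖K b‖ ≤ κ * b.card) {v : SS L} {r : ℕ} {Z : Finset (SS L)} (hZ : Z ⊆ bl v r)
    {γ : Fin g.n × SS L → ℝ} {a : ℝ} (ha : 0 ≤ a) (hγ : ∀ w, |γ w| ≤ a) :
    ∑ w : Fin g.n × SS L with ¬ Disjoint (g.zB w.2) Z, |γ w| * ‖g.KV K w‖ ≤
      a * (κ * (g.mp * (2 * (r + g.tl) + 1) ^ 2)) := by
  classical
  have h1 : ∀ w : Fin g.n × SS L, |γ w| * ‖g.KV K w‖ ≤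
      a * κ * ((g.Wd (w.1, w.2)).card : ℝ) := by
    intro w
    rw [mul_assoc, KV, norm_neg]
    exact mul_le_mul (hγ w) (hκ _) (norm_nonneg _) ha
  refine (Finset.sum_le_sum fun w _ => h1 w).trans ?_
  rw [← Finset.mul_sum, mul_assoc]
  have h2 := win_sum (g := g) htl hZ
  have h3 : (∑ w : Fin g.n × SS L with ¬ Disjoint (g.zB w.2) Z, ((g.Wd (w.1, w.2)).card : ℝ)) ≤
      g.mp * (2 * (r + g.tl) + 1) ^ 2 := by exact_mod_cast h2
  exact mul_le_mul_of_nonneg_left (mul_le_mul_of_nonneg_left h3 hκ0) ha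

/-! ### radius -/

/-- **Radius of the dressed local terms**, for every coefficient vector. -/
theorem gd_radius (htl : 1 ≤ g.tl) (hT : ∀ x y, |g.T x - g.T y| ≤ 2 * dist1 x y)
    {K : Finset (SS L) → Op (SS L) q} (hKH : ∀ b, (K b).IsHermitian)
    (hKa : ∀ b, ActsOn b (K b)) {κ : ℝ} (hκ0 : 0 ≤ κ) (hκ : ∀ b, ‖K b‖ ≤ κ * b.card)
    {ψ : Conf (SS L) q → ℂ} (hψ : nsq ψ = 1) (hq : 1 ≤ q) {M : ℝ}
    (hM : Fintype.card (SS L) * Real.log q ≤ M) (c : (ℕ → ℝ) × (Fin g.n × SS L → ℝ))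
    {a₁ a₂ : ℝ} (ha₂ : 0 ≤ a₂) (h1 : ∀ k, |c.1 k| ≤ a₁) (h2 : ∀ w, |c.2 w| ≤ a₂)
    {v : SS L} {r : ℕ} {Z : Finset (SS L)} (hZ : Z ⊆ bl v r)
    {X : Op (SS L) q} (hX : ActsOn Z X) {r₀ : ℝ} (hr0 : 0 ≤ r₀)
    (hr : r₀ * (8 * (r + g.tl) * a₁ * (4 * (2 * (r + g.tl) + 1) ^ 2 * Real.log q + 2) +
      2 * (a₂ * (κ * (g.mp * (2 * (r + g.tl) + 1) ^ 2)))) ≤ 1) {ζ : ℂ} (hζ : ‖ζ‖ ≤ r₀) :
    ‖fQ ψ (g.GN ψ M K) (g.n + 1) X c ζ‖ ≤ 8 * ‖X‖ := by
  classical
  have ha₁ : 0 ≤ a₁ := (abs_nonneg _).trans (h1 0)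
  have hq1 : (1:ℝ) ≤ (q : ℝ) := by exact_mod_cast hq
  have hlog := Real.log_nonneg hq1
  have hst := star1_sub htl hZ
  have hcard : ((star1 Finset.univ g.zB Z).card : ℝ) ≤ (2 * (r + g.tl) + 1) ^ 2 := by
    have h4 := (Finset.card_le_card hst).trans (card_bl v (r + g.tl))
    exact_mod_cast h4
  refine gen_radius (fun j k h => g.R_anti394 j k h) hψ hq hM (fun i _ j _ h => zB_disj i j h)
    (s := Finset.univ) (υ := fun w : Fin g.n × SS L => w.2) (fun w => Finset.mem_univ _)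
    (KV_zB hKa) (g.KV_herm hKH) c hX
    (b := a₂ * (κ * (g.mp * (2 * (r + g.tl) + 1) ^ 2))) (Θ := 8 * (r + g.tl) * a₁)
    (win_cost htl hκ0 hκ hZ ha₂ h2) ?_ hr0 ?_ hζ
  · have h3 := crs_card hT hst g.n
    calc ∑ k ∈ crs107 (star1 Finset.univ g.zB Z) g.R g.n, |c.1 k| ≤
          ∑ k ∈ crs107 (star1 Finset.univ g.zB Z) g.R g.n, a₁ :=
          Finset.sum_le_sum fun k _ => h1 k
      _ = ((crs107 (star1 Finset.univ g.zB Z) g.R g.n).card : ℝ) * a₁ := by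
          rw [Finset.sum_const, nsmul_eq_mul]
      _ ≤ 8 * (r + g.tl) * a₁ := by
          refine mul_le_mul_of_nonneg_right ?_ ha₁
          exact_mod_cast h3
  · refine le_trans (mul_le_mul_of_nonneg_left (add_le_add_left ?_ _) hr0) hr
    refine mul_le_mul_of_nonneg_left ?_ (by positivity)
    have h5 := mul_le_mul_of_nonneg_right (mul_le_mul_of_nonneg_left hcard
      (by norm_num : (0:ℝ) ≤ 4)) hlog
    linarith

/-- the radius, simplified: all coefficients at most `a`, `ρ = r + tl` -/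
theorem gd_radius_one (htl : 1 ≤ g.tl) (hT : ∀ x y, |g.T x - g.T y| ≤ 2 * dist1 x y)
    {K : Finset (SS L) → Op (SS L) q} (hKH : ∀ b, (K b).IsHermitian)
    (hKa : ∀ b, ActsOn b (K b)) {κ : ℝ} (hκ0 : 0 ≤ κ) (hκ : ∀ b, ‖K b‖ ≤ κ * b.card)
    {ψ : Conf (SS L) q → ℂ} (hψ : nsq ψ = 1) (hq : 1 ≤ q) {M : ℝ}
    (hM : Fintype.card (SS L) * Real.log q ≤ M) (c : (ℕ → ℝ) × (Fin g.n × SS L → ℝ))
    {a : ℝ} (h1 : ∀ k, |c.1 k| ≤ a) (h2 : ∀ w, |c.2 w| ≤ a)
    {v : SS L} {r ρ : ℕ} (hρ : r + g.tl ≤ ρ) {Z : Finset (SS L)} (hZ : Z ⊆ bl v r)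
    {X : Op (SS L) q} (hX : ActsOn Z X) {r₀ : ℝ} (hr0 : 0 ≤ r₀)
    (hr : r₀ * (a * (400 * ρ ^ 3 * (Real.log q + 1 + κ * g.mp))) ≤ 1) {ζ : ℂ} (hζ : ‖ζ‖ ≤ r₀) :
    ‖fQ ψ (g.GN ψ M K) (g.n + 1) X c ζ‖ ≤ 8 * ‖X‖ := by
  have ha : 0 ≤ a := (abs_nonneg _).trans (h1 0)
  have hq1 : (1:ℝ) ≤ (q : ℝ) := by exact_mod_cast hq
  have hlog := Real.log_nonneg hq1
  refine gd_radius htl hT hKH hKa hκ0 hκ hψ hq hM c ha h1 h2 hZ hX hr0 ?_ hζ
  refine le_trans (mul_le_mul_of_nonneg_left ?_ hr0) hr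
  have hρ' : ((r : ℝ) + g.tl) ≤ ρ := by exact_mod_cast hρ
  have hρ1 : (1:ℝ) ≤ ρ := by
    have : 1 ≤ ρ := by omega
    exact_mod_cast this
  have hs0 : (0:ℝ) ≤ (r : ℝ) + g.tl := by positivity
  have hm0 : (0:ℝ) ≤ g.mp := Nat.cast_nonneg _
  set σ : ℝ := (r : ℝ) + g.tl with hσ
  have e1 : (2 * σ + 1) ^ 2 ≤ 9 * (ρ : ℝ) ^ 2 := by nlinarith
  have e2 : 8 * σ * a * (4 * (2 * σ + 1) ^ 2 * Real.log q + 2) ≤
      a * (8 * ρ * (36 * (ρ : ℝ) ^ 2 * Real.log q + 2)) := by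
    have h3 : 4 * (2 * σ + 1) ^ 2 * Real.log q + 2 ≤ 36 * (ρ : ℝ) ^ 2 * Real.log q + 2 := by
      have := mul_le_mul_of_nonneg_right e1 hlog
      linarith
    have h4 : 0 ≤ 4 * (2 * σ + 1) ^ 2 * Real.log q + 2 := by positivity
    calc 8 * σ * a * (4 * (2 * σ + 1) ^ 2 * Real.log q + 2) =
          a * (8 * σ * (4 * (2 * σ + 1) ^ 2 * Real.log q + 2)) := by ring
      _ ≤ a * (8 * ρ * (36 * (ρ : ℝ) ^ 2 * Real.log q + 2)) := by
          refine mul_le_mul_of_nonneg_left ?_ ha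
          exact mul_le_mul (by linarith) h3 h4 (by positivity)
  have e3 : 2 * (a * (κ * (g.mp * (2 * σ + 1) ^ 2))) ≤ a * (18 * (ρ : ℝ) ^ 2 * (κ * g.mp)) := by
    have h5 := mul_le_mul_of_nonneg_left e1 (mul_nonneg hκ0 hm0)
    have h6 := mul_le_mul_of_nonneg_left h5 ha
    linarith
  have e4 : (ρ : ℝ) ^ 2 ≤ (ρ : ℝ) ^ 3 := pow_le_pow_right₀ hρ1 (by norm_num)
  have e5 : (ρ : ℝ) ≤ (ρ : ℝ) ^ 3 := by
    calc (ρ : ℝ) = (ρ : ℝ) ^ 1 := (pow_one _).symm
      _ ≤ (ρ : ℝ) ^ 3 := pow_le_pow_right₀ hρ1 (by norm_num)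
  have e6 : 8 * ρ * (36 * (ρ : ℝ) ^ 2 * Real.log q + 2) + 18 * (ρ : ℝ) ^ 2 * (κ * g.mp) ≤
      400 * (ρ : ℝ) ^ 3 * (Real.log q + 1 + κ * g.mp) := by
    have h7 : 0 ≤ (ρ : ℝ) ^ 3 * Real.log q := by positivity
    have h8 : (ρ : ℝ) ^ 2 * (κ * g.mp) ≤ (ρ : ℝ) ^ 3 * (κ * g.mp) :=
      mul_le_mul_of_nonneg_right e4 (mul_nonneg hκ0 hm0)
    have h9 : 0 ≤ (ρ : ℝ) ^ 3 * (κ * g.mp) := by positivity
    nlinarith
  have e7 := mul_le_mul_of_nonneg_left e6 ha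
  linarith

/-- a set outside `R 0` or inside `R (n + mp)` meets no tile of the zone and no line -/
theorem free_of_side {Z : Finset (SS L)}
    (h : Disjoint Z (g.R 0) ∨ Z ⊆ g.R (g.n + g.mp)) :
    meet Finset.univ g.zB Z = ∅ ∧ crs107 Z g.R g.n = ∅ := by
  classical
  constructor
  · rw [meet, Finset.filter_eq_empty_iff]
    intro j _ hm
    rw [Finset.not_disjoint_iff] at hm
    obtain ⟨v, hv, hv'⟩ := hm
    have hz := Finset.mem_sdiff.1 (Finset.mem_inter.1 hv).1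
    rcases h with h | h
    · exact Finset.disjoint_left.1 h hv' hz.1
    · exact hz.2 (h hv')
  · rw [crs107, Finset.filter_eq_empty_iff]
    rintro k hk ⟨h1, h2⟩
    rw [Finset.mem_range] at hk
    rcases h with h | h
    · exact h2 (h.mono_right (g.R_anti394 0 k (Nat.zero_le _)))
    · exact h1 (h.trans (g.R_anti394 k (g.n + g.mp) (by omega)))

/-- lower end of the zone, on the side of `T` -/
noncomputable def lo (g : Gd L) (v : SS L) : ℝ :=
  Sum.elim (fun _ => g.t0) (fun _ => g.t0 + g.N - g.n - g.mp) v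

/-- upper end of the zone -/
noncomputable def up (g : Gd L) (v : SS L) : ℝ :=
  Sum.elim (fun _ => g.t0 + g.n + g.mp) (fun _ => g.t0 + g.N) v

/-- far balls are free -/
theorem free_of_center (hT : ∀ x y, |g.T x - g.T y| ≤ 2 * dist1 x y) {v : SS L} {r : ℕ}
    {Z : Finset (SS L)} (hZ : Z ⊆ bl v r)
    (h : g.T (pos v) ≤ g.lo v - 4 * r ∨ g.up v + 4 * r < g.T (pos v)) :
    meet Finset.univ g.zB Z = ∅ ∧ crs107 Z g.R g.n = ∅ := by
  refine free_of_side ?_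
  have h1 : ∀ z x : Site L, x ∈ bal z r → |g.T x - g.T z| ≤ 4 * r := by
    intro z x hx
    have h2 := hT x z
    have h3 : (dist1 x z : ℝ) ≤ 2 * r := by exact_mod_cast dist1_self_le hx
    linarith
  rcases v with z | z
  · have e1 : g.lo (Sum.inl z) = g.t0 := rfl
    have e2 : g.up (Sum.inl z) = g.t0 + g.n + g.mp := rfl
    have e3 : pos (Sum.inl z : SS L) = z := rfl
    rw [e1, e2, e3] at h
    rcases h with h | h
    · left
      rw [Finset.disjoint_left]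
      rintro (x | x) hx hx'
      · have h2 := (abs_le.1 (h1 z x (inl_mem_bl.1 (hZ hx)))).2
        rw [mem_R_inl] at hx'
        push_cast at hx'
        linarith
      · exact absurd (hZ hx) inr_notMem_bl
    · right
      rintro (x | x) hx
      · have h2 := (abs_le.1 (h1 z x (inl_mem_bl.1 (hZ hx)))).1
        rw [mem_R_inl]
        push_cast
        linarith
      · exact absurd (hZ hx) inr_notMem_bl
  · have e1 : g.lo (Sum.inr z) = g.t0 + g.N - g.n - g.mp := rfl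
    have e2 : g.up (Sum.inr z) = g.t0 + g.N := rfl
    have e3 : pos (Sum.inr z : SS L) = z := rfl
    rw [e1, e2, e3] at h
    rcases h with h | h
    · right
      rintro (x | x) hx
      · exact absurd (hZ hx) inl_notMem_bl
      · have h2 := (abs_le.1 (h1 z x (inr_mem_bl.1 (hZ hx)))).2
        rw [mem_R_inr]
        push_cast
        linarith
    · left
      rw [Finset.disjoint_left]
      rintro (x | x) hx hx'
      · exact absurd (hZ hx) inl_notMem_bl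
      · have h2 := (abs_le.1 (h1 z x (inr_mem_bl.1 (hZ hx)))).1
        rw [mem_R_inr] at hx'
        push_cast at hx'
        linarith

/-- far terms do not feel the flow -/
theorem gd_free (hT : ∀ x y, |g.T x - g.T y| ≤ 2 * dist1 x y)
    {K : Finset (SS L) → Op (SS L) q} (hKa : ∀ b, ActsOn b (K b))
    {ψ : Conf (SS L) q → ℂ} (M : ℝ) (c : (ℕ → ℝ) × (Fin g.n × SS L → ℝ))
    {v : SS L} {r : ℕ} {Z : Finset (SS L)} (hZ : Z ⊆ bl v r) {X : Op (SS L) q} (hX : ActsOn Z X)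
    (h : g.T (pos v) ≤ g.lo v - 4 * r ∨ g.up v + 4 * r < g.T (pos v)) (ζ : ℂ) :
    fQ ψ (g.GN ψ M K) (g.n + 1) X c ζ = star ψ ⬝ᵥ (X *ᵥ ψ) :=
  gen_free (fun j k h => g.R_anti394 j k h) M g.n (fun i _ j _ h => zB_disj i j h)
    (s := Finset.univ) (υ := fun w : Fin g.n × SS L => w.2) (fun w => Finset.mem_univ _)
    (KV_zB hKa) c hX (free_of_center hT hZ h).1 (free_of_center hT hZ h).2 ζ

/-- the tilted states in the form of `energy_near` -/
theorem St_TState {θ M : ℝ} {K : Finset (SS L) → Op (SS L) q}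
    {Kt : Finset (Site L) → Op (Site L) q} (h1 : ∀ b, K (inL b) = cp1 (Kt b))
    (h2 : ∀ b, K (inR b) = cp2 (Kt b)) {Ω : Conf (Site L) q → ℂ} {τ t : ℝ}
    {ψ : Conf (SS L) q → ℂ} (h : g.St θ M Kt Ω τ t ψ) :
    TState (fun k => cut (g.R k) q) (fun _ => θ) M (GamK (g.KV K) (fun _ => -θ / 2)) (dbl Ω Ω)
        (1 + τ * Complex.I) g.n t ψ := by
  rw [GamK_KV g θ h1 h2]
  exact h

/-- **Energy identity and crude bound** for the tilted states of the two-layer system. -/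
theorem gd_energy (htl : 1 ≤ g.tl) (hT : ∀ x y, |g.T x - g.T y| ≤ 2 * dist1 x y)
    {K : Finset (SS L) → Op (SS L) q} (hKH : ∀ b, (K b).IsHermitian)
    (hKa : ∀ b, ActsOn b (K b)) {κ : ℝ} (hκ0 : 0 ≤ κ) (hκ : ∀ b, ‖K b‖ ≤ κ * b.card)
    {Kt : Finset (Site L) → Op (Site L) q} (hK1 : ∀ b, K (inL b) = cp1 (Kt b))
    (hK2 : ∀ b, K (inR b) = cp2 (Kt b))
    {ψ : Conf (SS L) q → ℂ} (hq : 1 ≤ q) {M : ℝ}
    (hM : Fintype.card (SS L) * Real.log q ≤ M) {Ω : Conf (Site L) q → ℂ}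
    {θ τ t : ℝ} (hθ : 0 ≤ θ) (h : g.St θ M Kt Ω τ t ψ)
    {ι : Type*} [DecidableEq ι] {s₀ near : Finset ι} (hn : near ⊆ s₀)
    {T : ι → Op (SS L) q} {Z : ι → Finset (SS L)} {v : ι → SS L} {r : ι → ℕ}
    (hT' : ∀ i ∈ s₀, (T i).IsHermitian) (hZa : ∀ i ∈ s₀, ActsOn (Z i) (T i))
    (hZ : ∀ i ∈ s₀, Z i ⊆ bl (v i) (r i))
    {E : ℝ} (hE : (∑ i ∈ s₀, T i) *ᵥ dbl Ω Ω = (E : ℂ) • dbl Ω Ω)
    (hfar : ∀ i ∈ s₀ \ near, g.T (pos (v i)) ≤ g.lo (v i) - 4 * r i ∨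
      g.up (v i) + 4 * r i < g.T (pos (v i)))
    {r₀ : ι → ℝ} (hr0 : ∀ i ∈ near, 0 < r₀ i)
    (hr : ∀ i ∈ near, r₀ i * (8 * (r i + g.tl) * θ *
      (4 * (2 * (r i + g.tl) + 1) ^ 2 * Real.log q + 2) +
      2 * (θ / 2 * (κ * (g.mp * (2 * (r i + g.tl) + 1) ^ 2)))) ≤ 1)
    (hs : ∀ i ∈ near, ‖(t : ℂ) * (1 + τ * Complex.I)‖ ≤ r₀ i / 2) :
    |(star ψ ⬝ᵥ ((∑ i ∈ s₀, T i) *ᵥ ψ)).re - E - t ^ 2 * (1 + τ ^ 2) *
        ∑ i ∈ near, QF ψ (g.GN ψ M K) (g.n + 1) (T i) (fun _ => θ, fun _ => -θ / 2)| ≤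
      (1 + |τ|) * ∑ i ∈ near, 16 * ‖T i‖ * (‖(t : ℂ) * (1 + τ * Complex.I)‖ / r₀ i) ^ 3 ∧
    (star ψ ⬝ᵥ ((∑ i ∈ s₀, T i) *ᵥ ψ)).re - E ≤
      16 * (1 + |τ|) * ∑ i ∈ near, ‖T i‖ * (‖(t : ℂ) * (1 + τ * Complex.I)‖ / r₀ i) ^ 2 := by
  classical
  have h' := St_TState (g := g) hK1 hK2 h
  have hq1 : (1:ℝ) ≤ (q : ℝ) := by exact_mod_cast hq
  have hlog := Real.log_nonneg hq1
  have habs : |(-θ / 2)| = θ / 2 := by rw [neg_div, abs_neg, abs_of_nonneg (by positivity)]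
  have hcard : ∀ i ∈ near, ((star1 Finset.univ g.zB (Z i)).card : ℝ) ≤
      (2 * (r i + g.tl) + 1) ^ 2 := by
    intro i hi
    have h4 := (Finset.card_le_card (star1_sub htl (hZ i (hn hi)))).trans
      (card_bl (v i) (r i + g.tl))
    exact_mod_cast h4
  have hb : ∀ i ∈ near, ∑ w : Fin g.n × SS L with ¬ Disjoint (g.zB w.2) (Z i),
      |(fun _ : Fin g.n × SS L => -θ / 2) w| * ‖g.KV K w‖ ≤
      θ / 2 * (κ * (g.mp * (2 * (r i + g.tl) + 1) ^ 2)) := fun i hi =>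
    win_cost htl hκ0 hκ (hZ i (hn hi)) (by positivity) (fun w => le_of_eq habs)
  have hΘ : ∀ i ∈ near, ∑ k ∈ crs107 (star1 Finset.univ g.zB (Z i)) g.R g.n,
      |(fun _ : ℕ => θ) k| ≤ 8 * (r i + g.tl) * θ := by
    intro i hi
    have h3 := crs_card hT (star1_sub htl (hZ i (hn hi))) g.n
    rw [Finset.sum_const, nsmul_eq_mul, abs_of_nonneg hθ]
    refine mul_le_mul_of_nonneg_right ?_ hθ
    exact_mod_cast h3
  have hr' : ∀ i ∈ near, r₀ i * (8 * (r i + g.tl) * θ *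
      (4 * (star1 Finset.univ g.zB (Z i)).card * Real.log q + 2) +
      2 * (θ / 2 * (κ * (g.mp * (2 * (r i + g.tl) + 1) ^ 2)))) ≤ 1 := by
    intro i hi
    refine le_trans (mul_le_mul_of_nonneg_left (add_le_add_left ?_ _) (hr0 i hi).le) (hr i hi)
    refine mul_le_mul_of_nonneg_left ?_ (by positivity)
    have h5 := mul_le_mul_of_nonneg_right (mul_le_mul_of_nonneg_left (hcard i hi)
      (by norm_num : (0:ℝ) ≤ 4)) hlog
    linarith
  have hf : ∀ i ∈ s₀ \ near, meet Finset.univ g.zB (Z i) = ∅ ∧ crs107 (Z i) g.R g.n = ∅ :=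
    fun i hi => free_of_center hT (hZ i (Finset.mem_sdiff.1 hi).1) (hfar i hi)
  exact ⟨energy_near (fun j k h => g.R_anti394 j k h) hq hM (fun i _ j _ h => zB_disj i j h)
      (s := Finset.univ) (υ := fun w : Fin g.n × SS L => w.2) (fun w => Finset.mem_univ _)
      (KV_zB hKa) (g.KV_herm hKH) h' hn hT' hZa hE hf hr0 hb hΘ hr' hs,
    crude_energy (fun j k h => g.R_anti394 j k h) hq hM (fun i _ j _ h => zB_disj i j h)
      (s := Finset.univ) (υ := fun w : Fin g.n × SS L => w.2) (fun w => Finset.mem_univ _)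
      (KV_zB hKa) (g.KV_herm hKH) h' hn hT' hZa hE hf hr0 hb hΘ hr' hs⟩

end Gd

end Vale.Agent.P356.GA
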