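import Vale.Agent.P356.GA.E6_412
import Vale.Agent.P356.GA.GdRad621

/-!
# GA, block E6 (helper412): the radius of 621 in the form used by E6, and the final statements

* `rad_of_gd`: `Terms412.Rad` from `Gd.gd_radius`.
* `E6F`: the numbers; `e6_upper_num`, `e6_K_num`.
-/

set_option linter.all false

namespace Vale.Agent.P356.GA

open Matrix Finset Vale.Agent.P356 Vale.Agent.P356.SV Vale.Agent.P356.Path Vale.Agent.P356.NA
open Vale.Agent.P356.SA Vale.Agent.P356.PH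
open scoped BigOperators ComplexOrder Kronecker Matrix.Norms.L2Operator

namespace E6

open Terms412 (cpb T6 Hp Nn near zone mem_zone InZone Rad E6D off_zone crs_far win_far fQ_far
  cpb_norm cpb_acts e6_form e6_crude e6_QF norm_le_one_psd)
open Level (bal mem_bal dist1_self_le mem_bal_of_dist1)

variable {L q R : ℕ} {J Λ : ℝ}

theorem ball_sub_bal (z : Site L) (r : ℕ) : ball z r ⊆ bal z r := by
  intro x hx
  simp only [ball, Finset.mem_filter, Finset.mem_univ, true_and] at hx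
  exact mem_bal_of_dist1 hx

/-- **the radius hypothesis of E6** -/
theorem rad_of_gd {g : Gd L} (htl : 1 ≤ g.tl) (hT : ∀ x y, |g.T x - g.T y| ≤ 2 * dist1 x y)
    {K : Finset (SS L) → Op (SS L) q} (hKH : ∀ b, (K b).IsHermitian)
    (hKa : ∀ b, ActsOn b (K b)) {κ : ℝ} (hκ0 : 0 ≤ κ) (hκ : ∀ b, ‖K b‖ ≤ κ * b.card)
    {ψ : Conf (SS L) q → ℂ} (hψ : nsq ψ = 1) (hq : 1 ≤ q) {M : ℝ}
    (hM : Fintype.card (SS L) * Real.log q ≤ M) (c : (ℕ → ℝ) × (Fin g.n × SS L → ℝ))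
    {a₁ a₂ : ℝ} (ha₂ : 0 ≤ a₂) (h1 : ∀ k, |c.1 k| ≤ a₁) (h2 : ∀ w, |c.2 w| ≤ a₂)
    {r : ℕ} {r₀ : ℝ} (hr0 : 0 ≤ r₀)
    (hr : r₀ * (8 * (r + g.tl) * a₁ * (4 * (2 * (r + g.tl) + 1) ^ 2 * Real.log q + 2) +
      2 * (a₂ * (κ * (g.mp * (2 * (r + g.tl) + 1) ^ 2)))) ≤ 1) :
    Rad g ψ M (g.KV K) c r r₀ := by
  intro b z X hX ζ hζ
  have hX' := cpb_acts b hX
  cases b
  · refine Gd.gd_radius htl hT hKH hKa hκ0 hκ hψ hq hM c ha₂ h1 h2 (v := Sum.inl z)
      (Z := Terms412.lay false (ball z r)) ?_ hX' hr0 hr hζ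
    rw [show Terms412.lay false (ball z r) = inL (ball z r) from (inL_eq _).symm]
    exact Finset.map_subset_map.2 (ball_sub_bal z r)
  · refine Gd.gd_radius htl hT hKH hKa hκ0 hκ hψ hq hM c ha₂ h1 h2 (v := Sum.inr z)
      (Z := Terms412.lay true (ball z r)) ?_ hX' hr0 hr hζ
    rw [show Terms412.lay true (ball z r) = inR (ball z r) from (inR_eq _).symm]
    exact Finset.map_subset_map.2 (ball_sub_bal z r)

end E6

end Vale.Agent.P356.GA
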