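import Mathlib

/-!
# P356, GA, block E10 SUMZ (helper778): the explicit real expression of the energy theorem

Only real numbers. `EP` collects the (nonnegative) parameters, `EP.D` is the bound of the sum of the
deviations of all windows, `EP.S1` the bound of the second order form of the positive portions of
the local terms and `EP.tot` the bound of the energy. `tot_mono`: the expression is monotone in all
parameters, antitone in the radii. The sums over the local terms are in `sumz_sqrt`, `sumz_A`,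
`sumz_tau1`, `sumz_tau`, `EP.s1_le` and `EP.en`.
-/

set_option linter.all false

namespace Vale.Agent.P356.GA

open Finset
open scoped BigOperators

/-! ### sums -/

/-- the sum of square roots -/
theorem sumz_sqrt {ι : Type*} (s : Finset ι) {f d : ι → ℝ} {A p₀ D : ℝ}
    (hf : ∀ i ∈ s, f i ≤ p₀ + d i) (hA : (s.card : ℝ) ≤ A) (hp : 0 ≤ p₀)
    (hd : ∀ i ∈ s, 0 ≤ d i) (hD : ∑ i ∈ s, d i ≤ D) :
    ∑ i ∈ s, Real.sqrt (f i) ≤ Real.sqrt (A * (A * p₀ + D)) := by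
  have h0 : (0 : ℝ) ≤ s.card := Nat.cast_nonneg _
  have h1 : ∑ i ∈ s, Real.sqrt (f i) ≤ ∑ i ∈ s, Real.sqrt (p₀ + d i) :=
    Finset.sum_le_sum fun i hi => Real.sqrt_le_sqrt (hf i hi)
  have h2 : ∑ i ∈ s, (p₀ + d i) ≤ A * p₀ + D := by
    rw [Finset.sum_add_distrib, Finset.sum_const, nsmul_eq_mul]
    have := mul_le_mul_of_nonneg_right hA hp
    linarith
  have h3 : 0 ≤ ∑ i ∈ s, (p₀ + d i) :=
    Finset.sum_nonneg fun i hi => add_nonneg hp (hd i hi)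
  refine h1.trans (Real.le_sqrt_of_sq_le ?_)
  have h4 : (∑ i ∈ s, Real.sqrt (p₀ + d i)) ^ 2 ≤ s.card * ∑ i ∈ s, Real.sqrt (p₀ + d i) ^ 2 :=
    sq_sum_le_card_mul_sum_sq
  have h5 : ∑ i ∈ s, Real.sqrt (p₀ + d i) ^ 2 = ∑ i ∈ s, (p₀ + d i) :=
    Finset.sum_congr rfl fun i hi => Real.sq_sqrt (add_nonneg hp (hd i hi))
  rw [h5] at h4
  exact h4.trans (mul_le_mul hA h2 h3 (h0.trans hA))

/-- constant of the line bound -/
noncomputable def cLine : ℝ := 32 * Real.pi * Real.cosh Real.pi ^ 2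

theorem cLine_pos : 0 < cLine := by
  unfold cLine
  have := Real.pi_pos
  have := Real.cosh_pos Real.pi
  positivity

/-- the line bound without the entropic term: `p` bounds `⟨P⟩_ψ`, `δ` is the deviation -/
noncomputable def lineA (ε m lq eM Lc h p δ : ℝ) : ℝ :=
  p / h ^ 2 + cLine * (4 * ε * m + 4 * (m * lq) * δ + eM) / h +
    128 * Real.exp 1 * (1 + Lc) ^ 4 * h ^ 2

/-- the slab bound, `δ` is the deviation (the same as `slabErr`, `slErr`) -/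
noncomputable def slabA (p δ ε m Λ h : ℝ) : ℝ :=
  4 * (2 * p + (δ + 64 * Real.pi * Real.cosh Real.pi ^ 2 * h * (ε * m))) / h ^ 2 +
    64 * (1 + Λ) ^ 4 * h ^ 2

/-- sum of the line bounds -/
theorem sumz_A {ι : Type*} (s : Finset ι) {f d : ι → ℝ} {A p₀ D ε m lq eM Lc h : ℝ}
    (hf : ∀ i ∈ s, f i ≤ p₀ + d i) (hA : (s.card : ℝ) ≤ A) (hp : 0 ≤ p₀)
    (hD : ∑ i ∈ s, d i ≤ D) (hε : 0 ≤ ε) (hm : 0 ≤ m) (hlq : 0 ≤ lq) (heM : 0 ≤ eM)
    (hLc : 0 ≤ Lc) (hh : 0 ≤ h) :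
    ∑ i ∈ s, lineA ε m lq eM Lc h (f i) (d i) ≤ (A * p₀ + D) / h ^ 2 +
      cLine * (A * (4 * ε * m) + 4 * (m * lq) * D + A * eM) / h +
        A * (128 * Real.exp 1 * (1 + Lc) ^ 4 * h ^ 2) := by
  have h0 : (0 : ℝ) ≤ s.card := Nat.cast_nonneg _
  have hc := cLine_pos
  have h1 : ∑ i ∈ s, lineA ε m lq eM Lc h (f i) (d i) ≤
      ∑ i ∈ s, ((p₀ + d i) / h ^ 2 + cLine * (4 * ε * m + 4 * (m * lq) * d i + eM) / h +
        128 * Real.exp 1 * (1 + Lc) ^ 4 * h ^ 2) := by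
    refine Finset.sum_le_sum fun i hi => ?_
    unfold lineA
    have := div_le_div_of_nonneg_right (hf i hi) (sq_nonneg h)
    linarith
  refine h1.trans ?_
  rw [Finset.sum_add_distrib, Finset.sum_add_distrib, Finset.sum_const, nsmul_eq_mul,
    ← Finset.sum_div, ← Finset.sum_div, ← Finset.mul_sum, Finset.sum_add_distrib,
    Finset.sum_add_distrib, Finset.sum_add_distrib, Finset.sum_const, Finset.sum_const,
    Finset.sum_const, nsmul_eq_mul, nsmul_eq_mul, nsmul_eq_mul, ← Finset.mul_sum]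
  have e1 : (s.card : ℝ) * p₀ + ∑ i ∈ s, d i ≤ A * p₀ + D := by
    have := mul_le_mul_of_nonneg_right hA hp
    linarith
  have e2 : (s.card : ℝ) * (4 * ε * m) + 4 * (m * lq) * ∑ i ∈ s, d i + s.card * eM ≤
      A * (4 * ε * m) + 4 * (m * lq) * D + A * eM := by
    have t1 := mul_le_mul_of_nonneg_right hA (show 0 ≤ 4 * ε * m by positivity)
    have t2 := mul_le_mul_of_nonneg_left hD (show 0 ≤ 4 * (m * lq) by positivity)
    have t3 := mul_le_mul_of_nonneg_right hA heM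
    linarith
  have e3 : (s.card : ℝ) * (128 * Real.exp 1 * (1 + Lc) ^ 4 * h ^ 2) ≤
      A * (128 * Real.exp 1 * (1 + Lc) ^ 4 * h ^ 2) :=
    mul_le_mul_of_nonneg_right hA (by positivity)
  have e4 := div_le_div_of_nonneg_right e1 (sq_nonneg h)
  have e5 := div_le_div_of_nonneg_right (mul_le_mul_of_nonneg_left e2 hc.le) hh
  linarith

/-- sum of the slab bounds -/
theorem sumz_tau1 {ι : Type*} (s : Finset ι) {d : ι → ℝ} {A p₀ D ε m Λ h : ℝ}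
    (hA : (s.card : ℝ) ≤ A) (hp : 0 ≤ p₀) (hD : ∑ i ∈ s, d i ≤ D) (hε : 0 ≤ ε) (hm : 0 ≤ m)
    (hΛ : 0 ≤ Λ) (hh : 0 ≤ h) :
    ∑ i ∈ s, slabA p₀ (d i) ε m Λ h ≤
      4 * (2 * (A * p₀) + (D + A * (64 * Real.pi * Real.cosh Real.pi ^ 2 * h * (ε * m)))) / h ^ 2 +
        A * (64 * (1 + Λ) ^ 4 * h ^ 2) := by
  have hpi := Real.pi_pos
  unfold slabA
  rw [Finset.sum_add_distrib, Finset.sum_const, nsmul_eq_mul, ← Finset.sum_div, ← Finset.mul_sum,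
    Finset.sum_add_distrib, Finset.sum_add_distrib, Finset.sum_const, Finset.sum_const,
    nsmul_eq_mul, nsmul_eq_mul]
  have t1 := mul_le_mul_of_nonneg_right hA hp
  have t2 := mul_le_mul_of_nonneg_right hA
    (show 0 ≤ 64 * Real.pi * Real.cosh Real.pi ^ 2 * h * (ε * m) by positivity)
  have t3 := mul_le_mul_of_nonneg_right hA (show 0 ≤ 64 * (1 + Λ) ^ 4 * h ^ 2 by positivity)
  have t4 : 4 * ((s.card : ℝ) * (2 * p₀) + (∑ i ∈ s, d i +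
      s.card * (64 * Real.pi * Real.cosh Real.pi ^ 2 * h * (ε * m)))) ≤
      4 * (2 * (A * p₀) + (D + A * (64 * Real.pi * Real.cosh Real.pi ^ 2 * h * (ε * m)))) := by
    linarith
  have t5 := div_le_div_of_nonneg_right t4 (sq_nonneg h)
  linarith

/-- sum of the errors of almost positivity -/
theorem sumz_tau {ι : Type*} (s : Finset ι) {f d : ι → ℝ} {A p₀ D c r : ℝ}
    (hf : ∀ i ∈ s, f i ≤ p₀ + d i) (hA : (s.card : ℝ) ≤ A) (hp : 0 ≤ p₀)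
    (hd : ∀ i ∈ s, 0 ≤ d i) (hD : ∑ i ∈ s, d i ≤ D) (hc : 0 ≤ c) :
    ∑ i ∈ s, c * Real.sqrt (f i) / r ^ 2 ≤ c * Real.sqrt (A * (A * p₀ + D)) / r ^ 2 := by
  rw [← Finset.sum_div, ← Finset.mul_sum]
  exact div_le_div_of_nonneg_right (mul_le_mul_of_nonneg_left (sumz_sqrt s hf hA hp hd hD) hc)
    (sq_nonneg r)

/-! ### the parameters -/

/-- The parameters of the energy theorem. -/
structure EP where
  /-- weight of a line -/
  θ : ℝ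
  /-- number of lines which cut a core -/
  k1 : ℝ
  /-- number of windows which meet a core -/
  k2 : ℝ
  /-- number of windows with influence on a core -/
  k3 : ℝ
  /-- crude bound of one line or window -/
  C2 : ℝ
  /-- sum of the entropic defects over all cores and lines of both layers -/
  Th : ℝ
  /-- number of exceptional inner cores (both layers): the crude bound for their healed lines -/
  nx : ℝ
  /-- number of edge cores (both layers): core not in one tile or at the ends of the ladder -/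
  ne : ℝ
  /-- number of cores (both layers) -/
  nZ : ℝ
  /-- expectation of the portions of the local terms in the ground state -/
  p₀ : ℝ
  /-- noise -/
  ε : ℝ
  /-- number of sites of a tile -/
  m : ℝ
  /-- `log (q / ε)` -/
  lq : ℝ
  /-- error of the regularised logarithm -/
  eM : ℝ
  /-- exponent of the line estimate -/
  Lc : ℝ
  /-- step of the line estimate -/
  h : ℝ
  /-- number of sites of a window of the slab estimate -/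
  ms : ℝ
  /-- exponent of the slab estimate -/
  Ls : ℝ
  /-- step of the slab estimate -/
  hs : ℝ
  /-- radius for coefficients of size one -/
  r : ℝ
  /-- radius for the coefficients of the tilted states -/
  rθ : ℝ
  /-- norm of the local terms -/
  Cm : ℝ
  /-- weight of the detectors -/
  Λ : ℝ
  /-- number of detectors (one layer) -/
  z : ℝ
  /-- sum of the norms of the terms near the zone -/
  Nn : ℝ
  /-- bound of `|τ|` -/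
  τ : ℝ
  /-- error of a detector in the ground state -/
  de : ℝ

namespace EP

/-- crude bound of the energy -/
noncomputable def K (p : EP) : ℝ := (2 + p.τ) * (1 + p.τ ^ 2) * (8 * p.Nn / p.rθ ^ 2)

/-- bound of the sum of the defects of the detectors -/
noncomputable def S (p : EP) : ℝ := p.K / p.Λ + 2 * (p.z * p.de)

/-- bound of the sum of the deviations of the windows -/
noncomputable def D (p : EP) : ℝ := 3 * p.S + 2 * Real.sqrt (2 * p.z * p.S)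

/-- bound of the sum of the square roots of the expectations -/
noncomputable def Q (p : EP) : ℝ := Real.sqrt (p.nZ * (p.nZ * p.p₀ + p.D))

/-- bound of the sum of the line bounds (without the entropic term) -/
noncomputable def A (p : EP) : ℝ := (p.nZ * p.p₀ + p.D) / p.h ^ 2 +
  cLine * (p.nZ * (4 * p.ε * p.m) + 4 * (p.m * p.lq) * p.D + p.nZ * p.eM) / p.h +
    p.nZ * (128 * Real.exp 1 * (1 + p.Lc) ^ 4 * p.h ^ 2)

/-- bound of the sum of the slab bounds -/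
noncomputable def T1 (p : EP) : ℝ :=
  4 * (2 * (p.nZ * p.p₀) + (p.D + p.nZ *
    (64 * Real.pi * Real.cosh Real.pi ^ 2 * p.hs * (p.ε * p.ms)))) / p.hs ^ 2 +
      p.nZ * (64 * (1 + p.Ls) ^ 4 * p.hs ^ 2)

/-- bound of the second order form of the positive portions -/
noncomputable def S1 (p : EP) : ℝ :=
  5 * p.θ ^ 2 * (p.k1 * (p.k1 * p.A + cLine / p.h * p.Th + p.nx * (p.k1 * (4 * p.C2)) +
    p.k1 * (4 * (17 * p.Q / p.r ^ 2))) + p.ne * ((p.k1 ^ 2 + p.k2 ^ 2) * p.C2) +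
    p.k3 ^ 2 * p.T1 + (p.k1 ^ 2 + 2 * p.k3 ^ 2 + 5) * (17 * p.Q / p.r ^ 2))

/-- bound of the energy -/
noncomputable def tot (p : EP) : ℝ :=
  (1 + p.τ ^ 2) * (p.Cm * (p.S1 + 17 / p.rθ ^ 2 * p.Q) + p.Λ * (2 * p.z * (8 / p.rθ ^ 2))) +
    (1 + p.τ) * (16 * p.Nn * ((1 + p.τ) / p.rθ) ^ 3)

/-- all parameters are nonnegative, steps, radii and the weight of the detectors are positive -/
structure Pos (p : EP) : Prop where
  θ : 0 ≤ p.θ
  k1 : 0 ≤ p.k1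
  k2 : 0 ≤ p.k2
  k3 : 0 ≤ p.k3
  C2 : 0 ≤ p.C2
  Th : 0 ≤ p.Th
  nx : 0 ≤ p.nx
  ne : 0 ≤ p.ne
  nZ : 0 ≤ p.nZ
  p₀ : 0 ≤ p.p₀
  ε : 0 ≤ p.ε
  m : 0 ≤ p.m
  lq : 0 ≤ p.lq
  eM : 0 ≤ p.eM
  Lc : 0 ≤ p.Lc
  h : 0 < p.h
  ms : 0 ≤ p.ms
  Ls : 0 ≤ p.Ls
  hs : 0 < p.hs
  r : 0 < p.r
  rθ : 0 < p.rθ
  Cm : 0 ≤ p.Cm
  Λ : 0 < p.Λ
  z : 0 ≤ p.z
  Nn : 0 ≤ p.Nn
  τ : 0 ≤ p.τ
  de : 0 ≤ p.de

/-- `p` is below `p'`: all fields are smaller, the radii larger; steps and the weight of the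
detectors are the same -/
structure Le (p p' : EP) : Prop where
  θ : p.θ ≤ p'.θ
  k1 : p.k1 ≤ p'.k1
  k2 : p.k2 ≤ p'.k2
  k3 : p.k3 ≤ p'.k3
  C2 : p.C2 ≤ p'.C2
  Th : p.Th ≤ p'.Th
  nx : p.nx ≤ p'.nx
  ne : p.ne ≤ p'.ne
  nZ : p.nZ ≤ p'.nZ
  p₀ : p.p₀ ≤ p'.p₀
  ε : p.ε ≤ p'.ε
  m : p.m ≤ p'.m
  lq : p.lq ≤ p'.lq
  eM : p.eM ≤ p'.eM
  Lc : p.Lc ≤ p'.Lc
  h : p.h = p'.h
  ms : p.ms ≤ p'.ms
  Ls : p.Ls ≤ p'.Ls
  hs : p.hs = p'.hs
  r : p'.r ≤ p.r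
  rθ : p'.rθ ≤ p.rθ
  Cm : p.Cm ≤ p'.Cm
  Λ : p.Λ = p'.Λ
  z : p.z ≤ p'.z
  Nn : p.Nn ≤ p'.Nn
  τ : p.τ ≤ p'.τ
  de : p.de ≤ p'.de

variable {p p' : EP}

theorem K_nonneg (h : p.Pos) : 0 ≤ p.K := by
  have := h.τ; have := h.Nn; have := h.rθ
  unfold K; positivity

theorem S_nonneg (h : p.Pos) : 0 ≤ p.S := by
  have := K_nonneg h; have := h.Λ; have := h.z; have := h.de
  unfold S; positivity

theorem D_nonneg (h : p.Pos) : 0 ≤ p.D := by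
  have := S_nonneg h
  unfold D; positivity

theorem Q_nonneg : 0 ≤ p.Q := Real.sqrt_nonneg _

theorem A_nonneg (h : p.Pos) : 0 ≤ p.A := by
  have := D_nonneg h; have := h.nZ; have := h.p₀; have := h.ε; have := h.m; have := h.lq
  have := h.eM; have := h.Lc; have := h.h; have := cLine_pos
  unfold A; positivity

theorem T1_nonneg (h : p.Pos) : 0 ≤ p.T1 := by
  have := D_nonneg h; have := h.nZ; have := h.p₀; have := h.ε; have := h.ms; have := h.Ls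
  have := h.hs; have := Real.pi_pos
  unfold T1; positivity

theorem S1_nonneg (h : p.Pos) : 0 ≤ p.S1 := by
  have := A_nonneg h; have := T1_nonneg h; have := Q_nonneg (p := p); have := cLine_pos
  have := h.k1; have := h.k2; have := h.k3; have := h.h; have := h.Th; have := h.nx
  have := h.C2; have := h.r; have := h.ne
  unfold S1; positivity

theorem inv_sq_mono (h : p.Pos) (h' : p'.Pos) (hl : p.Le p') {a b : ℝ} (ha : 0 ≤ a)
    (hab : a ≤ b) : a / p.rθ ^ 2 ≤ b / p'.rθ ^ 2 :=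
  div_le_div₀ (ha.trans hab) hab (pow_pos h'.rθ 2) (pow_le_pow_left₀ h'.rθ.le hl.rθ 2)

theorem K_mono (h : p.Pos) (h' : p'.Pos) (hl : p.Le p') : p.K ≤ p'.K := by
  have h1 := h.τ; have h2 := h.Nn; have h3 := h.rθ; have h4 := h'.rθ
  unfold K
  have e1 : p.τ ^ 2 ≤ p'.τ ^ 2 := pow_le_pow_left₀ h1 hl.τ 2
  have e2 : 8 * p.Nn / p.rθ ^ 2 ≤ 8 * p'.Nn / p'.rθ ^ 2 :=
    inv_sq_mono h h' hl (by positivity) (by linarith [hl.Nn])
  refine mul_le_mul (mul_le_mul (by linarith [hl.τ]) (by linarith) (by positivity) ?_) e2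
    (by positivity) ?_
  · have := h'.τ; positivity
  · have := h'.τ; positivity

theorem S_mono (h : p.Pos) (h' : p'.Pos) (hl : p.Le p') : p.S ≤ p'.S := by
  unfold S
  rw [hl.Λ]
  have e1 := div_le_div_of_nonneg_right (K_mono h h' hl) h'.Λ.le
  have e2 := mul_le_mul hl.z hl.de h.de h'.z
  linarith

theorem D_mono (h : p.Pos) (h' : p'.Pos) (hl : p.Le p') : p.D ≤ p'.D := by
  unfold D
  have e1 := S_mono h h' hl
  have e2 : 2 * p.z * p.S ≤ 2 * p'.z * p'.S :=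
    mul_le_mul (by linarith [hl.z]) e1 (S_nonneg h) (by linarith [h'.z])
  have e3 := Real.sqrt_le_sqrt e2
  linarith

theorem Q_mono (h : p.Pos) (h' : p'.Pos) (hl : p.Le p') : p.Q ≤ p'.Q := by
  unfold Q
  have e1 := mul_le_mul hl.nZ hl.p₀ h.p₀ h'.nZ
  have e2 := D_mono h h' hl
  have e3 : p.nZ * (p.nZ * p.p₀ + p.D) ≤ p'.nZ * (p'.nZ * p'.p₀ + p'.D) := by
    refine mul_le_mul hl.nZ (by linarith) ?_ h'.nZ
    have := h.nZ; have := h.p₀; have := D_nonneg h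
    positivity
  exact Real.sqrt_le_sqrt e3

theorem A_mono (h : p.Pos) (h' : p'.Pos) (hl : p.Le p') : p.A ≤ p'.A := by
  unfold A
  rw [hl.h]
  have hh := h'.h
  have e1 := mul_le_mul hl.nZ hl.p₀ h.p₀ h'.nZ
  have e2 := D_mono h h' hl
  have e3 : (p.nZ * p.p₀ + p.D) / p'.h ^ 2 ≤ (p'.nZ * p'.p₀ + p'.D) / p'.h ^ 2 :=
    div_le_div_of_nonneg_right (by linarith) (by positivity)
  have e4 : 4 * p.ε * p.m ≤ 4 * p'.ε * p'.m :=
    mul_le_mul (by linarith [hl.ε]) hl.m h.m (by linarith [h'.ε])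
  have e5 : p.nZ * (4 * p.ε * p.m) ≤ p'.nZ * (4 * p'.ε * p'.m) := by
    refine mul_le_mul hl.nZ e4 ?_ h'.nZ
    have := h.ε; have := h.m
    positivity
  have e6 : p.m * p.lq ≤ p'.m * p'.lq := mul_le_mul hl.m hl.lq h.lq h'.m
  have e7 : 4 * (p.m * p.lq) * p.D ≤ 4 * (p'.m * p'.lq) * p'.D := by
    refine mul_le_mul (by linarith) e2 (D_nonneg h) ?_
    have := h'.m; have := h'.lq
    positivity
  have e8 := mul_le_mul hl.nZ hl.eM h.eM h'.nZ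
  have e9 : cLine * (p.nZ * (4 * p.ε * p.m) + 4 * (p.m * p.lq) * p.D + p.nZ * p.eM) / p'.h ≤
      cLine * (p'.nZ * (4 * p'.ε * p'.m) + 4 * (p'.m * p'.lq) * p'.D + p'.nZ * p'.eM) / p'.h :=
    div_le_div_of_nonneg_right (mul_le_mul_of_nonneg_left (by linarith) cLine_pos.le) hh.le
  have e10 : (1 + p.Lc) ^ 4 ≤ (1 + p'.Lc) ^ 4 :=
    pow_le_pow_left₀ (by linarith [h.Lc]) (by linarith [hl.Lc]) 4
  have e11 : 128 * Real.exp 1 * (1 + p.Lc) ^ 4 * p'.h ^ 2 ≤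
      128 * Real.exp 1 * (1 + p'.Lc) ^ 4 * p'.h ^ 2 :=
    mul_le_mul_of_nonneg_right (mul_le_mul_of_nonneg_left e10 (by positivity)) (by positivity)
  have e12 : p.nZ * (128 * Real.exp 1 * (1 + p.Lc) ^ 4 * p'.h ^ 2) ≤
      p'.nZ * (128 * Real.exp 1 * (1 + p'.Lc) ^ 4 * p'.h ^ 2) := by
    refine mul_le_mul hl.nZ e11 ?_ h'.nZ
    have := h.Lc
    positivity
  linarith

theorem T1_mono (h : p.Pos) (h' : p'.Pos) (hl : p.Le p') : p.T1 ≤ p'.T1 := by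
  unfold T1
  rw [hl.hs]
  have hh := h'.hs
  have hpi := Real.pi_pos
  have e1 := mul_le_mul hl.nZ hl.p₀ h.p₀ h'.nZ
  have e2 := D_mono h h' hl
  have e3 : p.ε * p.ms ≤ p'.ε * p'.ms := mul_le_mul hl.ε hl.ms h.ms h'.ε
  have e4 : p.nZ * (64 * Real.pi * Real.cosh Real.pi ^ 2 * p'.hs * (p.ε * p.ms)) ≤
      p'.nZ * (64 * Real.pi * Real.cosh Real.pi ^ 2 * p'.hs * (p'.ε * p'.ms)) := by
    refine mul_le_mul hl.nZ (mul_le_mul_of_nonneg_left e3 (by positivity)) ?_ h'.nZ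
    have := h.ε; have := h.ms
    positivity
  have e5 : 4 * (2 * (p.nZ * p.p₀) + (p.D + p.nZ *
      (64 * Real.pi * Real.cosh Real.pi ^ 2 * p'.hs * (p.ε * p.ms)))) / p'.hs ^ 2 ≤
      4 * (2 * (p'.nZ * p'.p₀) + (p'.D + p'.nZ *
        (64 * Real.pi * Real.cosh Real.pi ^ 2 * p'.hs * (p'.ε * p'.ms)))) / p'.hs ^ 2 :=
    div_le_div_of_nonneg_right (by linarith) (by positivity)
  have e6 : (1 + p.Ls) ^ 4 ≤ (1 + p'.Ls) ^ 4 :=
    pow_le_pow_left₀ (by linarith [h.Ls]) (by linarith [hl.Ls]) 4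
  have e7 : p.nZ * (64 * (1 + p.Ls) ^ 4 * p'.hs ^ 2) ≤
      p'.nZ * (64 * (1 + p'.Ls) ^ 4 * p'.hs ^ 2) := by
    refine mul_le_mul hl.nZ (mul_le_mul_of_nonneg_right (by linarith) (by positivity)) ?_ h'.nZ
    have := h.Ls
    positivity
  linarith

theorem S1_mono (h : p.Pos) (h' : p'.Pos) (hl : p.Le p') : p.S1 ≤ p'.S1 := by
  unfold S1
  rw [hl.h]
  have hh := h'.h
  have hc := cLine_pos
  have hk1 := h.k1; have hk2 := h.k2; have hk3 := h.k3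
  have hk1' := h'.k1; have hk2' := h'.k2; have hk3' := h'.k3
  have hA := A_nonneg h; have hT := h.Th; have hQ := Q_nonneg (p := p); have hT1 := T1_nonneg h
  have hr := h.r; have hr' := h'.r; have hC2 := h.C2; have hC2' := h'.C2
  have hb := h.ne; have hb' := h'.ne; have hx := h.nx; have hx' := h'.nx
  have hTh' := h'.Th; have hA' := A_nonneg h'; have hQ' := Q_nonneg (p := p')
  have hT1' := T1_nonneg h'
  have e0 : p.θ ^ 2 ≤ p'.θ ^ 2 := pow_le_pow_left₀ h.θ hl.θ 2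
  have e1 : p.k1 ^ 2 ≤ p'.k1 ^ 2 := pow_le_pow_left₀ hk1 hl.k1 2
  have e2 : p.k2 ^ 2 ≤ p'.k2 ^ 2 := pow_le_pow_left₀ hk2 hl.k2 2
  have e3 : p.k3 ^ 2 ≤ p'.k3 ^ 2 := pow_le_pow_left₀ hk3 hl.k3 2
  have e4 : p.k1 * p.A ≤ p'.k1 * p'.A := mul_le_mul hl.k1 (A_mono h h' hl) hA hk1'
  have e5 : cLine / p'.h * p.Th ≤ cLine / p'.h * p'.Th :=
    mul_le_mul_of_nonneg_left hl.Th (by positivity)
  have e10 : 17 * p.Q / p.r ^ 2 ≤ 17 * p'.Q / p'.r ^ 2 :=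
    div_le_div₀ (by positivity) (by linarith [Q_mono h h' hl]) (by positivity)
      (pow_le_pow_left₀ hr'.le hl.r 2)
  have e12 : p.nx * (p.k1 * (4 * p.C2)) ≤ p'.nx * (p'.k1 * (4 * p'.C2)) :=
    mul_le_mul hl.nx (mul_le_mul hl.k1 (by linarith [hl.C2]) (by positivity) hk1') (by positivity)
      hx'
  have e13 : p.k1 * (4 * (17 * p.Q / p.r ^ 2)) ≤ p'.k1 * (4 * (17 * p'.Q / p'.r ^ 2)) :=
    mul_le_mul hl.k1 (by linarith) (by positivity) hk1'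
  have e6 : p.k1 * (p.k1 * p.A + cLine / p'.h * p.Th + p.nx * (p.k1 * (4 * p.C2)) +
      p.k1 * (4 * (17 * p.Q / p.r ^ 2))) ≤
      p'.k1 * (p'.k1 * p'.A + cLine / p'.h * p'.Th + p'.nx * (p'.k1 * (4 * p'.C2)) +
        p'.k1 * (4 * (17 * p'.Q / p'.r ^ 2))) :=
    mul_le_mul hl.k1 (by linarith) (by positivity) hk1'
  have e7 : (p.k1 ^ 2 + p.k2 ^ 2) * p.C2 ≤ (p'.k1 ^ 2 + p'.k2 ^ 2) * p'.C2 :=
    mul_le_mul (by linarith) hl.C2 hC2 (by positivity)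
  have e8 : p.ne * ((p.k1 ^ 2 + p.k2 ^ 2) * p.C2) ≤ p'.ne * ((p'.k1 ^ 2 + p'.k2 ^ 2) * p'.C2) :=
    mul_le_mul hl.ne e7 (by positivity) hb'
  have e9 : p.k3 ^ 2 * p.T1 ≤ p'.k3 ^ 2 * p'.T1 :=
    mul_le_mul e3 (T1_mono h h' hl) hT1 (by positivity)
  have e11 : (p.k1 ^ 2 + 2 * p.k3 ^ 2 + 5) * (17 * p.Q / p.r ^ 2) ≤
      (p'.k1 ^ 2 + 2 * p'.k3 ^ 2 + 5) * (17 * p'.Q / p'.r ^ 2) :=
    mul_le_mul (by linarith) e10 (by positivity) (by positivity)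
  exact mul_le_mul (by linarith) (by linarith) (by positivity) (by positivity)

/-- **The expression is monotone.** -/
theorem tot_mono (h : p.Pos) (h' : p'.Pos) (hl : p.Le p') : p.tot ≤ p'.tot := by
  unfold tot
  rw [hl.Λ]
  have hr := h.rθ; have hr' := h'.rθ
  have hτ := h.τ; have hτ' := h'.τ; have hN := h.Nn; have hN' := h'.Nn
  have hS := S1_nonneg h; have hS' := S1_nonneg h'
  have hQ := Q_nonneg (p := p); have hQ' := Q_nonneg (p := p')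
  have hz := h.z; have hz' := h'.z; have hΛ := h'.Λ
  have hC := h.Cm; have hC' := h'.Cm
  have e0 : p.τ ^ 2 ≤ p'.τ ^ 2 := pow_le_pow_left₀ hτ hl.τ 2
  have e1 : 8 / p.rθ ^ 2 ≤ 8 / p'.rθ ^ 2 := inv_sq_mono h h' hl (by norm_num) le_rfl
  have e1' : 17 / p.rθ ^ 2 ≤ 17 / p'.rθ ^ 2 := inv_sq_mono h h' hl (by norm_num) le_rfl
  have e2 : 17 / p.rθ ^ 2 * p.Q ≤ 17 / p'.rθ ^ 2 * p'.Q :=
    mul_le_mul e1' (Q_mono h h' hl) hQ (by positivity)
  have e3 : p.Cm * (p.S1 + 17 / p.rθ ^ 2 * p.Q) ≤ p'.Cm * (p'.S1 + 17 / p'.rθ ^ 2 * p'.Q) :=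
    mul_le_mul hl.Cm (by linarith [S1_mono h h' hl]) (by positivity) hC'
  have e4 : 2 * p.z * (8 / p.rθ ^ 2) ≤ 2 * p'.z * (8 / p'.rθ ^ 2) :=
    mul_le_mul (by linarith [hl.z]) e1 (by positivity) (by positivity)
  have e5 : p'.Λ * (2 * p.z * (8 / p.rθ ^ 2)) ≤ p'.Λ * (2 * p'.z * (8 / p'.rθ ^ 2)) :=
    mul_le_mul_of_nonneg_left e4 hΛ.le
  have e6 : (1 + p.τ ^ 2) * (p.Cm * (p.S1 + 17 / p.rθ ^ 2 * p.Q) +
      p'.Λ * (2 * p.z * (8 / p.rθ ^ 2))) ≤ (1 + p'.τ ^ 2) * (p'.Cm * (p'.S1 +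
        17 / p'.rθ ^ 2 * p'.Q) + p'.Λ * (2 * p'.z * (8 / p'.rθ ^ 2))) :=
    mul_le_mul (by linarith) (by linarith) (by positivity) (by positivity)
  have e7 : (1 + p.τ) / p.rθ ≤ (1 + p'.τ) / p'.rθ :=
    div_le_div₀ (by linarith) (by linarith [hl.τ]) hr' hl.rθ
  have e8 : ((1 + p.τ) / p.rθ) ^ 3 ≤ ((1 + p'.τ) / p'.rθ) ^ 3 :=
    pow_le_pow_left₀ (by positivity) e7 3
  have e9 : 16 * p.Nn * ((1 + p.τ) / p.rθ) ^ 3 ≤ 16 * p'.Nn * ((1 + p'.τ) / p'.rθ) ^ 3 :=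
    mul_le_mul (by linarith [hl.Nn]) e8 (by positivity) (by positivity)
  have e10 : (1 + p.τ) * (16 * p.Nn * ((1 + p.τ) / p.rθ) ^ 3) ≤
      (1 + p'.τ) * (16 * p'.Nn * ((1 + p'.τ) / p'.rθ) ^ 3) :=
    mul_le_mul (by linarith [hl.τ]) e9 (by positivity) (by positivity)
  linarith

/-- helper841's sum of the deviations -/
theorem D_of {K' D' : ℝ} (h : p.Pos) (hK : K' ≤ p.K)
    (hD : D' ≤ 3 * (K' / p.Λ + 2 * (p.z * p.de)) +
      2 * Real.sqrt (2 * p.z * (K' / p.Λ + 2 * (p.z * p.de)))) : D' ≤ p.D := by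
  have e1 : K' / p.Λ + 2 * (p.z * p.de) ≤ p.S := by
    unfold S
    have := div_le_div_of_nonneg_right hK h.Λ.le
    linarith
  have e2 : 2 * p.z * (K' / p.Λ + 2 * (p.z * p.de)) ≤ 2 * p.z * p.S :=
    mul_le_mul_of_nonneg_left e1 (by linarith [h.z])
  have e3 := Real.sqrt_le_sqrt e2
  unfold D
  linarith

/-- crude bound of the energy: the output of `e6_K` -/
theorem K_of (h : p.Pos) {e' t τ : ℝ} (ht0 : 0 ≤ t) (ht1 : t ≤ 1) (hτ : |τ| ≤ p.τ)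
    (he : |e'| ≤ (2 + |τ|) * (t ^ 2 * (1 + τ ^ 2)) * (8 * p.Nn / p.rθ ^ 2)) : e' ≤ p.K := by
  refine (le_abs_self _).trans (he.trans ?_)
  have hN := h.Nn; have hr := h.rθ; have hp := h.τ
  have e1 : τ ^ 2 ≤ p.τ ^ 2 := by
    rw [← sq_abs τ]
    exact pow_le_pow_left₀ (abs_nonneg _) hτ 2
  have e2 : t ^ 2 * (1 + τ ^ 2) ≤ 1 * (1 + p.τ ^ 2) :=
    mul_le_mul (pow_le_one₀ ht0 ht1) (by linarith) (by positivity) zero_le_one
  rw [one_mul] at e2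
  unfold K
  refine mul_le_mul_of_nonneg_right ?_ (by positivity)
  exact mul_le_mul (by linarith) e2 (by positivity) (by positivity)

/-- the norm of the parameter of the flow -/
theorem norm_flow {t τ T : ℝ} (ht0 : 0 ≤ t) (ht1 : t ≤ 1) (hτ : |τ| ≤ T) :
    ‖(t : ℂ) * (1 + τ * Complex.I)‖ ≤ 1 + T := by
  rw [norm_mul, Complex.norm_real, Real.norm_eq_abs, abs_of_nonneg ht0]
  have e1 : ‖(1 : ℂ) + τ * Complex.I‖ ≤ 1 + T := by
    refine (norm_add_le _ _).trans ?_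
    rw [norm_one, norm_mul, Complex.norm_real, Complex.norm_I, mul_one, Real.norm_eq_abs]
    linarith
  calc t * ‖(1 : ℂ) + τ * Complex.I‖ ≤ 1 * (1 + T) :=
        mul_le_mul ht1 e1 (norm_nonneg _) zero_le_one
    _ = 1 + T := one_mul _

/-- **The right side of the sum over the local terms** (helper87, helper770). -/
theorem s1_le (h : p.Pos) {ι : Type*} (s : Finset ι) {Av t1 ta f d : ι → ℝ} {Th' nx' ne' : ℝ}
    {k1 k2 k3 : ℝ} (h1 : 0 ≤ k1) (h1' : k1 ≤ p.k1) (h2 : 0 ≤ k2) (h2' : k2 ≤ p.k2) (h3 : 0 ≤ k3)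
    (h3' : k3 ≤ p.k3)
    (hs : (s.card : ℝ) ≤ p.nZ) (hf : ∀ i ∈ s, f i ≤ p.p₀ + d i) (hd : ∀ i ∈ s, 0 ≤ d i)
    (hD : ∑ i ∈ s, d i ≤ p.D)
    (hA : ∀ i ∈ s, Av i ≤ lineA p.ε p.m p.lq p.eM p.Lc p.h (f i) (d i))
    (ht1 : ∀ i ∈ s, t1 i ≤ slabA p.p₀ (d i) p.ε p.ms p.Ls p.hs)
    (hta : ∀ i ∈ s, ta i ≤ 17 * Real.sqrt (f i) / p.r ^ 2)
    (hTh : Th' ≤ p.Th) (hx : nx' ≤ p.nx) (hb : ne' ≤ p.ne) :
    5 * p.θ ^ 2 * (k1 * (k1 * ∑ i ∈ s, Av i + cLine / p.h * Th' + nx' * (k1 * (4 * p.C2)) +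
      k1 * (4 * ∑ i ∈ s, ta i)) + ne' * ((k1 ^ 2 + k2 ^ 2) * p.C2) + k3 ^ 2 * ∑ i ∈ s, t1 i +
        (k1 ^ 2 + 2 * k3 ^ 2 + 5) * ∑ i ∈ s, ta i) ≤ p.S1 := by
  have hc := cLine_pos
  have hh := h.h
  have hC2 := h.C2
  have i1 : ∑ i ∈ s, Av i ≤ p.A :=
    (Finset.sum_le_sum hA).trans (sumz_A s hf hs h.p₀ hD h.ε h.m h.lq h.eM h.Lc h.h.le)
  have i2 : ∑ i ∈ s, t1 i ≤ p.T1 :=
    (Finset.sum_le_sum ht1).trans (sumz_tau1 s hs h.p₀ hD h.ε h.ms h.Ls h.hs.le)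
  have i3 : ∑ i ∈ s, ta i ≤ 17 * p.Q / p.r ^ 2 :=
    (Finset.sum_le_sum hta).trans (sumz_tau s hf hs h.p₀ hd hD (by norm_num))
  have q1 : k1 ^ 2 ≤ p.k1 ^ 2 := pow_le_pow_left₀ h1 h1' 2
  have q2 : k2 ^ 2 ≤ p.k2 ^ 2 := pow_le_pow_left₀ h2 h2' 2
  have q3 : k3 ^ 2 ≤ p.k3 ^ 2 := pow_le_pow_left₀ h3 h3' 2
  have nA := A_nonneg h
  have nT := T1_nonneg h
  have nQ := Q_nonneg (p := p)
  have nTh := h.Th
  have nx0 := h.nx
  have nr := h.r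
  have p1 := h.k1; have p2 := h.k2; have p3 := h.k3
  have e1 : k1 * ∑ i ∈ s, Av i ≤ p.k1 * p.A :=
    (mul_le_mul_of_nonneg_left i1 h1).trans (mul_le_mul_of_nonneg_right h1' nA)
  have e2 : cLine / p.h * Th' ≤ cLine / p.h * p.Th := mul_le_mul_of_nonneg_left hTh (by positivity)
  have e7 : nx' * (k1 * (4 * p.C2)) ≤ p.nx * (p.k1 * (4 * p.C2)) :=
    mul_le_mul hx (mul_le_mul_of_nonneg_right h1' (by positivity)) (by positivity) nx0
  have e8 : k1 * (4 * ∑ i ∈ s, ta i) ≤ p.k1 * (4 * (17 * p.Q / p.r ^ 2)) :=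
    (mul_le_mul_of_nonneg_left (by linarith) h1).trans
      (mul_le_mul_of_nonneg_right h1' (by positivity))
  have e3 : k1 * (k1 * ∑ i ∈ s, Av i + cLine / p.h * Th' + nx' * (k1 * (4 * p.C2)) +
      k1 * (4 * ∑ i ∈ s, ta i)) ≤
      p.k1 * (p.k1 * p.A + cLine / p.h * p.Th + p.nx * (p.k1 * (4 * p.C2)) +
        p.k1 * (4 * (17 * p.Q / p.r ^ 2))) :=
    (mul_le_mul_of_nonneg_left (add_le_add (add_le_add (add_le_add e1 e2) e7) e8) h1).trans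
      (mul_le_mul_of_nonneg_right h1' (by positivity))
  have e4 : ne' * ((k1 ^ 2 + k2 ^ 2) * p.C2) ≤ p.ne * ((p.k1 ^ 2 + p.k2 ^ 2) * p.C2) :=
    mul_le_mul hb (mul_le_mul_of_nonneg_right (add_le_add q1 q2) hC2) (by positivity) h.ne
  have e5 : k3 ^ 2 * ∑ i ∈ s, t1 i ≤ p.k3 ^ 2 * p.T1 :=
    (mul_le_mul_of_nonneg_left i2 (sq_nonneg _)).trans (mul_le_mul_of_nonneg_right q3 nT)
  have e6 : (k1 ^ 2 + 2 * k3 ^ 2 + 5) * ∑ i ∈ s, ta i ≤
      (p.k1 ^ 2 + 2 * p.k3 ^ 2 + 5) * (17 * p.Q / p.r ^ 2) :=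
    (mul_le_mul_of_nonneg_left i3 (by positivity)).trans
      (mul_le_mul_of_nonneg_right (by linarith) (by positivity))
  unfold S1
  refine mul_le_mul_of_nonneg_left ?_ (by positivity)
  linarith

/-- **The energy**: the output of `e6_upper`, with the sum of the second order forms of the local
terms bounded by `S1` and the errors of almost positivity (helper394). -/
theorem en (h : p.Pos) {ι : Type*} (s : Finset ι) {f d : ι → ℝ} {e' t τ X S₁ : ℝ}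
    (ht0 : 0 ≤ t) (ht1 : t ≤ 1) (hτ : |τ| ≤ p.τ)
    (hs : (s.card : ℝ) ≤ p.nZ) (hf : ∀ i ∈ s, f i ≤ p.p₀ + d i) (hd : ∀ i ∈ s, 0 ≤ d i)
    (hD : ∑ i ∈ s, d i ≤ p.D)
    (he : e' ≤ t ^ 2 * (1 + τ ^ 2) * (p.Cm * X + p.Λ * (2 * p.z * (8 / p.rθ ^ 2))) +
      (1 + |τ|) * (16 * p.Nn * (‖(t : ℂ) * (1 + τ * Complex.I)‖ / p.rθ) ^ 3))
    (hX : X ≤ S₁ + 17 / p.rθ ^ 2 * ∑ i ∈ s, Real.sqrt (f i)) (hS : S₁ ≤ p.S1) : e' ≤ p.tot := by
  have hr := h.rθ; have hp := h.τ; have hN := h.Nn; have hz := h.z; have hΛ := h.Λ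
  have hC := h.Cm
  have i1 := sumz_sqrt s hf hs h.p₀ hd hD
  have i2 : X ≤ p.S1 + 17 / p.rθ ^ 2 * p.Q := by
    have : 17 / p.rθ ^ 2 * ∑ i ∈ s, Real.sqrt (f i) ≤ 17 / p.rθ ^ 2 * p.Q :=
      mul_le_mul_of_nonneg_left i1 (by positivity)
    linarith
  have nS := S1_nonneg h
  have nQ := Q_nonneg (p := p)
  have e1 : τ ^ 2 ≤ p.τ ^ 2 := by
    rw [← sq_abs τ]
    exact pow_le_pow_left₀ (abs_nonneg _) hτ 2
  have e2 : t ^ 2 * (1 + τ ^ 2) ≤ 1 * (1 + p.τ ^ 2) :=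
    mul_le_mul (pow_le_one₀ ht0 ht1) (by linarith) (by positivity) zero_le_one
  rw [one_mul] at e2
  have e3 : p.Cm * X + p.Λ * (2 * p.z * (8 / p.rθ ^ 2)) ≤
      p.Cm * (p.S1 + 17 / p.rθ ^ 2 * p.Q) + p.Λ * (2 * p.z * (8 / p.rθ ^ 2)) := by
    have := mul_le_mul_of_nonneg_left i2 hC
    linarith
  have e4 : 0 ≤ p.Cm * (p.S1 + 17 / p.rθ ^ 2 * p.Q) + p.Λ * (2 * p.z * (8 / p.rθ ^ 2)) := by
    positivity
  have e5 : t ^ 2 * (1 + τ ^ 2) * (p.Cm * X + p.Λ * (2 * p.z * (8 / p.rθ ^ 2))) ≤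
      (1 + p.τ ^ 2) * (p.Cm * (p.S1 + 17 / p.rθ ^ 2 * p.Q) + p.Λ * (2 * p.z * (8 / p.rθ ^ 2))) :=
    (mul_le_mul_of_nonneg_left e3 (by positivity)).trans (mul_le_mul_of_nonneg_right e2 e4)
  have e6 : ‖(t : ℂ) * (1 + τ * Complex.I)‖ / p.rθ ≤ (1 + p.τ) / p.rθ :=
    div_le_div_of_nonneg_right (norm_flow ht0 ht1 hτ) hr.le
  have e7 : (‖(t : ℂ) * (1 + τ * Complex.I)‖ / p.rθ) ^ 3 ≤ ((1 + p.τ) / p.rθ) ^ 3 :=
    pow_le_pow_left₀ (div_nonneg (norm_nonneg _) hr.le) e6 3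
  have e8 : (1 + |τ|) * (16 * p.Nn * (‖(t : ℂ) * (1 + τ * Complex.I)‖ / p.rθ) ^ 3) ≤
      (1 + p.τ) * (16 * p.Nn * ((1 + p.τ) / p.rθ) ^ 3) :=
    mul_le_mul (by linarith) (mul_le_mul_of_nonneg_left e7 (by positivity)) (by positivity)
      (by linarith)
  unfold tot
  linarith

/-- bound of the energy without the detectors and the third order -/
noncomputable def tot2 (p : EP) : ℝ := (1 + p.τ ^ 2) * (p.Cm * (p.S1 + 17 / p.rθ ^ 2 * p.Q))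

theorem tot2_le_tot (h : p.Pos) : p.tot2 ≤ p.tot := by
  have hr := h.rθ; have hp := h.τ; have hN := h.Nn; have hz := h.z; have hΛ := h.Λ
  unfold tot2 tot
  have e1 : 0 ≤ p.Λ * (2 * p.z * (8 / p.rθ ^ 2)) := by positivity
  have e2 : 0 ≤ (1 + p.τ) * (16 * p.Nn * ((1 + p.τ) / p.rθ) ^ 3) := by positivity
  have e3 : (1 + p.τ ^ 2) * (p.Cm * (p.S1 + 17 / p.rθ ^ 2 * p.Q)) ≤
      (1 + p.τ ^ 2) * (p.Cm * (p.S1 + 17 / p.rθ ^ 2 * p.Q) + p.Λ * (2 * p.z * (8 / p.rθ ^ 2))) :=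
    mul_le_mul_of_nonneg_left (by linarith) (by positivity)
  linarith

/-- the same without the detectors and the third order -/
theorem en2 (h : p.Pos) {ι : Type*} (s : Finset ι) {f d : ι → ℝ} {e' t τ X S₁ err : ℝ}
    (ht0 : 0 ≤ t) (ht1 : t ≤ 1) (hτ : |τ| ≤ p.τ)
    (hs : (s.card : ℝ) ≤ p.nZ) (hf : ∀ i ∈ s, f i ≤ p.p₀ + d i) (hd : ∀ i ∈ s, 0 ≤ d i)
    (hD : ∑ i ∈ s, d i ≤ p.D) (he : e' ≤ t ^ 2 * (1 + τ ^ 2) * (p.Cm * X) + err)
    (hX : X ≤ S₁ + 17 / p.rθ ^ 2 * ∑ i ∈ s, Real.sqrt (f i)) (hS : S₁ ≤ p.S1) :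
    e' ≤ p.tot2 + err := by
  have hr := h.rθ; have hp := h.τ; have hC := h.Cm
  have i1 := sumz_sqrt s hf hs h.p₀ hd hD
  have i2 : X ≤ p.S1 + 17 / p.rθ ^ 2 * p.Q := by
    have : 17 / p.rθ ^ 2 * ∑ i ∈ s, Real.sqrt (f i) ≤ 17 / p.rθ ^ 2 * p.Q :=
      mul_le_mul_of_nonneg_left i1 (by positivity)
    linarith
  have nS := S1_nonneg h
  have nQ := Q_nonneg (p := p)
  have e1 : τ ^ 2 ≤ p.τ ^ 2 := by
    rw [← sq_abs τ]
    exact pow_le_pow_left₀ (abs_nonneg _) hτ 2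
  have e2 : t ^ 2 * (1 + τ ^ 2) ≤ 1 * (1 + p.τ ^ 2) :=
    mul_le_mul (pow_le_one₀ ht0 ht1) (by linarith) (by positivity) zero_le_one
  rw [one_mul] at e2
  have e3 : p.Cm * X ≤ p.Cm * (p.S1 + 17 / p.rθ ^ 2 * p.Q) := mul_le_mul_of_nonneg_left i2 hC
  have e5 : t ^ 2 * (1 + τ ^ 2) * (p.Cm * X) ≤
      (1 + p.τ ^ 2) * (p.Cm * (p.S1 + 17 / p.rθ ^ 2 * p.Q)) :=
    (mul_le_mul_of_nonneg_left e3 (by positivity)).trans
      (mul_le_mul_of_nonneg_right e2 (by positivity))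
  unfold tot2
  linarith

theorem tot2_mono (h : p.Pos) (h' : p'.Pos) (hl : p.Le p') : p.tot2 ≤ p'.tot2 := by
  unfold tot2
  have hr := h.rθ; have hr' := h'.rθ
  have hτ := h.τ; have hτ' := h'.τ
  have hS := S1_nonneg h; have hS' := S1_nonneg h'
  have hQ := Q_nonneg (p := p); have hQ' := Q_nonneg (p := p')
  have hC := h.Cm; have hC' := h'.Cm
  have e0 : p.τ ^ 2 ≤ p'.τ ^ 2 := pow_le_pow_left₀ hτ hl.τ 2
  have e1' : 17 / p.rθ ^ 2 ≤ 17 / p'.rθ ^ 2 := inv_sq_mono h h' hl (by norm_num) le_rfl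
  have e2 : 17 / p.rθ ^ 2 * p.Q ≤ 17 / p'.rθ ^ 2 * p'.Q :=
    mul_le_mul e1' (Q_mono h h' hl) hQ (by positivity)
  have e3 : p.Cm * (p.S1 + 17 / p.rθ ^ 2 * p.Q) ≤ p'.Cm * (p'.S1 + 17 / p'.rθ ^ 2 * p'.Q) :=
    mul_le_mul hl.Cm (by linarith [S1_mono h h' hl]) (by positivity) hC'
  exact mul_le_mul (by linarith) e3 (by positivity) (by positivity)

end EP

end Vale.Agent.P356.GA
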