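import Vale.Agent.P356.GA.EnGoal394
import Vale.Agent.P356.GA.E6Data412
import Vale.Agent.P356.GA.SumZ778

/-!
# EN: the energy of the tilted states, from the sum over the local terms

`EnP_of_S1P`: `S1P → EnP`.
-/

set_option linter.all false

namespace Vale.Agent.P356.GA

open Matrix Finset Vale.Agent.P356 Vale.Agent.P356.SV Vale.Agent.P356.Path Vale.Agent.P356.NA
open Vale.Agent.P356.SA Vale.Agent.P356.PH Vale.Agent.P356.GA.Par
open Vale.Agent.P356.GA.Level (bal)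
open scoped BigOperators ComplexOrder Kronecker Matrix.Norms.L2Operator

namespace CData

variable {q R : ℕ} {J Δ a C₁ C₂ : ℝ} {L l : ℕ} (d : CData q R J Δ a C₁ C₂ L l)

theorem Tv_eq_Mv394 (v : SS L) : E6.Tv d v = ((cmN185 C₂ : ℝ) : ℂ) • d.Mv v := by
  have h0 := (cmN_pos185 C₂).ne'
  have h1 : ∀ z, d.T z = ((cmN185 C₂ : ℝ) : ℂ) • d.Tn z := by
    intro z
    rw [Tn, smul_smul, ← Complex.ofReal_mul, mul_inv_cancel₀ h0, Complex.ofReal_one, one_smul]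
  rcases v with z | z
  · show cp1 (d.T z) = _ • cp1 (d.Tn z)
    rw [h1, cp1_smul]
  · show cp2 (d.T z) = _ • cp2 (d.Tn z)
    rw [h1, cp2_smul]

theorem dvn_nn (ψ : Conf (SS L) q → ℂ) (v : SS L) : 0 ≤ dvn d.P ψ v :=
  dvn_nonneg (fun z => (d.det z).2.2.1) ψ v

/-- the positive portions of the local terms are an admissible family -/
theorem posFam394 (hl : 1 ≤ l) : PosFam d (fun v => posM (d.Mv v)) where
  psd v := posM_psd (d.Mv_herm v)
  norm v := (posM_norm _).trans (d.Mv_norm v)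
  acts v := posM_actsOn (d.Mv_acts v)
  small v := by
    refine (expv_posM_le (d.Mv_herm v) d.nsq_dbl185).trans ((d.Mv_nrm v).trans ?_)
    exact Real.rpow_le_rpow_of_exponent_le (by exact_mod_cast hl) (by norm_num)

/-- **The sum of the forms of the local terms** -/
theorem sumQF394 (hl : 1 ≤ l) (hD : Par.cD a l ≤ cB l) (hθ : 0 < d.θ)
    {ψ : Conf (SS L) q → ℂ} (hψ : nsq ψ = 1) {M : ℝ}
    (hM : Fintype.card (SS L) * Real.log q ≤ M) {S₁ Dv : ℝ}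
    (hDv : ∑ v ∈ d.Nr, dvn d.P ψ v ≤ Dv)
    (hS : ∑ v ∈ d.Nr, d.g.QV ψ M d.K2 (posM (d.Mv v))
      (Sum.czero d.θ d.g.n (range d.g.n ×ˢ (univ : Finset (SS L)))) ≤ S₁) :
    ∑ v ∈ d.Nr, QF ψ (d.g.GN ψ M d.K2) (d.g.n + 1) (E6.Tv d v) (fun _ => d.θ, fun _ => -d.θ / 2) ≤
      cmN185 C₂ * (S₁ + 8 * (d.θ * rW q l) ^ 2 *
        Real.sqrt (18 * (l : ℝ) ^ 2 * (18 * (l : ℝ) ^ 2 * (l : ℝ) ^ (-100 : ℝ) + Dv))) := by
  have hW := rW_pos d.q1 hl
  have hl0 : (0 : ℝ) < l := by exact_mod_cast hl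
  set p₀ : ℝ := (l : ℝ) ^ (-100 : ℝ) with hp₀
  have hp0 : 0 < p₀ := Real.rpow_pos_of_pos hl0 _
  set r : ℝ := 1 / (d.θ * rW q l) with hr
  have hr0 : 0 < r := by positivity
  have e1 : ∀ v ∈ d.Nr, QF ψ (d.g.GN ψ M d.K2) (d.g.n + 1) (E6.Tv d v)
      (fun _ => d.θ, fun _ => -d.θ / 2) = cmN185 C₂ * QF ψ (d.g.GN ψ M d.K2) (d.g.n + 1) (d.Mv v)
      (fun _ => d.θ, fun _ => -d.θ / 2) := by
    intro v _
    rw [d.Tv_eq_Mv394, QF_csmul]
  rw [Finset.sum_congr rfl e1, ← Finset.mul_sum]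
  refine mul_le_mul_of_nonneg_left ?_ (cmN_pos185 C₂).le
  have h1 := QF_sum394 d.g (ψ := ψ) M (K := d.K2) d.K2_herm (Mv := d.Mv) (Nr := d.Nr)
    (fun v _ => d.Mv_herm v) (fun v _ => d.Mv_norm v) d.θ (r := r)
    (π := fun v => min 1 (p₀ + dvn d.P ψ v)) hr0 ?_ ?_ ?_ ?_ hS
  · refine h1.trans ?_
    have h2 : 8 / r ^ 2 = 8 * (d.θ * rW q l) ^ 2 := by
      rw [hr, one_div, inv_pow, div_inv_eq_mul]
    rw [h2]
    refine add_le_add le_rfl (mul_le_mul_of_nonneg_left ?_ (by positivity))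
    exact sumz_sqrt d.Nr (f := fun v => min 1 (p₀ + dvn d.P ψ v)) (d := fun v => dvn d.P ψ v)
      (fun v _ => min_le_right _ _) d.card_Nr hp0.le (fun v _ => d.dvn_nn ψ v) hDv
  · intro v _ z hz
    have h3 : ‖posM (-d.Mv v)‖ ≤ 1 := (posM_norm _).trans (by rw [norm_neg]; exact d.Mv_norm v)
    have h4 : ActsOn (lay v (fun z => bal z (Par.cD a l))) (posM (-d.Mv v)) :=
      posM_actsOn (act_neg (d.Mv_acts v))
    have h5 := d.radius hl hψ hM hθ.le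
      ((fun _ => d.θ, fun _ => -d.θ / 2) : (ℕ → ℝ) × (Fin d.g.n × SS L → ℝ))
      (fun _ => by simp [abs_of_pos hθ]) (fun _ => by
        simp only
        rw [abs_le]
        constructor <;> linarith) (v := v) (r := Par.cD a l) (by omega)
      (Finset.Subset.refl _) h4 (r₀ := r) hr0.le (by
        rw [hr, one_div, inv_mul_cancel₀ (by positivity)]) hz
    linarith
  · intro v _
    exact lt_min one_pos (by have := d.dvn_nn ψ v; linarith)
  · intro v _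
    exact min_le_left _ _
  · intro v _
    refine le_min ?_ (d.posM185 hψ hD).2
    have h3 : ‖posM (-d.Mv v)‖ ≤ 1 := (posM_norm _).trans (by rw [norm_neg]; exact d.Mv_norm v)
    refine (expv_le ψ _).trans ?_
    rw [hψ, mul_one]
    exact h3

end CData

/-! ### numbers -/

section numbers
open Filter

theorem up_rW394 {q : ℕ} (hq : 1 ≤ q) : Up (rW q) (1 / 10 ^ 6) :=
  (E6.up_aN hq).congr' (Eventually.of_forall fun l => rfl)

/-- the error of almost positivity -/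
noncomputable def psN (q : ℕ) (a : ℝ) (l : ℕ) : ℝ :=
  8 * (16 * (l : ℝ) ^ (xu a + xom a - 1) * rW q l) ^ 2 *
    Real.sqrt (18 * (l : ℝ) ^ 2 * (18 * (l : ℝ) ^ 2 * (l : ℝ) ^ (-100 : ℝ) + (l : ℝ) ^ ((11:ℝ)/10)))

theorem up_psN {q : ℕ} (hq : 1 ≤ q) {a : ℝ} (ha1 : a ≤ 1) : Up (psN q a) (-(1 / 4)) := by
  have h2 : Up (fun l : ℕ => 18 * (l : ℝ) ^ 2) 2 := by simpa using (Up.self.pow 2).cmul 18
  have h3 : Up (fun l : ℕ => 18 * (l : ℝ) ^ 2 * (l : ℝ) ^ (-100 : ℝ)) (11 / 10) :=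
    (h2.mul (Up.pow_self _)).mono (by norm_num)
  have h4 : Up (fun l : ℕ => 18 * (l : ℝ) ^ 2 * (l : ℝ) ^ (-100 : ℝ) + (l : ℝ) ^ ((11:ℝ)/10))
      (11 / 10) := h3.add (Up.pow_self _)
  have h5 := (h2.mul h4).sqrt
  have h6 := ((((Up.pow_self (xu a + xom a - 1)).cmul 16).mul (up_rW394 hq)).pow 2).cmul 8
  have h7 := h6.mul h5
  refine (h7.mono ?_).congr' (Eventually.of_forall fun l => rfl)
  have := e0_le ha1
  unfold xu xom
  norm_num at *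
  linarith

/-- the total -/
theorem ev_tot394 {q : ℕ} (hq : 1 ≤ q) {a : ℝ} (ha : 0 < a) (ha1 : a ≤ 1) (C₂ : ℝ) :
    ∀ᶠ l : ℕ in atTop, (1 + (10 * Real.log l) ^ 2) *
      (cmN185 C₂ * ((l : ℝ) ^ (-(11 * e0 a)) + psN q a l)) + (l : ℝ) ^ (-((1 : ℝ) / 2000)) ≤
        (l : ℝ) ^ (-(2 * xc a)) := by
  have hx0 := e0_pos ha
  have hx := e0_le ha1
  have h1 : Up (fun l : ℕ => (1 + (10 * Real.log l) ^ 2)) (e0 a) := by
    have h2 := ((Up.log (e := e0 a / 2) (by positivity)).cmul 10).pow 2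
    refine ((Up.const 1).mono hx0.le).add (h2.mono (le_of_eq ?_))
    push_cast; ring
  have h3 : Up (fun l : ℕ => cmN185 C₂ * ((l : ℝ) ^ (-(11 * e0 a)) + psN q a l)) (-(11 * e0 a)) :=
    ((Up.pow_self _).add ((up_psN hq ha1).mono (by norm_num at *; linarith))).cmul _
  have h4 := (h1.mul h3).add ((Up.pow_self (-((1 : ℝ) / 2000))).mono
    (show (-((1 : ℝ) / 2000)) ≤ e0 a + -(11 * e0 a) by norm_num at *; linarith))
  filter_upwards [h4.le (e' := -(2 * xc a)) (c := 1) (by unfold xc; linarith) one_pos] with l hl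
  rw [one_mul] at hl
  exact (le_abs_self _).trans hl

/-- the sum of the deviations -/
theorem ev_dvn394 : ∀ᶠ l : ℕ in atTop,
    50 * l * Real.sqrt ((l : ℝ) ^ ((1 : ℝ) / 1000) / cLam l) ≤ (l : ℝ) ^ ((11 : ℝ) / 10) := by
  have h1 : Up (fun l : ℕ => (l : ℝ) ^ ((1 : ℝ) / 1000) / cLam l) (1 / 100) := by
    have h2 := (Up.pow_self ((1 : ℝ) / 1000)).mul up_cLam_inv
    refine (h2.mono ?_).congr' (Eventually.of_forall fun l => div_eq_mul_inv _ _)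
    unfold xlam; norm_num
  have h3 := (Up.self.cmul 50).mul h1.sqrt
  filter_upwards [h3.le (e' := 11 / 10) (c := 1) (by norm_num) one_pos] with l hl
  rw [one_mul] at hl
  exact (le_abs_self _).trans hl

end numbers

/-- **The energy of the tilted states**, from the sum over the local terms. -/
theorem EnP_of_S1P {q R : ℕ} {J Δ a C₁ C₂ : ℝ} (hq : 1 ≤ q) (hJ : 0 ≤ J) (ha : 0 < a)
    (ha1 : a ≤ 1) (h : S1P q R J Δ a C₁ C₂) : EnP q R J Δ a C₁ C₂ := by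
  obtain ⟨n₁, h1⟩ := h
  obtain ⟨n₂, h2⟩ := E6.e6_data q R hJ Δ ha ha1 C₁ C₂
  have hev := (((ev_tot394 hq ha ha1 C₂).and ev_dvn394).and (ev_theta ha1)).and
    ((ev_cR_cM 1).and (ev_one.and (Filter.eventually_ge_atTop 1)))
  obtain ⟨n₃, h3⟩ := Filter.eventually_atTop.1 hev
  refine ⟨max (max n₁ n₂) n₃, fun L l d hl => ⟨M1 q L l, ?_⟩⟩
  intro M hM τ hτ t ht ht1 ψ hS
  have hl1 : n₁ ≤ l := (le_max_left _ _).trans ((le_max_left _ _).trans hl)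
  have hl2 : n₂ ≤ l := (le_max_right _ _).trans ((le_max_left _ _).trans hl)
  obtain ⟨⟨⟨ntot, ndvn⟩, nth⟩, ⟨nRM, none, -⟩⟩ := h3 l ((le_max_right _ _).trans hl)
  have hl0 : (0 : ℝ) < l := by exact_mod_cast none
  have hll : 0 ≤ Real.log l := Real.log_nonneg (by exact_mod_cast none)
  have hM' : Fintype.card (SS L) * Real.log q ≤ M := by
    refine le_trans ?_ hM
    unfold M1
    linarith
  obtain ⟨hcr, hup⟩ := h2 L l d hl2 M hM' τ hτ t ht ht1 ψ hS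
  have hψ : nsq ψ = 1 := hS.1
  obtain ⟨-, hθ0, hθ1⟩ := nth d.w ⟨d.wle, d.wgt⟩ d.g.n d.n16
  have hθ0' : 0 < d.θ := hθ0
  have hθ1' : d.θ ≤ 16 * (l : ℝ) ^ (xu a + xom a - 1) := hθ1
  -- the deviations
  have hone : (1 : ℝ) ≤ (l : ℝ) ^ ((1 : ℝ) / 1000) :=
    Real.one_le_rpow (by exact_mod_cast none) (by norm_num)
  have hKl : (l : ℝ) ^ ((1 : ℝ) / 1000) ≤ l := by
    conv_rhs => rw [← Real.rpow_one (l : ℝ)]
    exact Real.rpow_le_rpow_of_exponent_le (by exact_mod_cast none) (by norm_num)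
  have hdv := ((d.dev ψ hψ).2 _ hone hKl ((le_abs_self _).trans hcr)).2
  have hdv' : ∑ v ∈ d.Z.disjSum d.Z, dvn d.P ψ v ≤ (l : ℝ) ^ ((11 : ℝ) / 10) := hdv.trans ndvn
  have hdvN : ∑ v ∈ d.Nr, dvn d.P ψ v ≤ (l : ℝ) ^ ((11 : ℝ) / 10) :=
    (Finset.sum_le_sum_of_subset_of_nonneg d.Nr_sub fun v _ _ => d.dvn_nn ψ v).trans hdv'
  -- the sum over the local terms
  have hS1 := h1 L l d hl1 M hM ψ hψ hdv' _ (d.posFam394 none)
  have hDB : Par.cD a l ≤ cB l := by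
    have e1 := cD_cS ha none
    have e2 := cS_cR ha ha1 none
    have e3 : cB l = 8 * cM l := rfl
    omega
  have hQ := d.sumQF394 none hDB hθ0' hψ hM' hdvN hS1
  have hNr : ∀ v, E6.pj v ∈ sa7_nb d.X d.w \ d.X → v ∈ d.Nr := fun v hv => d.mem_Nr.2 hv
  have hU := hup d.Nr hNr
  have hps : 8 * (d.θ * rW q l) ^ 2 *
      Real.sqrt (18 * (l : ℝ) ^ 2 * (18 * (l : ℝ) ^ 2 * (l : ℝ) ^ (-100 : ℝ) +
        (l : ℝ) ^ ((11:ℝ)/10))) ≤ psN q a l := by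
    unfold psN
    have hW := rW_pos hq none
    refine mul_le_mul_of_nonneg_right ?_ (Real.sqrt_nonneg _)
    refine mul_le_mul_of_nonneg_left ?_ (by norm_num)
    exact pow_le_pow_left₀ (by positivity) (mul_le_mul_of_nonneg_right hθ1' hW.le) 2
  have hcm := cmN_pos185 C₂
  have hps0 : 0 ≤ psN q a l := by unfold psN; positivity
  have hB0 : 0 ≤ cmN185 C₂ * ((l : ℝ) ^ (-(11 * e0 a)) + psN q a l) := by positivity
  have hQ' : ∑ v ∈ d.Nr, QF ψ (d.g.GN ψ M d.K2) (d.g.n + 1) (E6.Tv d v)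
      (fun _ => d.θ, fun _ => -d.θ / 2) ≤
        cmN185 C₂ * ((l : ℝ) ^ (-(11 * e0 a)) + psN q a l) :=
    hQ.trans (mul_le_mul_of_nonneg_left (add_le_add le_rfl hps) hcm.le)
  have ht2 : t ^ 2 * (1 + τ ^ 2) ≤ 1 + (10 * Real.log l) ^ 2 := by
    have e1 : t ^ 2 ≤ 1 := pow_le_one₀ ht.le ht1
    have e2 : τ ^ 2 ≤ (10 * Real.log l) ^ 2 := sq_le_sq' (by linarith [(abs_le.1 hτ).1]) (abs_le.1 hτ).2
    calc t ^ 2 * (1 + τ ^ 2) ≤ 1 * (1 + τ ^ 2) := mul_le_mul_of_nonneg_right e1 (by positivity)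
      _ ≤ _ := by linarith
  have hfin : t ^ 2 * (1 + τ ^ 2) * ∑ v ∈ d.Nr, QF ψ (d.g.GN ψ M d.K2) (d.g.n + 1) (E6.Tv d v)
      (fun _ => d.θ, fun _ => -d.θ / 2) ≤ (1 + (10 * Real.log l) ^ 2) *
        (cmN185 C₂ * ((l : ℝ) ^ (-(11 * e0 a)) + psN q a l)) :=
    (mul_le_mul_of_nonneg_left hQ' (by positivity)).trans (mul_le_mul_of_nonneg_right ht2 hB0)
  refine hU.trans (le_trans (add_le_add hfin le_rfl) ntot)

end Vale.Agent.P356.GA
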