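import Vale.Agent.P356.GA.EnRad394
import Vale.Agent.P356.GA.CCount185

/-!
# EN: the sum over the local terms, as a statement about `CData`

`S1P`: the second order forms of the positive portions sum to at most `l^(-11 e0)`.
-/

set_option linter.all false

namespace Vale.Agent.P356.GA

open Matrix Finset Vale.Agent.P356 Vale.Agent.P356.SV Vale.Agent.P356.Path Vale.Agent.P356.NA
open Vale.Agent.P356.SA Vale.Agent.P356.PH Vale.Agent.P356.GA.Par
open Vale.Agent.P356.GA.Level (bal)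
open scoped BigOperators ComplexOrder Kronecker Matrix.Norms.L2Operator

/-- lower bound of the regularisation -/
noncomputable def M1 (q L l : ℕ) : ℝ :=
  Fintype.card (SS L) * Real.log q + 100 * Real.log l + 100

/-- a family of positive contractions on the cores which almost annihilate `Ω ⊗ Ω` -/
structure PosFam {q R : ℕ} {J Δ a C₁ C₂ : ℝ} {L l : ℕ} (d : CData q R J Δ a C₁ C₂ L l)
    (P : SS L → Op (SS L) q) : Prop where
  psd : ∀ v, (P v).PosSemidef
  norm : ∀ v, ‖P v‖ ≤ 1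
  acts : ∀ v, ActsOn (lay v (fun z => bal z (Par.cD a l))) (P v)
  small : ∀ v, expv (dbl d.Ω d.Ω) (P v) ≤ (l : ℝ) ^ (-20 : ℝ)

/-- **The sum over the local terms.** -/
def S1P (q R : ℕ) (J Δ a C₁ C₂ : ℝ) : Prop :=
  ∃ n₀ : ℕ, ∀ (L l : ℕ) (d : CData q R J Δ a C₁ C₂ L l), n₀ ≤ l →
    ∀ M, M1 q L l ≤ M → ∀ ψ : Conf (SS L) q → ℂ, nsq ψ = 1 →
      ∑ v ∈ d.Z.disjSum d.Z, dvn d.P ψ v ≤ (l : ℝ) ^ ((11 : ℝ) / 10) →
        ∀ P : SS L → Op (SS L) q, PosFam d P →
          ∑ v ∈ Class407.two (sa7_nb d.X d.w \ d.X), d.g.QV ψ M d.K2 (P v)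
            (Sum.czero d.θ d.g.n (range d.g.n ×ˢ (univ : Finset (SS L)))) ≤
              (l : ℝ) ^ (-(11 * e0 a))

end Vale.Agent.P356.GA
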