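import Vale.Agent.P356.GA.CData551
import Vale.Agent.P356.GA.ThSum407
import Vale.Agent.P356.GA.E6_412
import Vale.Agent.P356.GA.Num227

/-!
# P356, GA: the numbers of the energy theorem on `CData` (helper407)

Each number which enters the energy estimate is bounded by an explicit function of the scale `l`:
the size of the exponents, the numbers of cores, of exceptional cores, of edge cores, the sum of
the Markov functionals, the norm of the near terms, the error of the regularised logarithm.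
-/

set_option linter.all false

namespace Vale.Agent.P356.GA.EnNum

open Finset Filter Vale.Agent.P356 Vale.Agent.P356.SV Vale.Agent.P356.SA Vale.Agent.P356.GA
open Vale.Agent.P356.GA.Par Vale.Agent.P356.GA.Class407
open Vale.Agent.P356.GA.Level (bal lev)
open Vale.Agent.P356.GA.Edge795 (edg card_edg_real)
open Vale.Agent.P356.GA.Theta (thC)
open scoped BigOperators

variable {q R : ℕ} {J Δ a C₁ C₂ : ℝ} {L l : ℕ}

section
variable (d : CData q R J Δ a C₁ C₂ L l)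

theorem isW : W a l d.w := ⟨d.wle, d.wgt⟩

/-- number of cores of the ring, both layers -/
theorem card_Nr : ((two (sa7_nb d.X d.w \ d.X)).card : ℝ) ≤ 18 * (l : ℝ) ^ 2 := by
  rw [card_two]
  have := d.area
  linarith

/-- number of detectors -/
theorem card_Z : ((d.Z).card : ℝ) ≤ 25 * (l : ℝ) ^ 2 := d.areaZ

/-- cores (windows) of radius `e` in the ring which are not inside one tile -/
theorem card_edg_ring (e : ℕ) (hM : 0 < cM l) (hMl : cM l ≤ 3 * l) :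
    ((two (edg L d.g.tl e ∩ (sa7_nb d.X d.w \ d.X))).card : ℝ) ≤
      216 * ((l : ℝ) ^ 2 * (e / cM l)) := by
  rw [card_two, d.tl]
  have h1 : ((edg L (cM l) e ∩ (sa7_nb d.X d.w \ d.X)).card : ℝ) ≤
      ((edg L (cM l) e ∩ rect L d.x0 d.x1 d.y0 d.y1).card : ℝ) := by
    exact_mod_cast Finset.card_le_card
      (Finset.inter_subset_inter_left (Finset.sdiff_subset.trans d.box))
  have h2 := card_edg_real (L := L) (M := cM l) (e := e) (l := 3 * l) hM hMl d.hx d.hy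
  push_cast at h2
  have e1 : (12 : ℝ) * ((3 * (l : ℝ)) ^ 2 * (e / cM l)) = 108 * ((l : ℝ) ^ 2 * (e / cM l)) := by
    ring
  rw [e1] at h2
  linarith

/-- **number of exceptional inner cores** (window not in one tile, exceptional level) -/
theorem card_exc (hM : 0 < cM l) (hMl : cM l ≤ 3 * l) :
    ((excZ d.g d.X d.Exc d.w (3 * cR l)).card : ℝ) ≤
      648 * ((l : ℝ) ^ 2 * (cR l / cM l)) + 27648 * ((l : ℝ) ^ 2 * (Par.cD a l / cS a l)) := by
  classical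
  have hsub : excZ d.g d.X d.Exc d.w (3 * cR l) ⊆
      two (edg L d.g.tl (3 * cR l) ∩ (sa7_nb d.X d.w \ d.X)) ∪ two d.Exc := by
    intro v hv
    rw [mem_excZ, mem_two] at hv
    rw [mem_union, mem_two, mem_two, mem_inter]
    rcases hv.2 with h | h
    · exact Or.inl ⟨h, hv.1⟩
    · exact Or.inr h
  have h1 : ((excZ d.g d.X d.Exc d.w (3 * cR l)).card : ℝ) ≤
      ((two (edg L d.g.tl (3 * cR l) ∩ (sa7_nb d.X d.w \ d.X))).card : ℝ) +
        ((two d.Exc).card : ℝ) := by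
    exact_mod_cast (card_le_card hsub).trans (card_union_le _ _)
  have h2 := card_edg_ring d (3 * cR l) hM hMl
  have h3 := d.excC
  rw [card_two d.Exc] at h1
  push_cast at h2
  have e1 : (216 : ℝ) * ((l : ℝ) ^ 2 * (3 * (cR l : ℝ) / cM l)) =
      648 * ((l : ℝ) ^ 2 * (cR l / cM l)) := by ring
  have e2 : (1536 : ℝ) * (9 * (l : ℝ) ^ 2) * (Par.cD a l / cS a l) =
      13824 * ((l : ℝ) ^ 2 * (Par.cD a l / cS a l)) := by ring
  rw [e1] at h2
  rw [e2] at h3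
  linarith

/-- **number of edge cores** (core not in one tile, ends of the ladders) -/
theorem card_edge (hM : 0 < cM l) (hMl : cM l ≤ 3 * l) :
    ((edgeZ d.g d.X d.w (Par.cD a l) (bw a l)).card : ℝ) ≤
      216 * ((l : ℝ) ^ 2 * (Par.cD a l / cM l)) +
        576 * ((2 * bw a l + 1) * ((l : ℝ) ^ 2 / d.w)) := by
  classical
  have hsub : edgeZ d.g d.X d.w (Par.cD a l) (bw a l) ⊆
      two (edg L d.g.tl (Par.cD a l) ∩ (sa7_nb d.X d.w \ d.X)) ∪ two (endB d.g (bw a l)) := by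
    intro v hv
    rw [mem_edgeZ, mem_two] at hv
    rw [mem_union, mem_two, mem_two, mem_inter]
    rcases hv.2 with h | h
    · exact Or.inl ⟨h, hv.1⟩
    · exact Or.inr h
  have h1 : ((edgeZ d.g d.X d.w (Par.cD a l) (bw a l)).card : ℝ) ≤
      ((two (edg L d.g.tl (Par.cD a l) ∩ (sa7_nb d.X d.w \ d.X))).card : ℝ) +
        ((two (endB d.g (bw a l))).card : ℝ) := by
    exact_mod_cast (card_le_card hsub).trans (card_union_le _ _)
  have h2 := card_edg_ring d (Par.cD a l) hM hMl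
  have h3 := d.ends
  rw [card_two (endB d.g (bw a l))] at h1
  have e1 : (32 : ℝ) * (2 * bw a l + 1) * (9 * (l : ℝ) ^ 2 / d.w) =
      288 * ((2 * bw a l + 1) * ((l : ℝ) ^ 2 / d.w)) := by ring
  rw [e1] at h3
  linarith

/-- **sum of the Markov functionals** -/
theorem markov_le (hR : 0 < cR l) (hRl : cR l ≤ l) (hl : 1 ≤ l) :
    ∑ z ∈ d.Excᶜ, ∑ k ∈ range d.g.n,
      (thC (fun A => entropyOf A d.Ω) (bal z (Par.cD a l)) (bal z (3 * cR l))
          (lev d.g.T (d.g.t0 + k)) +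
        thC (fun A => entropyOf A d.Ω) (bal z (Par.cD a l)) (bal z (3 * cR l))
          (lev d.g.T (d.g.t0 + d.g.N - k))) ≤
      1920000 * (|C₁| * (Par.cD a l * ((cS a l : ℝ) ^ 2 * ((l : ℝ) ^ 2 *
        (cR l : ℝ) ^ (-a))))) := by
  refine d.markov.trans ?_
  have hR' : (0 : ℝ) < cR l := by exact_mod_cast hR
  have hl' : (0 : ℝ) < l := by exact_mod_cast hl
  have h1 : ((3 * l / cR l + 7 : ℕ) : ℝ) ≤ 10 * ((l : ℝ) / cR l) := by
    have h2 : ((3 * l / cR l : ℕ) : ℝ) ≤ ((3 * l : ℕ) : ℝ) / cR l := Nat.cast_div_le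
    push_cast at h2 ⊢
    have h3 : (1 : ℝ) ≤ (l : ℝ) / cR l := by
      rw [le_div_iff₀ hR', one_mul]
      exact_mod_cast hRl
    have h4 : 3 * (l : ℝ) / cR l = 3 * ((l : ℝ) / cR l) := by ring
    linarith
  have h5 : ((3 * l / cR l + 7 : ℕ) : ℝ) ^ 2 ≤ (10 * ((l : ℝ) / cR l)) ^ 2 :=
    pow_le_pow_left₀ (Nat.cast_nonneg _) h1 2
  have h6 : (cR l : ℝ) ^ (2 - a) = (cR l : ℝ) ^ 2 * (cR l : ℝ) ^ (-a) := by
    rw [← Real.rpow_natCast, ← Real.rpow_add hR']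
    norm_num [sub_eq_add_neg]
  have h7 : (0 : ℝ) ≤ (cR l : ℝ) ^ (2 - a) := Real.rpow_nonneg hR'.le _
  have h8 : ((3 * l / cR l + 7 : ℕ) : ℝ) ^ 2 * (C₁ * (cR l : ℝ) ^ (2 - a)) ≤
      (10 * ((l : ℝ) / cR l)) ^ 2 * (|C₁| * (cR l : ℝ) ^ (2 - a)) := by
    have h9 : C₁ * (cR l : ℝ) ^ (2 - a) ≤ |C₁| * (cR l : ℝ) ^ (2 - a) :=
      mul_le_mul_of_nonneg_right (le_abs_self _) h7
    exact (mul_le_mul_of_nonneg_left h9 (sq_nonneg _)).trans
      (mul_le_mul_of_nonneg_right h5 (mul_nonneg (abs_nonneg _) h7))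
  have h10 : (10 * ((l : ℝ) / cR l)) ^ 2 * (|C₁| * (cR l : ℝ) ^ (2 - a)) =
      100 * (|C₁| * ((l : ℝ) ^ 2 * (cR l : ℝ) ^ (-a))) := by
    rw [h6]
    field_simp
    ring
  rw [h10] at h8
  have h11 : (0 : ℝ) ≤ 9600 * Par.cD a l * (cS a l : ℝ) ^ 2 := by positivity
  have h12 := mul_le_mul_of_nonneg_left h8 h11
  calc 2 * (9600 * (Par.cD a l : ℝ) * (cS a l : ℝ) ^ 2 *
        (((3 * l / cR l + 7 : ℕ) : ℝ) ^ 2 * (C₁ * (cR l : ℝ) ^ (2 - a)))) ≤
        2 * (9600 * (Par.cD a l : ℝ) * (cS a l : ℝ) ^ 2 *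
          (100 * (|C₁| * ((l : ℝ) ^ 2 * (cR l : ℝ) ^ (-a))))) := by linarith
    _ = _ := by ring

/-- the sites near the ladders are in the ring -/
theorem zone_sub {D : ℝ} (hD : D ≤ bw a l) : Terms412.zone d.g D ⊆ sa7_nb d.X d.w \ d.X := by
  intro z hz
  rw [Terms412.mem_zone] at hz
  exact d.near z (by linarith [hz.1]) (by linarith [hz.2])

/-- **the cores off the ring do not count** (`hNr` of helper412's structure) -/
theorem zone_Nr {D : ℝ} (hD : D ≤ bw a l) (v : SS L) (hv : E6.pj v ∈ Terms412.zone d.g D) :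
    v ∈ two (sa7_nb d.X d.w \ d.X) := by
  rw [mem_two]
  exact zone_sub d hD hv

theorem four_cD : ((4 * Par.cD a l : ℕ) : ℝ) ≤ bw a l := by
  have : 4 * Par.cD a l ≤ bw a l := by
    unfold bw
    omega
  exact_mod_cast this

/-- **norm of the near terms** -/
theorem Nn_le (hJ : 0 ≤ J) (hR : 2 * R ≤ bw a l) (hl : 1 ≤ l) :
    Terms412.Nn R J (cLam l) d.g d.Z ≤ (18 * (NR R * J) + 50) * (l : ℝ) ^ 2 := by
  have h1 : ((Terms412.zone d.g (2 * R)).card : ℝ) ≤ 9 * (l : ℝ) ^ 2 := by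
    have h2 : ((2 * R : ℕ) : ℝ) ≤ bw a l := by exact_mod_cast hR
    push_cast at h2
    have h3 : ((Terms412.zone d.g (2 * R)).card : ℝ) ≤ ((sa7_nb d.X d.w \ d.X).card : ℝ) := by
      exact_mod_cast card_le_card (zone_sub d h2)
    exact h3.trans d.area
  have h4 := card_Z d
  have h5 := cLam_le_one hl
  have h6 := (cLam_pos hl).le
  have h7 : cLam l * (d.Z.card : ℝ) ≤ 25 * (l : ℝ) ^ 2 :=
    (mul_le_of_le_one_left (Nat.cast_nonneg _) h5).trans h4
  have h8 : (NR R : ℝ) * J * ((Terms412.zone d.g (2 * R)).card : ℝ) ≤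
      NR R * J * (9 * (l : ℝ) ^ 2) := mul_le_mul_of_nonneg_left h1 (by positivity)
  unfold Terms412.Nn
  linarith

theorem Nn_nonneg (hJ : 0 ≤ J) (hl : 1 ≤ l) : 0 ≤ Terms412.Nn R J (cLam l) d.g d.Z := by
  have h6 := (cLam_pos hl).le
  unfold Terms412.Nn
  positivity

end

/-! ### Eventual bounds -/

/-- the exponents: `1 ≤ n`, `0 < θ ≤ 16 l ^ (xu + xom - 1)` -/
theorem ev_θ (ha1 : a ≤ 1) : ∀ᶠ l : ℕ in atTop, ∀ (L : ℕ) (d : CData q R J Δ a C₁ C₂ L l),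
    1 ≤ d.g.n ∧ 0 < d.θ ∧ d.θ ≤ 16 * (l : ℝ) ^ (xu a + xom a - 1) := by
  filter_upwards [ev_theta ha1] with l h L d
  exact h d.w (isW d) d.g.n d.n16

/-- `1 / w ≤ 2 l ^ (xom - 1)` -/
theorem ev_w (ha1 : a ≤ 1) : ∀ᶠ l : ℕ in atTop, ∀ (L : ℕ) (d : CData q R J Δ a C₁ C₂ L l),
    1 ≤ d.w ∧ ((d.w : ℝ))⁻¹ ≤ 2 * (l : ℝ) ^ (xom a - 1) := by
  filter_upwards [ev_w2 ha1, ev_one] with l h hl L d
  have h1 := h d.w (isW d)
  have hl0 : (0 : ℝ) < l := by exact_mod_cast hl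
  have h2 : (0 : ℝ) < (l : ℝ) ^ (1 - xom a) := Real.rpow_pos_of_pos hl0 _
  have h3 : (0 : ℝ) < d.w := by exact_mod_cast h1.2
  refine ⟨h1.2, ?_⟩
  have h4 : (l : ℝ) ^ (xom a - 1) = ((l : ℝ) ^ (1 - xom a))⁻¹ := by
    rw [← Real.rpow_neg hl0.le]
    congr 1
    ring
  rw [h4, inv_le_comm₀ h3 (by positivity), mul_inv, inv_inv]
  linarith [h1.1]

/-- **number of edge cores**, explicit in `l` -/
theorem ev_edge (ha : 0 < a) (ha1 : a ≤ 1) : ∀ᶠ l : ℕ in atTop,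
    ∀ (L : ℕ) (d : CData q R J Δ a C₁ C₂ L l),
    ((edgeZ d.g d.X d.w (Par.cD a l) (bw a l)).card : ℝ) ≤
      216 * ((l : ℝ) ^ 2 * (Par.cD a l / cM l)) +
        1152 * ((2 * bw a l + 1) * ((l : ℝ) ^ 2 * (l : ℝ) ^ (xom a - 1))) := by
  have h0 : ∀ᶠ l : ℕ in atTop, |(cM l : ℝ)| ≤ 1 * (l : ℝ) ^ (1 : ℝ) :=
    up_cM.le (by unfold xm; norm_num) one_pos
  filter_upwards [ev_w (q := q) (R := R) (J := J) (Δ := Δ) (C₁ := C₁) (C₂ := C₂) ha1, h0, ev_one]
    with l h1 h2 hl L d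
  have hM : 0 < cM l := one_le_sc hl
  have hMl : cM l ≤ 3 * l := by
    have h3 : (cM l : ℝ) ≤ l := by
      have := (le_abs_self _).trans h2
      rwa [one_mul, Real.rpow_one] at this
    have h4 : cM l ≤ l := by exact_mod_cast h3
    omega
  refine (card_edge d hM hMl).trans ?_
  have h5 := (h1 L d).2
  have h6 : (l : ℝ) ^ 2 / d.w ≤ 2 * ((l : ℝ) ^ 2 * (l : ℝ) ^ (xom a - 1)) := by
    rw [div_eq_mul_inv]
    have := mul_le_mul_of_nonneg_left h5 (sq_nonneg (l : ℝ))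
    linarith
  have h7 : (0 : ℝ) ≤ 2 * (bw a l : ℝ) + 1 := by positivity
  have h8 := mul_le_mul_of_nonneg_left h6 h7
  linarith

/-- **number of exceptional inner cores**, explicit in `l` -/
theorem ev_exc : ∀ᶠ l : ℕ in atTop,
    ∀ (L : ℕ) (d : CData q R J Δ a C₁ C₂ L l),
    ((excZ d.g d.X d.Exc d.w (3 * cR l)).card : ℝ) ≤
      648 * ((l : ℝ) ^ 2 * (cR l / cM l)) + 27648 * ((l : ℝ) ^ 2 * (Par.cD a l / cS a l)) := by
  have h0 : ∀ᶠ l : ℕ in atTop, |(cM l : ℝ)| ≤ 1 * (l : ℝ) ^ (1 : ℝ) :=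
    up_cM.le (by unfold xm; norm_num) one_pos
  filter_upwards [h0, ev_one] with l h2 hl L d
  have hM : 0 < cM l := one_le_sc hl
  have hMl : cM l ≤ 3 * l := by
    have h3 : (cM l : ℝ) ≤ l := by
      have := (le_abs_self _).trans h2
      rwa [one_mul, Real.rpow_one] at this
    have h4 : cM l ≤ l := by exact_mod_cast h3
    omega
  exact card_exc d hM hMl

/-- **sum of the Markov functionals**, explicit in `l` -/
theorem ev_markov : ∀ᶠ l : ℕ in atTop,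
    ∀ (L : ℕ) (d : CData q R J Δ a C₁ C₂ L l),
    ∑ z ∈ d.Excᶜ, ∑ k ∈ range d.g.n,
      (thC (fun A => entropyOf A d.Ω) (bal z (Par.cD a l)) (bal z (3 * cR l))
          (lev d.g.T (d.g.t0 + k)) +
        thC (fun A => entropyOf A d.Ω) (bal z (Par.cD a l)) (bal z (3 * cR l))
          (lev d.g.T (d.g.t0 + d.g.N - k))) ≤
      1920000 * (|C₁| * (Par.cD a l * ((cS a l : ℝ) ^ 2 * ((l : ℝ) ^ 2 *
        (cR l : ℝ) ^ (-a))))) := by
  have h0 : ∀ᶠ l : ℕ in atTop, |(cR l : ℝ)| ≤ 1 * (l : ℝ) ^ (1 : ℝ) :=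
    up_cR.le (by unfold xr; norm_num) one_pos
  filter_upwards [h0, ev_one] with l h2 hl L d
  have hR : 0 < cR l := by
    have := one_le_sc (e := xr) hl
    unfold cR
    omega
  have hRl : cR l ≤ l := by
    have h3 : (cR l : ℝ) ≤ l := by
      have := (le_abs_self _).trans h2
      rwa [one_mul, Real.rpow_one] at this
    exact_mod_cast h3
  exact markov_le d hR hRl hl

/-- **norm of the near terms**, explicit in `l` -/
theorem ev_Nn (ha : 0 < a) (hJ : 0 ≤ J) : ∀ᶠ l : ℕ in atTop,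
    ∀ (L : ℕ) (d : CData q R J Δ a C₁ C₂ L l),
    0 ≤ Terms412.Nn R J (cLam l) d.g d.Z ∧
      Terms412.Nn R J (cLam l) d.g d.Z ≤ (18 * (NR R * J) + 50) * (l : ℝ) ^ 2 := by
  filter_upwards [ev_const_cF ha (2 * R), ev_one] with l h1 hl L d
  refine ⟨Nn_nonneg d hJ hl, Nn_le d hJ ?_ hl⟩
  unfold bw
  rw [cD_eq]
  omega

/-- the error of the regularised logarithm: for every bound `η > 0` and all large `M` -/
theorem exists_M (N : ℝ) {η : ℝ} (hη : 0 < η) (κ : ℝ) : ∃ M₁ : ℝ, ∀ M, M₁ ≤ M →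
    κ ≤ M ∧ 2 * N * Real.exp (-M) ≤ η := by
  have h1 : Tendsto (fun M : ℝ => 2 * N * Real.exp (-M)) atTop (nhds (2 * N * 0)) :=
    (Real.tendsto_exp_neg_atTop_nhds_zero).const_mul (2 * N)
  rw [mul_zero] at h1
  have h2 : ∀ᶠ M : ℝ in atTop, 2 * N * Real.exp (-M) < η := h1.eventually_lt_const hη
  obtain ⟨M₁, hM₁⟩ := Filter.eventually_atTop.1 (h2.and (Filter.eventually_ge_atTop κ))
  exact ⟨M₁, fun M hM => ⟨(hM₁ M hM).2, (hM₁ M hM).1.le⟩⟩

end Vale.Agent.P356.GA.EnNum
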