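import Vale.Agent.P356.GA.KtDbl932
import Vale.Agent.P356.GA.Crude621
import Vale.Agent.P356.GA.Level795b

/-!
# GA, block GDRAD (helper932): the numbers `Θ`, `b` of 621's radius for the data `Gd`

For `T` with `|T x - T y| ≤ Λ dist1 x y` and `Z` in a ball of radius `r` of one layer
(`gBal v r`), `ρ = r + tl`:
* `star1_sub`, `card_star1`: the tiles which meet `Z` lie in the ball of radius `ρ`;
* `card_crs`: at most `4 Λ ρ + 1` lines cross a set inside the ball of radius `ρ`;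
* `win_sum`: `∑ |c w| ‖K w‖ ≤ c₂ mp |star1| log (q / ε)` over the windows whose tile meets `Z`;
* `gd_radius`: the radius of the dressed local term; `gd_far`: the terms outside of the slabs.
-/

set_option linter.all false

namespace Vale.Agent.P356.GA.GdRad932

open Matrix Finset Vale.Agent.P356 Vale.Agent.P356.SV Vale.Agent.P356.Path Vale.Agent.P356.NA
open Vale.Agent.P356.SA Vale.Agent.P356.PH Vale.Agent.P356.GA Vale.Agent.P356.GA.KtDbl932
open Vale.Agent.P356.GA.Level (bal mem_bal bal_mono self_mem_bal card_bal dist1_self_le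
  dist1_le_of_bal)
open scoped BigOperators ComplexOrder Kronecker Matrix.Norms.L2Operator

section counting

/-- integers in a half open interval of length `m` -/
theorem card_co (n m : ℕ) (a : ℝ) (p : ℕ → Prop) [DecidablePred p]
    (hp : ∀ k, p k → a - m ≤ k ∧ (k : ℝ) < a) : ((range n).filter p).card ≤ m := by
  have h1 : ((range n).filter p).card ≤ (Finset.Ico ⌈a - m⌉ ⌈a⌉).card := by
    refine Finset.card_le_card_of_injOn (fun k : ℕ => (k : ℤ)) ?_ ?_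
    · intro k hk
      rw [Finset.mem_coe, Finset.mem_filter] at hk
      rw [Finset.mem_coe, Finset.mem_Ico]
      have h2 := hp k hk.2
      exact ⟨Int.ceil_le.2 (by push_cast; exact h2.1), Int.lt_ceil.2 (by push_cast; exact h2.2)⟩
    · intro k _ k' _ h
      exact Int.ofNat_inj.1 h
  refine h1.trans ?_
  rw [Int.card_Ico, Int.ceil_sub_natCast]
  omega

theorem card_oc (n m : ℕ) (a : ℝ) (p : ℕ → Prop) [DecidablePred p]
    (hp : ∀ k, p k → a - m < k ∧ (k : ℝ) ≤ a) : ((range n).filter p).card ≤ m := by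
  have h1 : ((range n).filter p).card ≤ (Finset.Ioc ⌊a - m⌋ ⌊a⌋).card := by
    refine Finset.card_le_card_of_injOn (fun k : ℕ => (k : ℤ)) ?_ ?_
    · intro k hk
      rw [Finset.mem_coe, Finset.mem_filter] at hk
      rw [Finset.mem_coe, Finset.mem_Ioc]
      have h2 := hp k hk.2
      exact ⟨Int.floor_lt.2 (by push_cast; exact h2.1), Int.le_floor.2 (by push_cast; exact h2.2)⟩
    · intro k _ k' _ h
      exact Int.ofNat_inj.1 h
  refine h1.trans ?_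
  rw [Int.card_Ioc, Int.floor_sub_natCast]
  omega

theorem card_cc (n : ℕ) {a b : ℝ} (hab : a ≤ b) (p : ℕ → Prop) [DecidablePred p]
    (hp : ∀ k, p k → a ≤ k ∧ (k : ℝ) ≤ b) : (((range n).filter p).card : ℝ) ≤ b - a + 1 := by
  have h1 : ((range n).filter p).card ≤ (Finset.Icc ⌈a⌉ ⌊b⌋).card := by
    refine Finset.card_le_card_of_injOn (fun k : ℕ => (k : ℤ)) ?_ ?_
    · intro k hk
      rw [Finset.mem_coe, Finset.mem_filter] at hk
      rw [Finset.mem_coe, Finset.mem_Icc]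
      have h2 := hp k hk.2
      exact ⟨Int.ceil_le.2 (by push_cast; exact h2.1), Int.le_floor.2 (by push_cast; exact h2.2)⟩
    · intro k _ k' _ h
      exact Int.ofNat_inj.1 h
  rw [Int.card_Icc] at h1
  have h3 := Int.floor_le b
  have h4 := Int.le_ceil a
  have h5 : (((⌊b⌋ + 1 - ⌈a⌉).toNat : ℕ) : ℝ) ≤ b - a + 1 := by
    rcases le_total 0 (⌊b⌋ + 1 - ⌈a⌉) with h | h
    · have h6 : (((⌊b⌋ + 1 - ⌈a⌉).toNat : ℤ) : ℝ) = ((⌊b⌋ + 1 - ⌈a⌉ : ℤ) : ℝ) := by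
        rw [Int.toNat_of_nonneg h]
      rw [Int.cast_natCast] at h6
      rw [h6]
      push_cast
      linarith
    · rw [Int.toNat_of_nonpos h]
      push_cast
      linarith
  exact (Nat.cast_le.2 h1).trans h5

end counting

section gd
variable {L : ℕ} {q : ℕ}

/-- the ball of one layer -/
def gBal (v : Site L ⊕ Site L) (r : ℕ) : Finset (Site L ⊕ Site L) :=
  Sum.elim (fun z => (bal z r).map Function.Embedding.inl)
    (fun z => (bal z r).map Function.Embedding.inr) v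

theorem card_gBal (v : Site L ⊕ Site L) (r : ℕ) : (gBal v r).card ≤ (2 * r + 1) ^ 2 := by
  rcases v with z | z
  · exact (Finset.card_map _).le.trans (card_bal z r)
  · exact (Finset.card_map _).le.trans (card_bal z r)

theorem gBal_mono (v : Site L ⊕ Site L) {r r' : ℕ} (h : r ≤ r') : gBal v r ⊆ gBal v r' := by
  rcases v with z | z
  · exact Finset.map_subset_map.2 (bal_mono z h)
  · exact Finset.map_subset_map.2 (bal_mono z h)

theorem self_mem_gBal (v : Site L ⊕ Site L) (r : ℕ) : v ∈ gBal v r := by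
  rcases v with z | z
  · exact Finset.mem_map_of_mem _ (self_mem_bal z r)
  · exact Finset.mem_map_of_mem _ (self_mem_bal z r)

/-- the union of all windows -/
noncomputable def gZone (g : Gd L) : Finset (Site L ⊕ Site L) :=
  open Classical in Finset.univ.filter fun v => ∃ w, v ∈ gReg g w

/-- the tiles, restricted to the windows -/
noncomputable def gB (g : Gd L) (j : Site L ⊕ Site L) : Finset (Site L ⊕ Site L) :=
  gTile L g.tl j ∩ gZone g

theorem mem_gZone {g : Gd L} {v : Site L ⊕ Site L} : v ∈ gZone g ↔ ∃ w, v ∈ gReg g w := by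
  classical
  rw [gZone, Finset.mem_filter]
  exact and_iff_right (Finset.mem_univ _)

theorem gB_disj (g : Gd L) {i j : Site L ⊕ Site L} (h : i ≠ j) : Disjoint (gB g i) (gB g j) :=
  (gTile_disj h).mono Finset.inter_subset_left Finset.inter_subset_left

theorem gReg_sub_gB (g : Gd L) (w : GI g.n L) : gReg g w ⊆ gB g (gU w) :=
  Finset.subset_inter (gReg_sub g w) fun v hv => mem_gZone.2 ⟨w, hv⟩

theorem gKt_acts_gB (g : Gd L) {ε : ℝ} (h0 : 0 < ε) (h1 : ε ≤ 1) {Ω : Conf (Site L) q → ℂ}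
    (h : nsq Ω = 1) (w : GI g.n L) : ActsOn (gB g (gU w)) (gK g (Kt ε Ω) w) :=
  ph_acts_mono (gReg_sub_gB g w) (gKt_acts g h0 h1 h w)

theorem mem_slT {T : Site L → ℝ} {t u : ℝ} {x : Site L} : x ∈ slT T t u ↔ t < T x ∧ T x ≤ u := by
  classical
  rw [slT, Finset.mem_filter]
  exact and_iff_right (Finset.mem_univ _)

theorem mem_loT {T : Site L → ℝ} {t : ℝ} {x : Site L} : x ∈ loT T t ↔ T x ≤ t := by
  classical
  rw [loT, Finset.mem_filter]
  exact and_iff_right (Finset.mem_univ _)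

theorem mem_gReg_inl {g : Gd L} {p : Fin g.n × Site L} {v : Site L ⊕ Site L} :
    v ∈ gReg g (Sum.inl p) ↔ ∃ x, v = Sum.inl x ∧ x ∈ g.s1 p.1 ∧ x ∈ tileB L g.tl p.2 := by
  show v ∈ (g.s1 p.1 ∩ tileB L g.tl p.2).map Function.Embedding.inl ↔ _
  rw [Finset.mem_map]
  constructor
  · rintro ⟨x, hx, rfl⟩
    exact ⟨x, rfl, Finset.mem_inter.1 hx⟩
  · rintro ⟨x, rfl, hx⟩
    exact ⟨x, Finset.mem_inter.2 hx, rfl⟩

theorem mem_gReg_inr {g : Gd L} {p : Fin g.n × Site L} {v : Site L ⊕ Site L} :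
    v ∈ gReg g (Sum.inr p) ↔ ∃ x, v = Sum.inr x ∧ x ∈ g.s2 p.1 ∧ x ∈ tileB L g.tl p.2 := by
  show v ∈ (g.s2 p.1 ∩ tileB L g.tl p.2).map Function.Embedding.inr ↔ _
  rw [Finset.mem_map]
  constructor
  · rintro ⟨x, hx, rfl⟩
    exact ⟨x, rfl, Finset.mem_inter.1 hx⟩
  · rintro ⟨x, rfl, hx⟩
    exact ⟨x, Finset.mem_inter.2 hx, rfl⟩

theorem inl_mem_gZone {g : Gd L} {x : Site L} :
    Sum.inl x ∈ gZone g ↔ ∃ k : Fin g.n, x ∈ g.s1 k := by
  rw [mem_gZone]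
  constructor
  · rintro ⟨p | p, hw⟩
    · obtain ⟨y, hy, h1, -⟩ := mem_gReg_inl.1 hw
      obtain rfl := Sum.inl_injective hy
      exact ⟨p.1, h1⟩
    · obtain ⟨y, hy, -⟩ := mem_gReg_inr.1 hw
      exact absurd hy Sum.inl_ne_inr
  · rintro ⟨k, hk⟩
    obtain ⟨j, hj⟩ := tileB_cover (M := g.tl) x
    exact ⟨Sum.inl (k, j), mem_gReg_inl.2 ⟨x, rfl, hk, hj⟩⟩

theorem inr_mem_gZone {g : Gd L} {x : Site L} :
    Sum.inr x ∈ gZone g ↔ ∃ k : Fin g.n, x ∈ g.s2 k := by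
  rw [mem_gZone]
  constructor
  · rintro ⟨p | p, hw⟩
    · obtain ⟨y, hy, -⟩ := mem_gReg_inl.1 hw
      exact absurd hy Sum.inr_ne_inl
    · obtain ⟨y, hy, h1, -⟩ := mem_gReg_inr.1 hw
      obtain rfl := Sum.inr_injective hy
      exact ⟨p.1, h1⟩
  · rintro ⟨k, hk⟩
    obtain ⟨j, hj⟩ := tileB_cover (M := g.tl) x
    exact ⟨Sum.inr (k, j), mem_gReg_inr.2 ⟨x, rfl, hk, hj⟩⟩

/-- a tile which meets the ball of radius `r` lies in the ball of radius `r + M` -/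
theorem tile_sub_bal {M : ℕ} (hM : 0 < M) {z x y j : Site L} {r : ℕ} (hx : x ∈ tileB L M j)
    (hxz : x ∈ bal z r) (hy : y ∈ tileB L M j) : y ∈ bal z (r + M) := by
  rw [mem_tileB] at hx hy
  rw [mem_bal] at hxz ⊢
  have e1 := Nat.div_add_mod x.1.val M
  have e2 := Nat.div_add_mod x.2.val M
  have e3 := Nat.div_add_mod y.1.val M
  have e4 := Nat.div_add_mod y.2.val M
  have l1 := Nat.mod_lt x.1.val hM
  have l2 := Nat.mod_lt x.2.val hM
  have l3 := Nat.mod_lt y.1.val hM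
  have l4 := Nat.mod_lt y.2.val hM
  rw [hx.1] at e1
  rw [hx.2] at e2
  rw [hy.1] at e3
  rw [hy.2] at e4
  omega

theorem gTile_sub_gBal {M : ℕ} (hM : 0 < M) {v a b j : Site L ⊕ Site L} {r : ℕ}
    (ha : a ∈ gTile L M j) (hav : a ∈ gBal v r) (hb : b ∈ gTile L M j) : b ∈ gBal v (r + M) := by
  rcases j with j | j
  · obtain ⟨x, hx, rfl⟩ := Finset.mem_map.1 ha
    obtain ⟨y, hy, rfl⟩ := Finset.mem_map.1 hb
    rcases v with z | z
    · obtain ⟨x', hx', e⟩ := Finset.mem_map.1 hav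
      have e' : x' = x := Sum.inl_injective e
      subst e'
      exact Finset.mem_map_of_mem _ (tile_sub_bal hM hx hx' hy)
    · obtain ⟨x', hx', e⟩ := Finset.mem_map.1 hav
      exact absurd e Sum.inr_ne_inl
  · obtain ⟨x, hx, rfl⟩ := Finset.mem_map.1 ha
    obtain ⟨y, hy, rfl⟩ := Finset.mem_map.1 hb
    rcases v with z | z
    · obtain ⟨x', hx', e⟩ := Finset.mem_map.1 hav
      exact absurd e Sum.inl_ne_inr
    · obtain ⟨x', hx', e⟩ := Finset.mem_map.1 hav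
      have e' : x' = x := Sum.inr_injective e
      subst e'
      exact Finset.mem_map_of_mem _ (tile_sub_bal hM hx hx' hy)

/-- the tiles which meet `Z` -/
theorem star1_sub (g : Gd L) (hM : 0 < g.tl) {v : Site L ⊕ Site L} {r : ℕ}
    {Z : Finset (Site L ⊕ Site L)} (hZ : Z ⊆ gBal v r) (s : Finset (Site L ⊕ Site L)) :
    star1 s (gB g) Z ⊆ gBal v (r + g.tl) := by
  refine Finset.union_subset (hZ.trans (gBal_mono v (Nat.le_add_right _ _))) ?_
  intro b hb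
  obtain ⟨j, hj, hbj⟩ := Finset.mem_biUnion.1 hb
  obtain ⟨a, ha, haZ⟩ := Finset.not_disjoint_iff.1 (Finset.mem_filter.1 hj).2
  exact gTile_sub_gBal hM (Finset.mem_inter.1 ha).1 (hZ haZ) (Finset.mem_inter.1 hbj).1

theorem card_star1 (g : Gd L) (hM : 0 < g.tl) {v : Site L ⊕ Site L} {r : ℕ}
    {Z : Finset (Site L ⊕ Site L)} (hZ : Z ⊆ gBal v r) (s : Finset (Site L ⊕ Site L)) :
    (star1 s (gB g) Z).card ≤ (2 * (r + g.tl) + 1) ^ 2 :=
  (Finset.card_le_card (star1_sub g hM hZ s)).trans (card_gBal v _)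

theorem gR_anti (g : Gd L) : ∀ j k, j ≤ k → g.R k ⊆ g.R j := by
  classical
  intro j k hjk v hv
  have hjk' : (j : ℝ) ≤ k := by exact_mod_cast hjk
  rw [Gd.R, Finset.mem_filter] at hv ⊢
  refine ⟨Finset.mem_univ _, ?_⟩
  rcases v with x | x
  · have h := hv.2
    simp only [Sum.elim_inl] at h ⊢
    linarith
  · have h := hv.2
    simp only [Sum.elim_inr] at h ⊢
    linarith

theorem inl_mem_R {g : Gd L} {k : ℕ} {x : Site L} : Sum.inl x ∈ g.R k ↔ g.t0 + k < g.T x := by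
  classical
  rw [Gd.R, Finset.mem_filter]
  exact and_iff_right (Finset.mem_univ _)

theorem inr_mem_R {g : Gd L} {k : ℕ} {x : Site L} :
    Sum.inr x ∈ g.R k ↔ g.T x ≤ g.t0 + g.N - k := by
  classical
  rw [Gd.R, Finset.mem_filter]
  exact and_iff_right (Finset.mem_univ _)

/-- the lines which cross a set inside a ball of one layer -/
theorem card_crs (g : Gd L) {Λ : ℝ} (hΛ : 0 ≤ Λ) (hT : ∀ x y, |g.T x - g.T y| ≤ Λ * dist1 x y)
    {v : Site L ⊕ Site L} {r : ℕ} {A : Finset (Site L ⊕ Site L)} (hA : A ⊆ gBal v r) (n : ℕ) :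
    ((crs107 A g.R n).card : ℝ) ≤ 4 * Λ * r + 1 := by
  classical
  have hb : ∀ z x : Site L, x ∈ bal z r → |g.T x - g.T z| ≤ 2 * Λ * r := by
    intro z x hx
    have h1 : ((dist1 x z : ℕ) : ℝ) ≤ 2 * r := by exact_mod_cast dist1_self_le hx
    calc |g.T x - g.T z| ≤ Λ * dist1 x z := hT x z
      _ ≤ Λ * (2 * r) := mul_le_mul_of_nonneg_left h1 hΛ
      _ = 2 * Λ * r := by ring
  have hpos : 0 ≤ 2 * Λ * r := by positivity
  rcases v with z | z
  · have h := card_cc n (a := g.T z - g.t0 - 2 * Λ * r) (b := g.T z - g.t0 + 2 * Λ * r)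
      (by linarith) (fun k => Crs A g.R k) ?_
    · rw [crs107]
      refine h.trans (le_of_eq ?_)
      ring
    · rintro k ⟨hk1, hk2⟩
      obtain ⟨a, ha, hak⟩ := Finset.not_subset.1 hk1
      obtain ⟨b, hb1, hbk⟩ := Finset.not_disjoint_iff.1 hk2
      obtain ⟨x, hx, rfl⟩ := Finset.mem_map.1 (hA ha)
      obtain ⟨y, hy, rfl⟩ := Finset.mem_map.1 (hA hb1)
      have h1 := abs_le.1 (hb z x hx)
      have h2 := abs_le.1 (hb z y hy)
      have h3 : ¬ g.t0 + k < g.T x := fun h => hak (inl_mem_R.2 h)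
      have h4 : g.t0 + k < g.T y := inl_mem_R.1 hbk
      constructor <;> linarith
  · have h := card_cc n (a := g.t0 + g.N - g.T z - 2 * Λ * r)
      (b := g.t0 + g.N - g.T z + 2 * Λ * r) (by linarith) (fun k => Crs A g.R k) ?_
    · rw [crs107]
      refine h.trans (le_of_eq ?_)
      ring
    · rintro k ⟨hk1, hk2⟩
      obtain ⟨a, ha, hak⟩ := Finset.not_subset.1 hk1
      obtain ⟨b, hb1, hbk⟩ := Finset.not_disjoint_iff.1 hk2
      obtain ⟨x, hx, rfl⟩ := Finset.mem_map.1 (hA ha)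
      obtain ⟨y, hy, rfl⟩ := Finset.mem_map.1 (hA hb1)
      have h1 := abs_le.1 (hb z x hx)
      have h2 := abs_le.1 (hb z y hy)
      have h3 : ¬ g.T x ≤ g.t0 + g.N - k := fun h => hak (inr_mem_R.2 h)
      have h4 : g.T y ≤ g.t0 + g.N - k := inr_mem_R.1 hbk
      constructor <;> linarith

/-- every site lies in at most `mp` windows -/
theorem card_win (g : Gd L) (v : Site L ⊕ Site L) (F : Finset (GI g.n L)) :
    (F.filter fun w => v ∈ gReg g w).card ≤ g.mp := by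
  classical
  rcases v with x | x
  · refine le_trans ?_ (card_co g.n g.mp (g.T x - g.t0)
      (fun k => x ∈ g.s1 k) ?_)
    · refine Finset.card_le_card_of_injOn (fun w => Sum.elim (fun p => (p.1 : ℕ))
        (fun p => (p.1 : ℕ)) w) ?_ ?_
      · intro w hw
        rw [Finset.mem_coe, Finset.mem_filter] at hw
        rcases w with p | p
        · obtain ⟨y, hy, h1, -⟩ := mem_gReg_inl.1 hw.2
          obtain rfl := Sum.inl_injective hy
          exact Finset.mem_coe.2 (Finset.mem_filter.2 ⟨Finset.mem_range.2 p.1.isLt, h1⟩)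
        · obtain ⟨y, hy, -⟩ := mem_gReg_inr.1 hw.2
          exact absurd hy Sum.inl_ne_inr
      · intro w hw w' hw' e
        rw [Finset.mem_coe, Finset.mem_filter] at hw hw'
        rcases w with p | p
        · rcases w' with p' | p'
          · obtain ⟨y, hy, -, h1⟩ := mem_gReg_inl.1 hw.2
            obtain ⟨y', hy', -, h1'⟩ := mem_gReg_inl.1 hw'.2
            obtain rfl := Sum.inl_injective hy
            obtain rfl := Sum.inl_injective hy'
            rw [mem_tileB] at h1 h1'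
            have e1 : p.1 = p'.1 := Fin.ext e
            have e2 : p.2 = p'.2 := Prod.ext (Fin.ext (h1.1.symm.trans h1'.1))
              (Fin.ext (h1.2.symm.trans h1'.2))
            rw [show p = p' from Prod.ext e1 e2]
          · obtain ⟨y, hy, -⟩ := mem_gReg_inr.1 hw'.2
            exact absurd hy Sum.inl_ne_inr
        · obtain ⟨y, hy, -⟩ := mem_gReg_inr.1 hw.2
          exact absurd hy Sum.inl_ne_inr
    · intro k hk
      have h := mem_slT.1 hk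
      constructor <;> linarith [h.1, h.2]
  · refine le_trans ?_ (card_oc g.n g.mp (g.t0 + g.N - g.T x)
      (fun k => x ∈ g.s2 k) ?_)
    · refine Finset.card_le_card_of_injOn (fun w => Sum.elim (fun p => (p.1 : ℕ))
        (fun p => (p.1 : ℕ)) w) ?_ ?_
      · intro w hw
        rw [Finset.mem_coe, Finset.mem_filter] at hw
        rcases w with p | p
        · obtain ⟨y, hy, -⟩ := mem_gReg_inl.1 hw.2
          exact absurd hy Sum.inr_ne_inl
        · obtain ⟨y, hy, h1, -⟩ := mem_gReg_inr.1 hw.2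
          obtain rfl := Sum.inr_injective hy
          exact Finset.mem_coe.2 (Finset.mem_filter.2 ⟨Finset.mem_range.2 p.1.isLt, h1⟩)
      · intro w hw w' hw' e
        rw [Finset.mem_coe, Finset.mem_filter] at hw hw'
        rcases w with p | p
        · obtain ⟨y, hy, -⟩ := mem_gReg_inl.1 hw.2
          exact absurd hy Sum.inr_ne_inl
        · rcases w' with p' | p'
          · obtain ⟨y, hy, -⟩ := mem_gReg_inl.1 hw'.2
            exact absurd hy Sum.inr_ne_inl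
          · obtain ⟨y, hy, -, h1⟩ := mem_gReg_inr.1 hw.2
            obtain ⟨y', hy', -, h1'⟩ := mem_gReg_inr.1 hw'.2
            obtain rfl := Sum.inr_injective hy
            obtain rfl := Sum.inr_injective hy'
            rw [mem_tileB] at h1 h1'
            have e1 : p.1 = p'.1 := Fin.ext e
            have e2 : p.2 = p'.2 := Prod.ext (Fin.ext (h1.1.symm.trans h1'.1))
              (Fin.ext (h1.2.symm.trans h1'.2))
            rw [show p = p' from Prod.ext e1 e2]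
    · intro k hk
      have h := mem_slT.1 hk
      constructor <;> linarith [h.1, h.2]

/-- total size of the windows inside a set -/
theorem win_card (g : Gd L) {F : Finset (GI g.n L)} {A : Finset (Site L ⊕ Site L)}
    (hF : ∀ w ∈ F, gReg g w ⊆ A) : ∑ w ∈ F, (gReg g w).card ≤ g.mp * A.card := by
  classical
  calc ∑ w ∈ F, (gReg g w).card = ∑ w ∈ F, ∑ v ∈ A, if v ∈ gReg g w then 1 else 0 := by
        refine Finset.sum_congr rfl fun w hw => ?_
        rw [← Finset.card_filter]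
        congr 1
        ext v
        rw [Finset.mem_filter]
        exact ⟨fun h => ⟨hF w hw h, h⟩, fun h => h.2⟩
    _ = ∑ v ∈ A, ∑ w ∈ F, if v ∈ gReg g w then 1 else 0 := Finset.sum_comm
    _ ≤ ∑ v ∈ A, g.mp := by
        refine Finset.sum_le_sum fun v _ => ?_
        rw [← Finset.card_filter]
        exact card_win g v F
    _ = g.mp * A.card := by rw [Finset.sum_const, smul_eq_mul, mul_comm]

section noisy
variable (g : Gd L) {ε : ℝ} (h0 : 0 < ε) (h1 : ε ≤ 1) {Ω : Conf (Site L) q → ℂ} (h : nsq Ω = 1)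
include h0 h1 h

/-- **the sum over the windows whose tile meets `Z`** -/
theorem win_sum (hq : 1 ≤ q) {c : GI g.n L → ℝ} {γ : ℝ} (hγ : 0 ≤ γ) (hc : ∀ w, |c w| ≤ γ)
    (Z : Finset (Site L ⊕ Site L)) :
    ∑ w with ¬ Disjoint (gB g (gU w)) Z, |c w| * ‖gK g (Kt ε Ω) w‖ ≤
      γ * (g.mp * ((star1 Finset.univ (gB g) Z).card : ℝ) * Real.log (q / ε)) := by
  classical
  have hq' : (1 : ℝ) ≤ q := by exact_mod_cast hq
  have hl : 0 ≤ Real.log (q / ε) := by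
    refine Real.log_nonneg ?_
    rw [le_div_iff₀ h0]
    linarith
  set F : Finset (GI g.n L) := Finset.univ.filter fun w => ¬ Disjoint (gB g (gU w)) Z with hF
  have h2 : ∑ w ∈ F, (gReg g w).card ≤ g.mp * (star1 Finset.univ (gB g) Z).card := by
    refine win_card g fun w hw => ?_
    refine (gReg_sub_gB g w).trans (Finset.subset_union_right.trans' ?_)
    refine Finset.subset_biUnion_of_mem (gB g) ?_
    exact Finset.mem_filter.2 ⟨Finset.mem_univ _, (Finset.mem_filter.1 hw).2⟩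
  calc ∑ w ∈ F, |c w| * ‖gK g (Kt ε Ω) w‖
      ≤ ∑ w ∈ F, γ * (((gReg g w).card : ℝ) * Real.log (q / ε)) :=
        Finset.sum_le_sum fun w _ => mul_le_mul (hc w) (gKt_norm g h0 h1 h w) (norm_nonneg _) hγ
    _ = γ * (((∑ w ∈ F, (gReg g w).card : ℕ) : ℝ) * Real.log (q / ε)) := by
        rw [← Finset.mul_sum, ← Finset.sum_mul]
        push_cast
        rfl
    _ ≤ γ * (((g.mp * (star1 Finset.univ (gB g) Z).card : ℕ) : ℝ) * Real.log (q / ε)) := by
        gcongr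
    _ = _ := by push_cast; ring

end noisy

/-- The inverse of the radius: lines with weights at most `θ`, windows with weights at most `γ`. -/
noncomputable def rdN (g : Gd L) (q : ℕ) (Λ ε θ γ : ℝ) (r : ℕ) : ℝ :=
  θ * (4 * Λ * (r + g.tl : ℕ) + 1) * (4 * (2 * (r + g.tl : ℕ) + 1) ^ 2 * Real.log q + 2) +
    2 * (γ * (g.mp * (2 * (r + g.tl : ℕ) + 1) ^ 2 * Real.log (q / ε)))

theorem log_q_nonneg (hq : 1 ≤ q) : 0 ≤ Real.log q :=
  Real.log_nonneg (by exact_mod_cast hq)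

theorem log_qe_nonneg {ε : ℝ} (h0 : 0 < ε) (h1 : ε ≤ 1) (hq : 1 ≤ q) :
    0 ≤ Real.log (q / ε) := by
  have hq' : (1 : ℝ) ≤ q := by exact_mod_cast hq
  refine Real.log_nonneg ?_
  rw [le_div_iff₀ h0]
  linarith

theorem rdN_pos (g : Gd L) (hq : 1 ≤ q) {Λ ε θ γ : ℝ} (hΛ : 0 ≤ Λ) (h0 : 0 < ε) (h1 : ε ≤ 1)
    (hθ : 0 < θ) (hγ : 0 ≤ γ) (r : ℕ) : 0 < rdN g q Λ ε θ γ r := by
  have e1 := log_q_nonneg hq
  have e2 := log_qe_nonneg h0 h1 hq
  unfold rdN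
  positivity

theorem rdN_mono (g : Gd L) (hq : 1 ≤ q) {Λ ε θ γ : ℝ} (hΛ : 0 ≤ Λ) (h0 : 0 < ε) (h1 : ε ≤ 1)
    (hθ : 0 ≤ θ) (hγ : 0 ≤ γ) {r r' : ℕ} (h : r ≤ r') :
    rdN g q Λ ε θ γ r ≤ rdN g q Λ ε θ γ r' := by
  have e1 := log_q_nonneg hq
  have e2 := log_qe_nonneg h0 h1 hq
  have e3 : ((r + g.tl : ℕ) : ℝ) ≤ ((r' + g.tl : ℕ) : ℝ) := by exact_mod_cast Nat.add_le_add_right h _
  unfold rdN
  gcongr

/-- lines -/
theorem gd_lines (g : Gd L) (hM : 0 < g.tl) {Λ : ℝ} (hΛ : 0 ≤ Λ)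
    (hT : ∀ x y, |g.T x - g.T y| ≤ Λ * dist1 x y) {v : Site L ⊕ Site L} {r : ℕ}
    {Z : Finset (Site L ⊕ Site L)} (hZ : Z ⊆ gBal v r) {c : ℕ → ℝ} {θ : ℝ} (hθ : 0 ≤ θ)
    (hc : ∀ k, |c k| ≤ θ) (n : ℕ) :
    ∑ k ∈ crs107 (star1 Finset.univ (gB g) Z) g.R n, |c k| ≤
      θ * (4 * Λ * (r + g.tl : ℕ) + 1) := by
  refine (Finset.sum_le_sum fun k _ => hc k).trans ?_
  rw [Finset.sum_const, nsmul_eq_mul, mul_comm]
  exact mul_le_mul_of_nonneg_left (card_crs g hΛ hT (star1_sub g hM hZ _) n) hθ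

/-- windows -/
theorem gd_windows (g : Gd L) (hM : 0 < g.tl) {ε : ℝ} (h0 : 0 < ε) (h1 : ε ≤ 1)
    {Ω : Conf (Site L) q → ℂ} (h : nsq Ω = 1) (hq : 1 ≤ q) {v : Site L ⊕ Site L} {r : ℕ}
    {Z : Finset (Site L ⊕ Site L)} (hZ : Z ⊆ gBal v r) {c : GI g.n L → ℝ} {γ : ℝ} (hγ : 0 ≤ γ)
    (hc : ∀ w, |c w| ≤ γ) :
    ∑ w with ¬ Disjoint (gB g (gU w)) Z, |c w| * ‖gK g (Kt ε Ω) w‖ ≤
      γ * (g.mp * (2 * (r + g.tl : ℕ) + 1) ^ 2 * Real.log (q / ε)) := by
  have e2 := log_qe_nonneg h0 h1 hq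
  have e3 : ((star1 Finset.univ (gB g) Z).card : ℝ) ≤ (2 * (r + g.tl : ℕ) + 1) ^ 2 := by
    exact_mod_cast card_star1 g hM hZ _
  refine (win_sum g h0 h1 h hq hγ hc Z).trans ?_
  gcongr

/-- radius -/
theorem gd_radius_cond (g : Gd L) (hM : 0 < g.tl) (hq : 1 ≤ q) {Λ ε : ℝ} (hΛ : 0 ≤ Λ)
    {v : Site L ⊕ Site L} {r : ℕ} {Z : Finset (Site L ⊕ Site L)} (hZ : Z ⊆ gBal v r)
    {θ γ s : ℝ} (hθ : 0 ≤ θ) (hs0 : 0 ≤ s) (hs : s * rdN g q Λ ε θ γ r ≤ 1) :
    s * (θ * (4 * Λ * (r + g.tl : ℕ) + 1) *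
      (4 * ((star1 Finset.univ (gB g) Z).card : ℝ) * Real.log q + 2) +
      2 * (γ * (g.mp * (2 * (r + g.tl : ℕ) + 1) ^ 2 * Real.log (q / ε)))) ≤ 1 := by
  have e1 := log_q_nonneg hq
  have e3 : ((star1 Finset.univ (gB g) Z).card : ℝ) ≤ (2 * (r + g.tl : ℕ) + 1) ^ 2 := by
    exact_mod_cast card_star1 g hM hZ _
  refine le_trans ?_ hs
  unfold rdN
  gcongr

/-- **Radius of a dressed local term for the data `Gd`**, for all coefficient vectors. -/
theorem gd_radius (g : Gd L) (hM : 0 < g.tl) {Λ : ℝ} (hΛ : 0 ≤ Λ)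
    (hT : ∀ x y, |g.T x - g.T y| ≤ Λ * dist1 x y) {ε : ℝ} (h0 : 0 < ε) (h1 : ε ≤ 1)
    {Ω : Conf (Site L) q → ℂ} (h : nsq Ω = 1) (hq : 1 ≤ q)
    {ψ : Conf (Site L ⊕ Site L) q → ℂ} (hψ : nsq ψ = 1) {M : ℝ}
    (hMM : Fintype.card (Site L ⊕ Site L) * Real.log q ≤ M)
    {c : (ℕ → ℝ) × (GI g.n L → ℝ)} {θ γ : ℝ} (hθ : 0 ≤ θ) (hγ : 0 ≤ γ) (hc1 : ∀ k, |c.1 k| ≤ θ)
    (hc2 : ∀ w, |c.2 w| ≤ γ) {v : Site L ⊕ Site L} {r : ℕ} {Z : Finset (Site L ⊕ Site L)}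
    (hZ : Z ⊆ gBal v r) {X : Op (Site L ⊕ Site L) q} (hX : ActsOn Z X) {s : ℝ} (hs0 : 0 ≤ s)
    (hs : s * rdN g q Λ ε θ γ r ≤ 1) {z : ℂ} (hz : ‖z‖ ≤ s) :
    ‖fQ ψ (GenR g.R ψ M g.n (gK g (Kt ε Ω))) (g.n + 1) X c z‖ ≤ 8 * ‖X‖ :=
  gen_radius (s := Finset.univ) (B := gB g) (υ := gU) (gR_anti g) hψ hq hMM
    (fun i _ j _ hij => gB_disj g hij) (fun w => Finset.mem_univ _)
    (fun w => gKt_acts_gB g h0 h1 h w) (fun w => gKt_herm g ε Ω w) c hX
    (gd_windows g hM h0 h1 h hq hZ hγ hc2) (gd_lines g hM hΛ hT hZ hθ hc1 g.n) hs0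
    (gd_radius_cond g hM hq hΛ hZ hθ hs0 hs) hz

/-- crude bound of the second order form of one local term -/
theorem gd_QF_le (g : Gd L) (hM : 0 < g.tl) {Λ : ℝ} (hΛ : 0 ≤ Λ)
    (hT : ∀ x y, |g.T x - g.T y| ≤ Λ * dist1 x y) {ε : ℝ} (h0 : 0 < ε) (h1 : ε ≤ 1)
    {Ω : Conf (Site L) q → ℂ} (h : nsq Ω = 1) (hq : 1 ≤ q)
    {ψ : Conf (Site L ⊕ Site L) q → ℂ} (hψ : nsq ψ = 1) {M : ℝ}
    (hMM : Fintype.card (Site L ⊕ Site L) * Real.log q ≤ M)
    {c : (ℕ → ℝ) × (GI g.n L → ℝ)} {θ γ : ℝ} (hθ : 0 < θ) (hγ : 0 ≤ γ) (hc1 : ∀ k, |c.1 k| ≤ θ)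
    (hc2 : ∀ w, |c.2 w| ≤ γ) {v : Site L ⊕ Site L} {r : ℕ} {Z : Finset (Site L ⊕ Site L)}
    (hZ : Z ⊆ gBal v r) {X : Op (Site L ⊕ Site L) q} (hX : ActsOn Z X) :
    |QF ψ (GenR g.R ψ M g.n (gK g (Kt ε Ω))) (g.n + 1) X c| ≤
      8 * ‖X‖ * rdN g q Λ ε θ γ r ^ 2 := by
  have hp := rdN_pos g hq hΛ h0 h1 hθ hγ r
  have h2 := gen_QF_le (s := Finset.univ) (B := gB g) (υ := gU) (gR_anti g) hψ hq hMM
    (fun i _ j _ hij => gB_disj g hij) (fun w => Finset.mem_univ _)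
    (fun w => gKt_acts_gB g h0 h1 h w) (fun w => gKt_herm g ε Ω w) c hX
    (gd_windows g hM h0 h1 h hq hZ hγ hc2) (gd_lines g hM hΛ hT hZ hθ.le hc1 g.n)
    (one_div_pos.2 hp) (gd_radius_cond g hM hq hΛ hZ hθ.le (one_div_pos.2 hp).le
      (by rw [one_div, inv_mul_cancel₀ hp.ne']))
  refine h2.trans (le_of_eq ?_)
  field_simp

/-- almost positivity of the form of a positive local operator -/
theorem gd_psd (g : Gd L) (hM : 0 < g.tl) {Λ : ℝ} (hΛ : 0 ≤ Λ)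
    (hT : ∀ x y, |g.T x - g.T y| ≤ Λ * dist1 x y) {ε : ℝ} (h0 : 0 < ε) (h1 : ε ≤ 1)
    {Ω : Conf (Site L) q → ℂ} (h : nsq Ω = 1) (hq : 1 ≤ q)
    {ψ : Conf (Site L ⊕ Site L) q → ℂ} (hψ : nsq ψ = 1) {M : ℝ}
    (hMM : Fintype.card (Site L ⊕ Site L) * Real.log q ≤ M)
    {c : (ℕ → ℝ) × (GI g.n L → ℝ)} {θ γ : ℝ} (hθ : 0 < θ) (hγ : 0 ≤ γ) (hc1 : ∀ k, |c.1 k| ≤ θ)
    (hc2 : ∀ w, |c.2 w| ≤ γ) {v : Site L ⊕ Site L} {r : ℕ} {Z : Finset (Site L ⊕ Site L)}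
    (hZ : Z ⊆ gBal v r) {P : Op (Site L ⊕ Site L) q} (hP : P.PosSemidef) (hX : ActsOn Z P)
    {y : ℝ} (hy0 : 0 < y) (hy : y * rdN g q Λ ε θ γ r ≤ 1 / 2) :
    -psdErr (star ψ ⬝ᵥ (P *ᵥ ψ)).re (8 * ‖P‖) (1 / rdN g q Λ ε θ γ r) y ≤
      QF ψ (GenR g.R ψ M g.n (gK g (Kt ε Ω))) (g.n + 1) P c := by
  have hp := rdN_pos g hq hΛ h0 h1 hθ hγ r
  refine gen_psd (s := Finset.univ) (B := gB g) (υ := gU) (gR_anti g) hψ hq hMM
    (fun i _ j _ hij => gB_disj g hij) (fun w => Finset.mem_univ _)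
    (fun w => gKt_acts_gB g h0 h1 h w) (fun w => gKt_herm g ε Ω w) c hP hX
    (gd_windows g hM h0 h1 h hq hZ hγ hc2) (gd_lines g hM hΛ hT hZ hθ.le hc1 g.n)
    (one_div_pos.2 hp) (gd_radius_cond g hM hq hΛ hZ hθ.le (one_div_pos.2 hp).le
      (by rw [one_div, inv_mul_cancel₀ hp.ne'])) hy0 ?_
  rw [div_div, le_div_iff₀ (by positivity)]
  linarith

/-- no window meets `Z` -/
theorem gd_far_meet (g : Gd L) {Z : Finset (Site L ⊕ Site L)} (hZ : Disjoint Z (gZone g))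
    (s : Finset (Site L ⊕ Site L)) : meet s (gB g) Z = ∅ := by
  refine Finset.filter_eq_empty_iff.2 fun j _ => not_not.2 ?_
  exact (Finset.disjoint_of_subset_right Finset.inter_subset_right hZ).symm

/-- no line crosses `Z` -/
theorem gd_far_crs (g : Gd L) {Λ : ℝ} (hΛ : 0 ≤ Λ) (hT : ∀ x y, |g.T x - g.T y| ≤ Λ * dist1 x y)
    {v : Site L ⊕ Site L} {r : ℕ} (hr : 4 * Λ * r ≤ g.mp) (hmp : 0 < g.mp)
    {Z : Finset (Site L ⊕ Site L)} (hZv : Z ⊆ gBal v r) (hZ : Disjoint Z (gZone g)) :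
    crs107 Z g.R g.n = ∅ := by
  classical
  have hb : ∀ z x y : Site L, x ∈ bal z r → y ∈ bal z r → |g.T x - g.T y| ≤ g.mp := by
    intro z x y hx hy
    have h1 : ((dist1 x y : ℕ) : ℝ) ≤ 4 * r := by exact_mod_cast dist1_le_of_bal hx hy
    calc |g.T x - g.T y| ≤ Λ * dist1 x y := hT x y
      _ ≤ Λ * (4 * r) := mul_le_mul_of_nonneg_left h1 hΛ
      _ = 4 * Λ * r := by ring
      _ ≤ g.mp := hr
  rw [crs107]
  refine Finset.filter_eq_empty_iff.2 fun k hk => ?_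
  rintro ⟨hk1, hk2⟩
  have hkn := Finset.mem_range.1 hk
  obtain ⟨a, ha, hak⟩ := Finset.not_subset.1 hk1
  obtain ⟨b, hbZ, hbk⟩ := Finset.not_disjoint_iff.1 hk2
  refine Finset.disjoint_left.1 hZ hbZ ?_
  rcases v with z | z
  · obtain ⟨x, hx, rfl⟩ := Finset.mem_map.1 (hZv ha)
    obtain ⟨y, hy, rfl⟩ := Finset.mem_map.1 (hZv hbZ)
    have h2 := abs_le.1 (hb z y x hy hx)
    have h3 : ¬ g.t0 + k < g.T x := fun h => hak (inl_mem_R.2 h)
    have h4 : g.t0 + k < g.T y := inl_mem_R.1 hbk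
    refine inl_mem_gZone.2 ⟨⟨k, hkn⟩, mem_slT.2 ⟨h4, ?_⟩⟩
    show g.T y ≤ g.t0 + k + g.mp
    linarith
  · obtain ⟨x, hx, rfl⟩ := Finset.mem_map.1 (hZv ha)
    obtain ⟨y, hy, rfl⟩ := Finset.mem_map.1 (hZv hbZ)
    have h2 := abs_le.1 (hb z y x hy hx)
    have h3 : ¬ g.T x ≤ g.t0 + g.N - k := fun h => hak (inr_mem_R.2 h)
    have h4 : g.T y ≤ g.t0 + g.N - k := inr_mem_R.1 hbk
    refine inr_mem_gZone.2 ⟨⟨k, hkn⟩, mem_slT.2 ⟨?_, h4⟩⟩
    show g.t0 + g.N - k - g.mp < g.T y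
    linarith

/-- the windows lie in the ring `Q 0 \ P 0` (both layers) -/
theorem gZone_ring (g : Gd L) (h1 : g.n + g.mp ≤ g.N) {v : Site L ⊕ Site L} (hv : v ∈ gZone g) :
    Sum.elim id id v ∈ g.Q 0 \ g.P 0 := by
  have h1' : (g.n : ℝ) + g.mp ≤ g.N := by exact_mod_cast h1
  rw [Finset.mem_sdiff, Gd.Q, Gd.P, mem_loT, mem_loT]
  rcases v with x | x
  · obtain ⟨k, hk⟩ := inl_mem_gZone.1 hv
    have h2 := mem_slT.1 hk
    have h3 : ((k : ℕ) : ℝ) < g.n := by exact_mod_cast k.isLt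
    have h4 : (0 : ℝ) ≤ (k : ℕ) := Nat.cast_nonneg _
    simp only [Sum.elim_inl, id_eq, Nat.cast_zero, add_zero, sub_zero, not_le]
    constructor <;> linarith [h2.1, h2.2]
  · obtain ⟨k, hk⟩ := inr_mem_gZone.1 hv
    have h2 := mem_slT.1 hk
    have h3 : ((k : ℕ) : ℝ) < g.n := by exact_mod_cast k.isLt
    have h4 : (0 : ℝ) ≤ (k : ℕ) := Nat.cast_nonneg _
    simp only [Sum.elim_inr, id_eq, Nat.cast_zero, add_zero, sub_zero, not_le]
    constructor <;> linarith [h2.1, h2.2]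

/-- the square lattice balls are connected -/
theorem bal_step {z : Site L} {r : ℕ} (p : Site L → Prop) : ∀ (m : ℕ) (a b : Site L),
    dist1 a b ≤ m → a ∈ bal z r → b ∈ bal z r → ¬ p a → p b →
      ∃ x y, x ∈ bal z r ∧ y ∈ bal z r ∧ dist1 x y ≤ 1 ∧ ¬ p x ∧ p y := by
  intro m
  induction m with
  | zero =>
    intro a b hab ha hb hpa hpb
    exact ⟨a, b, ha, hb, hab.trans (Nat.zero_le 1), hpa, hpb⟩
  | succ m ih =>
    intro a b hab ha hb hpa hpb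
    by_cases h1 : dist1 a b ≤ 1
    · exact ⟨a, b, ha, hb, h1, hpa, hpb⟩
    have hc : ∃ c : Site L, c ∈ bal z r ∧ dist1 a c ≤ 1 ∧ dist1 c b ≤ m := by
      have ha' := mem_bal.1 ha
      have hb' := mem_bal.1 hb
      have la1 := a.1.isLt
      have la2 := a.2.isLt
      have lb1 := b.1.isLt
      have lb2 := b.2.isLt
      unfold dist1 at hab h1
      rcases lt_trichotomy a.1.val b.1.val with h2 | h2 | h2
      · refine ⟨(⟨a.1.val + 1, by omega⟩, a.2), ?_, ?_, ?_⟩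
        · rw [mem_bal]; simp only; omega
        · unfold dist1; simp only; omega
        · unfold dist1; simp only; omega
      · rcases lt_trichotomy a.2.val b.2.val with h3 | h3 | h3
        · refine ⟨(a.1, ⟨a.2.val + 1, by omega⟩), ?_, ?_, ?_⟩
          · rw [mem_bal]; simp only; omega
          · unfold dist1; simp only; omega
          · unfold dist1; simp only; omega
        · omega
        · refine ⟨(a.1, ⟨a.2.val - 1, by omega⟩), ?_, ?_, ?_⟩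
          · rw [mem_bal]; simp only; omega
          · unfold dist1; simp only; omega
          · unfold dist1; simp only; omega
      · refine ⟨(⟨a.1.val - 1, by omega⟩, a.2), ?_, ?_, ?_⟩
        · rw [mem_bal]; simp only; omega
        · unfold dist1; simp only; omega
        · unfold dist1; simp only; omega
    obtain ⟨c, hc1, hc2, hc3⟩ := hc
    by_cases hpc : p c
    · exact ⟨a, c, ha, hc1, hc2, hpa, hpc⟩
    · exact ih c b hc3 hc1 hb hpc hpb

/-- no line crosses a ball which does not meet the windows -/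
theorem gd_far_ball (g : Gd L) {Λ : ℝ} (hΛ : 0 ≤ Λ) (hT : ∀ x y, |g.T x - g.T y| ≤ Λ * dist1 x y)
    (hmp : Λ ≤ g.mp) {v : Site L ⊕ Site L} {r : ℕ} (hZ : Disjoint (gBal v r) (gZone g)) :
    crs107 (gBal v r) g.R g.n = ∅ := by
  classical
  have hb : ∀ x y : Site L, dist1 x y ≤ 1 → |g.T x - g.T y| ≤ g.mp := by
    intro x y hxy
    have h1 : ((dist1 x y : ℕ) : ℝ) ≤ 1 := by exact_mod_cast hxy
    calc |g.T x - g.T y| ≤ Λ * dist1 x y := hT x y
      _ ≤ Λ * 1 := mul_le_mul_of_nonneg_left h1 hΛ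
      _ ≤ g.mp := by rw [mul_one]; exact hmp
  rw [crs107]
  refine Finset.filter_eq_empty_iff.2 fun k hk => ?_
  rintro ⟨hk1, hk2⟩
  have hkn := Finset.mem_range.1 hk
  obtain ⟨a, ha, hak⟩ := Finset.not_subset.1 hk1
  obtain ⟨b, hbZ, hbk⟩ := Finset.not_disjoint_iff.1 hk2
  rcases v with z | z
  · obtain ⟨x, hx, rfl⟩ := Finset.mem_map.1 ha
    obtain ⟨y, hy, rfl⟩ := Finset.mem_map.1 hbZ
    obtain ⟨x', y', hx', hy', hd, h3, h4⟩ := bal_step (z := z) (r := r)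
      (fun u => g.t0 + k < g.T u) (dist1 x y) x y le_rfl hx hy
      (fun h => hak (inl_mem_R.2 h)) (inl_mem_R.1 hbk)
    refine Finset.disjoint_left.1 hZ (Finset.mem_map_of_mem _ hy') ?_
    have h2 := abs_le.1 (hb x' y' hd)
    refine inl_mem_gZone.2 ⟨⟨k, hkn⟩, mem_slT.2 ⟨h4, ?_⟩⟩
    show g.T y' ≤ g.t0 + k + g.mp
    linarith [not_lt.1 h3]
  · obtain ⟨x, hx, rfl⟩ := Finset.mem_map.1 ha
    obtain ⟨y, hy, rfl⟩ := Finset.mem_map.1 hbZ
    obtain ⟨x', y', hx', hy', hd, h3, h4⟩ := bal_step (z := z) (r := r)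
      (fun u => g.T u ≤ g.t0 + g.N - k) (dist1 x y) x y le_rfl hx hy
      (fun h => hak (inr_mem_R.2 h)) (inr_mem_R.1 hbk)
    refine Finset.disjoint_left.1 hZ (Finset.mem_map_of_mem _ hy') ?_
    have h2 := abs_le.1 (hb x' y' hd)
    refine inr_mem_gZone.2 ⟨⟨k, hkn⟩, mem_slT.2 ⟨?_, h4⟩⟩
    show g.t0 + g.N - k - g.mp < g.T y'
    linarith [not_le.1 h3]

/-- the terms (acting on balls) which see the windows -/
noncomputable def gNear {ι : Type*} (g : Gd L) (s₀ : Finset ι) (v : ι → Site L ⊕ Site L)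
    (r : ι → ℕ) : Finset ι :=
  open Classical in s₀.filter fun i => ¬ Disjoint (gBal (v i) (r i)) (gZone g)

theorem gNear_sub {ι : Type*} (g : Gd L) (s₀ : Finset ι) (v : ι → Site L ⊕ Site L)
    (r : ι → ℕ) : gNear g s₀ v r ⊆ s₀ := by
  classical
  exact Finset.filter_subset _ _

theorem mem_gNear {ι : Type*} {g : Gd L} {s₀ : Finset ι} {v : ι → Site L ⊕ Site L}
    {r : ι → ℕ} {i : ι} :
    i ∈ gNear g s₀ v r ↔ i ∈ s₀ ∧ ¬ Disjoint (gBal (v i) (r i)) (gZone g) := by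
  classical
  rw [gNear, Finset.mem_filter]

theorem gNear_far {ι : Type*} [DecidableEq ι] (g : Gd L) {Λ : ℝ} (hΛ : 0 ≤ Λ)
    (hT : ∀ x y, |g.T x - g.T y| ≤ Λ * dist1 x y) (hmp : Λ ≤ g.mp) {s₀ : Finset ι}
    {v : ι → Site L ⊕ Site L} {r : ι → ℕ} :
    ∀ i ∈ s₀ \ gNear g s₀ v r, meet Finset.univ (gB g) (gBal (v i) (r i)) = ∅ ∧
      crs107 (gBal (v i) (r i)) g.R g.n = ∅ := by
  intro i hi
  rw [Finset.mem_sdiff, mem_gNear] at hi
  have h1 : Disjoint (gBal (v i) (r i)) (gZone g) := by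
    by_contra h
    exact hi.2 ⟨hi.1, h⟩
  exact ⟨gd_far_meet g h1 _, gd_far_ball g hΛ hT hmp h1⟩

/-- the centre of a term which sees the windows is near the ring -/
theorem gNear_ring {ι : Type*} {g : Gd L} (h1 : g.n + g.mp ≤ g.N) {s₀ : Finset ι}
    {v : ι → Site L ⊕ Site L} {r : ι → ℕ} {i : ι} (hi : i ∈ gNear g s₀ v r) :
    ∃ x ∈ g.Q 0 \ g.P 0, Sum.elim id id (v i) ∈ bal x (r i) := by
  obtain ⟨a, ha, haz⟩ := Finset.not_disjoint_iff.1 (mem_gNear.1 hi).2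
  refine ⟨_, gZone_ring g h1 haz, ?_⟩
  revert ha
  rcases v i with z | z <;> intro ha
  · obtain ⟨x, hx, rfl⟩ := Finset.mem_map.1 ha
    exact Level.bal_comm.1 hx
  · obtain ⟨x, hx, rfl⟩ := Finset.mem_map.1 ha
    exact Level.bal_comm.1 hx

theorem half_aux {a N : ℝ} (hN : 0 < N) (h : a * N ≤ 1 / 2) : a ≤ 1 / N / 2 := by
  rw [div_div, le_div_iff₀ (by positivity)]
  linarith

section energy
variable {g : Gd L} (hM : 0 < g.tl) {Λ : ℝ} (hΛ : 0 ≤ Λ)
  (hT : ∀ x y, |g.T x - g.T y| ≤ Λ * dist1 x y) (hmp : Λ ≤ g.mp) {ε : ℝ} (h0 : 0 < ε)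
  (h1 : ε ≤ 1) {Ω Ω' : Conf (Site L) q → ℂ} (hΩ : nsq Ω = 1) (hq : 1 ≤ q) {M : ℝ}
  (hMM : Fintype.card (Site L ⊕ Site L) * Real.log q ≤ M) {θ : ℝ} (hθ : 0 < θ)
  {t τ : ℝ} {ψ : Conf (Site L ⊕ Site L) q → ℂ} (h : g.St θ M (Kt ε Ω) Ω' τ t ψ)
  {ι : Type*} {s₀ : Finset ι} {T : ι → Op (Site L ⊕ Site L) q}
  {v : ι → Site L ⊕ Site L} {r : ι → ℕ}
  (hTH : ∀ i ∈ s₀, (T i).IsHermitian) (hZ : ∀ i ∈ s₀, ActsOn (gBal (v i) (r i)) (T i))
  {E : ℝ} (hE : (∑ i ∈ s₀, T i) *ᵥ dbl Ω' Ω' = (E : ℂ) • dbl Ω' Ω')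
  (hs : ∀ i ∈ gNear g s₀ v r,
    ‖(t : ℂ) * (1 + τ * Complex.I)‖ * rdN g q Λ ε θ (θ / 2) (r i) ≤ 1 / 2)
include hM hΛ hT hmp h0 h1 hΩ hq hMM hθ h hTH hZ hE hs

/-- **Energy identity for the data `Gd`.** -/
theorem gd_energy_near :
    |(star ψ ⬝ᵥ ((∑ i ∈ s₀, T i) *ᵥ ψ)).re - E - t ^ 2 * (1 + τ ^ 2) * ∑ i ∈ gNear g s₀ v r,
        QF ψ (GenR g.R ψ M g.n (gK g (Kt ε Ω))) (g.n + 1) (T i) (fun _ => θ, fun _ => θ / 2)| ≤
      (1 + |τ|) * ∑ i ∈ gNear g s₀ v r, 16 * ‖T i‖ *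
        (‖(t : ℂ) * (1 + τ * Complex.I)‖ * rdN g q Λ ε θ (θ / 2) (r i)) ^ 3 := by
  classical
  have hn := gNear_sub g s₀ v r
  have hpos : ∀ i, 0 < rdN g q Λ ε θ (θ / 2) (r i) := fun i =>
    rdN_pos g hq hΛ h0 h1 hθ (by linarith) (r i)
  have h' := (St_iff g θ M (Kt ε Ω) Ω' τ t ψ).1 h
  have key := energy_near (s := Finset.univ) (B := gB g) (υ := gU) (R := g.R) (gR_anti g) hq hMM
    (fun i _ j _ hij => gB_disj g hij) (fun w => Finset.mem_univ _)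
    (fun w => gKt_acts_gB g h0 h1 hΩ w) (fun w => gKt_herm g ε Ω w) h' hn hTH hZ hE
    (gNear_far g hΛ hT hmp)
    (r := fun i => 1 / rdN g q Λ ε θ (θ / 2) (r i))
    (Θ := fun i => θ * (4 * Λ * (r i + g.tl : ℕ) + 1))
    (b := fun i => θ / 2 * (g.mp * (2 * (r i + g.tl : ℕ) + 1) ^ 2 * Real.log (q / ε)))
    (fun i _ => one_div_pos.2 (hpos i))
    (fun i hi => gd_windows g hM h0 h1 hΩ hq subset_rfl (by linarith)
      (fun _ => (abs_of_nonneg (by linarith)).le))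
    (fun i hi => gd_lines g hM hΛ hT subset_rfl hθ.le (fun _ => (abs_of_pos hθ).le) g.n)
    (fun i hi => gd_radius_cond g hM hq hΛ subset_rfl hθ.le (one_div_pos.2 (hpos i)).le
      (by rw [one_div, inv_mul_cancel₀ (hpos i).ne']))
    (fun i hi => half_aux (hpos i) (hs i hi))
  refine key.trans (le_of_eq ?_)
  congr 1
  refine Finset.sum_congr rfl fun i _ => ?_
  simp only [one_div, div_inv_eq_mul]

/-- **Crude a priori bound for the data `Gd`.** -/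
theorem gd_crude :
    (star ψ ⬝ᵥ ((∑ i ∈ s₀, T i) *ᵥ ψ)).re - E ≤
      16 * (1 + |τ|) * ∑ i ∈ gNear g s₀ v r, ‖T i‖ *
        (‖(t : ℂ) * (1 + τ * Complex.I)‖ * rdN g q Λ ε θ (θ / 2) (r i)) ^ 2 := by
  classical
  have hn := gNear_sub g s₀ v r
  have hpos : ∀ i, 0 < rdN g q Λ ε θ (θ / 2) (r i) := fun i =>
    rdN_pos g hq hΛ h0 h1 hθ (by linarith) (r i)
  have h' := (St_iff g θ M (Kt ε Ω) Ω' τ t ψ).1 h
  have key := crude_energy (s := Finset.univ) (B := gB g) (υ := gU) (R := g.R) (gR_anti g) hq hMM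
    (fun i _ j _ hij => gB_disj g hij) (fun w => Finset.mem_univ _)
    (fun w => gKt_acts_gB g h0 h1 hΩ w) (fun w => gKt_herm g ε Ω w) h' hn hTH hZ hE
    (gNear_far g hΛ hT hmp)
    (r := fun i => 1 / rdN g q Λ ε θ (θ / 2) (r i))
    (Θ := fun i => θ * (4 * Λ * (r i + g.tl : ℕ) + 1))
    (b := fun i => θ / 2 * (g.mp * (2 * (r i + g.tl : ℕ) + 1) ^ 2 * Real.log (q / ε)))
    (fun i _ => one_div_pos.2 (hpos i))
    (fun i hi => gd_windows g hM h0 h1 hΩ hq subset_rfl (by linarith)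
      (fun _ => (abs_of_nonneg (by linarith)).le))
    (fun i hi => gd_lines g hM hΛ hT subset_rfl hθ.le (fun _ => (abs_of_pos hθ).le) g.n)
    (fun i hi => gd_radius_cond g hM hq hΛ subset_rfl hθ.le (one_div_pos.2 (hpos i)).le
      (by rw [one_div, inv_mul_cancel₀ (hpos i).ne']))
    (fun i hi => half_aux (hpos i) (hs i hi))
  refine key.trans (le_of_eq ?_)
  congr 1
  refine Finset.sum_congr rfl fun i _ => ?_
  simp only [one_div, div_inv_eq_mul]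

end energy

end gd

end Vale.Agent.P356.GA.GdRad932
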