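import Vale.Agent.P356.GA.EnDefs394
import Vale.Agent.P356.GA.GdRad932

/-!
# GA, block GDRAD in the notation of EnDefs394 (helper932)

Radius, crude bound, almost positivity of `g.QV`, energy identity and crude energy bound for the
tilted states of `Gd`, the windows `g.Wd`, the operators `g.KV K`, `K` any family of Hermitian
operators with `ActsOn b (K b)` and `‖K b‖ ≤ |b| κ`.
-/

set_option linter.all false

namespace Vale.Agent.P356.GA.GdEn932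

open Matrix Finset Vale.Agent.P356 Vale.Agent.P356.SV Vale.Agent.P356.Path Vale.Agent.P356.NA
open Vale.Agent.P356.SA Vale.Agent.P356.PH Vale.Agent.P356.GA
open Vale.Agent.P356.GA.Level (bal mem_bal bal_mono self_mem_bal card_bal dist1_self_le
  dist1_le_of_bal)
open Vale.Agent.P356.GA.GdRad932 (card_co card_oc card_cc gBal gBal_mono card_gBal gZone gB
  log_q_nonneg half_aux)
open scoped BigOperators ComplexOrder Kronecker Matrix.Norms.L2Operator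

variable {L q : ℕ}

theorem lay_eq_gBal (v : SS L) (r : ℕ) : lay v (fun z => bal z r) = gBal v r := by
  rcases v with z | z <;> rfl

theorem tB_eq (g : Gd L) (j : SS L) : g.tB j = KtDbl932.gTile L g.tl j := by
  rcases j with j | j <;> rfl

theorem Wd_inl_eq (g : Gd L) (k : Fin g.n) (j : Site L) :
    g.Wd (k, Sum.inl j) = KtDbl932.gReg g (Sum.inl (k, j)) := Gd.Wd_inl g k j

theorem Wd_inr_eq (g : Gd L) (k : Fin g.n) (j : Site L) :
    g.Wd (k, Sum.inr j) = KtDbl932.gReg g (Sum.inr (k, j)) := Gd.Wd_inr g k j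

/-- the union of the windows -/
theorem mem_zone {g : Gd L} {v : SS L} :
    v ∈ gZone g ↔ ∃ p : Fin g.n × SS L, v ∈ g.Wd (p.1, p.2) := by
  rw [GdRad932.mem_gZone]
  constructor
  · rintro ⟨p | p, h⟩
    · exact ⟨(p.1, Sum.inl p.2), by rw [Wd_inl_eq]; exact h⟩
    · exact ⟨(p.1, Sum.inr p.2), by rw [Wd_inr_eq]; exact h⟩
  · rintro ⟨⟨k, j | j⟩, h⟩
    · exact ⟨Sum.inl (k, j), by rw [← Wd_inl_eq]; exact h⟩
    · exact ⟨Sum.inr (k, j), by rw [← Wd_inr_eq]; exact h⟩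

theorem mem_zone' {g : Gd L} {v : SS L} :
    v ∈ gZone g ↔ ∃ k < g.n, v ∈ g.R k ∧ v ∉ g.R (k + g.mp) := by
  rw [mem_zone]
  constructor
  · rintro ⟨p, h⟩
    have h' := Sum.mem_slab.1 h
    exact ⟨p.1, p.1.isLt, h'.1⟩
  · rintro ⟨k, hk, h⟩
    obtain ⟨j, hj⟩ := KtDbl932.gTile_cover (M := g.tl) v
    rw [← tB_eq] at hj
    exact ⟨(⟨k, hk⟩, j), Sum.mem_slab.2 ⟨h, hj⟩⟩

theorem gB_eq (g : Gd L) (j : SS L) : gB g j = g.tB j ∩ gZone g := by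
  rw [gB, tB_eq]

theorem Wd_sub_gB (g : Gd L) (p : Fin g.n × SS L) : g.Wd (p.1, p.2) ⊆ gB g p.2 := by
  rw [gB_eq]
  exact Finset.subset_inter (g.Wd_sub _) fun v hv => mem_zone.2 ⟨p, hv⟩

theorem KV_acts_gB (g : Gd L) {K : Finset (SS L) → Op (SS L) q} (hK : ∀ b, ActsOn b (K b))
    (p : Fin g.n × SS L) : ActsOn (gB g p.2) (g.KV K p) :=
  act_neg (act_mono (Wd_sub_gB g p) (hK (g.Wd (p.1, p.2))))

/-- every site lies in at most `mp` windows -/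
theorem card_wd (g : Gd L) (v : SS L) (F : Finset (Fin g.n × SS L)) :
    (F.filter fun p => v ∈ g.Wd (p.1, p.2)).card ≤ g.mp := by
  classical
  have h1 : (F.filter fun p => v ∈ g.Wd (p.1, p.2)).card ≤
      ((range g.n).filter fun k => v ∈ g.R k ∧ v ∉ g.R (k + g.mp)).card := by
    refine Finset.card_le_card_of_injOn (fun p => (p.1 : ℕ)) ?_ ?_
    · intro p hp
      rw [Finset.mem_coe, Finset.mem_filter] at hp
      exact Finset.mem_coe.2 (Finset.mem_filter.2 ⟨Finset.mem_range.2 p.1.isLt,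
        (Sum.mem_slab.1 hp.2).1⟩)
    · intro p hp p' hp' e
      rw [Finset.mem_coe, Finset.mem_filter] at hp hp'
      have e1 : p.1 = p'.1 := Fin.ext e
      have e2 : p.2 = p'.2 := by
        by_contra hne
        exact Finset.disjoint_left.1 (g.tB_disj hne) (Sum.mem_slab.1 hp.2).2
          (Sum.mem_slab.1 hp'.2).2
      exact Prod.ext e1 e2
  refine h1.trans ?_
  rcases v with x | x
  · refine card_co g.n g.mp (g.T x - g.t0) _ fun k hk => ?_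
    rw [Gd.mem_R_inl, Gd.mem_R_inl] at hk
    have h2 := hk.1
    have h3 := not_lt.1 hk.2
    push_cast at h3
    constructor <;> linarith
  · refine card_oc g.n g.mp (g.t0 + g.N - g.T x) _ fun k hk => ?_
    rw [Gd.mem_R_inr, Gd.mem_R_inr] at hk
    have h2 := hk.1
    have h3 := not_le.1 hk.2
    push_cast at h3
    constructor <;> linarith

/-- total size of the windows inside a set -/
theorem wd_card (g : Gd L) {F : Finset (Fin g.n × SS L)} {A : Finset (SS L)}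
    (hF : ∀ p ∈ F, g.Wd (p.1, p.2) ⊆ A) : ∑ p ∈ F, (g.Wd (p.1, p.2)).card ≤ g.mp * A.card := by
  classical
  calc ∑ p ∈ F, (g.Wd (p.1, p.2)).card =
        ∑ p ∈ F, ∑ v ∈ A, if v ∈ g.Wd (p.1, p.2) then 1 else 0 := by
        refine Finset.sum_congr rfl fun p hp => ?_
        rw [← Finset.card_filter]
        congr 1
        ext v
        rw [Finset.mem_filter]
        exact ⟨fun h => ⟨hF p hp h, h⟩, fun h => h.2⟩
    _ = ∑ v ∈ A, ∑ p ∈ F, if v ∈ g.Wd (p.1, p.2) then 1 else 0 := Finset.sum_comm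
    _ ≤ ∑ v ∈ A, g.mp := by
        refine Finset.sum_le_sum fun v _ => ?_
        rw [← Finset.card_filter]
        exact card_wd g v F
    _ = g.mp * A.card := by rw [Finset.sum_const, smul_eq_mul, mul_comm]

/-- The inverse of the radius: lines with weights at most `θ`, windows with weights at most `γ`. -/
noncomputable def rdK (g : Gd L) (q : ℕ) (Λ κ θ γ : ℝ) (r : ℕ) : ℝ :=
  θ * (4 * Λ * (r + g.tl : ℕ) + 1) * (4 * (2 * (r + g.tl : ℕ) + 1) ^ 2 * Real.log q + 2) +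
    2 * (γ * (g.mp * (2 * (r + g.tl : ℕ) + 1) ^ 2 * κ))

theorem rdK_pos (g : Gd L) (hq : 1 ≤ q) {Λ κ θ γ : ℝ} (hΛ : 0 ≤ Λ) (hκ : 0 ≤ κ)
    (hθ : 0 < θ) (hγ : 0 ≤ γ) (r : ℕ) : 0 < rdK g q Λ κ θ γ r := by
  have e1 := log_q_nonneg hq
  unfold rdK
  positivity

theorem rdK_mono (g : Gd L) (hq : 1 ≤ q) {Λ κ θ γ : ℝ} (hΛ : 0 ≤ Λ) (hκ : 0 ≤ κ)
    (hθ : 0 ≤ θ) (hγ : 0 ≤ γ) {r r' : ℕ} (h : r ≤ r') :
    rdK g q Λ κ θ γ r ≤ rdK g q Λ κ θ γ r' := by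
  have e1 := log_q_nonneg hq
  have e3 : ((r + g.tl : ℕ) : ℝ) ≤ ((r' + g.tl : ℕ) : ℝ) := by
    exact_mod_cast Nat.add_le_add_right h _
  unfold rdK
  gcongr

theorem rdK_add (g : Gd L) (q : ℕ) (Λ κ θ γ θ' γ' : ℝ) (r : ℕ) :
    rdK g q Λ κ (θ + θ') (γ + γ') r = rdK g q Λ κ θ γ r + rdK g q Λ κ θ' γ' r := by
  unfold rdK
  ring

theorem rdK_smul (g : Gd L) (q : ℕ) (Λ κ θ γ a : ℝ) (r : ℕ) :
    rdK g q Λ κ (a * θ) (a * γ) r = a * rdK g q Λ κ θ γ r := by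
  unfold rdK
  ring

/-- the star of a set inside a ball of one layer -/
theorem star_sub (g : Gd L) (hM : 0 < g.tl) {v : SS L} {r : ℕ} {Z : Finset (SS L)}
    (hZ : Z ⊆ lay v (fun z => bal z r)) (s : Finset (SS L)) :
    star1 s (gB g) Z ⊆ lay v (fun z => bal z (r + g.tl)) := by
  rw [lay_eq_gBal] at hZ ⊢
  exact GdRad932.star1_sub g hM hZ s

/-- the lines which cross a set inside a ball of one layer -/
theorem crs_card (g : Gd L) {Λ : ℝ} (hΛ : 0 ≤ Λ) (hT : ∀ x y, |g.T x - g.T y| ≤ Λ * dist1 x y)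
    {v : SS L} {r : ℕ} {A : Finset (SS L)} (hA : A ⊆ lay v (fun z => bal z r)) (n : ℕ) :
    ((crs107 A g.R n).card : ℝ) ≤ 4 * Λ * r + 1 := by
  rw [lay_eq_gBal] at hA
  exact GdRad932.card_crs g hΛ hT hA n

section gen
variable (g : Gd L) (hM : 0 < g.tl) {Λ : ℝ} (hΛ : 0 ≤ Λ)
  (hT : ∀ x y, |g.T x - g.T y| ≤ Λ * dist1 x y) {κ : ℝ} (hκ : 0 ≤ κ)
  {K : Finset (SS L) → Op (SS L) q} (hKa : ∀ b, ActsOn b (K b)) (hKh : ∀ b, (K b).IsHermitian)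
  (hKn : ∀ b, ‖K b‖ ≤ (b.card : ℝ) * κ)

include hM hκ hKn in
/-- windows -/
theorem wd_sum {v : SS L} {r : ℕ} {Z : Finset (SS L)} (hZ : Z ⊆ lay v (fun z => bal z r))
    {c : Fin g.n × SS L → ℝ} {γ : ℝ} (hγ : 0 ≤ γ) (hc : ∀ w, |c w| ≤ γ) :
    ∑ w with ¬ Disjoint (gB g w.2) Z, |c w| * ‖g.KV K w‖ ≤
      γ * (g.mp * (2 * (r + g.tl : ℕ) + 1) ^ 2 * κ) := by
  classical
  set F : Finset (Fin g.n × SS L) := Finset.univ.filter fun w => ¬ Disjoint (gB g w.2) Z with hF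
  have h2 : ∑ w ∈ F, (g.Wd (w.1, w.2)).card ≤ g.mp * (star1 Finset.univ (gB g) Z).card := by
    refine wd_card g fun w hw => ?_
    refine (Wd_sub_gB g w).trans (Finset.subset_union_right.trans' ?_)
    refine Finset.subset_biUnion_of_mem (gB g) ?_
    exact Finset.mem_filter.2 ⟨Finset.mem_univ _, (Finset.mem_filter.1 hw).2⟩
  have e3 : ((star1 Finset.univ (gB g) Z).card : ℝ) ≤ (2 * (r + g.tl : ℕ) + 1) ^ 2 := by
    rw [lay_eq_gBal] at hZ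
    exact_mod_cast GdRad932.card_star1 g hM hZ _
  calc ∑ w ∈ F, |c w| * ‖g.KV K w‖
      ≤ ∑ w ∈ F, γ * (((g.Wd (w.1, w.2)).card : ℝ) * κ) :=
        Finset.sum_le_sum fun w _ => mul_le_mul (hc w)
          (by rw [Gd.KV, norm_neg]; exact hKn _) (norm_nonneg _) hγ
    _ = γ * (((∑ w ∈ F, (g.Wd (w.1, w.2)).card : ℕ) : ℝ) * κ) := by
        rw [← Finset.mul_sum, ← Finset.sum_mul]
        push_cast
        rfl
    _ ≤ γ * (((g.mp * (star1 Finset.univ (gB g) Z).card : ℕ) : ℝ) * κ) := by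
        gcongr
    _ = γ * (g.mp * ((star1 Finset.univ (gB g) Z).card : ℝ) * κ) := by push_cast; ring
    _ ≤ _ := by gcongr

include hM hΛ hT in
/-- lines -/
theorem ln_sum {v : SS L} {r : ℕ} {Z : Finset (SS L)} (hZ : Z ⊆ lay v (fun z => bal z r))
    {c : ℕ → ℝ} {θ : ℝ} (hθ : 0 ≤ θ) (hc : ∀ k, |c k| ≤ θ) (n : ℕ) :
    ∑ k ∈ crs107 (star1 Finset.univ (gB g) Z) g.R n, |c k| ≤
      θ * (4 * Λ * (r + g.tl : ℕ) + 1) := by
  rw [lay_eq_gBal] at hZ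
  exact GdRad932.gd_lines g hM hΛ hT hZ hθ hc n

include hM hΛ in
theorem rd_cond (hq : 1 ≤ q) {v : SS L} {r : ℕ} {Z : Finset (SS L)}
    (hZ : Z ⊆ lay v (fun z => bal z r)) {θ γ s : ℝ} (hθ : 0 ≤ θ) (hs0 : 0 ≤ s)
    (hs : s * rdK g q Λ κ θ γ r ≤ 1) :
    s * (θ * (4 * Λ * (r + g.tl : ℕ) + 1) *
      (4 * ((star1 Finset.univ (gB g) Z).card : ℝ) * Real.log q + 2) +
      2 * (γ * (g.mp * (2 * (r + g.tl : ℕ) + 1) ^ 2 * κ))) ≤ 1 := by
  have e1 := log_q_nonneg hq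
  have e3 : ((star1 Finset.univ (gB g) Z).card : ℝ) ≤ (2 * (r + g.tl : ℕ) + 1) ^ 2 := by
    rw [lay_eq_gBal] at hZ
    exact_mod_cast GdRad932.card_star1 g hM hZ _
  refine le_trans ?_ hs
  unfold rdK
  gcongr

section one
variable (hq : 1 ≤ q) {ψ : Conf (SS L) q → ℂ} (hψ : nsq ψ = 1) {M : ℝ}
  (hMM : Fintype.card (SS L) * Real.log q ≤ M)
  {c : (ℕ → ℝ) × (Fin g.n × SS L → ℝ)} {θ γ : ℝ} (hγ : 0 ≤ γ)
  (hc1 : ∀ k, |c.1 k| ≤ θ) (hc2 : ∀ w, |c.2 w| ≤ γ) {v : SS L} {r : ℕ} {Z : Finset (SS L)}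
  (hZ : Z ⊆ lay v (fun z => bal z r)) {X : Op (SS L) q} (hX : ActsOn Z X)

include hM hΛ hT hκ hKa hKh hKn hq hψ hMM hγ hc1 hc2 hZ hX in
/-- **Radius**, for all coefficient vectors and all radii `r`. -/
theorem GN_radius (hθ : 0 ≤ θ) {s : ℝ} (hs0 : 0 ≤ s) (hs : s * rdK g q Λ κ θ γ r ≤ 1) {z : ℂ}
    (hz : ‖z‖ ≤ s) : ‖fQ ψ (g.GN ψ M K) (g.n + 1) X c z‖ ≤ 8 * ‖X‖ :=
  gen_radius (s := Finset.univ) (B := gB g) (υ := Prod.snd) g.R_anti394 hψ hq hMM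
    (fun i _ j _ hij => GdRad932.gB_disj g hij) (fun w => Finset.mem_univ _)
    (fun w => KV_acts_gB g hKa w) (fun w => g.KV_herm hKh w) c hX
    (wd_sum g hM hκ hKn hZ hγ hc2) (ln_sum g hM hΛ hT hZ hθ hc1 g.n) hs0
    (rd_cond g hM hΛ hq hZ hθ hs0 hs) hz

include hM hΛ hT hκ hKa hKh hKn hq hψ hMM hγ hc1 hc2 hZ hX in
/-- crude bound of the second order form -/
theorem GN_QF_le (hθ : 0 < θ) :
    |QF ψ (g.GN ψ M K) (g.n + 1) X c| ≤ 8 * ‖X‖ * rdK g q Λ κ θ γ r ^ 2 := by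
  have hp := rdK_pos g hq hΛ hκ hθ hγ r
  have h2 := QF_cauchy (one_div_pos.2 hp) fun z hz =>
    GN_radius g hM hΛ hT hκ hKa hKh hKn hq hψ hMM hγ hc1 hc2 hZ hX hθ.le (one_div_pos.2 hp).le
      (by rw [one_div, inv_mul_cancel₀ hp.ne']) hz
  refine h2.trans (le_of_eq ?_)
  field_simp

include hM hΛ hT hκ hKa hKh hKn hq hψ hMM hγ hc1 hc2 hZ hX in
/-- almost positivity of the second order form -/
theorem GN_psd (hθ : 0 < θ) (hP : X.PosSemidef) {y : ℝ} (hy0 : 0 < y)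
    (hy : y * rdK g q Λ κ θ γ r ≤ 1 / 2) :
    -psdErr (star ψ ⬝ᵥ (X *ᵥ ψ)).re (8 * ‖X‖) (1 / rdK g q Λ κ θ γ r) y ≤
      QF ψ (g.GN ψ M K) (g.n + 1) X c := by
  have hp := rdK_pos g hq hΛ hκ hθ hγ r
  refine gen_psd (s := Finset.univ) (B := gB g) (υ := Prod.snd) g.R_anti394 hψ hq hMM
    (fun i _ j _ hij => GdRad932.gB_disj g hij) (fun w => Finset.mem_univ _)
    (fun w => KV_acts_gB g hKa w) (fun w => g.KV_herm hKh w) c hP hX
    (wd_sum g hM hκ hKn hZ hγ hc2) (ln_sum g hM hΛ hT hZ hθ.le hc1 g.n)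
    (one_div_pos.2 hp) (rd_cond g hM hΛ hq hZ hθ.le (one_div_pos.2 hp).le
      (by rw [one_div, inv_mul_cancel₀ hp.ne'])) hy0 ?_
  rw [div_div, le_div_iff₀ (by positivity)]
  linarith

end one

section qv
variable (hq : 1 ≤ q) {ψ : Conf (SS L) q → ℂ} (hψ : nsq ψ = 1) {M : ℝ}
  (hMM : Fintype.card (SS L) * Real.log q ≤ M)
  {c : Sum.Gn (SS L) → ℝ} {ν : ℝ} (hc : ∀ i, |c i| ≤ ν) {v : SS L} {r : ℕ} {Z : Finset (SS L)}
  (hZ : Z ⊆ lay v (fun z => bal z r)) {X : Op (SS L) q} (hX : ActsOn Z X)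
include hM hΛ hT hκ hKa hKh hKn hq hψ hMM hc hZ hX

/-- **radius for `g.QV`**, coefficients at most `ν` -/
theorem QV_radius {s : ℝ} (hs0 : 0 ≤ s) (hs : s * rdK g q Λ κ ν ν r ≤ 1) {z : ℂ}
    (hz : ‖z‖ ≤ s) : ‖fQ ψ (g.GN ψ M K) (g.n + 1) X (g.toC c) z‖ ≤ 8 * ‖X‖ := by
  have hν : 0 ≤ ν := (abs_nonneg _).trans (hc (Sum.inl 0))
  exact GN_radius g hM hΛ hT hκ hKa hKh hKn hq hψ hMM hν (fun k => hc _) (fun w => hc _) hZ hX hν
    hs0 hs hz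

theorem QV_le (hν : 0 < ν) :
    |g.QV ψ M K X c| ≤ 8 * ‖X‖ * rdK g q Λ κ ν ν r ^ 2 :=
  GN_QF_le g hM hΛ hT hκ hKa hKh hKn hq hψ hMM hν.le (fun k => hc _) (fun w => hc _) hZ hX hν

theorem QV_psd (hν : 0 < ν) (hP : X.PosSemidef) {y : ℝ} (hy0 : 0 < y)
    (hy : y * rdK g q Λ κ ν ν r ≤ 1 / 2) :
    -psdErr (star ψ ⬝ᵥ (X *ᵥ ψ)).re (8 * ‖X‖) (1 / rdK g q Λ κ ν ν r) y ≤ g.QV ψ M K X c :=
  GN_psd g hM hΛ hT hκ hKa hKh hKn hq hψ hMM hν.le (fun k => hc _) (fun w => hc _) hZ hX hν hP hy0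
    hy

end qv

end gen

/-- no window meets `Z` -/
theorem far_meet (g : Gd L) {Z : Finset (SS L)} (hZ : Disjoint Z (gZone g))
    (s : Finset (SS L)) : meet s (gB g) Z = ∅ := GdRad932.gd_far_meet g hZ s

/-- no line crosses a ball which does not meet the windows -/
theorem far_crs (g : Gd L) {Λ : ℝ} (hΛ : 0 ≤ Λ) (hT : ∀ x y, |g.T x - g.T y| ≤ Λ * dist1 x y)
    (hmp : Λ ≤ g.mp) {v : SS L} {r : ℕ} (hZ : Disjoint (lay v fun z => bal z r) (gZone g)) :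
    crs107 (lay v fun z => bal z r) g.R g.n = ∅ := by
  rw [lay_eq_gBal] at hZ ⊢
  exact GdRad932.gd_far_ball g hΛ hT hmp hZ

/-- the terms (acting on balls) which see the windows -/
noncomputable def near {ι : Type*} (g : Gd L) (s₀ : Finset ι) (v : ι → SS L) (r : ι → ℕ) :
    Finset ι := open Classical in
  s₀.filter fun i => ¬ Disjoint (lay (v i) fun z => bal z (r i)) (gZone g)

theorem mem_near {ι : Type*} {g : Gd L} {s₀ : Finset ι} {v : ι → SS L} {r : ι → ℕ} {i : ι} :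
    i ∈ near g s₀ v r ↔ i ∈ s₀ ∧ ¬ Disjoint (lay (v i) fun z => bal z (r i)) (gZone g) := by
  classical
  rw [near, Finset.mem_filter]

theorem near_eq {ι : Type*} (g : Gd L) (s₀ : Finset ι) (v : ι → SS L) (r : ι → ℕ) :
    near g s₀ v r = GdRad932.gNear g s₀ v r := by
  ext i
  rw [mem_near, GdRad932.mem_gNear, lay_eq_gBal]

theorem near_sub {ι : Type*} (g : Gd L) (s₀ : Finset ι) (v : ι → SS L) (r : ι → ℕ) :
    near g s₀ v r ⊆ s₀ := fun i hi => (mem_near.1 hi).1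

/-- the centre of a term which sees the windows is within `r i` of the ring `Q 0 \ P 0` -/
theorem near_ring {ι : Type*} {g : Gd L} (h1 : g.n + g.mp ≤ g.N) {s₀ : Finset ι}
    {v : ι → SS L} {r : ι → ℕ} {i : ι} (hi : i ∈ near g s₀ v r) :
    ∃ x ∈ g.Q 0 \ g.P 0, Sum.elim id id (v i) ∈ bal x (r i) := by
  rw [near_eq] at hi
  exact GdRad932.gNear_ring h1 hi

/-- a term off the windows is not changed by the flow -/
theorem far_QF (g : Gd L) {Λ : ℝ} (hΛ : 0 ≤ Λ) (hT : ∀ x y, |g.T x - g.T y| ≤ Λ * dist1 x y)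
    (hmp : Λ ≤ g.mp) {K : Finset (SS L) → Op (SS L) q} (hKa : ∀ b, ActsOn b (K b))
    (ψ : Conf (SS L) q → ℂ) (M : ℝ) (c : (ℕ → ℝ) × (Fin g.n × SS L → ℝ)) {v : SS L} {r : ℕ}
    (hZ : Disjoint (lay v fun z => bal z r) (gZone g)) {X : Op (SS L) q}
    (hX : ActsOn (lay v fun z => bal z r) X) : QF ψ (g.GN ψ M K) (g.n + 1) X c = 0 :=
  gen_free_QF (s := Finset.univ) (B := gB g) (υ := Prod.snd) g.R_anti394 M g.n
    (fun i _ j _ hij => GdRad932.gB_disj g hij) (fun w => Finset.mem_univ _)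
    (fun w => KV_acts_gB g hKa w) c hX (far_meet g hZ _) (far_crs g hΛ hT hmp hZ)

section energy
variable {g : Gd L} (hM : 0 < g.tl) {Λ : ℝ} (hΛ : 0 ≤ Λ)
  (hT : ∀ x y, |g.T x - g.T y| ≤ Λ * dist1 x y) (hmp : Λ ≤ g.mp) {κ : ℝ} (hκ : 0 ≤ κ)
  {K : Finset (SS L) → Op (SS L) q} (hKa : ∀ b, ActsOn b (K b)) (hKh : ∀ b, (K b).IsHermitian)
  (hKn : ∀ b, ‖K b‖ ≤ (b.card : ℝ) * κ) {Kt : Finset (Site L) → Op (Site L) q}
  (hK1 : ∀ b, K (inL b) = cp1 (Kt b)) (hK2 : ∀ b, K (inR b) = cp2 (Kt b))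
  {Ω' : Conf (Site L) q → ℂ} (hq : 1 ≤ q) {M : ℝ} (hMM : Fintype.card (SS L) * Real.log q ≤ M)
  {θ : ℝ} (hθ : 0 < θ) {t τ : ℝ} {ψ : Conf (SS L) q → ℂ} (h : g.St θ M Kt Ω' τ t ψ)
  {ι : Type*} {s₀ : Finset ι} {T : ι → Op (SS L) q} {v : ι → SS L} {r : ι → ℕ}
  (hTH : ∀ i ∈ s₀, (T i).IsHermitian) (hZ : ∀ i ∈ s₀, ActsOn (lay (v i) fun z => bal z (r i)) (T i))
  {E : ℝ} (hE : (∑ i ∈ s₀, T i) *ᵥ dbl Ω' Ω' = (E : ℂ) • dbl Ω' Ω')
  (hs : ∀ i ∈ near g s₀ v r,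
    ‖(t : ℂ) * (1 + τ * Complex.I)‖ * rdK g q Λ κ θ (θ / 2) (r i) ≤ 1 / 2)
include hM hΛ hT hmp hκ hKa hKh hKn hK1 hK2 hq hMM hθ h hTH hZ hE hs

/-- **Energy identity.** -/
theorem en_energy_near :
    |(star ψ ⬝ᵥ ((∑ i ∈ s₀, T i) *ᵥ ψ)).re - E - t ^ 2 * (1 + τ ^ 2) * ∑ i ∈ near g s₀ v r,
        g.QV ψ M K (T i) (Sum.czero θ g.n (range g.n ×ˢ (univ : Finset (SS L))))| ≤
      (1 + |τ|) * ∑ i ∈ near g s₀ v r, 16 * ‖T i‖ *
        (‖(t : ℂ) * (1 + τ * Complex.I)‖ * rdK g q Λ κ θ (θ / 2) (r i)) ^ 3 := by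
  classical
  have hn := near_sub g s₀ v r
  have hpos : ∀ i, 0 < rdK g q Λ κ θ (θ / 2) (r i) := fun i =>
    rdK_pos g hq hΛ hκ hθ (by linarith) (r i)
  have hab : |(-θ / 2 : ℝ)| ≤ θ / 2 := by
    rw [neg_div, abs_neg]
    exact (abs_of_nonneg (by linarith)).le
  have h' : TState (fun k => cut (g.R k) q) (fun _ => θ) M (GamK (g.KV K) (fun _ => -θ / 2))
      (dbl Ω' Ω') (1 + τ * Complex.I) g.n t ψ := by
    rw [g.GamK_KV θ hK1 hK2]
    exact h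
  have key := energy_near (s := Finset.univ) (B := gB g) (υ := Prod.snd) (R := g.R) g.R_anti394 hq
    hMM (fun i _ j _ hij => GdRad932.gB_disj g hij) (fun w => Finset.mem_univ _)
    (fun w => KV_acts_gB g hKa w) (fun w => g.KV_herm hKh w) h' hn hTH hZ hE
    (fun i hi => by
      rw [Finset.mem_sdiff, mem_near] at hi
      have h1 : Disjoint (lay (v i) fun z => bal z (r i)) (gZone g) := by
        by_contra h
        exact hi.2 ⟨hi.1, h⟩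
      exact ⟨far_meet g h1 _, far_crs g hΛ hT hmp h1⟩)
    (r := fun i => 1 / rdK g q Λ κ θ (θ / 2) (r i))
    (Θ := fun i => θ * (4 * Λ * (r i + g.tl : ℕ) + 1))
    (b := fun i => θ / 2 * (g.mp * (2 * (r i + g.tl : ℕ) + 1) ^ 2 * κ))
    (fun i _ => one_div_pos.2 (hpos i))
    (fun i hi => wd_sum g hM hκ hKn subset_rfl (by linarith) (fun _ => hab))
    (fun i hi => ln_sum g hM hΛ hT subset_rfl hθ.le (fun _ => (abs_of_pos hθ).le) g.n)
    (fun i hi => rd_cond g hM hΛ hq subset_rfl hθ.le (one_div_pos.2 (hpos i)).le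
      (by rw [one_div, inv_mul_cancel₀ (hpos i).ne']))
    (fun i hi => half_aux (hpos i) (hs i hi))
  simp only [g.QV_czero]
  refine key.trans (le_of_eq ?_)
  congr 1
  refine Finset.sum_congr rfl fun i _ => ?_
  simp only [one_div, div_inv_eq_mul]

/-- **Crude a priori bound.** -/
theorem en_crude :
    (star ψ ⬝ᵥ ((∑ i ∈ s₀, T i) *ᵥ ψ)).re - E ≤
      16 * (1 + |τ|) * ∑ i ∈ near g s₀ v r, ‖T i‖ *
        (‖(t : ℂ) * (1 + τ * Complex.I)‖ * rdK g q Λ κ θ (θ / 2) (r i)) ^ 2 := by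
  classical
  have hn := near_sub g s₀ v r
  have hpos : ∀ i, 0 < rdK g q Λ κ θ (θ / 2) (r i) := fun i =>
    rdK_pos g hq hΛ hκ hθ (by linarith) (r i)
  have hab : |(-θ / 2 : ℝ)| ≤ θ / 2 := by
    rw [neg_div, abs_neg]
    exact (abs_of_nonneg (by linarith)).le
  have h' : TState (fun k => cut (g.R k) q) (fun _ => θ) M (GamK (g.KV K) (fun _ => -θ / 2))
      (dbl Ω' Ω') (1 + τ * Complex.I) g.n t ψ := by
    rw [g.GamK_KV θ hK1 hK2]
    exact h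
  have key := crude_energy (s := Finset.univ) (B := gB g) (υ := Prod.snd) (R := g.R) g.R_anti394
    hq hMM (fun i _ j _ hij => GdRad932.gB_disj g hij) (fun w => Finset.mem_univ _)
    (fun w => KV_acts_gB g hKa w) (fun w => g.KV_herm hKh w) h' hn hTH hZ hE
    (fun i hi => by
      rw [Finset.mem_sdiff, mem_near] at hi
      have h1 : Disjoint (lay (v i) fun z => bal z (r i)) (gZone g) := by
        by_contra h
        exact hi.2 ⟨hi.1, h⟩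
      exact ⟨far_meet g h1 _, far_crs g hΛ hT hmp h1⟩)
    (r := fun i => 1 / rdK g q Λ κ θ (θ / 2) (r i))
    (Θ := fun i => θ * (4 * Λ * (r i + g.tl : ℕ) + 1))
    (b := fun i => θ / 2 * (g.mp * (2 * (r i + g.tl : ℕ) + 1) ^ 2 * κ))
    (fun i _ => one_div_pos.2 (hpos i))
    (fun i hi => wd_sum g hM hκ hKn subset_rfl (by linarith) (fun _ => hab))
    (fun i hi => ln_sum g hM hΛ hT subset_rfl hθ.le (fun _ => (abs_of_pos hθ).le) g.n)
    (fun i hi => rd_cond g hM hΛ hq subset_rfl hθ.le (one_div_pos.2 (hpos i)).le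
      (by rw [one_div, inv_mul_cancel₀ (hpos i).ne']))
    (fun i hi => half_aux (hpos i) (hs i hi))
  refine key.trans (le_of_eq ?_)
  congr 1
  refine Finset.sum_congr rfl fun i _ => ?_
  simp only [one_div, div_inv_eq_mul]

end energy

/-- the family `Kt ε (dbl Ω Ω)` restricts to `Kt ε Ω` in the first layer -/
theorem Kt_inL {ε : ℝ} (h0 : 0 < ε) (h1 : ε ≤ 1) {Ω : Conf (Site L) q → ℂ} (h : nsq Ω = 1)
    (b : Finset (Site L)) : Kt ε (dbl Ω Ω) (inL b) = cp1 (Kt ε Ω b) :=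
  KtDbl932.Kt_dbl_one h0 h1 h h b

theorem Kt_inR {ε : ℝ} (h0 : 0 < ε) (h1 : ε ≤ 1) {Ω : Conf (Site L) q → ℂ} (h : nsq Ω = 1)
    (b : Finset (Site L)) : Kt ε (dbl Ω Ω) (inR b) = cp2 (Kt ε Ω b) :=
  KtDbl932.Kt_dbl_two h0 h1 h h b

theorem nsq_dbl_self {Ω : Conf (Site L) q → ℂ} (h : nsq Ω = 1) : nsq (dbl Ω Ω) = 1 := by
  rw [nsq_dbl, h, mul_one]

theorem Ktd_acts {ε : ℝ} (h0 : 0 < ε) (h1 : ε ≤ 1) {Ω : Conf (Site L) q → ℂ} (h : nsq Ω = 1)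
    (b : Finset (SS L)) : ActsOn b (Kt ε (dbl Ω Ω) b) := Kt_acts h0 h1 (nsq_dbl_self h) b

theorem Ktd_norm {ε : ℝ} (h0 : 0 < ε) (h1 : ε ≤ 1) {Ω : Conf (Site L) q → ℂ} (h : nsq Ω = 1)
    (b : Finset (SS L)) : ‖Kt ε (dbl Ω Ω) b‖ ≤ (b.card : ℝ) * Real.log (q / ε) :=
  Kt_norm h0 h1 (nsq_dbl_self h) b

end Vale.Agent.P356.GA.GdEn932
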