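import Vale.Agent.P356.GA.CFacts185
import Vale.Agent.P356.GA.En394
import Vale.Agent.P356.GA.E6Rad412
import Vale.Agent.P356.GA.GdRadEn932

/-!
# EN: radius of the flows on the data `CData`

One radius `1 / (θ W)`, `W = 400 ρ³ (log q + 1 + log (q/ε) mp)`, `ρ = cB + cN + cM`, serves all
local terms, detectors and cores.
-/

set_option linter.all false

namespace Vale.Agent.P356.GA

open Matrix Finset Vale.Agent.P356 Vale.Agent.P356.SV Vale.Agent.P356.Path Vale.Agent.P356.NA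
open Vale.Agent.P356.SA Vale.Agent.P356.PH Vale.Agent.P356.GA.Par
open Vale.Agent.P356.GA.Level (bal)
open scoped BigOperators ComplexOrder Kronecker Matrix.Norms.L2Operator

/-- the inverse of the unit radius -/
noncomputable def rW (q l : ℕ) : ℝ :=
  400 * ((cB l + cN l + cM l : ℕ) : ℝ) ^ 3 * (Real.log q + 1 + Real.log (q / cE l) * cP l)

theorem cE_pos {l : ℕ} (hl : 1 ≤ l) : 0 < cE l := Real.rpow_pos_of_pos (by exact_mod_cast hl) _

theorem cE_le_one {l : ℕ} (hl : 1 ≤ l) : cE l ≤ 1 :=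
  Real.rpow_le_one_of_one_le_of_nonpos (by exact_mod_cast hl) (by norm_num)

theorem log_qE_nonneg {q l : ℕ} (hq : 1 ≤ q) (hl : 1 ≤ l) : 0 ≤ Real.log (q / cE l) := by
  have h1 := cE_pos hl
  refine Real.log_nonneg ?_
  rw [one_le_div h1]
  exact (cE_le_one hl).trans (by exact_mod_cast hq)

theorem rW_pos {q l : ℕ} (hq : 1 ≤ q) (hl : 1 ≤ l) : 0 < rW q l := by
  have h1 := log_qE_nonneg hq hl
  have h2 : 0 ≤ Real.log q := Real.log_nonneg (by exact_mod_cast hq)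
  have h3 : 1 ≤ cM l := one_le_sc hl
  have h4 : (0 : ℝ) < ((cB l + cN l + cM l : ℕ) : ℝ) := by
    exact_mod_cast (by omega : 0 < cB l + cN l + cM l)
  unfold rW
  positivity

namespace CData

variable {q R : ℕ} {J Δ a C₁ C₂ : ℝ} {L l : ℕ} (d : CData q R J Δ a C₁ C₂ L l)

theorem nΩ : nsq d.Ω = 1 := d.gap.1

theorem nΩ' : nsq d.Ω' = 1 := d.gap'.1

/-- **The radius for coefficients of size `θ`**: all operators on balls of radius `cB + cN`. -/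
theorem radius (hl : 1 ≤ l) {ψ : Conf (SS L) q → ℂ} (hψ : nsq ψ = 1) {M : ℝ}
    (hM : Fintype.card (SS L) * Real.log q ≤ M) {s : ℝ} (hs : 0 ≤ s)
    (c : (ℕ → ℝ) × (Fin d.g.n × SS L → ℝ)) (h1 : ∀ k, |c.1 k| ≤ s) (h2 : ∀ w, |c.2 w| ≤ s)
    {v : SS L} {r : ℕ} (hr : r ≤ cB l + cN l) {Z : Finset (SS L)}
    (hZ : Z ⊆ lay v (fun z => bal z r)) {X : Op (SS L) q} (hX : ActsOn Z X) {r₀ : ℝ}
    (h0 : 0 ≤ r₀) (h : r₀ * (s * rW q l) ≤ 1) {ζ : ℂ} (hζ : ‖ζ‖ ≤ r₀) :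
    ‖fQ ψ (d.g.GN ψ M d.K2) (d.g.n + 1) X c ζ‖ ≤ 8 * ‖X‖ := by
  have htl : 1 ≤ d.g.tl := by rw [d.tl]; exact one_le_sc hl
  refine Gd.gd_radius_one htl d.lip d.K2_herm (d.K2_acts hl) (log_qE_nonneg d.q1 hl)
    (d.K2_norm hl) hψ d.q1 hM c h1 h2 (ρ := cB l + cN l + cM l) ?_ hZ hX h0 ?_ hζ
  · rw [d.tl]; omega
  · rw [d.mp]
    exact h

/-- the radius hypothesis of E6 -/
theorem rad (hl : 1 ≤ l) {ψ : Conf (SS L) q → ℂ} (hψ : nsq ψ = 1) {M : ℝ}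
    (hM : Fintype.card (SS L) * Real.log q ≤ M) {s : ℝ} (hs : 0 ≤ s)
    {r₀ : ℝ} (h0 : 0 ≤ r₀) (h : r₀ * (s * rW q l) ≤ 1) :
    Terms412.Rad d.g ψ M (d.g.KV d.K2) (fun _ => s, fun _ => -s / 2) (cB l + cN l) r₀ := by
  intro b z X hX ζ hζ
  have hc1 : ∀ k : ℕ, |(fun _ : ℕ => s) k| ≤ s := fun _ => by simp [abs_of_nonneg hs]
  have hc2 : ∀ w : Fin d.g.n × SS L, |(fun _ : Fin d.g.n × SS L => -s / 2) w| ≤ s := fun _ => by
    simp only
    rw [abs_le]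
    constructor <;> linarith
  have hb : ball z (cB l + cN l) ⊆ bal z (cB l + cN l) := E6.ball_sub_bal z _
  cases b
  · refine d.radius hl hψ hM hs ((fun _ => s, fun _ => -s / 2)) hc1 hc2 (v := Sum.inl z) le_rfl
      (Z := inL (ball z (cB l + cN l))) ?_ ?_ h0 h hζ
    · exact Finset.map_subset_map.2 hb
    · rw [E6.inL_eq]; exact cp1_acts hX
  · refine d.radius hl hψ hM hs ((fun _ => s, fun _ => -s / 2)) hc1 hc2 (v := Sum.inr z) le_rfl
      (Z := inR (ball z (cB l + cN l))) ?_ ?_ h0 h hζ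
    · exact Finset.map_subset_map.2 hb
    · rw [E6.inR_eq]; exact cp2_acts hX

end CData

end Vale.Agent.P356.GA
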