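import Mathlib

/-!
# GA, block ENDS (helper860): choice of the ends of the two ladders of cuts

`d` is the distance to the region; the two ladders consist of the levels `a + k` and `a + N - k`,
`k < n`.  The sites near the four ends `a`, `a + n`, `a + N - n`, `a + N` are paid crudely, so the
ends are chosen such that these zones contain only a fraction `K / w` of the ring.  The middle
level is chosen afterwards such that the boundary of the middle region is at most the average.
-/

set_option linter.all false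

namespace Vale.Agent.P356.GA.Ends

open Finset
open scoped BigOperators

theorem pig {q : ℕ} (hq : 0 < q) (g : ℕ → ℕ) {A : ℕ} (h : ∑ i ∈ range q, g i ≤ A) :
    ∃ i < q, q * g i ≤ A := by
  by_contra hc
  push Not at hc
  have h1 : ∑ i ∈ range q, (A + 1) ≤ ∑ i ∈ range q, q * g i :=
    Finset.sum_le_sum fun i hi => hc i (mem_range.1 hi)
  rw [Finset.sum_const, card_range, smul_eq_mul, ← Finset.mul_sum] at h1
  have h2 := Nat.mul_le_mul_left q h
  have h3 := h1.trans h2
  have h4 := Nat.le_of_mul_le_mul_left h3 hq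
  omega

variable {V : Type*} [Fintype V] [DecidableEq V]

/-- the sites whose level is within `K` of `c` -/
def nearL (d : V → ℕ) (K c : ℕ) : Finset V := univ.filter fun x => c ≤ d x + K ∧ d x ≤ c + K

theorem mem_nearL {d : V → ℕ} {K c : ℕ} {x : V} :
    x ∈ nearL d K c ↔ c ≤ d x + K ∧ d x ≤ c + K := by simp [nearL]

theorem sum_nearL {d : V → ℕ} {K q : ℕ} (hK : 1 ≤ K) {Z : Finset V} {c : ℕ → ℕ}
    (hc : ∀ i j, i < j → j < q → c i + 3 * K ≤ c j ∨ c j + 3 * K ≤ c i)
    (hZ : ∀ i < q, nearL d K (c i) ⊆ Z) : ∑ i ∈ range q, (nearL d K (c i)).card ≤ Z.card := by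
  rw [← Finset.card_biUnion]
  · refine Finset.card_le_card fun x hx => ?_
    rw [mem_biUnion] at hx
    obtain ⟨i, hi, hx⟩ := hx
    exact hZ i (mem_range.1 hi) hx
  · intro i hi j hj hij
    have hi' : i < q := by simpa using hi
    have hj' : j < q := by simpa using hj
    rw [Function.onFun, Finset.disjoint_left]
    intro x hx hx'
    rw [mem_nearL] at hx hx'
    rcases lt_or_gt_of_ne hij with h | h
    · have := hc i j h hj'
      omega
    · have := hc j i h hi'
      omega

/-- the end zones of the two ladders `a + k` and `a + N - k`, `k < n` -/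
def endz (d : V → ℕ) (a n N K : ℕ) : Finset V :=
  (nearL d K a ∪ nearL d K (a + n)) ∪ (nearL d K (a + N) ∪ nearL d K (a + N - n))

/-- **ENDS.** -/
theorem exists_ends (d : V → ℕ) {Z : Finset V} {K w : ℕ} (hK : 1 ≤ K) (hw : 64 * K ≤ w)
    (hZ : ∀ x, 1 ≤ d x → d x ≤ w → x ∈ Z) :
    ∃ a n N : ℕ, 2 * K ≤ a ∧ 8 * a ≤ w ∧ w ≤ 8 * n ∧ 4 * n ≤ w ∧ 3 * w ≤ 4 * N ∧ a + N + 2 * K ≤ w ∧
      endz d a n N K ⊆ Z ∧ w * (endz d a n N K).card ≤ 256 * K * Z.card := by
  set q := w / (32 * K) with hq
  have hK32 : 0 < 32 * K := by omega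
  have hq2 : 2 ≤ q := by
    rw [hq, Nat.le_div_iff_mul_le hK32]
    omega
  have hq1 : q * (32 * K) ≤ w := Nat.div_mul_le_self w (32 * K)
  have hq3 : w < (q + 1) * (32 * K) := by
    have e1 := Nat.div_add_mod w (32 * K)
    have e2 := Nat.mod_lt w hK32
    rw [← hq] at e1
    have e3 : (q + 1) * (32 * K) = 32 * K * q + 32 * K := by ring
    rw [e3]
    omega
  have hq0 : 0 < q := by omega
  -- products
  set P := q * K with hP
  have hP1 : 32 * P ≤ w := by
    have : q * (32 * K) = 32 * P := by rw [hP]; ring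
    omega
  have hP2 : w < 32 * P + 32 * K := by
    have : (q + 1) * (32 * K) = 32 * P + 32 * K := by rw [hP]; ring
    omega
  have hPK : 2 * K ≤ P := by
    rw [hP]
    exact Nat.mul_le_mul_right K hq2
  have hmul : ∀ i, i < q → i * K + K ≤ P := by
    intro i hi
    have : (i + 1) * K ≤ q * K := Nat.mul_le_mul_right K hi
    rw [hP]
    linarith
  have hdiff : ∀ i j, i < j → i * K + K ≤ j * K := by
    intro i j hij
    have : (i + 1) * K ≤ j * K := Nat.mul_le_mul_right K hij
    linarith
  -- lower end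
  obtain ⟨i1, hi1, h1⟩ := pig hq0 (fun i => (nearL d K (2 * K + 3 * (i * K))).card)
    (sum_nearL (c := fun i => 2 * K + 3 * (i * K)) hK
      (fun i j hij hj => Or.inl (by have := hdiff i j hij; omega))
      (fun i hi x hx => by
        rw [mem_nearL] at hx
        have := hmul i hi
        exact hZ x (by omega) (by omega)))
  -- upper end
  obtain ⟨i2, hi2, h2⟩ := pig hq0 (fun i => (nearL d K (w - (2 * K + 3 * (i * K)))).card)
    (sum_nearL (c := fun i => w - (2 * K + 3 * (i * K))) hK
      (fun i j hij hj => Or.inr (by have := hdiff i j hij; have := hmul j hj; omega))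
      (fun i hi x hx => by
        rw [mem_nearL] at hx
        have := hmul i hi
        exact hZ x (by omega) (by omega)))
  have e1 := hmul i1 hi1
  have e2 := hmul i2 hi2
  set a := 2 * K + 3 * (i1 * K) with ha
  set b := w - (2 * K + 3 * (i2 * K)) with hb
  -- the length of the ladders
  set n0 := (w + 7) / 8 with hn0
  have hn1 : w ≤ 8 * n0 := by omega
  have hn2 : 8 * n0 ≤ w + 7 := by omega
  have s1 := sum_nearL (d := d) (q := q) (Z := Z) (c := fun i => a + (n0 + 3 * (i * K))) hK
      (fun i j hij hj => Or.inl (by have := hdiff i j hij; omega))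
      (fun i hi x hx => by
        rw [mem_nearL] at hx
        have := hmul i hi
        exact hZ x (by omega) (by omega))
  have s2 := sum_nearL (d := d) (q := q) (Z := Z) (c := fun i => b - (n0 + 3 * (i * K))) hK
      (fun i j hij hj => Or.inr (by have := hdiff i j hij; have := hmul j hj; omega))
      (fun i hi x hx => by
        rw [mem_nearL] at hx
        have := hmul i hi
        exact hZ x (by omega) (by omega))
  obtain ⟨i3, hi3, h3⟩ := pig hq0 (fun i => (nearL d K (a + (n0 + 3 * (i * K)))).card +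
      (nearL d K (b - (n0 + 3 * (i * K)))).card) (A := Z.card + Z.card)
    (by rw [Finset.sum_add_distrib]; exact Nat.add_le_add s1 s2)
  have e3 := hmul i3 hi3
  set n := n0 + 3 * (i3 * K) with hn
  have hab : a ≤ b := by omega
  have hN1 : a + (b - a) = b := by omega
  refine ⟨a, n, b - a, by omega, by omega, by omega, by omega, by omega, by omega, ?_, ?_⟩
  · intro x hx
    unfold endz at hx
    rw [hN1, mem_union, mem_union, mem_union, mem_nearL, mem_nearL, mem_nearL, mem_nearL] at hx
    exact hZ x (by omega) (by omega)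
  · have hcard : (endz d a n (b - a) K).card ≤ ((nearL d K a).card + (nearL d K (a + n)).card) +
        ((nearL d K b).card + (nearL d K (b - n)).card) := by
      unfold endz
      rw [hN1]
      exact (Finset.card_union_le _ _).trans
        (Nat.add_le_add (Finset.card_union_le _ _) (Finset.card_union_le _ _))
    have h4 : q * (endz d a n (b - a) K).card ≤ 4 * Z.card := by
      refine (Nat.mul_le_mul_left q hcard).trans ?_
      have : q * (((nearL d K a).card + (nearL d K (a + n)).card) +
        ((nearL d K b).card + (nearL d K (b - n)).card)) = q * (nearL d K a).card +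
        q * (nearL d K b).card + q * ((nearL d K (a + n)).card + (nearL d K (b - n)).card) := by
        ring
      rw [this]
      linarith
    have h5 : w ≤ 64 * P := by omega
    calc w * (endz d a n (b - a) K).card ≤ 64 * P * (endz d a n (b - a) K).card :=
          Nat.mul_le_mul_right _ h5
      _ = 64 * K * (q * (endz d a n (b - a) K).card) := by rw [hP]; ring
      _ ≤ 64 * K * (4 * Z.card) := Nat.mul_le_mul_left _ h4
      _ = 256 * K * Z.card := by ring

/-- a site off the end zones is far from the four end levels, in terms of the smoothed height -/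
theorem endz_T {d : V → ℕ} {T : V → ℝ} {t0 : ℝ} {s a n N K mp r : ℕ}
    (hT1 : ∀ x, (d x : ℝ) ≤ T x) (hT2 : ∀ x, T x ≤ d x + s / 2) (h0 : (a : ℝ) < t0)
    (h1 : t0 ≤ a + 1) (hn : n ≤ N) (hK : mp + r + s + 2 ≤ K) {z : V} (hz : z ∉ endz d a n N K) :
    (mp + r : ℝ) < |T z - t0| ∧ (mp + r : ℝ) < |T z - (t0 + n)| ∧
      (mp + r : ℝ) < |T z - (t0 + N)| ∧ (mp + r : ℝ) < |T z - (t0 + N - n)| := by
  unfold endz at hz
  rw [mem_union, mem_union, mem_union, mem_nearL, mem_nearL, mem_nearL, mem_nearL] at hz
  push Not at hz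
  obtain ⟨⟨z1, z2⟩, z3, z4⟩ := hz
  have hKr : (mp : ℝ) + r + s + 2 ≤ K := by exact_mod_cast hK
  have a1 := hT1 z
  have a2 := hT2 z
  have hs : (0 : ℝ) ≤ s := Nat.cast_nonneg _
  have key : ∀ (c : ℕ) (t : ℝ), (c : ℝ) < t → t ≤ c + 1 →
      (c ≤ d z + K → c + K < d z) → (mp + r : ℝ) < |T z - t| := by
    intro c t ht ht' h
    by_cases hc : c ≤ d z + K
    · have h2 := h hc
      have h3 : (c : ℝ) + K + 1 ≤ d z := by exact_mod_cast h2
      refine lt_of_lt_of_le ?_ (le_abs_self _)
      linarith
    · push Not at hc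
      have h3 : (d z : ℝ) + K + 1 ≤ c := by exact_mod_cast hc
      refine lt_of_lt_of_le ?_ (neg_le_abs _)
      linarith
  refine ⟨key a t0 h0 h1 z1, key (a + n) (t0 + n) ?_ ?_ z2, key (a + N) (t0 + N) ?_ ?_ z3,
    key (a + N - n) (t0 + N - n) ?_ ?_ z4⟩
  · push_cast; linarith
  · push_cast; linarith
  · push_cast; linarith
  · push_cast; linarith
  · rw [Nat.cast_sub (by omega)]; push_cast; linarith
  · rw [Nat.cast_sub (by omega)]; push_cast; linarith

/-- the middle level: an average level between the two ladders -/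
theorem exists_mid (f : ℕ → ℕ) {n N mp w B : ℕ} (hw : 64 ≤ w) (hn : 4 * n ≤ w) (hN : 3 * w ≤ 4 * N)
    (hmp : 64 * mp ≤ w) (hf : ∑ k ∈ range N, f k ≤ B) :
    ∃ m, n + mp ≤ m ∧ m + n + mp ≤ N ∧ w * f m ≤ 8 * B := by
  set q := N - 2 * (n + mp) with hq
  have hq0 : 0 < q := by omega
  have hqw : w ≤ 8 * q := by omega
  have h1 : ∑ i ∈ range q, f (n + mp + i) ≤ B := by
    refine le_trans ?_ hf
    rw [← Finset.sum_image (g := fun i => n + mp + i) (f := f) (s := range q)
      (fun x _ y _ h => by simpa using h)]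
    refine Finset.sum_le_sum_of_subset_of_nonneg (fun k hk => ?_) (fun _ _ _ => Nat.zero_le _)
    rw [mem_image] at hk
    obtain ⟨i, hi, rfl⟩ := hk
    rw [mem_range] at hi ⊢
    omega
  obtain ⟨i, hi, h2⟩ := pig hq0 (fun i => f (n + mp + i)) h1
  refine ⟨n + mp + i, by omega, by omega, ?_⟩
  calc w * f (n + mp + i) ≤ 8 * q * f (n + mp + i) := Nat.mul_le_mul_right _ hqw
    _ = 8 * (q * f (n + mp + i)) := by ring
    _ ≤ 8 * B := Nat.mul_le_mul_left _ h2

end Vale.Agent.P356.GA.Ends
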