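import Vale.Agent.P356.SV.Top
import Vale.Agent.P356.SV.Tilt5

/-!
GA / SGA, entropy side: a vector close to a state whose reduced spectrum is concentrated has
almost the same entropy, from below.
-/

set_option linter.all false

namespace Vale.Agent.P356.GA

open Matrix Finset Vale.Agent.P356 Vale.Agent.P356.SV Vale.Agent.P356.Path
open scoped BigOperators ComplexOrder Kronecker

section abs
variable {N α β : Type*} [Fintype N] [Fintype α] [Fintype β] [DecidableEq N] [DecidableEq α]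
  [DecidableEq β]

/-- weight of the eigenvalues above a level -/
noncomputable def topw (p : α → ℝ) (κ : ℝ) : ℝ :=
  open Classical in ∑ i, if κ < p i then p i else 0

/-- a projection of small rank carries little weight -/
theorem el_weight (e : N ≃ α × β) (Ω : N → ℂ) {Q : Matrix α α ℂ} (hQ : IsPr Q) {K κ : ℝ}
    (hκ : 0 ≤ κ) (hK : Q.trace.re ≤ K) :
    nsq (opL e Q *ᵥ Ω) ≤ topw (eigp (Ω ∘ e.symm)) κ + κ * K := by
  classical
  set x := Ω ∘ e.symm with hx
  have hp0 := eigp_nonneg x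
  have hc1 : ∀ k, ∑ i, ‖(Q * eigU x) i k‖ ^ 2 ≤ 1 := by
    intro k
    refine contr_col (P := Q * eigU x) ?_ k
    intro v
    rw [← mulVec_mulVec]
    refine (contr_of_isPr hQ _).trans (le_of_eq ?_)
    have h := nsq_conj (eigU x)ᴴ (by rw [conjTranspose_conjTranspose]; exact eigU_mul' x) v
    rw [conjTranspose_conjTranspose] at h
    exact h
  have hc0 : ∀ k, 0 ≤ ∑ i, ‖(Q * eigU x) i k‖ ^ 2 := fun k => by positivity
  have hsum : ∑ k, ∑ i, ‖(Q * eigU x) i k‖ ^ 2 ≤ K := by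
    rw [Finset.sum_comm, b6a_hs_rot, b6c_hs_proj hQ]
    exact hK
  rw [b6a_nsq_opL, ← hx]
  calc ∑ k, eigp x k * ∑ i, ‖(Q * eigU x) i k‖ ^ 2
      ≤ ∑ k, ((if κ < eigp x k then eigp x k else 0) + κ * ∑ i, ‖(Q * eigU x) i k‖ ^ 2) := by
        refine Finset.sum_le_sum fun k _ => ?_
        split_ifs with h
        · have h1 := mul_le_mul_of_nonneg_left (hc1 k) (hp0 k)
          have h2 := mul_nonneg hκ (hc0 k)
          linarith
        · rw [zero_add]
          exact mul_le_mul_of_nonneg_right (not_lt.1 h) (hc0 k)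
    _ ≤ _ := by
        rw [Finset.sum_add_distrib, ← Finset.mul_sum]
        unfold topw
        have := mul_le_mul_of_nonneg_left hsum hκ
        linarith

/-- entropy from below, from the weight of the large eigenvalues -/
theorem el_entropy (p : α → ℝ) (hp0 : ∀ i, 0 ≤ p i) (hp1 : ∑ i, p i = 1) {κ : ℝ} (hκ : 0 < κ)
    (hκ1 : κ ≤ 1) : (1 - topw p κ) * (-Real.log κ) ≤ ∑ i, Real.negMulLog (p i) := by
  classical
  have hle1 : ∀ i, p i ≤ 1 := fun i => by
    rw [← hp1]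
    exact Finset.single_le_sum (fun j _ => hp0 j) (Finset.mem_univ i)
  have h1 : 1 - topw p κ = ∑ i, (if κ < p i then 0 else p i) := by
    rw [← hp1, topw, ← Finset.sum_sub_distrib]
    refine Finset.sum_congr rfl fun i _ => ?_
    split_ifs <;> ring
  rw [h1, Finset.sum_mul]
  refine Finset.sum_le_sum fun i _ => ?_
  split_ifs with h
  · rw [zero_mul]
    exact Real.negMulLog_nonneg (hp0 i) (hle1 i)
  · rcases (hp0 i).lt_or_eq with h2 | h2
    · have h3 := Real.log_le_log h2 (not_lt.1 h)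
      rw [Real.negMulLog]
      nlinarith
    · rw [← h2]; simp

/-- the projection onto the large eigenvalues -/
theorem el_proj (e : N ≃ α × β) (ψ : N → ℂ) (hψ : nsq ψ = 1) {κ : ℝ} (hκ : 0 < κ) :
    ∃ Q : Matrix α α ℂ, IsPr Q ∧ Q.trace.re ≤ κ⁻¹ ∧
      nsq (opL e Q *ᵥ ψ) = topw (eigp (ψ ∘ e.symm)) κ := by
  classical
  set x := ψ ∘ e.symm with hx
  have hp0 := eigp_nonneg x
  have hunit : ∑ z, ‖x z‖ ^ 2 = 1 := by
    rw [← hψ, nsq]
    exact Equiv.sum_comp e.symm (fun s => ‖ψ s‖ ^ 2)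
  have hp1 := eigp_sum x hunit
  set t : α → ℝ := fun i => if κ < eigp x i then 1 else 0 with ht
  have htt : ∀ i, t i * t i = t i := by
    intro i
    simp only [ht]
    split_ifs <;> simp
  refine ⟨fOp x t, b6a_fOp_isPr x t htt, ?_, ?_⟩
  · rw [b6a_fOp_trace]
    calc ∑ i, t i ≤ ∑ i, κ⁻¹ * eigp x i := by
          refine Finset.sum_le_sum fun i _ => ?_
          simp only [ht]
          split_ifs with h
          · rw [← div_eq_inv_mul, le_div_iff₀ hκ, one_mul]; exact h.le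
          · exact mul_nonneg (inv_nonneg.2 hκ.le) (hp0 i)
      _ = κ⁻¹ := by rw [← Finset.mul_sum, hp1, mul_one]
  · rw [b6a_nsq_fOp, ← hx, topw]
    refine Finset.sum_congr rfl fun i _ => ?_
    rw [sq, htt]
    simp only [ht]
    split_ifs <;> simp

/-- **entropy of a nearby vector, from below** -/
theorem ent_low (e : N ≃ α × β) (ψ Ω : N → ℂ) (hψ : nsq ψ = 1) (c : ℂ) (hc : ‖c‖ ≤ 1)
    {δ κ κ' η : ℝ} (hd : nrm (ψ - c • Ω) ≤ δ) (hκ : 0 ≤ κ) (hκ' : 0 < κ') (hκ1 : κ' ≤ 1)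
    (hη : 0 ≤ η) (hw : topw (eigp (Ω ∘ e.symm)) κ + κ * κ'⁻¹ ≤ η ^ 2) :
    (1 - (η + δ) ^ 2) * (-Real.log κ') ≤ ∑ i, Real.negMulLog (eigp (ψ ∘ e.symm) i) := by
  obtain ⟨Q, hQ, hQt, hQw⟩ := el_proj e ψ hψ hκ'
  have hunit : ∑ z, ‖(ψ ∘ e.symm) z‖ ^ 2 = 1 := by
    rw [← hψ, nsq]
    exact Equiv.sum_comp e.symm (fun s => ‖ψ s‖ ^ 2)
  refine le_trans ?_ (el_entropy _ (eigp_nonneg _) (eigp_sum _ hunit) hκ' hκ1)
  have hlog : 0 ≤ -Real.log κ' := by
    have := Real.log_nonpos hκ'.le hκ1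
    linarith
  refine mul_le_mul_of_nonneg_right ?_ hlog
  have h1 : nrm (opL e Q *ᵥ Ω) ≤ η := by
    rw [nrm, Real.sqrt_le_left hη]
    exact (el_weight e Ω hQ hκ hQt).trans hw
  have h2 : nrm (opL e Q *ᵥ ψ) ≤ η + δ := by
    have e1 : opL e Q *ᵥ ψ = c • (opL e Q *ᵥ Ω) + opL e Q *ᵥ (ψ - c • Ω) := by
      rw [Matrix.mulVec_sub, Matrix.mulVec_smul]
      abel
    rw [e1]
    refine (nrm_add_le _ _).trans (add_le_add ?_ ?_)
    · rw [nrm_smul]
      have := nrm_nonneg (opL e Q *ᵥ Ω)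
      nlinarith [norm_nonneg c]
    · exact (contr_nrm (contr_of_isPr (isPr_opL e hQ)) _).trans hd
  have h3 : topw (eigp (ψ ∘ e.symm)) κ' ≤ (η + δ) ^ 2 := by
    rw [← hQw, ← nrm_sq]
    exact pow_le_pow_left₀ (nrm_nonneg _) h2 2
  linarith

end abs

section regions
variable {V : Type*} [Fintype V] [DecidableEq V] {q : ℕ}

/-- the weight of the large eigenvalues, from the spread bound -/
theorem topw_le (A : Finset V) (Ω : Conf V q → ℂ) {K₀ u : ℝ} (hu : 0 ≤ u)
    (hT : TailLe (rdm A Ω) K₀) :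
    topw (eigp (Ω ∘ (cut A q).symm)) (Real.exp (-(entropyOf A Ω - u))) ≤
      6 * Real.exp (-(u / (4 + 2 * Real.sqrt K₀))) := by
  classical
  refine le_trans ?_ (hT u)
  unfold topw
  refine Finset.sum_le_sum fun i _ => ?_
  have heig : eig (rdm A Ω) i = eigp (Ω ∘ (cut A q).symm) i := by
    rw [eig_of_herm (rdm_herm A Ω)]
    rfl
  have hp0 := eigp_nonneg (Ω ∘ (cut A q).symm) i
  rw [heig]
  by_cases h : Real.exp (-(entropyOf A Ω - u)) < eigp (Ω ∘ (cut A q).symm) i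
  · rw [if_pos h, if_pos]
    have h4 : 0 < eigp (Ω ∘ (cut A q).symm) i := (Real.exp_pos _).trans h
    have hdev : dev (rdm A Ω) i = -Real.log (eigp (Ω ∘ (cut A q).symm) i) - entropyOf A Ω := by
      rw [dev, heig]
      rfl
    have h5 := Real.log_le_log (Real.exp_pos _) h.le
    rw [Real.log_exp] at h5
    rw [hdev]
    exact le_trans (by linarith only [h5]) (neg_le_abs _)
  · rw [if_neg h]
    split_ifs
    · exact hp0
    · exact le_refl _

theorem entropyOf_eq_sum (A : Finset V) (ψ : Conf V q → ℂ) :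
    entropyOf A ψ = ∑ i, Real.negMulLog (eigp (ψ ∘ (cut A q).symm) i) := by
  rw [entropyOf, vnEntropy_rdm]
  rfl

/-- **entropy of a nearby state, from below, with the spread bound** -/
theorem entropyOf_low (A : Finset V) (ψ Ω : Conf V q → ℂ) (hψ : nsq ψ = 1) (c : ℂ)
    (hc : ‖c‖ ≤ 1) {δ K₀ u s : ℝ} (hd : nrm (ψ - c • Ω) ≤ δ) (hu : 0 ≤ u)
    (hT : TailLe (rdm A Ω) K₀)
    (h1 : Real.sqrt (6 * Real.exp (-(u / (4 + 2 * Real.sqrt K₀))) + Real.exp (-s)) + δ ≤ 1) :
    (1 - (Real.sqrt (6 * Real.exp (-(u / (4 + 2 * Real.sqrt K₀))) + Real.exp (-s)) + δ) ^ 2) *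
      (entropyOf A Ω - u - s) ≤ entropyOf A ψ := by
  set η := Real.sqrt (6 * Real.exp (-(u / (4 + 2 * Real.sqrt K₀))) + Real.exp (-s)) with hη
  have hδ0 : 0 ≤ δ := (nrm_nonneg _).trans hd
  have hη0 : 0 ≤ η := Real.sqrt_nonneg _
  have hunit := b6a_unit A ψ hψ
  have hnn : 0 ≤ entropyOf A ψ := by
    rw [entropyOf_eq_sum]
    refine Finset.sum_nonneg fun i _ => Real.negMulLog_nonneg (eigp_nonneg _ i) ?_
    rw [← eigp_sum _ hunit]
    exact Finset.single_le_sum (fun j _ => eigp_nonneg _ j) (Finset.mem_univ i)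
  have hfac : 0 ≤ 1 - (η + δ) ^ 2 := by nlinarith
  rcases le_total (entropyOf A Ω - u - s) 0 with h | h
  · exact (mul_nonpos_of_nonneg_of_nonpos hfac h).trans hnn
  · have h2 := ent_low (cut A q) ψ Ω hψ c hc (δ := δ)
      (κ := Real.exp (-(entropyOf A Ω - u))) (κ' := Real.exp (-(entropyOf A Ω - u - s)))
      (η := η) hd (Real.exp_pos _).le (Real.exp_pos _) (by
        rw [Real.exp_le_one_iff]; linarith) hη0 (by
        rw [hη, Real.sq_sqrt (by positivity), ← Real.exp_neg, ← Real.exp_add]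
        have e1 : -(entropyOf A Ω - u) + - -(entropyOf A Ω - u - s) = -s := by ring
        rw [e1]
        exact add_le_add (topw_le A Ω hu hT) le_rfl)
    rw [Real.log_exp, neg_neg, ← entropyOf_eq_sum] at h2
    exact h2

end regions

end Vale.Agent.P356.GA
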