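import Vale.Agent.P356.GA.Local749
import Vale.Agent.P356.GA.CondExp677

/-!
The Hamiltonian of a gapped system minus a constant as a sum of strictly local terms which almost
annihilate the ground state.
-/

set_option linter.all false

namespace Vale.Agent.P356.GA

open Matrix Finset Vale.Agent.P356 Vale.Agent.P356.SV Vale.Agent.P356.Path Vale.Agent.P356.PH
open scoped BigOperators ComplexOrder Kronecker Matrix.Norms.L2Operator

/-- the normalised partial traces -/
noncomputable def condE (V : Type*) [Fintype V] [DecidableEq V] (q : ℕ) : CondE V q where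
  E := fun S => CE.tE S
  sub := fun S T A hA => ph_acts_mono Finset.inter_subset_right (CE.tE_acts_inter hA)
  acts := fun S A => CE.tE_acts S A
  of_acts := fun S A hA => CE.tE_of_acts hA
  norm := fun S A => CE.tE_norm S A
  herm := fun S A hA => CE.tE_herm hA
  empty := fun A => CE.tE_empty A
  step := fun S X x A hA hx => CE.tE_insert hA hx

/-- **Strictly local terms of a gapped Hamiltonian** (E7). -/
theorem local_exact {R : ℕ} {J Δ : ℝ} {w : ℝ → ℝ} (hJ : 0 ≤ J) (hΔ : 0 < Δ)
    (hw : IsFilter Δ w) (p : ℕ) :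
    ∃ C : ℝ, 0 ≤ C ∧
    ∀ (L q : ℕ) (g : Finset (Site L) → Op (Site L) q), Terms L q R J g →
    ∀ (E : ℝ) (Ω : Conf (Site L) q → ℂ), GappedGround (∑ X, g X) Δ E Ω →
    ∀ F : ℕ, R ≤ F → 1 ≤ F →
    ∃ (T : Site L → Op (Site L) q) (e : ℝ), (∀ z, (T z).IsHermitian ∧
      ActsOn (ball z (4 * F)) (T z) ∧ ‖T z‖ ≤ C ∧
      nrm (T z *ᵥ Ω) ≤ C / (1 + (F : ℝ)) ^ p) ∧
      ∑ z, T z = ∑ X, g X - (e : ℂ) • (1 : Op (Site L) q) :=
  local_exact_of (fun L q => condE (Site L) q) hJ hΔ hw p

end Vale.Agent.P356.GA
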