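import Vale.Agent.P356.GA.CData551
import Vale.Agent.P356.GA.LocalEx749
import Vale.Agent.P356.PH.Filter
import Vale.Agent.P356.SV.Contract
import Vale.Agent.P356.SV.Rect
import Vale.Agent.P356.SV.Ent
import Vale.Agent.P356.SA.Ssa679
import Vale.Agent.P356.SA.DecGeo

/-!
# GA: existence of the data of the analytic part
-/

set_option linter.all false

namespace Vale.Agent.P356.GA

open Matrix Finset Filter Vale.Agent.P356 Vale.Agent.P356.SV Vale.Agent.P356.Path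
open Vale.Agent.P356.NA Vale.Agent.P356.SA Vale.Agent.P356.PH Vale.Agent.P356.GA.Par
open Vale.Agent.P356.GA.Ring407 (dX)
open Vale.Agent.P356.GA.Level (bal lev)
open Vale.Agent.P356.GA.Theta (thC)
open scoped BigOperators ComplexOrder Kronecker Matrix.Norms.L2Operator

/-- Sub-volume law for rectangles. -/
theorem rect_law551 {q R : ℕ} (hq : 1 ≤ q) {J Δ : ℝ} (hJ : 0 < J) (hΔ : 0 < Δ) :
    ∃ a C : ℝ, 0 < a ∧ a < 1 ∧ 0 ≤ C ∧ ∀ (L : ℕ) (H : Op (Site L) q), Admissible L q R J H →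
      ∀ (E : ℝ) (Ω : Conf (Site L) q → ℂ), GappedGround H Δ E Ω →
      ∀ s x0 x1 y0 y1 : ℕ, x1 ≤ x0 + s → y1 ≤ y0 + s →
        entropyOf (rect L x0 x1 y0 y1) Ω ≤ C * (s : ℝ) ^ (2 - a) := by
  have hκ : 0 ≤ Real.log q := Real.log_nonneg (by exact_mod_cast hq)
  obtain ⟨ρ, C, hρ, hC, hcon⟩ := contraction q R hq J Δ hJ hΔ
  obtain ⟨c, a, hc, ha, ha1, hrect⟩ := rect_bound ρ hρ C (Real.log q) hC hκ
  refine ⟨a, c, ha, ha1, hc, ?_⟩
  intro L H hA E Ω hg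
  have hΩ : nsq Ω = 1 := hg.1
  exact hrect L (fun A => entropyOf A Ω) (fun A => entropy_nonneg A Ω hΩ)
    (fun A B hAB => entropy_union A B hAB Ω hΩ) (fun A => entropy_le_card hq A Ω hΩ)
    (fun l x y x0 x1 y0 y1 => hcon L H hA E Ω hg l x y x0 x1 y0 y1)

/-- powers of `l` beat constants -/
theorem ev_rpow551 (K : ℝ) {e : ℝ} (he : 0 < e) : ∀ᶠ l : ℕ in atTop, K ≤ (l : ℝ) ^ e :=
  ((tendsto_rpow_atTop he).comp tendsto_natCast_atTop_atTop).eventually_ge_atTop K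

/-- error of the detectors -/
theorem ev_detErr551 (q : ℕ) {C c : ℝ} (hC : 0 ≤ C) (hc : 0 < c) :
    ∀ᶠ l : ℕ in atTop, detErr q C c (cB l) (cN l) ≤ (l : ℝ) ^ (-190 : ℝ) := by
  have h1 : Up (fun l => (2 * Real.log q + 1) * (2 * (cB l : ℝ) + 1) ^ 2 + 1 +
      200 * (1 + Real.log l)) (7 / 10 ^ 8) := by
    have hB : Up (fun l => (2 * (cB l : ℝ) + 1)) (xm) :=
      (up_cB.cmul 2).add ((Up.const 1).mono (by unfold xm; norm_num))
    have h2 : Up (fun l => (2 * (cB l : ℝ) + 1) ^ 2) (7 / 10 ^ 8) :=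
      (hB.pow 2).mono (by unfold xm; norm_num)
    exact ((h2.cmul _).add ((Up.const 1).mono (by norm_num))).add
      ((Up.one_add_log (by norm_num)).cmul 200)
  filter_upwards [h1.le (e' := xn) (c := c) (by unfold xn; norm_num) hc, ev_one,
    ev_rpow551 C (e := 10) (by norm_num)] with l hl hl1 hC10
  have hl0 : (0 : ℝ) < l := by exact_mod_cast hl1
  have h3 : (2 * Real.log q + 1) * (2 * (cB l : ℝ) + 1) ^ 2 + 1 + 200 * Real.log l ≤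
      c * cN l := by
    have h4 := (le_abs_self _).trans hl
    have h5 : c * (l : ℝ) ^ xn ≤ c * cN l := mul_le_mul_of_nonneg_left (sc_ge _ _) hc.le
    linarith
  have h6 := detErr_le (q := q) hC hc h3
  refine h6.trans ?_
  have h7 : Real.exp (-(200 * Real.log l)) = (l : ℝ) ^ (-200 : ℝ) := by
    rw [Real.rpow_def_of_pos hl0]
    congr 1
    ring
  rw [h7]
  have h8 : (l : ℝ) ^ (-190 : ℝ) = (l : ℝ) ^ (10 : ℝ) * (l : ℝ) ^ (-200 : ℝ) := by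
    rw [← Real.rpow_add hl0]
    norm_num
  rw [h8]
  exact mul_le_mul_of_nonneg_right hC10 (Real.rpow_nonneg hl0.le _)

theorem detErr_nonneg551 {q : ℕ} {C c : ℝ} (hC : 0 ≤ C) (r N : ℕ) : 0 ≤ detErr q C c r N := by
  unfold detErr
  positivity

/-- consequences of the smallness of the error of the detectors -/
theorem ev_eta551 {Δ : ℝ} (hΔ : 0 < Δ) : ∀ᶠ l : ℕ in atTop, ∀ n δ : ℝ, 0 ≤ n → 0 ≤ δ →
    n ≤ 25 * (l : ℝ) ^ 2 → δ ≤ (l : ℝ) ^ (-190 : ℝ) →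
      δ ≤ (l : ℝ) ^ (-100 : ℝ) ∧
      cLam l * (n * δ) ≤ Δ / 2 ∧ cLam l * (n * δ) ≤ (l : ℝ) ^ (-50 : ℝ) ∧
      2 * (cLam l * (n * δ) / Δ) ≤ (l : ℝ) ^ (-40 : ℝ) ∧
      2 * Real.sqrt (2 * (cLam l * (n * δ) / Δ)) ≤ (l : ℝ) ^ (-20 : ℝ) ∧
      2 * (n * δ) ≤ 1 := by
  filter_upwards [ev_one, ev_rpow551 25 (e := 38) (by norm_num),
    ev_rpow551 (2 / Δ) (e := 50) (by norm_num), ev_rpow551 2 (e := 1) (by norm_num)]
    with l hl h25 hd h2 n δ hn hδ hn2 hδ2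
  have hl1 : (1 : ℝ) ≤ l := by exact_mod_cast hl
  have hl0 : (0 : ℝ) < l := lt_of_lt_of_le one_pos hl1
  rw [Real.rpow_one] at h2
  have hL : 0 < cLam l := by unfold cLam; exact Real.rpow_pos_of_pos hl0 _
  have hL1 : cLam l ≤ 1 := by
    unfold cLam
    exact Real.rpow_le_one_of_one_le_of_nonpos hl1 (by unfold xlam; norm_num)
  have hη : n * δ ≤ (l : ℝ) ^ (-150 : ℝ) := by
    have h3 : n * δ ≤ (25 * (l : ℝ) ^ 2) * (l : ℝ) ^ (-190 : ℝ) :=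
      mul_le_mul hn2 hδ2 hδ (by positivity)
    have h4 : (l : ℝ) ^ (-150 : ℝ) = (l : ℝ) ^ (38 : ℝ) * ((l : ℝ) ^ 2 * (l : ℝ) ^ (-190 : ℝ)) := by
      rw [← Real.rpow_natCast, ← Real.rpow_add hl0, ← Real.rpow_add hl0]
      norm_num
    rw [h4]
    have h5 : 0 ≤ (l : ℝ) ^ 2 * (l : ℝ) ^ (-190 : ℝ) := by positivity
    nlinarith
  have hη0 : 0 ≤ n * δ := mul_nonneg hn hδ
  have hΛη : cLam l * (n * δ) ≤ (l : ℝ) ^ (-150 : ℝ) := by nlinarith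
  have hΛη0 : 0 ≤ cLam l * (n * δ) := by positivity
  have hle : ∀ x y : ℝ, x ≤ y → (l : ℝ) ^ x ≤ (l : ℝ) ^ y := fun x y h =>
    Real.rpow_le_rpow_of_exponent_le hl1 h
  have hp : ∀ x : ℝ, 0 < (l : ℝ) ^ x := fun x => Real.rpow_pos_of_pos hl0 x
  -- `l^(-50) ≤ Δ / 2`
  have h50 : (l : ℝ) ^ (-50 : ℝ) ≤ Δ / 2 := by
    have h3 : (l : ℝ) ^ (-50 : ℝ) * (l : ℝ) ^ (50 : ℝ) = 1 := by
      rw [← Real.rpow_add hl0]; norm_num
    have h4 : (l : ℝ) ^ (-50 : ℝ) * (2 / Δ) ≤ 1 := by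
      rw [← h3]; exact mul_le_mul_of_nonneg_left hd (hp _).le
    rw [mul_div_assoc', div_le_one hΔ] at h4
    linarith
  have hdiv : cLam l * (n * δ) / Δ ≤ (l : ℝ) ^ (-100 : ℝ) / 2 := by
    rw [div_le_iff₀ hΔ]
    have h3 : (l : ℝ) ^ (-150 : ℝ) = (l : ℝ) ^ (-100 : ℝ) * (l : ℝ) ^ (-50 : ℝ) := by
      rw [← Real.rpow_add hl0]; norm_num
    have h4 : (l : ℝ) ^ (-100 : ℝ) * (l : ℝ) ^ (-50 : ℝ) ≤ (l : ℝ) ^ (-100 : ℝ) * (Δ / 2) :=
      mul_le_mul_of_nonneg_left h50 (hp _).le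
    linarith
  refine ⟨hδ2.trans (hle _ _ (by norm_num)), ?_, ?_, ?_, ?_, ?_⟩
  · exact hΛη.trans ((hle _ _ (by norm_num)).trans h50)
  · exact hΛη.trans (hle _ _ (by norm_num))
  · have := hle (-100) (-40) (by norm_num)
    linarith
  · have h3 : Real.sqrt (2 * (cLam l * (n * δ) / Δ)) ≤ (l : ℝ) ^ (-50 : ℝ) := by
      rw [show (l : ℝ) ^ (-50 : ℝ) = Real.sqrt ((l : ℝ) ^ (-100 : ℝ)) by
        rw [Real.sqrt_eq_rpow, ← Real.rpow_mul hl0.le]; norm_num]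
      exact Real.sqrt_le_sqrt (by linarith)
    have h4 : (l : ℝ) ^ (-20 : ℝ) = (l : ℝ) ^ (30 : ℝ) * (l : ℝ) ^ (-50 : ℝ) := by
      rw [← Real.rpow_add hl0]; norm_num
    have h5 : (2 : ℝ) ≤ (l : ℝ) ^ (30 : ℝ) := by
      refine h2.trans ?_
      conv_lhs => rw [← Real.rpow_one (l : ℝ)]
      exact hle _ _ (by norm_num)
    rw [h4]
    have := hp (-50)
    nlinarith
  · have h3 : (l : ℝ) ^ (-150 : ℝ) ≤ (l : ℝ) ^ (-1 : ℝ) := hle _ _ (by norm_num)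
    have h4 : (l : ℝ) ^ (-1 : ℝ) * l = 1 := by
      rw [Real.rpow_neg_one]; field_simp
    have h5 := hp (-1)
    nlinarith

/-- defects and deviations -/
theorem ev_dev551 : ∀ᶠ l : ℕ in atTop, ∀ n η K S D : ℝ, 0 ≤ n → n ≤ 25 * (l : ℝ) ^ 2 →
    0 ≤ η → 2 * η ≤ 1 → 1 ≤ K → K ≤ l → S ≤ K / cLam l + 2 * η →
    D ≤ 3 * (K / cLam l + 2 * η) + 2 * Real.sqrt (2 * n * (K / cLam l + 2 * η)) →
      S ≤ 2 * (K / cLam l) ∧ D ≤ 50 * l * Real.sqrt (K / cLam l) := by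
  filter_upwards [ev_one] with l hl n η K S D hn hn2 hη hη2 hK hKl hS hD
  have hl1 : (1 : ℝ) ≤ l := by exact_mod_cast hl
  have hl0 : (0 : ℝ) < l := lt_of_lt_of_le one_pos hl1
  have hL : 0 < cLam l := by unfold cLam; exact Real.rpow_pos_of_pos hl0 _
  have hL1 : cLam l ≤ 1 := by
    unfold cLam
    exact Real.rpow_le_one_of_one_le_of_nonpos hl1 (by unfold xlam; norm_num)
  have hk1 : 1 ≤ K / cLam l := by rw [le_div_iff₀ hL]; linarith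
  have hk2 : K / cLam l ≤ (l : ℝ) ^ 2 := by
    have h3 : (cLam l)⁻¹ ≤ l := by
      unfold cLam
      rw [← Real.rpow_neg hl0.le, neg_neg]
      conv_rhs => rw [← Real.rpow_one (l : ℝ)]
      exact Real.rpow_le_rpow_of_exponent_le hl1 (by unfold xlam; norm_num)
    rw [div_eq_mul_inv, sq]
    exact mul_le_mul hKl h3 (inv_nonneg.2 hL.le) hl0.le
  set κ := K / cLam l with hκ
  have hs0 : 0 ≤ Real.sqrt κ := Real.sqrt_nonneg _
  have hsl : Real.sqrt κ ≤ l := by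
    rw [Real.sqrt_le_left hl0.le]; exact hk2
  have hss : Real.sqrt κ * Real.sqrt κ = κ := Real.mul_self_sqrt (by linarith)
  refine ⟨by linarith, hD.trans ?_⟩
  have h4 : Real.sqrt (2 * n * (κ + 2 * η)) ≤ 10 * l * Real.sqrt κ := by
    rw [Real.sqrt_le_left (by positivity)]
    have h5 : (10 * l * Real.sqrt κ) ^ 2 = 100 * (l : ℝ) ^ 2 * κ := by
      calc (10 * l * Real.sqrt κ) ^ 2 = 100 * (l : ℝ) ^ 2 * (Real.sqrt κ * Real.sqrt κ) := by ring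
        _ = _ := by rw [hss]
    rw [h5]
    have h6 : κ + 2 * η ≤ 2 * κ := by linarith
    calc 2 * n * (κ + 2 * η) ≤ 2 * (25 * (l : ℝ) ^ 2) * (2 * κ) := by
          apply mul_le_mul (by linarith) h6 (by linarith) (by positivity)
      _ = _ := by ring
  nlinarith

/-- the norms of the local terms applied to the ground state -/
theorem ev_loc551 {a : ℝ} (ha : 0 < a) (C : ℝ) {p : ℕ} (hp : 101 ≤ xd a * p) :
    ∀ᶠ l : ℕ in atTop, C / (1 + (cF a l : ℝ)) ^ p ≤ (l : ℝ) ^ (-100 : ℝ) := by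
  filter_upwards [ev_one, ev_rpow551 C (e := 1) (by norm_num)] with l hl hC
  have hl1 : (1 : ℝ) ≤ l := by exact_mod_cast hl
  have hl0 : (0 : ℝ) < l := lt_of_lt_of_le one_pos hl1
  have h1 : (l : ℝ) ^ (xd a) ≤ 1 + (cF a l : ℝ) := by
    have := sc_ge (xd a) l
    unfold cF
    linarith
  have h2 : (l : ℝ) ^ (101 : ℝ) ≤ (1 + (cF a l : ℝ)) ^ p := by
    calc (l : ℝ) ^ (101 : ℝ) ≤ (l : ℝ) ^ (xd a * p) :=
          Real.rpow_le_rpow_of_exponent_le hl1 hp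
      _ = ((l : ℝ) ^ (xd a)) ^ p := by rw [Real.rpow_mul hl0.le, Real.rpow_natCast]
      _ ≤ _ := pow_le_pow_left₀ (Real.rpow_nonneg hl0.le _) h1 p
  have h3 : 0 < (1 + (cF a l : ℝ)) ^ p := by positivity
  rw [div_le_iff₀ h3]
  have h4 : (l : ℝ) ^ (-100 : ℝ) * (l : ℝ) ^ (101 : ℝ) = (l : ℝ) ^ (1 : ℝ) := by
    rw [← Real.rpow_add hl0]; norm_num
  have h5 : (l : ℝ) ^ (-100 : ℝ) * (l : ℝ) ^ (101 : ℝ) ≤
      (l : ℝ) ^ (-100 : ℝ) * (1 + (cF a l : ℝ)) ^ p :=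
    mul_le_mul_of_nonneg_left h2 (Real.rpow_nonneg hl0.le _)
  linarith

/-- cardinality of a neighbourhood of a set in a box -/
theorem nb_card551 {L l x0 x1 y0 y1 : ℕ} {X : Finset (Site L)} (hx : x1 ≤ x0 + l)
    (hy : y1 ≤ y0 + l) (hX : X ⊆ rect L x0 x1 y0 y1) {r k : ℕ} (hr : 2 * r ≤ k * l) :
    ((sa7_nb X r).card : ℝ) ≤ ((k : ℝ) + 1) ^ 2 * (l : ℝ) ^ 2 := by
  have h1 := Finset.card_le_card (sa7_nb_rect hX r)
  have h2 := na_k_card_rect L (x0 - r) (x1 + r) (y0 - r) (y1 + r) (l + 2 * r) (by omega) (by omega)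
  have h3 : ((sa7_nb X r).card : ℝ) ≤ ((l + 2 * r : ℕ) : ℝ) ^ 2 := by exact_mod_cast h1.trans h2
  refine h3.trans ?_
  have h4 : ((l + 2 * r : ℕ) : ℝ) ≤ (k + 1) * l := by
    have : l + 2 * r ≤ (k + 1) * l := by nlinarith
    exact_mod_cast this
  calc ((l + 2 * r : ℕ) : ℝ) ^ 2 ≤ ((k + 1) * l) ^ 2 :=
        pow_le_pow_left₀ (by positivity) h4 2
    _ = _ := by ring

/-- widths -/
theorem geo551 {a : ℝ} (ha : 0 < a) {l w K : ℕ} (hK : K = 656) (hl : 1 ≤ l)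
    (h1 : K * (cS a l + cP l + 1) ≤ w) (hw : (w : ℝ) ≤ (l : ℝ) ^ (1 - xom a)) :
    32 * cS a l + 32 * bw a l + 400 ≤ w ∧ 32 * cP l ≤ w ∧ w ≤ l := by
  have h2 := cD_cS ha hl
  have hl1 : (1 : ℝ) ≤ l := by exact_mod_cast hl
  have h3 : (w : ℝ) ≤ l := by
    refine hw.trans ?_
    conv_rhs => rw [← Real.rpow_one (l : ℝ)]
    exact Real.rpow_le_rpow_of_exponent_le hl1 (by have := xom_pos ha; linarith)
  have h4 : w ≤ l := by exact_mod_cast h3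
  subst hK
  generalize cS a l = s at h1 h2 ⊢
  unfold bw
  generalize cP l = p at h1 ⊢
  generalize Par.cD a l = d at h2 ⊢
  have hs0 : 0 ≤ s := Nat.zero_le s
  have hp0 : 0 ≤ p := Nat.zero_le p
  refine ⟨?_, ?_, h4⟩
  · calc 32 * s + 32 * (p + 8 * d + 8) + 400 = 32 * s + 32 * p + 32 * (8 * d) + 656 := by ring
      _ ≤ 32 * s + 32 * p + 32 * s + 656 := by gcongr
      _ = 64 * s + 32 * p + 656 := by ring
      _ ≤ 656 * s + 656 * p + 656 := by gcongr <;> norm_num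
      _ = 656 * (s + p + 1) := by ring
      _ ≤ w := h1
  · calc 32 * p ≤ 656 * p := by gcongr; norm_num
      _ ≤ 656 * (s + p + 1) := by gcongr; linarith
      _ ≤ w := h1

theorem ev_geo551 {a : ℝ} (ha : 0 < a) (ha1 : a ≤ 1) : ∀ᶠ l : ℕ in atTop, ∀ w : ℕ,
    (w : ℝ) ≤ (l : ℝ) ^ (1 - xom a) → (l : ℝ) ^ (1 - xom a) < (w : ℝ) + 1 →
      32 * cS a l + 32 * bw a l + 400 ≤ w ∧ 32 * cP l ≤ w ∧ w ≤ l := by
  obtain ⟨K, hK⟩ : ∃ K : ℕ, K = 656 := ⟨_, rfl⟩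
  have h1 := ev_fit ha ha1 K
  have h2 : ∀ᶠ l : ℕ in atTop, 1 ≤ l := ev_one
  exact (h2.and h1).mono fun l hl w hw hw' => geo551 ha hK hl.1 (hl.2 w hw') hw

end Vale.Agent.P356.GA
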