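import Vale.Agent.P356.GA.ExData551

/-!
# GA: existence of the data of the analytic part, assembly
-/

set_option linter.all false

namespace Vale.Agent.P356.GA

open Matrix Finset Filter Vale.Agent.P356 Vale.Agent.P356.SV Vale.Agent.P356.Path
open Vale.Agent.P356.NA Vale.Agent.P356.SA Vale.Agent.P356.PH Vale.Agent.P356.GA.Par
open Vale.Agent.P356.GA.Ring407 (dX)
open Vale.Agent.P356.GA.Level (bal lev)
open Vale.Agent.P356.GA.Theta (thC)
open scoped BigOperators ComplexOrder Kronecker Matrix.Norms.L2Operator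

/-- **Existence of the data** at every large scale. -/
theorem exists_cdata {q R : ℕ} (hq : 1 ≤ q) {J Δ : ℝ} (hJ : 0 < J) (hΔ : 0 < Δ) :
    ∃ a C₁ C₂ : ℝ, 0 < a ∧ a < 1 ∧ 0 < C₁ ∧ 0 ≤ C₂ ∧ ∃ n₀ : ℕ,
      ∀ (L : ℕ) (H : Op (Site L) q), Admissible L q R J H →
      ∀ (E : ℝ) (Ω : Conf (Site L) q → ℂ), GappedGround H Δ E Ω →
      ∀ (l w x0 x1 y0 y1 : ℕ) (X : Finset (Site L)), n₀ ≤ l →
        (w : ℝ) ≤ (l : ℝ) ^ (1 - xom a) → (l : ℝ) ^ (1 - xom a) < (w : ℝ) + 1 →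
        x1 ≤ x0 + l → y1 ≤ y0 + l → X ⊆ rect L x0 x1 y0 y1 → X.Nonempty →
        ∃ d : CData q R J Δ a C₁ C₂ L l, d.w = w ∧ d.X = X ∧ d.Ω = Ω ∧
          (bdry d.g.Mid : ℝ) ≤ 200 * ((sa7_nb X w \ X).card / (w : ℝ)) ∧
          ∑ k ∈ range d.g.n, ((bdry (d.g.P k) : ℝ) + bdry (d.g.Q k)) ≤
            d.g.n * (800 * ((sa7_nb X w \ X).card / (w : ℝ))) := by
  obtain ⟨a, C, ha, ha1, hC, hrect⟩ := rect_law551 (R := R) hq hJ hΔ
  obtain ⟨F, hF⟩ := exists_filter Δ hΔ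
  have hxd : 0 < xd a := by have := e0_pos ha; unfold xd; positivity
  obtain ⟨p, hp⟩ : ∃ p : ℕ, 101 ≤ xd a * p := by
    obtain ⟨p, hp⟩ := exists_nat_ge (101 / xd a)
    rw [div_le_iff₀ hxd] at hp
    exact ⟨p, by linarith⟩
  obtain ⟨C₂, hC₂, hloc⟩ := local_exact (R := R) hJ.le hΔ hF p
  obtain ⟨Cd, cd, hCd, hcd, hdet⟩ := det_sum (R := R) hJ.le hΔ
  obtain ⟨n₀, hn⟩ := threshold ((((((ev_one.and (ev_geo551 ha ha1.le)).and
    (ev_const_cF ha R)).and (ev_detErr551 q hCd hcd)).and (ev_eta551 hΔ)).and ev_dev551).and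
    (ev_loc551 ha C₂ hp))
  refine ⟨a, C + 1, C₂, ha, ha1, by linarith, hC₂, n₀, ?_⟩
  intro L H hadm E Ω hgap l w x0 x1 y0 y1 X hl hw hw' hx hy hX hXn
  obtain ⟨⟨⟨⟨⟨⟨hl1, hgeo⟩, hcF⟩, herr⟩, heta⟩, hdev⟩, hlocn⟩ := hn l hl
  obtain ⟨h1, h2, h3⟩ := hgeo w hw hw'
  obtain ⟨h, hh, rfl⟩ := id hadm
  have hT : Terms L q R J h := ⟨fun X => (hh X).1, fun X => (hh X).2.1, fun X => (hh X).2.2.1,
    fun X => (hh X).2.2.2⟩
  have hcR : (1 : ℝ) ≤ cR l := by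
    have : 1 ≤ cR l := by
      have := one_le_sc (e := xr) hl1
      unfold cR; omega
    exact_mod_cast this
  -- geometry
  obtain ⟨g, Exc, g1, g2, g3, g4, g5, g6, g7, g8, g9, g10, g11, g12, g13, g14, g15, g16, g17,
      g18, g19⟩ := exists_gd (S := fun A => entropyOf A Ω) (entLike Ω hgap.1) hXn
    (l := l) (w := w) (D := Par.cD a l) (s := cS a l) (ρ := cR l) (b := bw a l) (mp := cP l)
    (tl := cM l) (one_le_cD hl1) (cD_cS ha hl1) (cS_cR ha ha1.le hl1) h1 h2 h3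
    (E₀ := (C + 1) * (cR l : ℝ) ^ (2 - a)) (by positivity)
    (fun u0 u1 v0 v1 hu hv => (hrect L _ hadm E Ω hgap (cR l) u0 u1 v0 v1 hu hv).trans (by
      have : 0 ≤ (cR l : ℝ) ^ (2 - a) := by positivity
      linarith)) hx hy hX
  -- local terms
  obtain ⟨T, e, hTl, hTs⟩ := hloc L q h hT E Ω hgap (cF a l) hcF (one_le_cF hl1)
  -- areas
  have hA9 : ((sa7_nb X w).card : ℝ) ≤ 9 * (l : ℝ) ^ 2 := by
    have := nb_card551 hx hy hX (r := w) (k := 2) (by omega)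
    norm_num at this
    exact this
  have hA25 : ((sa7_nb X (2 * w)).card : ℝ) ≤ 25 * (l : ℝ) ^ 2 := by
    have := nb_card551 hx hy hX (r := 2 * w) (k := 4) (by omega)
    norm_num at this
    exact this
  have hring : ((sa7_nb X w \ X).card : ℝ) ≤ 9 * (l : ℝ) ^ 2 := by
    refine le_trans ?_ hA9
    exact_mod_cast Finset.card_le_card Finset.sdiff_subset
  -- detectors
  have hl0 : (0 : ℝ) < l := by exact_mod_cast hl1
  have hΛ : 0 < cLam l := by unfold cLam; exact Real.rpow_pos_of_pos hl0 _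
  have hδ0 : 0 ≤ detErr q Cd cd (cB l) (cN l) := detErr_nonneg551 hCd _ _
  obtain ⟨e1, e2, e3, e4, e5, e6⟩ := heta ((sa7_nb X (2 * w)).card : ℝ)
    (detErr q Cd cd (cB l) (cN l)) (Nat.cast_nonneg _) hδ0 hA25 herr
  obtain ⟨P, E', Ω', p1, p2, p3, p4, p5, p6, p7, p8⟩ := hdet L q h hT E Ω hgap (cB l) (cN l)
    (sa7_nb X (2 * w)) (cLam l) hΛ e2
  refine ⟨{ w := w, h := h, E := E, Ω := Ω, X := X, g := g, Exc := Exc, P := P, T := T, e := e,
            E' := E', Ω' := Ω', q1 := hq, terms := hT, gap := hgap, wle := hw, wgt := hw',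
            mp := g1, tl := g2, n8 := g3, n16 := g4, Nw := g5, mid1 := g6, mid2 := g7, X0 := g8,
            Q0 := g9, area := hring, near := g12, ends := ?_, lip := g14, dist := g15,
            ties := g16, x0 := x0 - w, x1 := x1 + w, y0 := y0 - w, y1 := y1 + w,
            hx := by omega, hy := by omega, box := sa7_nb_rect hX w, exc := g17, excC := ?_,
            markov := g19, Tloc := ?_, Tsum := hTs, areaZ := hA25, det := ?_, gap' := p2,
            gap2 := p7, E1 := p3, E2 := ?_, close := ?_, expc := ?_, dev := ?_ },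
    rfl, rfl, rfl, g10, g11⟩
  · refine g13.trans ?_
    have hw0 : (0 : ℝ) ≤ w := Nat.cast_nonneg w
    gcongr
  · refine g18.trans ?_
    gcongr
  · intro z
    obtain ⟨t1, t2, t3, t4⟩ := hTl z
    exact ⟨t1, t2, t3, t4.trans hlocn⟩
  · intro z
    obtain ⟨t1, t2, t3, t4⟩ := p1 z
    exact ⟨t1, t2, t3, t4.trans e1⟩
  · exact p4.trans (by linarith)
  · exact p5.trans e4
  · intro Y
    exact (p6 Y).trans (mul_le_mul_of_nonneg_right e5 (norm_nonneg _))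
  · intro ψ hψ
    obtain ⟨t1, t2⟩ := p8 ψ hψ
    refine ⟨t1, fun K hK hKl hKe => ?_⟩
    obtain ⟨t3, t4⟩ := t2 K hKe
    exact hdev _ _ K _ _ (Nat.cast_nonneg _) hA25 (mul_nonneg (Nat.cast_nonneg _) hδ0) e6 hK hKl
      t3 t4

end Vale.Agent.P356.GA
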