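import Vale.Agent.P356.GA.Taylor107

/-!
Finite differences on the imaginary axis for entire functions bounded on a strip.
-/

set_option linter.all false

namespace Vale.Agent.P356.GA

open Finset Complex

/-- first derivative -/
theorem fd_one {g : ℂ → ℂ} (hg : Differentiable ℂ g) {K : ℝ}
    (hK : ∀ z : ℂ, |z.re| ≤ 1 / 4 → ‖g z‖ ≤ K) {y : ℝ} (hy : 0 < y) (hy1 : y ≤ 1 / 8) :
    ‖deriv g 0 - (g ((y : ℂ) * I) - g (((-y : ℝ) : ℂ) * I)) / (2 * ((y : ℂ) * I))‖ ≤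
      128 * K * y ^ 2 := by
  have hK0 : 0 ≤ K := (norm_nonneg _).trans (hK 0 (by simp))
  have hM : ∀ z : ℂ, ‖z‖ ≤ 1 / 4 → ‖g z‖ ≤ K := fun z hz =>
    hK z ((Complex.abs_re_le_norm z).trans hz)
  set ζ : ℂ := (y : ℂ) * I with hζ
  have hζn : ‖ζ‖ = y := by
    rw [hζ, norm_mul, Complex.norm_I, mul_one, Complex.norm_real, Real.norm_of_nonneg hy.le]
  have hneg : ((-y : ℝ) : ℂ) * I = -ζ := by rw [hζ]; push_cast; ring
  have hζ0 : ζ ≠ 0 := by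
    intro h
    rw [h, norm_zero] at hζn
    exact hy.ne hζn
  have h1 := taylor_rem hg (by norm_num : (0:ℝ) < 1 / 4) hM 3 (ζ := ζ) (by rw [hζn]; linarith)
  have h2 := taylor_rem hg (by norm_num : (0:ℝ) < 1 / 4) hM 3 (ζ := -ζ)
    (by rw [norm_neg, hζn]; linarith)
  rw [hζn] at h1
  rw [norm_neg, hζn] at h2
  simp only [Finset.sum_range_succ, Finset.sum_range_zero, zero_add, iteratedDeriv_zero,
    iteratedDeriv_one] at h1 h2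
  rw [hneg]
  set a0 := (((0 : ℕ).factorial : ℂ))⁻¹ * g 0 with ha0
  set a1 := (((1 : ℕ).factorial : ℂ))⁻¹ * deriv g 0 with ha1
  set a2 := (((2 : ℕ).factorial : ℂ))⁻¹ * iteratedDeriv 2 g 0 with ha2
  have ha1' : deriv g 0 = a1 := by rw [ha1]; simp
  have key : deriv g 0 - (g ζ - g (-ζ)) / (2 * ζ) =
      -((g ζ - (a0 * ζ ^ 0 + a1 * ζ ^ 1 + a2 * ζ ^ 2)) -
        (g (-ζ) - (a0 * (-ζ) ^ 0 + a1 * (-ζ) ^ 1 + a2 * (-ζ) ^ 2))) / (2 * ζ) := by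
    rw [ha1']
    field_simp
    ring
  rw [key, norm_div, norm_neg, norm_mul, hζn]
  have h3 : ‖(g ζ - (a0 * ζ ^ 0 + a1 * ζ ^ 1 + a2 * ζ ^ 2)) -
        (g (-ζ) - (a0 * (-ζ) ^ 0 + a1 * (-ζ) ^ 1 + a2 * (-ζ) ^ 2))‖ ≤
      2 * K * (y / (1 / 4)) ^ 3 + 2 * K * (y / (1 / 4)) ^ 3 :=
    (norm_sub_le _ _).trans (add_le_add h1 h2)
  have h4 : ‖(2 : ℂ)‖ = 2 := by simp
  rw [h4, div_le_iff₀ (by positivity)]
  refine h3.trans (le_of_eq ?_)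
  ring

/-- second derivative -/
theorem fd_two {g : ℂ → ℂ} (hg : Differentiable ℂ g) {K : ℝ}
    (hK : ∀ z : ℂ, |z.re| ≤ 1 / 4 → ‖g z‖ ≤ K) {y : ℝ} (hy : 0 < y) (hy1 : y ≤ 1 / 8) :
    ‖iteratedDeriv 2 g 0 - (g ((y : ℂ) * I) + g (((-y : ℝ) : ℂ) * I) - 2 * g 0) /
      ((y : ℂ) * I) ^ 2‖ ≤ 1024 * K * y ^ 2 := by
  have hK0 : 0 ≤ K := (norm_nonneg _).trans (hK 0 (by simp))
  have hM : ∀ z : ℂ, ‖z‖ ≤ 1 / 4 → ‖g z‖ ≤ K := fun z hz =>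
    hK z ((Complex.abs_re_le_norm z).trans hz)
  set ζ : ℂ := (y : ℂ) * I with hζ
  have hζn : ‖ζ‖ = y := by
    rw [hζ, norm_mul, Complex.norm_I, mul_one, Complex.norm_real, Real.norm_of_nonneg hy.le]
  have hneg : ((-y : ℝ) : ℂ) * I = -ζ := by rw [hζ]; push_cast; ring
  have hζ0 : ζ ≠ 0 := by
    intro h
    rw [h, norm_zero] at hζn
    exact hy.ne hζn
  have h1 := taylor_rem hg (by norm_num : (0:ℝ) < 1 / 4) hM 4 (ζ := ζ) (by rw [hζn]; linarith)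
  have h2 := taylor_rem hg (by norm_num : (0:ℝ) < 1 / 4) hM 4 (ζ := -ζ)
    (by rw [norm_neg, hζn]; linarith)
  rw [hζn] at h1
  rw [norm_neg, hζn] at h2
  simp only [Finset.sum_range_succ, Finset.sum_range_zero, zero_add, iteratedDeriv_zero,
    iteratedDeriv_one] at h1 h2
  rw [hneg]
  set a0 := (((0 : ℕ).factorial : ℂ))⁻¹ * g 0 with ha0
  set a1 := (((1 : ℕ).factorial : ℂ))⁻¹ * deriv g 0 with ha1
  set a2 := (((2 : ℕ).factorial : ℂ))⁻¹ * iteratedDeriv 2 g 0 with ha2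
  set a3 := (((3 : ℕ).factorial : ℂ))⁻¹ * iteratedDeriv 3 g 0 with ha3
  have ha0' : g 0 = a0 := by rw [ha0]; simp
  have ha2' : iteratedDeriv 2 g 0 = 2 * a2 := by
    rw [ha2]
    simp only [Nat.factorial, Nat.cast_mul, Nat.cast_ofNat]
    field_simp
    simp
  have key : iteratedDeriv 2 g 0 - (g ζ + g (-ζ) - 2 * g 0) / ζ ^ 2 =
      -((g ζ - (a0 * ζ ^ 0 + a1 * ζ ^ 1 + a2 * ζ ^ 2 + a3 * ζ ^ 3)) +
        (g (-ζ) - (a0 * (-ζ) ^ 0 + a1 * (-ζ) ^ 1 + a2 * (-ζ) ^ 2 + a3 * (-ζ) ^ 3))) / ζ ^ 2 := by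
    rw [ha2', ha0']
    field_simp
    ring
  rw [key, norm_div, norm_neg, norm_pow, hζn]
  have h3 : ‖(g ζ - (a0 * ζ ^ 0 + a1 * ζ ^ 1 + a2 * ζ ^ 2 + a3 * ζ ^ 3)) +
        (g (-ζ) - (a0 * (-ζ) ^ 0 + a1 * (-ζ) ^ 1 + a2 * (-ζ) ^ 2 + a3 * (-ζ) ^ 3))‖ ≤
      2 * K * (y / (1 / 4)) ^ 4 + 2 * K * (y / (1 / 4)) ^ 4 :=
    (norm_add_le _ _).trans (add_le_add h1 h2)
  rw [div_le_iff₀ (by positivity)]
  refine h3.trans (le_of_eq ?_)
  ring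

/-- mixed derivative -/
theorem fd_mixed {f : ℂ → ℂ → ℂ} (h1 : ∀ w, Differentiable ℂ (fun z => f z w))
    (h2 : ∀ z, Differentiable ℂ (f z)) (h3 : Differentiable ℂ (fun z => deriv (f z) 0)) {K : ℝ}
    (hK : ∀ z w : ℂ, |z.re| ≤ 1 / 4 → |w.re| ≤ 1 / 4 → ‖f z w‖ ≤ K) {y : ℝ} (hy : 0 < y)
    (hy1 : y ≤ 1 / 8) :
    ‖deriv (fun z => deriv (f z) 0) 0 -
      ((f ((y : ℂ) * I) ((y : ℂ) * I) - f ((y : ℂ) * I) (((-y : ℝ) : ℂ) * I)) -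
        (f (((-y : ℝ) : ℂ) * I) ((y : ℂ) * I) - f (((-y : ℝ) : ℂ) * I) (((-y : ℝ) : ℂ) * I))) /
          (2 * ((y : ℂ) * I)) ^ 2‖ ≤ 2048 * K * y ^ 2 := by
  have hK0 : 0 ≤ K := (norm_nonneg _).trans (hK 0 0 (by simp) (by simp))
  set ζ : ℂ := (y : ℂ) * I with hζ
  have hζn : ‖ζ‖ = y := by
    rw [hζ, norm_mul, Complex.norm_I, mul_one, Complex.norm_real, Real.norm_of_nonneg hy.le]
  have hζ0 : ζ ≠ 0 := by
    intro h
    rw [h, norm_zero] at hζn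
    exact hy.ne hζn
  have hre : (ζ).re = 0 := by simp [hζ]
  have hre' : (((-y : ℝ) : ℂ) * I).re = 0 := by simp
  -- the difference quotient in the second variable
  set D : ℂ → ℂ := fun z => (f z ζ - f z (((-y : ℝ) : ℂ) * I)) / (2 * ζ) with hD
  have hDd : Differentiable ℂ D := ((h1 _).sub (h1 _)).div_const _
  set g1 : ℂ → ℂ := fun z => deriv (f z) 0 with hg1
  have hg1K : ∀ z : ℂ, |z.re| ≤ 1 / 4 → ‖g1 z‖ ≤ 4 * K := by
    intro z hz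
    have h := taylor_coeff (h2 z) (by norm_num : (0:ℝ) < 1 / 4)
      (fun w hw => hK z w hz ((Complex.abs_re_le_norm w).trans hw)) 1
    rw [iteratedDeriv_one] at h
    simp only [Nat.factorial, Nat.cast_one, mul_one, inv_one, one_mul, pow_one, zero_add] at h
    refine h.trans (le_of_eq ?_)
    ring
  have hR : ∀ z : ℂ, |z.re| ≤ 1 / 4 → ‖g1 z - D z‖ ≤ 128 * K * y ^ 2 := fun z hz =>
    fd_one (h2 z) (fun w hw => hK z w hz hw) hy hy1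
  have hy2 : y ^ 2 ≤ 1 / 64 := by nlinarith
  have hDK : ∀ z : ℂ, |z.re| ≤ 1 / 4 → ‖D z‖ ≤ 6 * K := by
    intro z hz
    have h := hR z hz
    have h' := hg1K z hz
    have h'' : ‖D z‖ ≤ ‖g1 z‖ + ‖g1 z - D z‖ := by
      have : D z = g1 z - (g1 z - D z) := by ring
      calc ‖D z‖ = ‖g1 z - (g1 z - D z)‖ := by rw [← this]
        _ ≤ _ := norm_sub_le _ _
    nlinarith
  -- derivative of the remainder
  have hR1 : ‖deriv g1 0 - deriv D 0‖ ≤ 512 * K * y ^ 2 := by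
    have h := taylor_coeff (f := fun z => g1 z - D z) (h3.sub hDd)
      (by norm_num : (0:ℝ) < 1 / 4)
      (fun z hz => hR z ((Complex.abs_re_le_norm z).trans hz)) 1
    rw [iteratedDeriv_one] at h
    simp only [Nat.factorial, Nat.cast_one, mul_one, inv_one, one_mul, pow_one, zero_add] at h
    have hd : deriv (fun z => g1 z - D z) 0 = deriv g1 0 - deriv D 0 :=
      deriv_sub (h3 0) (hDd 0)
    rw [hd] at h
    refine h.trans (le_of_eq ?_)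
    ring
  have h5 := fd_one hDd hDK hy hy1
  rw [← hζ] at h5
  have key : deriv g1 0 - ((f ζ ζ - f ζ (((-y : ℝ) : ℂ) * I)) -
        (f (((-y : ℝ) : ℂ) * I) ζ - f (((-y : ℝ) : ℂ) * I) (((-y : ℝ) : ℂ) * I))) /
          (2 * ζ) ^ 2 = (deriv g1 0 - deriv D 0) +
      (deriv D 0 - (D ζ - D (((-y : ℝ) : ℂ) * I)) / (2 * ζ)) := by
    have : ((f ζ ζ - f ζ (((-y : ℝ) : ℂ) * I)) -
        (f (((-y : ℝ) : ℂ) * I) ζ - f (((-y : ℝ) : ℂ) * I) (((-y : ℝ) : ℂ) * I))) /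
          (2 * ζ) ^ 2 = (D ζ - D (((-y : ℝ) : ℂ) * I)) / (2 * ζ) := by
      simp only [hD]
      field_simp
    rw [this]
    ring
  rw [key]
  refine (norm_add_le _ _).trans ?_
  have : 512 * K * y ^ 2 + 128 * (6 * K) * y ^ 2 ≤ 2048 * K * y ^ 2 := by
    have : 0 ≤ K * y ^ 2 := by positivity
    linarith
  linarith

end Vale.Agent.P356.GA
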