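import Vale.Agent.P356.GA.CData551
import Vale.Agent.P356.GA.E11b_185

/-!
# `GmP`: the first order term of the tilted states (helper185)
-/

set_option linter.all false

namespace Vale.Agent.P356.GA

open Matrix Finset Vale.Agent.P356 Vale.Agent.P356.SV Vale.Agent.P356.Path Vale.Agent.P356.NA
open Vale.Agent.P356.SA Vale.Agent.P356.PH Vale.Agent.P356.GA.Par
open scoped BigOperators ComplexOrder Kronecker Matrix.Norms.L2Operator

/-- lower bound of the number of lines -/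
theorem lines_ge185 {a : ℝ} (ha1 : a ≤ 1) {l w n : ℕ} (hl : 1 ≤ l)
    (hw : (l : ℝ) ^ (1 - xom a) < (w : ℝ) + 1) (h16 : w ≤ 16 * n) :
    1 ≤ n ∧ (l : ℝ) ^ (1 - xom a) ≤ 17 * n := by
  have hx := e0_le ha1
  have h1 : (1 : ℝ) ≤ (l : ℝ) ^ (1 - xom a) := one_le_rpow' (by
    unfold xom; norm_num at hx ⊢; linarith) hl
  have h2 : (0 : ℝ) < w := by linarith
  have h3 : 0 < w := by exact_mod_cast h2
  have h4 : 1 ≤ n := by omega
  have h5 : (w : ℝ) ≤ 16 * n := by exact_mod_cast h16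
  have h6 : (1 : ℝ) ≤ n := by exact_mod_cast h4
  exact ⟨h4, by linarith⟩

/-- **First order term of the tilted states.** -/
theorem gmP185 {q R : ℕ} {J Δ a C₁ C₂ : ℝ} (hq : 1 ≤ q) (ha : 0 < a) (ha1 : a ≤ 1) :
    GmP q R J Δ a C₁ C₂ := by
  obtain ⟨n₀, hn₀⟩ := Par.threshold ((ev_gamma185 ha ha1 hq 50).and ev_one)
  refine ⟨n₀, fun L l d hl => ⟨Fintype.card (Site L ⊕ Site L) * Real.log q, ?_⟩⟩
  obtain ⟨hev, hl1⟩ := hn₀ l hl
  intro M hM τ hτ t ht ht1 ψ hψ hE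
  have hl0 : (0 : ℝ) < l := by exact_mod_cast hl1
  have hl1' : (1 : ℝ) ≤ l := by exact_mod_cast hl1
  obtain ⟨hn1, hn17⟩ := lines_ge185 ha1 hl1 d.wgt d.n16
  have hE0 : 0 < cE l := Real.rpow_pos_of_pos hl0 _
  have hE1 : cE l ≤ 1 := Real.rpow_le_one_of_one_le_of_nonpos hl1' (by norm_num)
  have hΩ : nsq d.Ω = 1 := d.gap.1
  have hΩ' : nsq d.Ω' = 1 := d.gap'.1
  have hψ1 : nsq ψ = 1 := hψ.1
  obtain ⟨hdev, hdevK⟩ := d.dev ψ hψ1
  have hsum := (hdevK 1 le_rfl hl1' hE).2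
  have hL0 : 0 < cLam l := Real.rpow_pos_of_pos hl0 _
  refine hev L d.g d.θ M τ t (50 * l * Real.sqrt (1 / cLam l)) ((l : ℝ) ^ (-20 : ℝ)) d.K d.Ω d.Ω'
    ψ (cB l) (sa7_nb d.X (2 * d.w)) (dvn d.P ψ) ?_ rfl d.mp d.tl ?_ d.lip ?_ ?_ ?_ ?_ ?_ hψ1 hΩ hΩ'
    hM hτ ht ht1 ?_ hdev ?_ ?_ d.expc hsum ?_
  · refine hn17.trans ?_
    have : (0 : ℝ) ≤ d.g.n := Nat.cast_nonneg _
    linarith
  · have h1 := d.mid1
    have h2 := d.mid2
    omega
  · exact fun b => ⟨Kt_herm _ _ b, Kt_acts hE0 hE1 hΩ b⟩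
  · exact fun b => Kt_norm hE0 hE1 hΩ b
  · intro x hx
    unfold Gd.ring185 at hx
    rw [mem_slT185] at hx
    have hb : (0 : ℝ) ≤ bw a l := Nat.cast_nonneg _
    have h3 := d.near x (by linarith [hx.1]) (by linarith [hx.2])
    exact sa7_nb_mono d.X (by omega) (Finset.mem_sdiff.1 h3).1
  · refine d.areaZ.trans ?_
    rw [Real.rpow_two]
    have : (0 : ℝ) ≤ (l : ℝ) ^ 2 := by positivity
    linarith
  · rw [d.tl]
    unfold cB
    omega
  · exact fun v => dvn_nonneg (fun z => (d.det z).2.2.1) ψ v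
  · positivity
  · rw [← Real.rpow_neg_one]
    exact Real.rpow_le_rpow_of_exponent_le hl1' (by norm_num)
  · have h4 : Real.sqrt (1 / cLam l) ≤ (l : ℝ) ^ (1 / 2 : ℝ) := by
      rw [← Real.sqrt_eq_rpow]
      refine Real.sqrt_le_sqrt ?_
      unfold cLam
      rw [one_div, ← Real.rpow_neg hl0.le, neg_neg]
      calc (l : ℝ) ^ xlam ≤ (l : ℝ) ^ (1 : ℝ) :=
            Real.rpow_le_rpow_of_exponent_le hl1' (by unfold xlam; norm_num)
        _ = l := Real.rpow_one _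
    have h5 : (l : ℝ) ^ (3 / 2 : ℝ) = l * (l : ℝ) ^ (1 / 2 : ℝ) := by
      rw [show (3 / 2 : ℝ) = 1 + 1 / 2 by norm_num, Real.rpow_add hl0, Real.rpow_one]
    rw [h5, mul_assoc]
    exact mul_le_mul_of_nonneg_left (mul_le_mul_of_nonneg_left h4 hl0.le) (by norm_num)

end Vale.Agent.P356.GA
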