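import Vale.Agent.P356.GA.NearDI960
import Vale.Agent.P356.GA.DecDI939

/-!
The top of the proof of the strict area law for all gapped Hamiltonians: it follows from the doubled
inequality `DI`.
-/

set_option linter.all false

namespace Vale.Agent.P356.GA

open Matrix Finset Vale.Agent.P356 Vale.Agent.P356.SV Vale.Agent.P356.NA Vale.Agent.P356.SA
open scoped BigOperators

/-- The area law up to an arbitrarily small power, from the doubled inequality. -/
theorem nearAll_of_DI {q R : ℕ} (hq : 1 ≤ q) {J Δ : ℝ} (hDI : DI q R J Δ) (κ : ℝ) (hκ : 0 < κ) :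
    NearAll q R J Δ κ := by
  obtain ⟨ω, u, c, C, n₀, hω, hωu, hωc, hc1, hC, h⟩ := hDI
  have hlog : 0 ≤ Real.log q := Real.log_nonneg (by exact_mod_cast hq)
  have hω1 : ω < 1 := by linarith
  have hu : 0 < u := by linarith
  have hc : 0 < c := by linarith
  obtain ⟨A, hA, hall⟩ := near_region_of_DIS (n₀ := n₀) hω hω1 hu hc hC.le hlog hκ
  refine ⟨A, hA, ?_⟩
  intro L H E Ω hH hg B
  exact hall L _ (entLike Ω hg.1) (fun B => entropy_le_card hq B Ω hg.1) (h L H hH E Ω hg) B

/-- **The strict area law** for the ground states of all admissible gapped Hamiltonians, from the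
doubled inequality. -/
theorem strict_from_DI {q R : ℕ} (hq : 1 ≤ q) {J Δ : ℝ} (hDI : DI q R J Δ) :
    ∃ C : ℝ, 0 < C ∧ ∀ (L : ℕ) (H : Op (Site L) q) (E : ℝ) (Ω : Conf (Site L) q → ℂ),
      Admissible L q R J H → GappedGround H Δ E Ω → ∀ A : Finset (Site L),
      entropyOf A Ω ≤ C * bdry A :=
  strict_of_DI hq hDI (nearAll_of_DI hq hDI)

end Vale.Agent.P356.GA
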