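import Vale.Agent.P356.GA.Fin551
import Vale.Agent.P356.GA.EnFinal394

/-!
# GA: the strict area law from the sum over the local terms
-/

set_option linter.all false

namespace Vale.Agent.P356.GA

open Matrix Finset Vale.Agent.P356 Vale.Agent.P356.SV

/-- **Strict area law for all gapped Hamiltonians from `S1P`.** -/
theorem strict_of_S1P551 {q R : ℕ} (hq : 1 ≤ q) {J Δ : ℝ} (hJ : 0 < J) (hΔ : 0 < Δ)
    (hS : ∀ a C₁ C₂ : ℝ, 0 < a → a ≤ 1 → 0 < C₁ → 0 ≤ C₂ → S1P q R J Δ a C₁ C₂) :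
    ∃ C : ℝ, 0 < C ∧ ∀ (L : ℕ) (H : Op (Site L) q) (E : ℝ) (Ω : Conf (Site L) q → ℂ),
      Admissible L q R J H → GappedGround H Δ E Ω → ∀ A : Finset (Site L),
      entropyOf A Ω ≤ C * bdry A :=
  strict_of_EnP551 hq hJ hΔ fun a C₁ C₂ ha ha1 h1 h2 =>
    EnP_of_S1P hq hJ.le ha ha1 (hS a C₁ C₂ ha ha1 h1 h2)

end Vale.Agent.P356.GA
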