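import Vale.Agent.P356.GA.Tube107a
import Vale.Agent.P356.PH.Mat749
import Mathlib.Analysis.CStarAlgebra.Matrix
import Mathlib.Analysis.SpecialFunctions.Trigonometric.Bounds

/-!
# GA, block FLOW (helper909): pointwise closeness of two modular flows

For two states `ρ, σ` on one window with eigenbases `U, V`, eigenvalues `p, s` and
`w i j = ‖(Uᴴ V) i j‖²` put `dd = ∑ w i j (√p i - √s j)² = |√ρ - √σ|₂²`.

* `wsum_close`, `flow_close` : `|σ^{it} ρ^{-it} ψ - ψ|² ≤ 2 max(6, 2e²t²) dd` for EVERY real `t`.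
* `ps_obs` : Powers-Størmer, with an explicit Hermitian involution as observable.
* `obs_le` : `|Tr X (ρ - σ)| ≤ 2 ‖X‖ √dd`.
-/

set_option linter.all false

namespace Vale.Agent.P356.GA.Flow

open Matrix Finset Vale.Agent.P356 Vale.Agent.P356.SV Vale.Agent.P356.Path Vale.Agent.P356.GA
open scoped BigOperators ComplexOrder Kronecker Matrix.Norms.L2Operator

/-! ## the scalar inequality -/

/-- the constant of the pointwise closeness -/
noncomputable def cT (t : ℝ) : ℝ := max 6 (2 * Real.exp 1 ^ 2 * t ^ 2)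

theorem cT_pos (t : ℝ) : 0 < cT t := lt_of_lt_of_le (by norm_num) (le_max_left _ _)

theorem exp_half_low {L : ℝ} (hL : -2 ≤ L) :
    L ^ 2 / (4 * Real.exp 1 ^ 2) ≤ (1 - Real.exp (L / 2)) ^ 2 := by
  have he : 1 ≤ Real.exp 1 := Real.one_le_exp (by norm_num)
  have h1 : |L| / (2 * Real.exp 1) ≤ |1 - Real.exp (L / 2)| := by
    rcases le_total 0 L with h | h
    · have h2 : L / 2 + 1 ≤ Real.exp (L / 2) := Real.add_one_le_exp _
      have h3 : 1 - Real.exp (L / 2) ≤ 0 := by linarith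
      rw [abs_of_nonneg h, abs_of_nonpos h3, div_le_iff₀ (by positivity)]
      nlinarith
    · have h2 : -(L / 2) + 1 ≤ Real.exp (-(L / 2)) := Real.add_one_le_exp _
      have h4 : Real.exp (L / 2) * Real.exp (-(L / 2)) = 1 := by
        rw [← Real.exp_add]; simp
      have h5 : Real.exp (-1) ≤ Real.exp (L / 2) := Real.exp_le_exp.mpr (by linarith)
      have h6 : Real.exp (-1) * Real.exp 1 = 1 := by rw [← Real.exp_add]; simp
      have h3 : 0 ≤ 1 - Real.exp (L / 2) := by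
        have : Real.exp (L / 2) ≤ 1 := Real.exp_le_one_iff.mpr (by linarith)
        linarith
      rw [abs_of_nonpos h, abs_of_nonneg h3, div_le_iff₀ (by positivity)]
      have hpos : 0 < Real.exp (L / 2) := Real.exp_pos _
      -- 1 - e^{L/2} ≥ (-L/2) e^{L/2} ≥ (-L/2) e^{-1}
      have h7 : -(L / 2) * Real.exp (L / 2) ≤ 1 - Real.exp (L / 2) := by
        have := mul_le_mul_of_nonneg_left h2 hpos.le
        nlinarith
      have h8 : -(L / 2) * Real.exp (-1) ≤ -(L / 2) * Real.exp (L / 2) :=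
        mul_le_mul_of_nonneg_left h5 (by linarith)
      have h9 : -(L / 2) * Real.exp (-1) ≤ 1 - Real.exp (L / 2) := h8.trans h7
      have h10 := mul_le_mul_of_nonneg_right h9 (by positivity : (0:ℝ) ≤ 2 * Real.exp 1)
      have h11 : -(L / 2) * Real.exp (-1) * (2 * Real.exp 1) = -L := by
        calc -(L / 2) * Real.exp (-1) * (2 * Real.exp 1)
            = -L * (Real.exp (-1) * Real.exp 1) := by ring
          _ = -L := by rw [h6, mul_one]
      linarith
  have h2 := pow_le_pow_left₀ (by positivity) h1 2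
  rw [sq_abs] at h2
  calc L ^ 2 / (4 * Real.exp 1 ^ 2) = (|L| / (2 * Real.exp 1)) ^ 2 := by
        rw [div_pow, sq_abs]; ring
    _ ≤ _ := h2

theorem exp_half_far {L : ℝ} (hL : L ≤ -2) : 1 / 3 ≤ (1 - Real.exp (L / 2)) ^ 2 := by
  have h1 : Real.exp (L / 2) ≤ Real.exp (-1) := Real.exp_le_exp.mpr (by linarith)
  have h2 : Real.exp (-1) < 0.3679 := by
    have := Real.exp_one_gt_d9
    have h6 : Real.exp (-1) * Real.exp 1 = 1 := by rw [← Real.exp_add]; simp
    have h7 : 0 < Real.exp (-1) := Real.exp_pos _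
    nlinarith
  have h3 : 0.6321 ≤ 1 - Real.exp (L / 2) := by linarith
  nlinarith

/-- The scalar inequality behind the pointwise closeness of flows. -/
theorem cos_close {p s u : ℝ} (t : ℝ) (hp : 0 ≤ p) (hs : 0 ≤ s)
    (hu : 0 < p → 0 < s → |u| ≤ |Real.log s - Real.log p|) :
    p * (1 - Real.cos (t * u)) ≤ cT t * (Real.sqrt p - Real.sqrt s) ^ 2 := by
  have hc1 : 1 - Real.cos (t * u) ≤ 2 := by linarith [Real.neg_one_le_cos (t * u)]
  have hc0 : 0 ≤ 1 - Real.cos (t * u) := by linarith [Real.cos_le_one (t * u)]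
  rcases hp.eq_or_lt with h0 | hp
  · rw [← h0, zero_mul]
    exact mul_nonneg (cT_pos t).le (sq_nonneg _)
  rcases hs.eq_or_lt with h0 | hs
  · rw [← h0, Real.sqrt_zero, sub_zero, Real.sq_sqrt hp.le]
    have : (6 : ℝ) ≤ cT t := le_max_left _ _
    nlinarith
  have hu := hu hp hs
  set L := Real.log s - Real.log p with hL
  have hsp : Real.sqrt s = Real.sqrt p * Real.exp (L / 2) := by
    have h1 : s = p * Real.exp L := by
      rw [hL, Real.exp_sub, Real.exp_log hs, Real.exp_log hp]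
      field_simp
    have h2 : Real.exp L = Real.exp (L / 2) ^ 2 := by
      rw [← Real.exp_nat_mul]
      congr 1
      push_cast
      ring
    rw [h1, h2, Real.sqrt_mul hp.le, Real.sqrt_sq (Real.exp_pos _).le]
  have hsq : (Real.sqrt p - Real.sqrt s) ^ 2 = p * (1 - Real.exp (L / 2)) ^ 2 := by
    rw [hsp]
    have : (Real.sqrt p - Real.sqrt p * Real.exp (L / 2)) ^ 2 =
        Real.sqrt p ^ 2 * (1 - Real.exp (L / 2)) ^ 2 := by ring
    rw [this, Real.sq_sqrt hp.le]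
  rw [hsq]
  have key : 1 - Real.cos (t * u) ≤ cT t * (1 - Real.exp (L / 2)) ^ 2 := by
    rcases le_total L (-2) with h | h
    · have h1 := exp_half_far h
      have h2 : (6 : ℝ) ≤ cT t := le_max_left _ _
      nlinarith
    · have h1 := exp_half_low h
      have h2 : 1 - Real.cos (t * u) ≤ (t * u) ^ 2 / 2 := by
        have := Real.one_sub_sq_div_two_le_cos (x := t * u)
        linarith
      have h3 : u ^ 2 ≤ L ^ 2 := by
        rw [← sq_abs u, ← sq_abs L]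
        exact pow_le_pow_left₀ (abs_nonneg _) hu 2
      have h4 : 2 * Real.exp 1 ^ 2 * t ^ 2 ≤ cT t := le_max_right _ _
      have h5 : 0 ≤ (1 - Real.exp (L / 2)) ^ 2 := sq_nonneg _
      calc 1 - Real.cos (t * u) ≤ (t * u) ^ 2 / 2 := h2
        _ = t ^ 2 * u ^ 2 / 2 := by ring
        _ ≤ t ^ 2 * L ^ 2 / 2 := by
            have := mul_le_mul_of_nonneg_left h3 (sq_nonneg t)
            linarith
        _ = 2 * Real.exp 1 ^ 2 * t ^ 2 * (L ^ 2 / (4 * Real.exp 1 ^ 2)) := by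
            have he : Real.exp 1 ≠ 0 := (Real.exp_pos 1).ne'
            field_simp
            ring
        _ ≤ 2 * Real.exp 1 ^ 2 * t ^ 2 * (1 - Real.exp (L / 2)) ^ 2 :=
            mul_le_mul_of_nonneg_left h1 (by positivity)
        _ ≤ _ := mul_le_mul_of_nonneg_right h4 h5
  calc p * (1 - Real.cos (t * u)) ≤ p * (cT t * (1 - Real.exp (L / 2)) ^ 2) :=
        mul_le_mul_of_nonneg_left key hp.le
    _ = _ := by ring

section mat
variable {N α β : Type*} [Fintype N] [DecidableEq N] [Fintype α] [Fintype β] [DecidableEq α]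
  [DecidableEq β]

/-! ## the distance -/

/-- `|√ρ - √σ|₂²` in terms of the two eigenbases -/
noncomputable def dd (U V : Matrix α α ℂ) (p s : α → ℝ) : ℝ :=
  ∑ i, ∑ j, ‖(Uᴴ * V) i j‖ ^ 2 * (Real.sqrt (p i) - Real.sqrt (s j)) ^ 2

theorem dd_nonneg (U V : Matrix α α ℂ) (p s : α → ℝ) : 0 ≤ dd U V p s :=
  Finset.sum_nonneg fun i _ => Finset.sum_nonneg fun j _ => by positivity

theorem row_sum {W : Matrix α α ℂ} (hW : W * Wᴴ = 1) (i : α) : ∑ j, ‖W i j‖ ^ 2 = 1 := by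
  have h := congrFun (congrFun hW i) i
  rw [Matrix.mul_apply, Matrix.one_apply_eq] at h
  have h2 : ((∑ j, ‖W i j‖ ^ 2 : ℝ) : ℂ) = 1 := by
    rw [← h]
    push_cast
    refine Finset.sum_congr rfl fun j _ => ?_
    rw [conjTranspose_apply, ← Complex.conj_mul', mul_comm]
    rfl
  exact_mod_cast h2

theorem col_sum {W : Matrix α α ℂ} (hW : Wᴴ * W = 1) (j : α) : ∑ i, ‖W i j‖ ^ 2 = 1 := by
  have h := row_sum (W := Wᴴ) (by rw [conjTranspose_conjTranspose]; exact hW) j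
  rw [← h]
  refine Finset.sum_congr rfl fun i _ => ?_
  rw [conjTranspose_apply, norm_star]

/-- weighted form of the scalar inequality -/
theorem wsum_close (w : α → α → ℝ) (hw : ∀ i j, 0 ≤ w i j) {p s : α → ℝ} (hp : ∀ i, 0 ≤ p i)
    (hs : ∀ j, 0 ≤ s j) {f g : α → ℝ}
    (hfg : ∀ i j, 0 < p i → 0 < s j → |g j - f i| ≤ |Real.log (s j) - Real.log (p i)|) (t : ℝ) :
    ∑ i, ∑ j, w i j * (p i * (1 - Real.cos (t * (g j - f i)))) ≤
      cT t * ∑ i, ∑ j, w i j * (Real.sqrt (p i) - Real.sqrt (s j)) ^ 2 := by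
  rw [Finset.mul_sum]
  refine Finset.sum_le_sum fun i _ => ?_
  rw [Finset.mul_sum]
  refine Finset.sum_le_sum fun j _ => ?_
  have h := cos_close t (hp i) (hs j) (hfg i j)
  calc w i j * (p i * (1 - Real.cos (t * (g j - f i)))) ≤
      w i j * (cT t * (Real.sqrt (p i) - Real.sqrt (s j)) ^ 2) :=
        mul_le_mul_of_nonneg_left h (hw i j)
    _ = _ := by ring

/-- trace of a product of functions of two operators with different eigenbases -/
theorem trace_two (U V : Matrix α α ℂ) (hU : Uᴴ * U = 1) (p a b : α → ℂ) :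
    (U * diagonal p * Uᴴ * (V * diagonal b * Vᴴ * (U * diagonal a * Uᴴ))).trace =
      ∑ i, ∑ j, (((‖(Uᴴ * V) i j‖ ^ 2 : ℝ)) : ℂ) * (p i * a i * b j) := by
  have e1 : (U * diagonal p * Uᴴ * (V * diagonal b * Vᴴ * (U * diagonal a * Uᴴ))).trace =
      (diagonal p * (Uᴴ * V) * diagonal b * (Uᴴ * V)ᴴ * diagonal a).trace := by
    have : U * diagonal p * Uᴴ * (V * diagonal b * Vᴴ * (U * diagonal a * Uᴴ)) =
        (U * (diagonal p * (Uᴴ * V) * diagonal b * (Uᴴ * V)ᴴ * diagonal a)) * Uᴴ := by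
      rw [conjTranspose_mul, conjTranspose_conjTranspose]
      simp only [Matrix.mul_assoc]
    rw [this, Matrix.trace_mul_comm, ← Matrix.mul_assoc, hU, Matrix.one_mul]
  rw [e1, Matrix.trace]
  refine Finset.sum_congr rfl fun i _ => ?_
  rw [Matrix.diag_apply, Matrix.mul_diagonal, Matrix.mul_apply, Finset.sum_mul]
  refine Finset.sum_congr rfl fun j _ => ?_
  rw [Matrix.mul_diagonal, Matrix.diagonal_mul, conjTranspose_apply]
  have h : (((‖(Uᴴ * V) i j‖ ^ 2 : ℝ)) : ℂ) = (Uᴴ * V) i j * star ((Uᴴ * V) i j) := by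
    rw [Complex.ofReal_pow, ← Complex.mul_conj']
    rfl
  rw [h]
  ring

/-- the phases of a flow -/
noncomputable def ph (t : ℝ) (f : α → ℝ) : α → ℂ :=
  fun i => Complex.exp (((t * f i : ℝ) : ℂ) * Complex.I)

theorem ph_star (t : ℝ) (f : α → ℝ) (i : α) : star (ph t f i) = ph (-t) f i := by
  rw [ph, ph, RCLike.star_def, ← Complex.exp_conj, map_mul, Complex.conj_I, Complex.conj_ofReal]
  congr 1
  push_cast
  ring

theorem ph_mul_neg (t : ℝ) (f : α → ℝ) (i : α) : ph t f i * ph (-t) f i = 1 := by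
  rw [ph, ph, ← Complex.exp_add]
  rw [show ((t * f i : ℝ) : ℂ) * Complex.I + ((-t * f i : ℝ) : ℂ) * Complex.I = 0 by
    push_cast; ring]
  exact Complex.exp_zero

theorem ph_norm (t : ℝ) (f : α → ℝ) (i : α) : ‖ph t f i‖ = 1 := by
  rw [ph, Complex.norm_exp_ofReal_mul_I]

theorem ph_add (t t' : ℝ) (f : α → ℝ) (i : α) : ph (t + t') f i = ph t f i * ph t' f i := by
  rw [ph, ph, ph, ← Complex.exp_add]
  congr 1
  push_cast
  ring

theorem ph_zero (f : α → ℝ) (i : α) : ph 0 f i = 1 := by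
  rw [ph, zero_mul, Complex.ofReal_zero, zero_mul, Complex.exp_zero]

/-- matrix form: for two states with eigenbases `U`, `V` -/
theorem flow_close_mat {U V : Matrix α α ℂ} (hU : Uᴴ * U = 1) (hV : Vᴴ * V = 1) {p s : α → ℝ}
    (hp : ∀ i, 0 ≤ p i) (hp1 : ∑ i, p i = 1) (hs : ∀ j, 0 ≤ s j) {f g : α → ℝ}
    (hfg : ∀ i j, 0 < p i → 0 < s j → |g j - f i| ≤ |Real.log (s j) - Real.log (p i)|) (t : ℝ) :
    2 * (1 - ((U * diagonal (fun i => (p i : ℂ)) * Uᴴ *
      (V * diagonal (ph t g) * Vᴴ * (U * diagonal (ph (-t) f) * Uᴴ))).trace).re) ≤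
      2 * cT t * dd U V p s := by
  have hVV : V * Vᴴ = 1 := mul_eq_one_comm.mp hV
  have hW : (Uᴴ * V) * (Uᴴ * V)ᴴ = 1 := by
    rw [conjTranspose_mul, conjTranspose_conjTranspose]
    calc Uᴴ * V * (Vᴴ * U) = Uᴴ * (V * Vᴴ) * U := by simp only [Matrix.mul_assoc]
      _ = 1 := by rw [hVV, Matrix.mul_one, hU]
  have h1 := row_sum hW
  rw [trace_two U V hU]
  have h2 : (∑ i, ∑ j, (((‖(Uᴴ * V) i j‖ ^ 2 : ℝ)) : ℂ) *
      ((p i : ℂ) * ph (-t) f i * ph t g j)).re =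
      ∑ i, ∑ j, ‖(Uᴴ * V) i j‖ ^ 2 * (p i * Real.cos (t * (g j - f i))) := by
    rw [Complex.re_sum]
    refine Finset.sum_congr rfl fun i _ => ?_
    rw [Complex.re_sum]
    refine Finset.sum_congr rfl fun j _ => ?_
    have h3 : (p i : ℂ) * ph (-t) f i * ph t g j =
        (p i : ℂ) * Complex.exp (((t * (g j - f i) : ℝ) : ℂ) * Complex.I) := by
      rw [mul_assoc, ph, ph, ← Complex.exp_add]
      congr 2
      push_cast
      ring
    rw [h3, Complex.re_ofReal_mul, Complex.re_ofReal_mul, Complex.exp_ofReal_mul_I_re]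
  rw [h2]
  have h4 : (1 : ℝ) = ∑ i, ∑ j, ‖(Uᴴ * V) i j‖ ^ 2 * p i := by
    rw [← hp1]
    refine Finset.sum_congr rfl fun i _ => ?_
    rw [← Finset.sum_mul, h1 i, one_mul]
  have h5 : 1 - ∑ i, ∑ j, ‖(Uᴴ * V) i j‖ ^ 2 * (p i * Real.cos (t * (g j - f i))) =
      ∑ i, ∑ j, ‖(Uᴴ * V) i j‖ ^ 2 * (p i * (1 - Real.cos (t * (g j - f i)))) := by
    nth_rewrite 1 [h4]
    rw [← Finset.sum_sub_distrib]
    refine Finset.sum_congr rfl fun i _ => ?_
    rw [← Finset.sum_sub_distrib]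
    refine Finset.sum_congr rfl fun j _ => ?_
    ring
  rw [h5]
  have h6 := wsum_close (fun i j => ‖(Uᴴ * V) i j‖ ^ 2) (fun i j => by positivity) hp hs hfg t
  rw [mul_assoc]
  exact mul_le_mul_of_nonneg_left h6 (by norm_num)

/-! ## unitaries -/

theorem cOp_ph_unit (x : α × β → ℂ) (t : ℝ) (f : α → ℝ) :
    (cOp x (ph t f))ᴴ * cOp x (ph t f) = 1 := by
  rw [cOp_conjTranspose, cOp_mul]
  have : (fun i => star (ph t f i) * ph t f i) = fun _ : α => (1 : ℂ) := by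
    funext i
    rw [ph_star, mul_comm, ph_mul_neg]
  rw [this, cOp_one]

theorem cOp_ph_star (x : α × β → ℂ) (t : ℝ) (f : α → ℝ) :
    (cOp x (ph t f))ᴴ = cOp x (ph (-t) f) := by
  rw [cOp_conjTranspose]
  congr 1
  funext i
  exact ph_star t f i

theorem nsq_unit {A : Matrix N N ℂ} (hA : Aᴴ * A = 1) (v : N → ℂ) : nsq (A *ᵥ v) = nsq v := by
  have h : star (A *ᵥ v) ⬝ᵥ (A *ᵥ v) = star v ⬝ᵥ v := by
    rw [star_mulVec, ← dotProduct_mulVec, mulVec_mulVec, hA, one_mulVec]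
  rw [ip_self, ip_self] at h
  exact_mod_cast h

theorem nsq_unit_sub {A : Matrix N N ℂ} (hA : Aᴴ * A = 1) (v : N → ℂ) :
    nsq (A *ᵥ v - v) = 2 * (nsq v - (star v ⬝ᵥ (A *ᵥ v)).re) := by
  have h := nsq_add (-v) (A *ᵥ v)
  rw [show -v + A *ᵥ v = A *ᵥ v - v by abel] at h
  rw [h, nsq_unit hA]
  have h1 : nsq (-v) = nsq v := by
    unfold nsq
    refine Finset.sum_congr rfl fun i _ => ?_
    rw [Pi.neg_apply, norm_neg]
  rw [h1, star_neg, neg_dotProduct, Complex.neg_re]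
  ring

/-- the distance of the reduced states of `x` and `y` -/
noncomputable def dH {β' : Type*} [Fintype β'] [DecidableEq β'] (x : α × β → ℂ)
    (y : α × β' → ℂ) : ℝ :=
  dd (eigU x) (eigU y) (eigp x) (eigp y)

/-- **Pointwise closeness of the flows** (splitting form): `σ^{it} ρ^{-it} ψ` is close to `ψ`
for every real `t`. -/
theorem flow_close (e : N ≃ α × β) {ψ : N → ℂ} (hψ : nsq ψ = 1) {β' : Type*} [Fintype β']
    [DecidableEq β'] (y : α × β' → ℂ) {f g : α → ℝ}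
    (hfg : ∀ i j, 0 < eigp (ψ ∘ e.symm) i → 0 < eigp y j →
      |g j - f i| ≤ |Real.log (eigp y j) - Real.log (eigp (ψ ∘ e.symm) i)|) (t : ℝ) :
    nsq (opL e (cOp y (ph t g)) *ᵥ (opL e (cOp (ψ ∘ e.symm) (ph (-t) f)) *ᵥ ψ) - ψ) ≤
      2 * cT t * dH (ψ ∘ e.symm) y := by
  set x := ψ ∘ e.symm with hx
  have hx1 : ∑ z, ‖x z‖ ^ 2 = 1 := by
    have := nsq_comp e ψ
    rw [hψ] at this
    exact this
  have h1 : opL e (cOp y (ph t g)) *ᵥ (opL e (cOp x (ph (-t) f)) *ᵥ ψ) =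
      opL e (cOp y (ph t g) * cOp x (ph (-t) f)) *ᵥ ψ := by
    rw [mulVec_mulVec, ← opL_mul]
  have hunit : (cOp y (ph t g) * cOp x (ph (-t) f))ᴴ *
      (cOp y (ph t g) * cOp x (ph (-t) f)) = 1 := by
    rw [conjTranspose_mul]
    calc (cOp x (ph (-t) f))ᴴ * (cOp y (ph t g))ᴴ * (cOp y (ph t g) * cOp x (ph (-t) f)) =
        (cOp x (ph (-t) f))ᴴ * ((cOp y (ph t g))ᴴ * cOp y (ph t g)) * cOp x (ph (-t) f) := by
          simp only [Matrix.mul_assoc]
      _ = 1 := by rw [cOp_ph_unit, Matrix.mul_one, cOp_ph_unit]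
  have hunit2 : (opL e (cOp y (ph t g) * cOp x (ph (-t) f)))ᴴ *
      opL e (cOp y (ph t g) * cOp x (ph (-t) f)) = 1 := by
    rw [opL_conjTranspose, ← opL_mul, hunit, opL_one]
  rw [h1, nsq_unit_sub hunit2, hψ, expect_opL, ← hx, redA_spec x]
  exact flow_close_mat (eigU_mul' x) (eigU_mul' y) (eigp_nonneg x) (eigp_sum x hx1)
    (eigp_nonneg y) hfg t

/-- the two flowed vectors are close -/
theorem flow_close_vec (e : N ≃ α × β) {ψ : N → ℂ} (hψ : nsq ψ = 1) {β' : Type*} [Fintype β']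
    [DecidableEq β'] (y : α × β' → ℂ) {f g : α → ℝ}
    (hfg : ∀ i j, 0 < eigp (ψ ∘ e.symm) i → 0 < eigp y j →
      |g j - f i| ≤ |Real.log (eigp y j) - Real.log (eigp (ψ ∘ e.symm) i)|) (t : ℝ) :
    nsq (opL e (cOp (ψ ∘ e.symm) (ph t f)) *ᵥ ψ - opL e (cOp y (ph t g)) *ᵥ ψ) ≤
      2 * cT t * dH (ψ ∘ e.symm) y := by
  have h := flow_close e hψ y hfg (-t)
  have hcT : cT (-t) = cT t := by unfold cT; rw [neg_sq]
  rw [hcT, neg_neg] at h
  have hunit2 : (opL e (cOp y (ph (-t) g)))ᴴ * opL e (cOp y (ph (-t) g)) = 1 := by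
    rw [opL_conjTranspose, ← opL_mul, cOp_ph_unit, opL_one]
  have h2 : opL e (cOp y (ph (-t) g)) *ᵥ
      (opL e (cOp (ψ ∘ e.symm) (ph t f)) *ᵥ ψ - opL e (cOp y (ph t g)) *ᵥ ψ) =
      opL e (cOp y (ph (-t) g)) *ᵥ (opL e (cOp (ψ ∘ e.symm) (ph t f)) *ᵥ ψ) - ψ := by
    rw [mulVec_sub, mulVec_mulVec _ (opL e (cOp y (ph (-t) g))) (opL e (cOp y (ph t g))),
      ← opL_mul]
    have : cOp y (ph (-t) g) * cOp y (ph t g) = 1 := by
      rw [← cOp_ph_star]
      exact cOp_ph_unit y t g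
    rw [this, opL_one, one_mulVec]
  rw [← nsq_unit hunit2, h2]
  exact h

/-! ## Hilbert-Schmidt norm -/

/-- Hilbert-Schmidt norm, squared -/
noncomputable def hs2 (M : Matrix α α ℂ) : ℝ := ∑ i, ∑ j, ‖M i j‖ ^ 2

theorem hs2_nonneg (M : Matrix α α ℂ) : 0 ≤ hs2 M :=
  Finset.sum_nonneg fun i _ => Finset.sum_nonneg fun j _ => by positivity

theorem hs2_conjTranspose (M : Matrix α α ℂ) : hs2 Mᴴ = hs2 M := by
  unfold hs2
  rw [Finset.sum_comm]
  refine Finset.sum_congr rfl fun i _ => Finset.sum_congr rfl fun j _ => ?_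
  rw [conjTranspose_apply, norm_star]

/-- by columns -/
theorem hs2_cols (M : Matrix α α ℂ) : hs2 M = ∑ j, nsq (fun i => M i j) := by
  unfold hs2 nsq
  rw [Finset.sum_comm]

theorem mul_col (X M : Matrix α α ℂ) (j : α) :
    (fun i => (X * M) i j) = X *ᵥ (fun i => M i j) := by
  funext i
  rw [Matrix.mul_apply]
  rfl

theorem hs2_mul_le (X M : Matrix α α ℂ) : hs2 (X * M) ≤ ‖X‖ ^ 2 * hs2 M := by
  rw [hs2_cols, hs2_cols, Finset.mul_sum]
  refine Finset.sum_le_sum fun j _ => ?_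
  rw [mul_col]
  exact PH.ph_nsq_mulVec_le X _

theorem hs2_mul_le' (M X : Matrix α α ℂ) : hs2 (M * X) ≤ ‖X‖ ^ 2 * hs2 M := by
  rw [← hs2_conjTranspose, conjTranspose_mul]
  have h := hs2_mul_le Xᴴ Mᴴ
  rw [hs2_conjTranspose M] at h
  rw [show ‖Xᴴ‖ = ‖X‖ from norm_star X] at h
  exact h

theorem hs2_unit_left {A : Matrix α α ℂ} (hA : Aᴴ * A = 1) (M : Matrix α α ℂ) :
    hs2 (A * M) = hs2 M := by
  rw [hs2_cols, hs2_cols]
  refine Finset.sum_congr rfl fun j _ => ?_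
  rw [mul_col, nsq_unit hA]

theorem hs2_unit_right {A : Matrix α α ℂ} (hA : A * Aᴴ = 1) (M : Matrix α α ℂ) :
    hs2 (M * A) = hs2 M := by
  rw [← hs2_conjTranspose, conjTranspose_mul, hs2_unit_left, hs2_conjTranspose]
  rw [conjTranspose_conjTranspose]
  exact hA

theorem hs2_add_le (M M' : Matrix α α ℂ) : hs2 (M + M') ≤ 2 * hs2 M + 2 * hs2 M' := by
  unfold hs2
  rw [Finset.mul_sum, Finset.mul_sum, ← Finset.sum_add_distrib]
  refine Finset.sum_le_sum fun i _ => ?_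
  rw [Finset.mul_sum, Finset.mul_sum, ← Finset.sum_add_distrib]
  refine Finset.sum_le_sum fun j _ => ?_
  rw [Matrix.add_apply]
  have h := norm_add_le (M i j) (M' i j)
  have h0 := norm_nonneg (M i j + M' i j)
  nlinarith [sq_nonneg (‖M i j‖ - ‖M' i j‖)]

theorem trace_cs (M M' : Matrix α α ℂ) :
    ‖(M * M').trace‖ ≤ Real.sqrt (hs2 M) * Real.sqrt (hs2 M') := by
  have h1 : ‖(M * M').trace‖ ≤ ∑ z : α × α, ‖M z.1 z.2‖ * ‖M' z.2 z.1‖ := by
    rw [Fintype.sum_prod_type]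
    simp only [Matrix.trace, Matrix.diag_apply, Matrix.mul_apply]
    refine (norm_sum_le _ _).trans (Finset.sum_le_sum fun i _ => ?_)
    refine (norm_sum_le _ _).trans (Finset.sum_le_sum fun j _ => ?_)
    rw [norm_mul]
  refine h1.trans ?_
  have h2 := Real.sum_mul_le_sqrt_mul_sqrt (Finset.univ : Finset (α × α))
    (fun z => ‖M z.1 z.2‖) (fun z => ‖M' z.2 z.1‖)
  have e1 : hs2 M = ∑ z : α × α, ‖M z.1 z.2‖ ^ 2 := by
    rw [Fintype.sum_prod_type]; rfl
  have e2 : hs2 M' = ∑ z : α × α, ‖M' z.2 z.1‖ ^ 2 := by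
    rw [Fintype.sum_prod_type, ← hs2_conjTranspose]
    unfold hs2
    refine Finset.sum_congr rfl fun i _ => Finset.sum_congr rfl fun j _ => ?_
    rw [conjTranspose_apply, norm_star]
  rw [e1, e2]
  exact h2

/-! ## functions of a Hermitian matrix given by its eigenbasis -/

/-- the matrix with eigenbasis `U` and eigenvalues `a` -/
noncomputable def sp (U : Matrix α α ℂ) (a : α → ℝ) : Matrix α α ℂ :=
  U * diagonal (fun i => (a i : ℂ)) * Uᴴ

theorem sp_herm (U : Matrix α α ℂ) (a : α → ℝ) : (sp U a)ᴴ = sp U a := by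
  rw [sp, conjTranspose_mul, conjTranspose_mul, conjTranspose_conjTranspose,
    diagonal_conjTranspose, Matrix.mul_assoc]
  congr 3
  funext i
  simp only [Pi.star_apply, RCLike.star_def, Complex.conj_ofReal]

theorem sp_mul {U : Matrix α α ℂ} (hU : Uᴴ * U = 1) (a b : α → ℝ) :
    sp U a * sp U b = sp U (fun i => a i * b i) := by
  rw [sp, sp, sp]
  calc U * diagonal (fun i => (a i : ℂ)) * Uᴴ * (U * diagonal (fun i => (b i : ℂ)) * Uᴴ) =
      U * diagonal (fun i => (a i : ℂ)) * (Uᴴ * U) * diagonal (fun i => (b i : ℂ)) * Uᴴ := by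
        simp only [Matrix.mul_assoc]
    _ = U * (diagonal (fun i => (a i : ℂ)) * diagonal (fun i => (b i : ℂ))) * Uᴴ := by
        rw [hU, Matrix.mul_one, Matrix.mul_assoc U]
    _ = _ := by
        rw [diagonal_mul_diagonal]
        simp only [Complex.ofReal_mul]

theorem sp_one {U : Matrix α α ℂ} (hU : U * Uᴴ = 1) : sp U (fun _ => 1) = 1 := by
  rw [sp]
  simp only [Complex.ofReal_one, diagonal_one, Matrix.mul_one]
  exact hU

/-- the diagonal in another basis -/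
theorem sp_diag (U E : Matrix α α ℂ) (a : α → ℝ) (i : α) :
    (Eᴴ * sp U a * E) i i = ((∑ k, a k * ‖(Eᴴ * U) i k‖ ^ 2 : ℝ) : ℂ) := by
  have h : Eᴴ * sp U a * E = (Eᴴ * U) * diagonal (fun i => (a i : ℂ)) * (Eᴴ * U)ᴴ := by
    rw [conjTranspose_mul, conjTranspose_conjTranspose, sp]
    simp only [Matrix.mul_assoc]
  rw [h, Matrix.mul_apply]
  push_cast
  refine Finset.sum_congr rfl fun k _ => ?_
  rw [Matrix.mul_diagonal, conjTranspose_apply]
  have h2 : ((‖(Eᴴ * U) i k‖ : ℂ)) ^ 2 = (Eᴴ * U) i k * star ((Eᴴ * U) i k) := by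
    rw [← Complex.mul_conj']
    rfl
  rw [h2]
  ring

theorem sp_diff_hs2 {U V : Matrix α α ℂ} (hU : Uᴴ * U = 1) (hV : Vᴴ * V = 1) (p s : α → ℝ) :
    hs2 (sp U (fun i => Real.sqrt (p i)) - sp V (fun i => Real.sqrt (s i))) = dd U V p s := by
  have hUU : U * Uᴴ = 1 := mul_eq_one_comm.mp hU
  have hVV : V * Vᴴ = 1 := mul_eq_one_comm.mp hV
  rw [← hs2_unit_right hVV, ← hs2_unit_left (A := Uᴴ) (by
    rw [conjTranspose_conjTranspose]; exact hUU)]
  have h : Uᴴ * ((sp U (fun i => Real.sqrt (p i)) - sp V (fun i => Real.sqrt (s i))) * V) =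
      diagonal (fun i => ((Real.sqrt (p i) : ℝ) : ℂ)) * (Uᴴ * V) -
        (Uᴴ * V) * diagonal (fun i => ((Real.sqrt (s i) : ℝ) : ℂ)) := by
    rw [sp, sp, Matrix.sub_mul, Matrix.mul_sub]
    congr 1
    · calc Uᴴ * (U * diagonal (fun i => ((Real.sqrt (p i) : ℝ) : ℂ)) * Uᴴ * V) =
          (Uᴴ * U) * (diagonal (fun i => ((Real.sqrt (p i) : ℝ) : ℂ)) * (Uᴴ * V)) := by
            simp only [Matrix.mul_assoc]
        _ = _ := by rw [hU, Matrix.one_mul]
    · calc Uᴴ * (V * diagonal (fun i => ((Real.sqrt (s i) : ℝ) : ℂ)) * Vᴴ * V) =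
          (Uᴴ * V) * diagonal (fun i => ((Real.sqrt (s i) : ℝ) : ℂ)) * (Vᴴ * V) := by
            simp only [Matrix.mul_assoc]
        _ = _ := by rw [hV, Matrix.mul_one]
  rw [h]
  unfold hs2 dd
  refine Finset.sum_congr rfl fun i _ => Finset.sum_congr rfl fun j _ => ?_
  rw [Matrix.sub_apply, Matrix.diagonal_mul, Matrix.mul_diagonal]
  have h2 : ((Real.sqrt (p i) : ℝ) : ℂ) * (Uᴴ * V) i j - (Uᴴ * V) i j * ((Real.sqrt (s j) : ℝ) : ℂ) =
      (Uᴴ * V) i j * (((Real.sqrt (p i) - Real.sqrt (s j) : ℝ)) : ℂ) := by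
    push_cast
    ring
  rw [h2, norm_mul, mul_pow, Complex.norm_real, Real.norm_eq_abs, sq_abs]

theorem sp_sqrt_hs2 {U : Matrix α α ℂ} (hU : Uᴴ * U = 1) {p : α → ℝ} (hp : ∀ i, 0 ≤ p i) :
    hs2 (sp U (fun i => Real.sqrt (p i))) = ∑ i, p i := by
  have hUU : U * Uᴴ = 1 := mul_eq_one_comm.mp hU
  rw [← hs2_unit_right hUU, ← hs2_unit_left (A := Uᴴ) (by
    rw [conjTranspose_conjTranspose]; exact hUU)]
  have h : Uᴴ * (sp U (fun i => Real.sqrt (p i)) * U) =
      diagonal (fun i => ((Real.sqrt (p i) : ℝ) : ℂ)) := by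
    rw [sp]
    calc Uᴴ * (U * diagonal (fun i => ((Real.sqrt (p i) : ℝ) : ℂ)) * Uᴴ * U) =
        (Uᴴ * U) * diagonal (fun i => ((Real.sqrt (p i) : ℝ) : ℂ)) * (Uᴴ * U) := by
          simp only [Matrix.mul_assoc]
      _ = _ := by rw [hU, Matrix.one_mul, Matrix.mul_one]
  rw [h]
  unfold hs2
  refine Finset.sum_congr rfl fun i _ => ?_
  rw [Finset.sum_eq_single i]
  · rw [Matrix.diagonal_apply_eq, Complex.norm_real, Real.norm_eq_abs, sq_abs,
      Real.sq_sqrt (hp i)]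
  · intro j _ hj
    rw [Matrix.diagonal_apply_ne _ (Ne.symm hj), norm_zero]
    norm_num
  · intro h
    exact absurd (Finset.mem_univ i) h

theorem sp_sqrt_sq {U : Matrix α α ℂ} (hU : Uᴴ * U = 1) {p : α → ℝ} (hp : ∀ i, 0 ≤ p i) :
    sp U (fun i => Real.sqrt (p i)) * sp U (fun i => Real.sqrt (p i)) = sp U p := by
  rw [sp_mul hU]
  congr 1
  funext i
  exact Real.mul_self_sqrt (hp i)

/-- **Powers-Størmer, observable form.** -/
theorem ps_obs {U V : Matrix α α ℂ} (hU : Uᴴ * U = 1) (hV : Vᴴ * V = 1) {p s : α → ℝ}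
    (hp : ∀ i, 0 ≤ p i) (hs : ∀ j, 0 ≤ s j) :
    ∃ O : Matrix α α ℂ, Oᴴ = O ∧ O * O = 1 ∧
      dd U V p s ≤ (((sp U p - sp V s) * O).trace).re := by
  set A := sp U (fun i => Real.sqrt (p i)) with hA
  set B := sp V (fun i => Real.sqrt (s i)) with hB
  have hD : (A - B).IsHermitian := by
    show (A - B)ᴴ = A - B
    rw [conjTranspose_sub, hA, hB, sp_herm, sp_herm]
  set E : Matrix α α ℂ := (hD.eigenvectorUnitary : Matrix α α ℂ) with hE
  set d : α → ℝ := hD.eigenvalues with hd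
  have hEE : Eᴴ * E = 1 := by
    have := Matrix.mem_unitaryGroup_iff'.mp (hD.eigenvectorUnitary).2
    exact this
  have hEE' : E * Eᴴ = 1 := mul_eq_one_comm.mp hEE
  have hsp : A - B = sp E d := by
    have := hD.spectral_theorem
    rw [Unitary.conjStarAlgAut_apply] at this
    exact this
  set sg : α → ℝ := fun i => if 0 ≤ d i then 1 else -1 with hsg
  refine ⟨sp E sg, sp_herm _ _, ?_, ?_⟩
  · rw [sp_mul hEE]
    have : (fun i => sg i * sg i) = fun _ => (1 : ℝ) := by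
      funext i
      simp only [hsg]
      split_ifs <;> norm_num
    rw [this, sp_one hEE']
  · set O := sp E sg with hO
    have hOD : O * (A - B) = sp E (fun i => |d i|) := by
      rw [hO, hsp, sp_mul hEE]
      congr 1
      funext i
      simp only [hsg]
      split_ifs with h
      · rw [one_mul, abs_of_nonneg h]
      · rw [abs_of_neg (not_le.mp h)]; ring
    have hDO : (A - B) * O = sp E (fun i => |d i|) := by
      rw [hO, hsp, sp_mul hEE]
      congr 1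
      funext i
      simp only [hsg]
      split_ifs with h
      · rw [mul_one, abs_of_nonneg h]
      · rw [abs_of_neg (not_le.mp h)]; ring
    have e1 : (2 : ℂ) • (sp U p - sp V s) = (A - B) * (A + B) + (A + B) * (A - B) := by
      rw [← sp_sqrt_sq hU hp, ← sp_sqrt_sq hV hs, ← hA, ← hB, two_smul]
      noncomm_ring
    have e2 : (2 : ℂ) * ((sp U p - sp V s) * O).trace =
        (2 : ℂ) * (sp E (fun i => |d i|) * (A + B)).trace := by
      calc (2 : ℂ) * ((sp U p - sp V s) * O).trace =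
          (((2 : ℂ) • (sp U p - sp V s)) * O).trace := by
            rw [Matrix.smul_mul, Matrix.trace_smul, smul_eq_mul]
        _ = ((A - B) * (A + B) * O).trace + ((A + B) * (A - B) * O).trace := by
            rw [e1, Matrix.add_mul, Matrix.trace_add]
        _ = (O * (A - B) * (A + B)).trace + ((A + B) * ((A - B) * O)).trace := by
            rw [Matrix.trace_mul_comm ((A - B) * (A + B)) O, Matrix.mul_assoc O,
              Matrix.mul_assoc (A + B)]
        _ = _ := by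
            rw [hOD, hDO, Matrix.trace_mul_comm (A + B)]
            ring
    have e3 : ((sp U p - sp V s) * O).trace = (sp E (fun i => |d i|) * (A + B)).trace :=
      mul_left_cancel₀ two_ne_zero e2
    -- diagonals
    set a : α → ℝ := fun i => ∑ k, Real.sqrt (p k) * ‖(Eᴴ * U) i k‖ ^ 2 with ha
    set b : α → ℝ := fun i => ∑ k, Real.sqrt (s k) * ‖(Eᴴ * V) i k‖ ^ 2 with hb
    have ha0 : ∀ i, 0 ≤ a i := fun i => Finset.sum_nonneg fun k _ => by positivity
    have hb0 : ∀ i, 0 ≤ b i := fun i => Finset.sum_nonneg fun k _ => by positivity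
    have hAi : ∀ i, (Eᴴ * A * E) i i = (a i : ℂ) := fun i => sp_diag U E _ i
    have hBi : ∀ i, (Eᴴ * B * E) i i = (b i : ℂ) := fun i => sp_diag V E _ i
    have hDm : Eᴴ * (A - B) * E = diagonal (fun i => (d i : ℂ)) := by
      rw [hsp, sp]
      calc Eᴴ * (E * diagonal (fun i => (d i : ℂ)) * Eᴴ) * E =
          (Eᴴ * E) * diagonal (fun i => (d i : ℂ)) * (Eᴴ * E) := by
            simp only [Matrix.mul_assoc]
        _ = _ := by rw [hEE, Matrix.one_mul, Matrix.mul_one]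
    have hdi : ∀ i, d i = a i - b i := by
      intro i
      have h1 : (Eᴴ * (A - B) * E) i i = (d i : ℂ) := by rw [hDm, Matrix.diagonal_apply_eq]
      rw [Matrix.mul_sub, Matrix.sub_mul, Matrix.sub_apply, hAi, hBi] at h1
      exact_mod_cast h1.symm
    have e4 : (sp E (fun i => |d i|) * (A + B)).trace =
        ((∑ i, |d i| * (a i + b i) : ℝ) : ℂ) := by
      have h1 : (sp E (fun i => |d i|) * (A + B)).trace =
          (diagonal (fun i => ((|d i| : ℝ) : ℂ)) * (Eᴴ * (A + B) * E)).trace := by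
        rw [sp, Matrix.mul_assoc, Matrix.mul_assoc, Matrix.trace_mul_comm]
        simp only [Matrix.mul_assoc]
      rw [h1, Matrix.trace]
      push_cast
      refine Finset.sum_congr rfl fun i _ => ?_
      rw [Matrix.diag_apply, Matrix.diagonal_mul, Matrix.mul_add, Matrix.add_mul,
        Matrix.add_apply, hAi, hBi]
    have e5 : dd U V p s = ∑ i, d i ^ 2 := by
      rw [← sp_diff_hs2 hU hV, ← hA, ← hB]
      rw [← hs2_unit_right hEE', ← hs2_unit_left (A := Eᴴ) (by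
        rw [conjTranspose_conjTranspose]; exact hEE'), ← Matrix.mul_assoc, hDm]
      unfold hs2
      refine Finset.sum_congr rfl fun i _ => ?_
      rw [Finset.sum_eq_single i]
      · rw [Matrix.diagonal_apply_eq, Complex.norm_real, Real.norm_eq_abs, sq_abs]
      · intro j _ hj
        rw [Matrix.diagonal_apply_ne _ (Ne.symm hj), norm_zero]
        norm_num
      · intro h
        exact absurd (Finset.mem_univ i) h
    rw [e3, e4, e5, Complex.ofReal_re]
    refine Finset.sum_le_sum fun i _ => ?_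
    have h1 : |d i| ≤ a i + b i := by
      rw [hdi i, abs_le]
      constructor <;> linarith [ha0 i, hb0 i]
    calc d i ^ 2 = |d i| * |d i| := by rw [← sq, sq_abs]
      _ ≤ |d i| * (a i + b i) := mul_le_mul_of_nonneg_left h1 (abs_nonneg _)

/-- Observables do not distinguish close states. -/
theorem obs_le {U V : Matrix α α ℂ} (hU : Uᴴ * U = 1) (hV : Vᴴ * V = 1) {p s : α → ℝ}
    (hp : ∀ i, 0 ≤ p i) (hp1 : ∑ i, p i = 1) (hs : ∀ j, 0 ≤ s j) (hs1 : ∑ i, s i = 1)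
    (X : Matrix α α ℂ) :
    ‖((sp U p - sp V s) * X).trace‖ ≤ 2 * ‖X‖ * Real.sqrt (dd U V p s) := by
  set A := sp U (fun i => Real.sqrt (p i)) with hA
  set B := sp V (fun i => Real.sqrt (s i)) with hB
  have e1 : sp U p - sp V s = A * (A - B) + (A - B) * B := by
    rw [← sp_sqrt_sq hU hp, ← sp_sqrt_sq hV hs, ← hA, ← hB]
    noncomm_ring
  have hA1 : hs2 A = 1 := by rw [hA, sp_sqrt_hs2 hU hp, hp1]
  have hB1 : hs2 B = 1 := by rw [hB, sp_sqrt_hs2 hV hs, hs1]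
  have hDd : hs2 (A - B) = dd U V p s := sp_diff_hs2 hU hV p s
  have h1 : ‖(A * (A - B) * X).trace‖ ≤ ‖X‖ * Real.sqrt (dd U V p s) := by
    rw [Matrix.mul_assoc]
    refine (trace_cs A ((A - B) * X)).trans ?_
    rw [hA1, Real.sqrt_one, one_mul]
    have h2 := hs2_mul_le' (A - B) X
    rw [hDd] at h2
    calc Real.sqrt (hs2 ((A - B) * X)) ≤ Real.sqrt (‖X‖ ^ 2 * dd U V p s) :=
          Real.sqrt_le_sqrt h2
      _ = ‖X‖ * Real.sqrt (dd U V p s) := by
          rw [Real.sqrt_mul (sq_nonneg _), Real.sqrt_sq (norm_nonneg _)]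
  have h3 : ‖((A - B) * B * X).trace‖ ≤ ‖X‖ * Real.sqrt (dd U V p s) := by
    rw [Matrix.mul_assoc]
    refine (trace_cs (A - B) (B * X)).trans ?_
    rw [hDd]
    have h2 := hs2_mul_le' B X
    rw [hB1, mul_one] at h2
    have h4 : Real.sqrt (hs2 (B * X)) ≤ ‖X‖ := by
      calc Real.sqrt (hs2 (B * X)) ≤ Real.sqrt (‖X‖ ^ 2) := Real.sqrt_le_sqrt h2
        _ = ‖X‖ := Real.sqrt_sq (norm_nonneg _)
    calc Real.sqrt (dd U V p s) * Real.sqrt (hs2 (B * X)) ≤
        Real.sqrt (dd U V p s) * ‖X‖ :=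
          mul_le_mul_of_nonneg_left h4 (Real.sqrt_nonneg _)
      _ = _ := mul_comm _ _
  rw [e1, Matrix.add_mul, Matrix.trace_add]
  refine (norm_add_le _ _).trans ?_
  linarith

/-! ## splitting form -/

theorem redA_sp (x : α × β → ℂ) : redA x = sp (eigU x) (eigp x) := redA_spec x

theorem eigp_sum' (e : N ≃ α × β) {ψ : N → ℂ} (hψ : nsq ψ = 1) :
    ∑ i, eigp (ψ ∘ e.symm) i = 1 := by
  refine eigp_sum _ ?_
  have := nsq_comp e ψ
  rw [hψ] at this
  exact this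

theorem dH_nonneg {β' : Type*} [Fintype β'] [DecidableEq β'] (x : α × β → ℂ)
    (y : α × β' → ℂ) : 0 ≤ dH x y := dd_nonneg _ _ _ _

/-- **Powers-Størmer** : a local observable (Hermitian involution) which detects the distance of the
reduced states. -/
theorem ps_split (e : N ≃ α × β) (ψ φ : N → ℂ) :
    ∃ O : Matrix α α ℂ, Oᴴ = O ∧ O * O = 1 ∧
      dH (ψ ∘ e.symm) (φ ∘ e.symm) ≤
        (star ψ ⬝ᵥ (opL e O *ᵥ ψ)).re - (star φ ⬝ᵥ (opL e O *ᵥ φ)).re := by
  obtain ⟨O, h1, h2, h3⟩ := ps_obs (eigU_mul' (ψ ∘ e.symm)) (eigU_mul' (φ ∘ e.symm))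
    (eigp_nonneg (ψ ∘ e.symm)) (eigp_nonneg (φ ∘ e.symm))
  refine ⟨O, h1, h2, h3.trans (le_of_eq ?_)⟩
  rw [expect_opL, expect_opL, ← redA_sp, ← redA_sp, Matrix.sub_mul, Matrix.trace_sub,
    Complex.sub_re]

theorem obs_split (e : N ≃ α × β) {ψ φ : N → ℂ} (hψ : nsq ψ = 1) (hφ : nsq φ = 1)
    (X : Matrix α α ℂ) :
    ‖star ψ ⬝ᵥ (opL e X *ᵥ ψ) - star φ ⬝ᵥ (opL e X *ᵥ φ)‖ ≤
      2 * ‖X‖ * Real.sqrt (dH (ψ ∘ e.symm) (φ ∘ e.symm)) := by
  have h := obs_le (eigU_mul' (ψ ∘ e.symm)) (eigU_mul' (φ ∘ e.symm))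
    (eigp_nonneg (ψ ∘ e.symm)) (eigp_sum' e hψ) (eigp_nonneg (φ ∘ e.symm)) (eigp_sum' e hφ) X
  rw [← redA_sp, ← redA_sp, Matrix.sub_mul, Matrix.trace_sub] at h
  rw [expect_opL, expect_opL]
  exact h

/-- the expectations of `X` (any operator) in the two flowed vectors are close -/
theorem flow_expect (e : N ≃ α × β) {ψ : N → ℂ} (hψ : nsq ψ = 1) {β' : Type*} [Fintype β']
    [DecidableEq β'] (y : α × β' → ℂ) {f g : α → ℝ}
    (hfg : ∀ i j, 0 < eigp (ψ ∘ e.symm) i → 0 < eigp y j →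
      |g j - f i| ≤ |Real.log (eigp y j) - Real.log (eigp (ψ ∘ e.symm) i)|) (t : ℝ)
    (X : Matrix N N ℂ) :
    ‖star (opL e (cOp (ψ ∘ e.symm) (ph t f)) *ᵥ ψ) ⬝ᵥ
        (X *ᵥ (opL e (cOp (ψ ∘ e.symm) (ph t f)) *ᵥ ψ)) -
      star (opL e (cOp y (ph t g)) *ᵥ ψ) ⬝ᵥ (X *ᵥ (opL e (cOp y (ph t g)) *ᵥ ψ))‖ ≤
      2 * ‖X‖ * Real.sqrt (2 * cT t * dH (ψ ∘ e.symm) y) := by
  set u := opL e (cOp (ψ ∘ e.symm) (ph t f)) *ᵥ ψ with hu
  set v := opL e (cOp y (ph t g)) *ᵥ ψ with hv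
  have huv := flow_close_vec e hψ y hfg t
  rw [← hu, ← hv] at huv
  have hu1 : nsq u = 1 := by
    rw [hu, nsq_unit, hψ]
    rw [opL_conjTranspose, ← opL_mul, cOp_ph_unit, opL_one]
  have hv1 : nsq v = 1 := by
    rw [hv, nsq_unit, hψ]
    rw [opL_conjTranspose, ← opL_mul, cOp_ph_unit, opL_one]
  have hun : nrm u = 1 := by unfold nrm; rw [show nsq u = 1 from hu1, Real.sqrt_one]
  have hvn : nrm v = 1 := by unfold nrm; rw [show nsq v = 1 from hv1, Real.sqrt_one]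
  have hd : nrm (u - v) ≤ Real.sqrt (2 * cT t * dH (ψ ∘ e.symm) y) :=
    Real.sqrt_le_sqrt huv
  have e1 : star u ⬝ᵥ (X *ᵥ u) - star v ⬝ᵥ (X *ᵥ v) =
      star (u - v) ⬝ᵥ (X *ᵥ u) + star v ⬝ᵥ (X *ᵥ (u - v)) := by
    rw [star_sub, sub_dotProduct, mulVec_sub, dotProduct_sub]
    ring
  have hX : ∀ w : N → ℂ, nrm (X *ᵥ w) ≤ ‖X‖ * nrm w := by
    intro w
    refine Real.sqrt_le_iff.2 ⟨by have := norm_nonneg X; have := nrm_nonneg w; positivity, ?_⟩
    rw [mul_pow, nrm_sq]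
    exact PH.ph_nsq_mulVec_le X w
  rw [e1]
  refine (norm_add_le _ _).trans ?_
  have h1 := (nrm_ip_le (u - v) (X *ᵥ u)).trans
    (mul_le_mul_of_nonneg_left (hX u) (nrm_nonneg _))
  have h2 := (nrm_ip_le v (X *ᵥ (u - v))).trans
    (mul_le_mul_of_nonneg_left (hX (u - v)) (nrm_nonneg _))
  rw [hun, mul_one] at h1
  rw [hvn, one_mul] at h2
  have h3 : nrm (u - v) * ‖X‖ ≤ Real.sqrt (2 * cT t * dH (ψ ∘ e.symm) y) * ‖X‖ :=
    mul_le_mul_of_nonneg_right hd (norm_nonneg _)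
  linarith

end mat

end Vale.Agent.P356.GA.Flow
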