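import Vale.Agent.P356.GA.Energy980
import Mathlib.LinearAlgebra.Matrix.PosDef

/-!
# GA, block FORM (helper980): the second order coefficient as a quadratic form

`V` is a real vector space of coefficient vectors, `G k : V →ₗ[ℝ] Matrix N N ℂ` the generators.
`QF ψ G n X c = - (second Taylor coefficient of ⟨ψ| e^{ζ G_0 c} ⋯ X ⋯ e^{-ζ G_0 c} |ψ⟩)`.

* `QF` is linear in `X` and a quadratic form in `c`.
* `QF_almost_psd`: almost positive for `X ≥ 0`; `QF_sum_le`, `QF_add_le`: convexity up to errors.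
* `QF_upper`: upper bound through two values on the imaginary axis; `QF_norm_le`, `QF_cauchy`.
* `energy_form`: the energy identity in terms of `QF`.
-/

set_option linter.all false

namespace Vale.Agent.P356.GA

open Matrix Finset Vale.Agent.P356 Vale.Agent.P356.SV Vale.Agent.P356.Path
open scoped BigOperators ComplexOrder Kronecker Matrix.Norms.L2Operator

/-! ## abstract quadratic forms -/

section quad
variable {V : Type*} [AddCommGroup V] [Module ℝ V] (B : V →ₗ[ℝ] V →ₗ[ℝ] ℝ)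

theorem quad_identity {ι : Type*} (s : Finset ι) (w : ι → ℝ) (c : ι → V) :
    (∑ i ∈ s, w i) * (∑ i ∈ s, w i * B (c i) (c i)) -
        B (∑ i ∈ s, w i • c i) (∑ i ∈ s, w i • c i) =
      1 / 2 * ∑ i ∈ s, ∑ j ∈ s, w i * w j * B (c i - c j) (c i - c j) := by
  have h1 : B (∑ i ∈ s, w i • c i) (∑ i ∈ s, w i • c i) =
      ∑ i ∈ s, ∑ j ∈ s, w i * w j * B (c i) (c j) := by
    have h0 : B (∑ i ∈ s, w i • c i) = ∑ i ∈ s, w i • B (c i) := by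
      rw [map_sum]
      exact Finset.sum_congr rfl fun i _ => map_smul B (w i) (c i)
    rw [h0, LinearMap.sum_apply]
    refine Finset.sum_congr rfl fun i _ => ?_
    rw [map_sum]
    refine Finset.sum_congr rfl fun j _ => ?_
    rw [map_smul, LinearMap.smul_apply, smul_eq_mul, smul_eq_mul]
    ring
  have h2 : ∑ i ∈ s, ∑ j ∈ s, w i * w j * B (c i - c j) (c i - c j) =
      ∑ i ∈ s, ∑ j ∈ s, w i * w j * B (c i) (c i) + ∑ i ∈ s, ∑ j ∈ s, w i * w j * B (c j) (c j) -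
        ∑ i ∈ s, ∑ j ∈ s, w i * w j * B (c i) (c j) -
        ∑ i ∈ s, ∑ j ∈ s, w i * w j * B (c j) (c i) := by
    rw [← Finset.sum_add_distrib, ← Finset.sum_sub_distrib, ← Finset.sum_sub_distrib]
    refine Finset.sum_congr rfl fun i _ => ?_
    rw [← Finset.sum_add_distrib, ← Finset.sum_sub_distrib, ← Finset.sum_sub_distrib]
    refine Finset.sum_congr rfl fun j _ => ?_
    simp only [map_sub, LinearMap.sub_apply]
    ring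
  have h3 : ∑ i ∈ s, ∑ j ∈ s, w i * w j * B (c i) (c i) =
      (∑ i ∈ s, w i) * ∑ i ∈ s, w i * B (c i) (c i) := by
    rw [Finset.mul_sum]
    refine Finset.sum_congr rfl fun i _ => ?_
    rw [Finset.sum_mul]
    refine Finset.sum_congr rfl fun j _ => ?_
    ring
  have h4 : ∑ i ∈ s, ∑ j ∈ s, w i * w j * B (c j) (c j) =
      (∑ i ∈ s, w i) * ∑ i ∈ s, w i * B (c i) (c i) := by
    rw [Finset.sum_comm, ← h3]
    refine Finset.sum_congr rfl fun i _ => Finset.sum_congr rfl fun j _ => ?_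
    ring
  have h5 : ∑ i ∈ s, ∑ j ∈ s, w i * w j * B (c j) (c i) =
      ∑ i ∈ s, ∑ j ∈ s, w i * w j * B (c i) (c j) := by
    rw [Finset.sum_comm]
    refine Finset.sum_congr rfl fun i _ => Finset.sum_congr rfl fun j _ => ?_
    ring
  rw [h2, h3, h4, h5, h1]
  ring

theorem quad_sum_le {ι : Type*} (s : Finset ι) {w : ι → ℝ} (hw : ∀ i ∈ s, 0 ≤ w i) (c : ι → V)
    {ε : ℝ} (h : ∀ i ∈ s, ∀ j ∈ s, -ε ≤ B (c i - c j) (c i - c j)) :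
    B (∑ i ∈ s, w i • c i) (∑ i ∈ s, w i • c i) ≤
      (∑ i ∈ s, w i) * (∑ i ∈ s, w i * B (c i) (c i)) + 1 / 2 * (∑ i ∈ s, w i) ^ 2 * ε := by
  have h1 := quad_identity B s w c
  have h2 : -((∑ i ∈ s, w i) ^ 2 * ε) ≤
      ∑ i ∈ s, ∑ j ∈ s, w i * w j * B (c i - c j) (c i - c j) := by
    calc -((∑ i ∈ s, w i) ^ 2 * ε) = ∑ i ∈ s, ∑ j ∈ s, w i * w j * (-ε) := by
          rw [sq, Finset.sum_mul_sum]
          simp only [← Finset.sum_mul]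
          ring
      _ ≤ _ := by
          refine Finset.sum_le_sum fun i hi => Finset.sum_le_sum fun j hj => ?_
          exact mul_le_mul_of_nonneg_left (h i hi j hj) (mul_nonneg (hw i hi) (hw j hj))
  linarith

theorem quad_add_le (u v : V) {ε : ℝ} (h : -ε ≤ B (u - v) (u - v)) :
    B (u + v) (u + v) ≤ 2 * B u u + 2 * B v v + ε := by
  simp only [map_sub, map_add, LinearMap.sub_apply, LinearMap.add_apply] at h ⊢
  linarith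

end quad

/-! ## the form of the second order coefficient -/

section form
variable {N : Type*} [Fintype N] [DecidableEq N] {V : Type*} [AddCommGroup V] [Module ℝ V]

/-- the generators for the coefficient vector `c` -/
noncomputable def gA (G : ℕ → V →ₗ[ℝ] Matrix N N ℂ) (c : V) : ℕ → Matrix N N ℂ := fun k => G k c

/-- the flow for the coefficient vector `c` -/
noncomputable def fQ (ψ : N → ℂ) (G : ℕ → V →ₗ[ℝ] Matrix N N ℂ) (n : ℕ) (X : Matrix N N ℂ) (c : V)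
    (ζ : ℂ) : ℂ := fE ψ (gA G c) n X ζ

/-- minus the second order coefficient -/
noncomputable def QF (ψ : N → ℂ) (G : ℕ → V →ₗ[ℝ] Matrix N N ℂ) (n : ℕ) (X : Matrix N N ℂ)
    (c : V) : ℝ := -(c2 (fQ ψ G n X c)).re

theorem ad_sub_right (G X Y : Matrix N N ℂ) : ad G (X - Y) = ad G X - ad G Y := by
  simp only [ad, mul_sub, sub_mul]; abel

theorem ad_real_smul_left (r : ℝ) (G X : Matrix N N ℂ) : ad (r • G) X = r • ad G X := by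
  simp only [ad, smul_mul_assoc, mul_smul_comm, smul_sub]

theorem ad_real_smul_right (r : ℝ) (G X : Matrix N N ℂ) : ad G (r • X) = r • ad G X := by
  simp only [ad, smul_mul_assoc, mul_smul_comm, smul_sub]

theorem Sg_add (G : ℕ → V →ₗ[ℝ] Matrix N N ℂ) (c c' : V) (k : ℕ) :
    Sg (gA G (c + c')) k = Sg (gA G c) k + Sg (gA G c') k := by
  simp only [Sg, gA, map_add, Finset.sum_add_distrib, smul_add]
  abel

theorem Sg_smul (G : ℕ → V →ₗ[ℝ] Matrix N N ℂ) (r : ℝ) (c : V) (k : ℕ) :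
    Sg (gA G (r • c)) k = r • Sg (gA G c) k := by
  simp only [Sg, gA, map_smul, smul_add, Finset.smul_sum]
  rw [smul_comm]

theorem expL_real_smul (ψ : N → ℂ) (r : ℝ) (X : Matrix N N ℂ) :
    (expL ψ (r • X)).re = r * (expL ψ X).re := by
  have h : r • X = (r : ℂ) • X := (Complex.coe_smul r X).symm
  rw [h, map_smul, smul_eq_mul, Complex.re_ofReal_mul]

/-- the bilinear form -/
noncomputable def BQ (ψ : N → ℂ) (G : ℕ → V →ₗ[ℝ] Matrix N N ℂ) (n : ℕ) (X : Matrix N N ℂ) :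
    V →ₗ[ℝ] V →ₗ[ℝ] ℝ :=
  LinearMap.mk₂ ℝ
    (fun c c' => -∑ k ∈ range n, (expL ψ (ad (Sg (gA G c) k) (ad (gA G c' k) X))).re)
    (fun c c' d => by
      simp only [Sg_add, ad_add_left, map_add, Complex.add_re, Finset.sum_add_distrib]
      ring)
    (fun r c d => by
      simp only [Sg_smul, ad_real_smul_left, expL_real_smul, ← Finset.mul_sum, smul_eq_mul]
      ring)
    (fun c d d' => by
      simp only [gA, map_add, ad_add_left, ad_add_right, Complex.add_re, Finset.sum_add_distrib]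
      ring)
    (fun r c d => by
      simp only [gA, map_smul, ad_real_smul_left, ad_real_smul_right, expL_real_smul,
        ← Finset.mul_sum, smul_eq_mul]
      ring)

theorem QF_eq (ψ : N → ℂ) (G : ℕ → V →ₗ[ℝ] Matrix N N ℂ) (n : ℕ) (X : Matrix N N ℂ) (c : V) :
    QF ψ G n X c = BQ ψ G n X c c := by
  rw [QF]
  show -(c2 (fE ψ (gA G c) n X)).re = _
  rw [c2_fE, Complex.re_sum]
  rfl

theorem QF_eq_sum (ψ : N → ℂ) (G : ℕ → V →ₗ[ℝ] Matrix N N ℂ) (n : ℕ) (X : Matrix N N ℂ) (c : V) :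
    QF ψ G n X c =
      -∑ k ∈ range n, (star ψ ⬝ᵥ (ad (Sg (gA G c) k) (ad (G k c) X) *ᵥ ψ)).re :=
  QF_eq ψ G n X c

theorem QF_smul (ψ : N → ℂ) (G : ℕ → V →ₗ[ℝ] Matrix N N ℂ) (n : ℕ) (X : Matrix N N ℂ) (r : ℝ)
    (c : V) : QF ψ G n X (r • c) = r ^ 2 * QF ψ G n X c := by
  rw [QF_eq, QF_eq, map_smul, map_smul, LinearMap.smul_apply, smul_eq_mul, smul_eq_mul]
  ring

theorem QF_neg (ψ : N → ℂ) (G : ℕ → V →ₗ[ℝ] Matrix N N ℂ) (n : ℕ) (X : Matrix N N ℂ)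
    (c : V) : QF ψ G n X (-c) = QF ψ G n X c := by
  rw [QF_eq, QF_eq, map_neg, map_neg, LinearMap.neg_apply, neg_neg]

theorem QF_zero (ψ : N → ℂ) (G : ℕ → V →ₗ[ℝ] Matrix N N ℂ) (n : ℕ) (X : Matrix N N ℂ) :
    QF ψ G n X 0 = 0 := by
  rw [QF_eq, map_zero]

/-- linearity in the observable -/
theorem QF_add (ψ : N → ℂ) (G : ℕ → V →ₗ[ℝ] Matrix N N ℂ) (n : ℕ) (X Y : Matrix N N ℂ) (c : V) :
    QF ψ G n (X + Y) c = QF ψ G n X c + QF ψ G n Y c := by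
  rw [QF_eq, QF_eq, QF_eq]
  show -_ = -_ + -_
  simp only [ad_add_right, map_add, Complex.add_re, Finset.sum_add_distrib]
  ring

theorem QF_rsmul (ψ : N → ℂ) (G : ℕ → V →ₗ[ℝ] Matrix N N ℂ) (n : ℕ) (r : ℝ) (X : Matrix N N ℂ)
    (c : V) : QF ψ G n (r • X) c = r * QF ψ G n X c := by
  rw [QF_eq, QF_eq]
  show -_ = r * -_
  simp only [ad_real_smul_right, expL_real_smul, ← Finset.mul_sum]
  ring

theorem QF_csmul (ψ : N → ℂ) (G : ℕ → V →ₗ[ℝ] Matrix N N ℂ) (n : ℕ) (r : ℝ) (X : Matrix N N ℂ)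
    (c : V) : QF ψ G n ((r : ℂ) • X) c = r * QF ψ G n X c := by
  rw [Complex.coe_smul]
  exact QF_rsmul ψ G n r X c

theorem QF_sub (ψ : N → ℂ) (G : ℕ → V →ₗ[ℝ] Matrix N N ℂ) (n : ℕ) (X Y : Matrix N N ℂ) (c : V) :
    QF ψ G n (X - Y) c = QF ψ G n X c - QF ψ G n Y c := by
  have h : X - Y = X + (-1 : ℝ) • Y := by rw [neg_one_smul, sub_eq_add_neg]
  rw [h, QF_add, QF_rsmul]
  ring

theorem QF_zero_obs (ψ : N → ℂ) (G : ℕ → V →ₗ[ℝ] Matrix N N ℂ) (n : ℕ) (c : V) :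
    QF ψ G n 0 c = 0 := by
  have h := QF_rsmul ψ G n 0 0 c
  rw [zero_smul, zero_mul] at h
  exact h

theorem QF_sum (ψ : N → ℂ) (G : ℕ → V →ₗ[ℝ] Matrix N N ℂ) (n : ℕ) {ι : Type*} (s : Finset ι)
    (X : ι → Matrix N N ℂ) (c : V) :
    QF ψ G n (∑ i ∈ s, X i) c = ∑ i ∈ s, QF ψ G n (X i) c := by
  classical
  induction s using Finset.induction_on with
  | empty => rw [Finset.sum_empty, Finset.sum_empty, QF_zero_obs]
  | insert i s hi ih => rw [Finset.sum_insert hi, Finset.sum_insert hi, QF_add, ih]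

/-- only the function counts -/
theorem QF_congr {ψ : N → ℂ} {G : ℕ → V →ₗ[ℝ] Matrix N N ℂ} {n : ℕ} {X : Matrix N N ℂ} {c : V}
    {V' : Type*} [AddCommGroup V'] [Module ℝ V'] {ψ' : N → ℂ} {G' : ℕ → V' →ₗ[ℝ] Matrix N N ℂ}
    {n' : ℕ} {X' : Matrix N N ℂ} {c' : V'} (h : ∀ ζ, fQ ψ G n X c ζ = fQ ψ' G' n' X' c' ζ) :
    QF ψ G n X c = QF ψ' G' n' X' c' := by
  rw [QF, QF, funext h]

theorem QF_eq_c2 {ψ : N → ℂ} {G : ℕ → V →ₗ[ℝ] Matrix N N ℂ} {n : ℕ} {X : Matrix N N ℂ} {c : V}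
    {f : ℂ → ℂ} (h : ∀ ζ, fQ ψ G n X c ζ = f ζ) : QF ψ G n X c = -(c2 f).re := by
  rw [QF, funext h]

theorem QF_const {ψ : N → ℂ} {G : ℕ → V →ₗ[ℝ] Matrix N N ℂ} {n : ℕ} {X : Matrix N N ℂ} {c : V}
    {a : ℂ} (h : ∀ ζ, fQ ψ G n X c ζ = a) : QF ψ G n X c = 0 := by
  rw [QF_eq_c2 (f := fun _ => a) h, c2_of_T2 (HasT2.const a), Complex.zero_re, neg_zero]

theorem QF_one {ψ : N → ℂ} (hψ : nsq ψ = 1) (G : ℕ → V →ₗ[ℝ] Matrix N N ℂ) (n : ℕ) (c : V) :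
    QF ψ G n 1 c = 0 := QF_const fun ζ => fE_one hψ _ _ ζ

theorem fQ_diff (ψ : N → ℂ) (G : ℕ → V →ₗ[ℝ] Matrix N N ℂ) (n : ℕ) (X : Matrix N N ℂ) (c : V) :
    Differentiable ℂ (fQ ψ G n X c) := fE_diff ψ _ n X

theorem fQ_zero (ψ : N → ℂ) (G : ℕ → V →ₗ[ℝ] Matrix N N ℂ) (n : ℕ) (X : Matrix N N ℂ) (c : V) :
    fQ ψ G n X c 0 = star ψ ⬝ᵥ (X *ᵥ ψ) := fE_zero ψ _ n X

/-- the (unitary) flow of the vector -/
noncomputable def uQ (ψ : N → ℂ) (G : ℕ → V →ₗ[ℝ] Matrix N N ℂ) (n : ℕ) (c : V) (y : ℝ) : N → ℂ :=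
  prL (fun k => NormedSpace.exp ((-((y : ℂ) * Complex.I)) • G k c)) n *ᵥ ψ

theorem fQ_imag (ψ : N → ℂ) {G : ℕ → V →ₗ[ℝ] Matrix N N ℂ} {n : ℕ} {c : V}
    (hG : ∀ k < n, (G k c).IsHermitian) (X : Matrix N N ℂ) (y : ℝ) :
    fQ ψ G n X c ((y : ℂ) * Complex.I) =
      star (uQ ψ G n c y) ⬝ᵥ (X *ᵥ uQ ψ G n c y) :=
  fE_imag ψ hG X y

theorem nsq_uQ (ψ : N → ℂ) {G : ℕ → V →ₗ[ℝ] Matrix N N ℂ} {n : ℕ} {c : V}
    (hG : ∀ k < n, (G k c).IsHermitian) (y : ℝ) : nsq (uQ ψ G n c y) = nsq ψ :=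
  nsq_imag ψ hG y

/-- two values on the imaginary axis determine the form up to fourth order -/
theorem QF_two_point {ψ : N → ℂ} {G : ℕ → V →ₗ[ℝ] Matrix N N ℂ} {n : ℕ} {X : Matrix N N ℂ} {c : V}
    (hG : ∀ k < n, (G k c).IsHermitian) {R K h : ℝ} (hR : 0 < R)
    (hK : ∀ z : ℂ, ‖z‖ ≤ R → ‖fQ ψ G n X c z‖ ≤ K) (hh : 0 < h) (hh2 : h ≤ R / 2) :
    |QF ψ G n X c - ((star (uQ ψ G n c h) ⬝ᵥ (X *ᵥ uQ ψ G n c h)).re +
        (star (uQ ψ G n c (-h)) ⬝ᵥ (X *ᵥ uQ ψ G n c (-h))).re - 2 * (star ψ ⬝ᵥ (X *ᵥ ψ)).re) /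
        (2 * h ^ 2)| ≤ 2 * K * h ^ 2 / R ^ 4 := by
  have hz : ‖((h : ℝ) : ℂ) * Complex.I‖ ≤ R / 2 := by
    rw [norm_mul, Complex.norm_I, mul_one, Complex.norm_real, Real.norm_eq_abs, abs_of_pos hh]
    exact hh2
  have hn : ‖((h : ℝ) : ℂ) * Complex.I‖ = h := by
    rw [norm_mul, Complex.norm_I, mul_one, Complex.norm_real, Real.norm_eq_abs, abs_of_pos hh]
  have h1 := even_rem (fQ_diff ψ G n X c) hR hK hz
  rw [hn, fQ_imag ψ hG, fQ_zero] at h1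
  have e : -(((h : ℝ) : ℂ) * Complex.I) = (((-h : ℝ)) : ℂ) * Complex.I := by push_cast; ring
  rw [e, fQ_imag ψ hG] at h1
  have e2 : (((h : ℝ) : ℂ) * Complex.I) ^ 2 = (((-(h ^ 2) : ℝ)) : ℂ) := by
    rw [mul_pow, Complex.I_sq]; push_cast; ring
  rw [e2] at h1
  have h2 := (Complex.abs_re_le_norm _).trans h1
  have e3 : (star (uQ ψ G n c h) ⬝ᵥ (X *ᵥ uQ ψ G n c h) +
      star (uQ ψ G n c (-h)) ⬝ᵥ (X *ᵥ uQ ψ G n c (-h)) - 2 * (star ψ ⬝ᵥ (X *ᵥ ψ)) -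
      2 * c2 (fQ ψ G n X c) * ((-(h ^ 2) : ℝ) : ℂ)).re =
      (star (uQ ψ G n c h) ⬝ᵥ (X *ᵥ uQ ψ G n c h)).re +
      (star (uQ ψ G n c (-h)) ⬝ᵥ (X *ᵥ uQ ψ G n c (-h))).re - 2 * (star ψ ⬝ᵥ (X *ᵥ ψ)).re -
      2 * h ^ 2 * QF ψ G n X c := by
    rw [Complex.sub_re, Complex.sub_re, Complex.add_re, Complex.re_mul_ofReal]
    have e4 : (2 * (star ψ ⬝ᵥ (X *ᵥ ψ)) : ℂ).re = 2 * (star ψ ⬝ᵥ (X *ᵥ ψ)).re := by
      have := Complex.re_ofReal_mul 2 (star ψ ⬝ᵥ (X *ᵥ ψ))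
      rw [Complex.ofReal_ofNat] at this
      exact this
    have e5 : (2 * c2 (fQ ψ G n X c) : ℂ).re = 2 * (c2 (fQ ψ G n X c)).re := by
      have := Complex.re_ofReal_mul 2 (c2 (fQ ψ G n X c))
      rw [Complex.ofReal_ofNat] at this
      exact this
    rw [e4, e5, QF]
    ring
  rw [e3] at h2
  have hpos : (0:ℝ) < 2 * h ^ 2 := by positivity
  set A := (star (uQ ψ G n c h) ⬝ᵥ (X *ᵥ uQ ψ G n c h)).re +
      (star (uQ ψ G n c (-h)) ⬝ᵥ (X *ᵥ uQ ψ G n c (-h))).re - 2 * (star ψ ⬝ᵥ (X *ᵥ ψ)).re with hA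
  have e6 : QF ψ G n X c - A / (2 * h ^ 2) = -((A - 2 * h ^ 2 * QF ψ G n X c) / (2 * h ^ 2)) := by
    field_simp
    ring
  rw [e6, abs_neg, abs_div, abs_of_pos hpos, div_le_iff₀ hpos]
  refine h2.trans (le_of_eq ?_)
  rw [div_pow]
  field_simp
  ring

theorem psd_re_nonneg {P : Matrix N N ℂ} (hP : P.PosSemidef) (v : N → ℂ) :
    0 ≤ (star v ⬝ᵥ (P *ᵥ v)).re := by
  have h := hP.dotProduct_mulVec_nonneg v
  exact (Complex.le_def.1 h).1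

/-- **almost positivity** of the form for `P ≥ 0` -/
theorem QF_almost_psd {ψ : N → ℂ} {G : ℕ → V →ₗ[ℝ] Matrix N N ℂ} {n : ℕ} {P : Matrix N N ℂ}
    (hP : P.PosSemidef) {c : V}
    (hG : ∀ k < n, (G k c).IsHermitian) {R K h : ℝ} (hR : 0 < R)
    (hK : ∀ z : ℂ, ‖z‖ ≤ R → ‖fQ ψ G n P c z‖ ≤ K) (hh : 0 < h) (hh2 : h ≤ R / 2) :
    -((star ψ ⬝ᵥ (P *ᵥ ψ)).re / h ^ 2 + 2 * K * h ^ 2 / R ^ 4) ≤ QF ψ G n P c := by
  have h1 := (abs_le.1 (QF_two_point hG hR hK hh hh2)).1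
  have h2 := psd_re_nonneg hP (uQ ψ G n c h)
  have h3 := psd_re_nonneg hP (uQ ψ G n c (-h))
  have hpos : (0:ℝ) < 2 * h ^ 2 := by positivity
  have h4 : -((star ψ ⬝ᵥ (P *ᵥ ψ)).re / h ^ 2) ≤
      ((star (uQ ψ G n c h) ⬝ᵥ (P *ᵥ uQ ψ G n c h)).re +
        (star (uQ ψ G n c (-h)) ⬝ᵥ (P *ᵥ uQ ψ G n c (-h))).re - 2 * (star ψ ⬝ᵥ (P *ᵥ ψ)).re) /
        (2 * h ^ 2) := by
    rw [le_div_iff₀ hpos]
    have e : -((star ψ ⬝ᵥ (P *ᵥ ψ)).re / h ^ 2) * (2 * h ^ 2) = -(2 * (star ψ ⬝ᵥ (P *ᵥ ψ)).re) := by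
      field_simp
    rw [e]
    linarith
  linarith

/-- **upper bound** through two values -/
theorem QF_upper {ψ : N → ℂ} {G : ℕ → V →ₗ[ℝ] Matrix N N ℂ} {n : ℕ} {P : Matrix N N ℂ}
    (hP : P.PosSemidef) {c : V}
    (hG : ∀ k < n, (G k c).IsHermitian) {R K h p : ℝ} (hR : 0 < R)
    (hK : ∀ z : ℂ, ‖z‖ ≤ R → ‖fQ ψ G n P c z‖ ≤ K) (hh : 0 < h) (hh2 : h ≤ R / 2)
    (hp1 : (star (uQ ψ G n c h) ⬝ᵥ (P *ᵥ uQ ψ G n c h)).re ≤ p)
    (hp2 : (star (uQ ψ G n c (-h)) ⬝ᵥ (P *ᵥ uQ ψ G n c (-h))).re ≤ p) :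
    QF ψ G n P c ≤ p / h ^ 2 + 2 * K * h ^ 2 / R ^ 4 := by
  have h1 := (abs_le.1 (QF_two_point hG hR hK hh hh2)).2
  have h2 := psd_re_nonneg hP ψ
  have hpos : (0:ℝ) < 2 * h ^ 2 := by positivity
  have h4 : ((star (uQ ψ G n c h) ⬝ᵥ (P *ᵥ uQ ψ G n c h)).re +
        (star (uQ ψ G n c (-h)) ⬝ᵥ (P *ᵥ uQ ψ G n c (-h))).re - 2 * (star ψ ⬝ᵥ (P *ᵥ ψ)).re) /
        (2 * h ^ 2) ≤ p / h ^ 2 := by
    rw [div_le_div_iff₀ hpos (by positivity)]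
    nlinarith [sq_nonneg h]
  linarith

/-- Cauchy: crude bound of the form -/
theorem QF_cauchy {ψ : N → ℂ} {G : ℕ → V →ₗ[ℝ] Matrix N N ℂ} {n : ℕ} {X : Matrix N N ℂ}
    {c : V} {R K : ℝ} (hR : 0 < R)
    (hK : ∀ z : ℂ, ‖z‖ ≤ R → ‖fQ ψ G n X c z‖ ≤ K) : |QF ψ G n X c| ≤ K / R ^ 2 := by
  rw [QF, abs_neg]
  exact (Complex.abs_re_le_norm _).trans (taylor_coeff (fQ_diff ψ G n X c) hR hK 2)

/-- crude bound by norms, for non-local observables -/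
theorem QF_norm_le {ψ : N → ℂ} (hψ : nsq ψ = 1) {G : ℕ → V →ₗ[ℝ] Matrix N N ℂ} {n : ℕ}
    (X : Matrix N N ℂ) {c : V} {b : ℕ → ℝ} (hb : ∀ k < n, ‖G k c‖ ≤ b k) :
    |QF ψ G n X c| ≤ 2 * (∑ k ∈ range n, b k) ^ 2 * ‖X‖ := by
  have had : ∀ A B : Matrix N N ℂ, ‖ad A B‖ ≤ 2 * ‖A‖ * ‖B‖ := by
    intro A B
    rw [ad]
    refine (norm_sub_le _ _).trans ?_
    have h1 := norm_mul_le A B
    have h2 := norm_mul_le B A
    nlinarith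
  have hE : ∀ Y : Matrix N N ℂ, |(star ψ ⬝ᵥ (Y *ᵥ ψ)).re| ≤ ‖Y‖ := by
    intro Y
    refine (Complex.abs_re_le_norm _).trans ((nrm_ip_le _ _).trans ?_)
    have h1 := nrm_mulVec_le Y ψ
    have h2 : nrm ψ = 1 := by rw [nrm, hψ, Real.sqrt_one]
    rw [h2] at h1 ⊢
    linarith
  rw [QF_eq_sum, abs_neg]
  refine (Finset.abs_sum_le_sum_abs _ _).trans ?_
  have hb0 : ∀ k < n, 0 ≤ b k := fun k hk => (norm_nonneg _).trans (hb k hk)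
  have h1 : ∀ k ∈ range n, |(star ψ ⬝ᵥ (ad (Sg (gA G c) k) (ad (G k c) X) *ᵥ ψ)).re| ≤
      4 * (∑ j ∈ range k, b j + b k / 2) * b k * ‖X‖ := by
    intro k hk
    rw [Finset.mem_range] at hk
    refine (hE _).trans ((had _ _).trans ?_)
    have h2 := had (G k c) X
    have h3 : ‖Sg (gA G c) k‖ ≤ ∑ j ∈ range k, b j + b k / 2 := by
      rw [Sg]
      refine (norm_add_le _ _).trans (add_le_add ((norm_sum_le _ _).trans
        (Finset.sum_le_sum fun j hj => hb j ((Finset.mem_range.1 hj).trans hk))) ?_)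
      rw [norm_smul, norm_inv, Complex.norm_ofNat]
      have := hb k hk
      show (2:ℝ)⁻¹ * ‖G k c‖ ≤ _
      linarith
    have h4 : ‖ad (G k c) X‖ ≤ 2 * b k * ‖X‖ := by
      refine h2.trans ?_
      have := mul_le_mul_of_nonneg_right (hb k hk) (norm_nonneg X)
      nlinarith
    calc 2 * ‖Sg (gA G c) k‖ * ‖ad (G k c) X‖ ≤
        2 * (∑ j ∈ range k, b j + b k / 2) * (2 * b k * ‖X‖) := by
          refine mul_le_mul (by linarith) h4 (norm_nonneg _) ?_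
          have := (norm_nonneg (Sg (gA G c) k)).trans h3
          linarith
      _ = _ := by ring
  refine (Finset.sum_le_sum h1).trans (le_of_eq ?_)
  have h5 : ∀ m : ℕ, ∑ k ∈ range m, 4 * (∑ j ∈ range k, b j + b k / 2) * b k * ‖X‖ =
      2 * (∑ k ∈ range m, b k) ^ 2 * ‖X‖ := by
    intro m
    induction m with
    | zero => simp
    | succ m ih =>
      rw [Finset.sum_range_succ, ih, Finset.sum_range_succ]
      ring
  exact h5 n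

/-- the error of almost positivity -/
noncomputable def psdErr (π K R h : ℝ) : ℝ := π / h ^ 2 + 2 * K * h ^ 2 / R ^ 4

/-- **convexity up to errors** -/
theorem QF_sum_le {ψ : N → ℂ} {G : ℕ → V →ₗ[ℝ] Matrix N N ℂ} {n : ℕ} {P : Matrix N N ℂ}
    (hP : P.PosSemidef) {ι : Type*} (s : Finset ι) {w : ι → ℝ} (hw : ∀ i ∈ s, 0 ≤ w i)
    {c : ι → V} (hG : ∀ k < n, ∀ c : V, (G k c).IsHermitian) {R K h π : ℝ} (hR : 0 < R)
    (hK : ∀ i ∈ s, ∀ j ∈ s, ∀ z : ℂ, ‖z‖ ≤ R → ‖fQ ψ G n P (c i - c j) z‖ ≤ K) (hh : 0 < h)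
    (hh2 : h ≤ R / 2) (hπ : (star ψ ⬝ᵥ (P *ᵥ ψ)).re ≤ π) :
    QF ψ G n P (∑ i ∈ s, w i • c i) ≤ (∑ i ∈ s, w i) * (∑ i ∈ s, w i * QF ψ G n P (c i)) +
      1 / 2 * (∑ i ∈ s, w i) ^ 2 * psdErr π K R h := by
  simp only [QF_eq]
  refine quad_sum_le _ s hw c fun i hi j hj => ?_
  have h1 := QF_almost_psd hP (c := c i - c j) (fun k hk => hG k hk _) hR (hK i hi j hj) hh hh2
  rw [QF_eq] at h1
  refine le_trans (neg_le_neg ?_) h1
  rw [psdErr]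
  have : (star ψ ⬝ᵥ (P *ᵥ ψ)).re / h ^ 2 ≤ π / h ^ 2 :=
    div_le_div_of_nonneg_right hπ (by positivity)
  linarith

/-- two directions -/
theorem QF_add_le {ψ : N → ℂ} {G : ℕ → V →ₗ[ℝ] Matrix N N ℂ} {n : ℕ} {P : Matrix N N ℂ}
    (hP : P.PosSemidef) {u v : V} (hG : ∀ k < n, ∀ c : V, (G k c).IsHermitian) {R K h π : ℝ}
    (hR : 0 < R) (hK : ∀ z : ℂ, ‖z‖ ≤ R → ‖fQ ψ G n P (u - v) z‖ ≤ K) (hh : 0 < h)
    (hh2 : h ≤ R / 2) (hπ : (star ψ ⬝ᵥ (P *ᵥ ψ)).re ≤ π) :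
    QF ψ G n P (u + v) ≤ 2 * QF ψ G n P u + 2 * QF ψ G n P v + psdErr π K R h := by
  simp only [QF_eq]
  refine quad_add_le _ u v ?_
  have h1 := QF_almost_psd hP (c := u - v) (fun k hk => hG k hk _) hR hK hh hh2
  rw [QF_eq] at h1
  refine le_trans (neg_le_neg ?_) h1
  rw [psdErr]
  have : (star ψ ⬝ᵥ (P *ᵥ ψ)).re / h ^ 2 ≤ π / h ^ 2 :=
    div_le_div_of_nonneg_right hπ (by positivity)
  linarith

/-- from a local term to its positive part: `M = P - P'` -/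
theorem QF_pos_part {ψ : N → ℂ} {G : ℕ → V →ₗ[ℝ] Matrix N N ℂ} {n : ℕ} {M P P' : Matrix N N ℂ}
    (hM : M = P - P') (hP' : P'.PosSemidef) {c : V} (hG : ∀ k < n, (G k c).IsHermitian)
    {R K h π : ℝ} (hR : 0 < R) (hK : ∀ z : ℂ, ‖z‖ ≤ R → ‖fQ ψ G n P' c z‖ ≤ K) (hh : 0 < h)
    (hh2 : h ≤ R / 2) (hπ : (star ψ ⬝ᵥ (P' *ᵥ ψ)).re ≤ π) :
    QF ψ G n M c ≤ QF ψ G n P c + psdErr π K R h := by
  have h1 := QF_almost_psd hP' hG hR hK hh hh2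
  have : (star ψ ⬝ᵥ (P' *ᵥ ψ)).re / h ^ 2 ≤ π / h ^ 2 :=
    div_le_div_of_nonneg_right hπ (by positivity)
  rw [hM, QF_sub, psdErr]
  linarith

/-- **Energy identity in terms of the form.** -/
theorem energy_form {ψ : N → ℂ} (hψ : nsq ψ = 1) {G : ℕ → V →ₗ[ℝ] Matrix N N ℂ} {n : ℕ} {c : V}
    (hG : ∀ k < n, (G k c).IsHermitian) {ι : Type*} (s : Finset ι) {T : ι → Matrix N N ℂ}
    (hT : ∀ i ∈ s, (T i).IsHermitian) {E t τ : ℝ}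
    (hE : (∑ i ∈ s, T i) *ᵥ (prL (fun k => NormedSpace.exp
        ((-((t : ℂ) * (1 + τ * Complex.I))) • G k c)) n *ᵥ ψ) =
      (E : ℂ) • (prL (fun k => NormedSpace.exp
        ((-((t : ℂ) * (1 + τ * Complex.I))) • G k c)) n *ᵥ ψ))
    {R M : ι → ℝ} (hR : ∀ i ∈ s, 0 < R i)
    (hM : ∀ i ∈ s, ∀ z : ℂ, ‖z‖ ≤ R i → ‖fQ ψ G n (T i) c z‖ ≤ M i)
    (hs : ∀ i ∈ s, ‖(t : ℂ) * (1 + τ * Complex.I)‖ ≤ R i / 2) :
    |(star ψ ⬝ᵥ ((∑ i ∈ s, T i) *ᵥ ψ)).re - E -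
        t ^ 2 * (1 + τ ^ 2) * QF ψ G n (∑ i ∈ s, T i) c| ≤
      (1 + |τ|) * ∑ i ∈ s, 2 * M i * (‖(t : ℂ) * (1 + τ * Complex.I)‖ / R i) ^ 3 := by
  have h := energy_identity hψ (G := gA G c) hG s hT hE hR hM hs
  rw [QF_sum]
  have e : ∑ i ∈ s, QF ψ G n (T i) c = -∑ i ∈ s, ∑ k ∈ range n,
      (star ψ ⬝ᵥ (ad (Sg (gA G c) k) (ad (gA G c k) (T i)) *ᵥ ψ)).re := by
    rw [← Finset.sum_neg_distrib]
    exact Finset.sum_congr rfl fun i _ => QF_eq_sum ψ G n (T i) c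
  rw [e]
  refine le_trans (le_of_eq ?_) h
  congr 1
  ring

end form

end Vale.Agent.P356.GA
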