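import Vale.Agent.P356.GA.Energy980
import Vale.Agent.P356.GA.Detect939
import Mathlib.Analysis.Complex.Schwarz

/-!
The healing operator in the tilted functional: `ω(Γ)` against `⟨Γ⟩_ψ` against `⟨Γ⟩_Ω`.
-/

set_option linter.all false

namespace Vale.Agent.P356.GA

open Matrix Finset Vale.Agent.P356 Vale.Agent.P356.SV Vale.Agent.P356.Path Vale.Agent.P356.PH
open scoped BigOperators ComplexOrder Kronecker Matrix.Norms.L2Operator

/-- an entire function bounded by `B` on a disc is close to its value at the centre -/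
theorem entire_close185 {f : ℂ → ℂ} (hf : Differentiable ℂ f) {B R : ℝ} (hR : 0 < R)
    (hB : ∀ z : ℂ, ‖z‖ ≤ R → ‖f z‖ ≤ B) {z : ℂ} (hz : ‖z‖ ≤ R) : ‖f z - f 0‖ ≤ 2 * B * (‖z‖ / R) := by
  have hB0 : 0 ≤ B := (norm_nonneg _).trans (hB 0 (by rw [norm_zero]; exact hR.le))
  rcases hz.lt_or_eq with hlt | heq
  · have hm : Set.MapsTo f (Metric.ball 0 R) (Metric.closedBall (f 0) (2 * B)) := by
      intro w hw
      rw [Metric.mem_ball, dist_zero_right] at hw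
      rw [Metric.mem_closedBall, dist_eq_norm]
      have h1 := hB w hw.le
      have h2 := hB 0 (by rw [norm_zero]; exact hR.le)
      have h3 := norm_sub_le (f w) (f 0)
      linarith
    have h := Complex.dist_le_div_mul_dist_of_mapsTo_ball
      (hf.differentiableOn (s := Metric.ball 0 R)) hm
      (z := z) (by rw [Metric.mem_ball, dist_zero_right]; exact hlt)
    rw [dist_eq_norm, dist_zero_right] at h
    calc ‖f z - f 0‖ ≤ 2 * B / R * ‖z‖ := h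
      _ = 2 * B * (‖z‖ / R) := by ring
  · rw [heq, div_self hR.ne', mul_one]
    have h1 := hB z hz
    have h2 := hB 0 (by rw [norm_zero]; exact hR.le)
    have h3 := norm_sub_le (f z) (f 0)
    linarith

section mat
variable {N : Type*} [Fintype N] [DecidableEq N]

theorem fE_smul (ψ : N → ℂ) (G : ℕ → Matrix N N ℂ) (n : ℕ) (c : ℂ) (X : Matrix N N ℂ) (ζ : ℂ) :
    fE ψ G n (c • X) ζ = c * fE ψ G n X ζ := by
  rw [fE, fE, cjF, cjF, Matrix.mul_smul, Matrix.smul_mul, map_smul, smul_eq_mul]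

/-- **(a)** the tilted expectation of `Γ = ∑ w_i G_i` against the expectation in `ψ` -/
theorem gamma_flow {ψ : N → ℂ} {G : ℕ → Matrix N N ℂ} {n : ℕ} {ι : Type*} (s : Finset ι)
    {w : ι → ℝ} {K : ι → Matrix N N ℂ} (hw : ∀ i ∈ s, 0 ≤ w i) {B R : ι → ℝ}
    (hR : ∀ i ∈ s, 0 < R i) (hB : ∀ i ∈ s, ∀ z : ℂ, ‖z‖ ≤ R i → ‖fE ψ G n (K i) z‖ ≤ B i)
    {ζ : ℂ} (hζ : ∀ i ∈ s, ‖ζ‖ ≤ R i) :
    ‖fE ψ G n (∑ i ∈ s, (w i : ℂ) • K i) ζ - star ψ ⬝ᵥ ((∑ i ∈ s, (w i : ℂ) • K i) *ᵥ ψ)‖ ≤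
      ∑ i ∈ s, w i * (2 * B i * (‖ζ‖ / R i)) := by
  have e0 : star ψ ⬝ᵥ ((∑ i ∈ s, (w i : ℂ) • K i) *ᵥ ψ) =
      fE ψ G n (∑ i ∈ s, (w i : ℂ) • K i) 0 := by
    rw [fE_zero, expL_apply]
  rw [e0, fE_sum, fE_sum, ← Finset.sum_sub_distrib]
  refine (norm_sum_le _ _).trans (Finset.sum_le_sum fun i hi => ?_)
  rw [fE_smul, fE_smul, ← mul_sub, norm_mul, Complex.norm_real, Real.norm_of_nonneg (hw i hi)]
  exact mul_le_mul_of_nonneg_left (entire_close185 (fE_diff ψ G n (K i)) (hR i hi) (hB i hi)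
    (hζ i hi)) (hw i hi)

/-- **(b)** the expectation of `Γ` in two states with close window expectations -/
theorem gamma_dev {ψ Ω : N → ℂ} {ι : Type*} (s : Finset ι) {w : ι → ℝ} {K : ι → Matrix N N ℂ}
    (hw : ∀ i ∈ s, 0 ≤ w i) {d : ι → ℝ}
    (hd : ∀ i ∈ s, ‖star ψ ⬝ᵥ (K i *ᵥ ψ) - star Ω ⬝ᵥ (K i *ᵥ Ω)‖ ≤ d i) :
    ‖star ψ ⬝ᵥ ((∑ i ∈ s, (w i : ℂ) • K i) *ᵥ ψ) -
      star Ω ⬝ᵥ ((∑ i ∈ s, (w i : ℂ) • K i) *ᵥ Ω)‖ ≤ ∑ i ∈ s, w i * d i := by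
  have e : ∀ v : N → ℂ, star v ⬝ᵥ ((∑ i ∈ s, (w i : ℂ) • K i) *ᵥ v) =
      ∑ i ∈ s, (w i : ℂ) * (star v ⬝ᵥ (K i *ᵥ v)) := by
    intro v
    rw [sum_mulVec, dotProduct_sum]
    refine Finset.sum_congr rfl fun i _ => ?_
    rw [smul_mulVec, dotProduct_smul, smul_eq_mul]
  rw [e, e, ← Finset.sum_sub_distrib]
  refine (norm_sum_le _ _).trans (Finset.sum_le_sum fun i hi => ?_)
  rw [← mul_sub, norm_mul, Complex.norm_real, Real.norm_of_nonneg (hw i hi)]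
  exact mul_le_mul_of_nonneg_left (hd i hi) (hw i hi)

/-- real part of `(1 + iτ) x` for `x` close to a real number -/
theorem re_mul_close185 {x : ℂ} {r e τ : ℝ} (h : ‖x - (r : ℂ)‖ ≤ e) :
    ((1 + (τ : ℂ) * Complex.I) * x).re ≤ r + (1 + |τ|) * e := by
  have e1 : (1 + (τ : ℂ) * Complex.I) * x =
      (1 + (τ : ℂ) * Complex.I) * (x - (r : ℂ)) + (1 + (τ : ℂ) * Complex.I) * (r : ℂ) := by ring
  rw [e1, Complex.add_re]
  have h1 : ((1 + (τ : ℂ) * Complex.I) * (r : ℂ)).re = r := by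
    rw [Complex.re_mul_ofReal]
    simp
  have h2 : ((1 + (τ : ℂ) * Complex.I) * (x - (r : ℂ))).re ≤ (1 + |τ|) * e := by
    refine (Complex.re_le_norm _).trans ?_
    rw [norm_mul]
    refine mul_le_mul ?_ h (norm_nonneg _) (by positivity)
    refine (norm_add_le _ _).trans ?_
    rw [norm_one, norm_mul, Complex.norm_I, mul_one, Complex.norm_real, Real.norm_eq_abs]
  rw [h1]
  linarith

/-- **(c)** the term of the healing operator in the derivative of the functional, bounded by its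
value in the ground state -/
theorem gamma_upper {ψ Ω : N → ℂ} {G : ℕ → Matrix N N ℂ} {n : ℕ} {ι : Type*} (s : Finset ι)
    {w : ι → ℝ} {K : ι → Matrix N N ℂ} (hK : ∀ i ∈ s, (K i).IsHermitian)
    (hw : ∀ i ∈ s, 0 ≤ w i) {B R d : ι → ℝ}
    (hR : ∀ i ∈ s, 0 < R i) (hB : ∀ i ∈ s, ∀ z : ℂ, ‖z‖ ≤ R i → ‖fE ψ G n (K i) z‖ ≤ B i)
    {t τ : ℝ} (hζ : ∀ i ∈ s, ‖(t : ℂ) * (1 + τ * Complex.I)‖ ≤ R i)
    (hd : ∀ i ∈ s, ‖star ψ ⬝ᵥ (K i *ᵥ ψ) - star Ω ⬝ᵥ (K i *ᵥ Ω)‖ ≤ d i) :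
    ((1 + (τ : ℂ) * Complex.I) * fE ψ G n (∑ i ∈ s, (w i : ℂ) • K i)
        ((t : ℂ) * (1 + τ * Complex.I))).re ≤
      expv Ω (∑ i ∈ s, (w i : ℂ) • K i) + (1 + |τ|) *
        ∑ i ∈ s, w i * (d i + 2 * B i * (‖(t : ℂ) * (1 + τ * Complex.I)‖ / R i)) := by
  refine re_mul_close185 ?_
  have h1 := gamma_flow s hw hR hB hζ
  have h2 := gamma_dev s hw hd
  have hH : (∑ i ∈ s, (w i : ℂ) • K i).IsHermitian := by
    rw [Matrix.IsHermitian, conjTranspose_sum]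
    refine Finset.sum_congr rfl fun i hi => ?_
    rw [conjTranspose_smul, (hK i hi).eq]
    simp
  have h3 : star Ω ⬝ᵥ ((∑ i ∈ s, (w i : ℂ) • K i) *ᵥ Ω) =
      ((expv Ω (∑ i ∈ s, (w i : ℂ) • K i) : ℝ) : ℂ) := by
    rw [expv]
    refine Complex.ext (by simp) ?_
    rw [Complex.ofReal_im]
    exact expL_herm hH Ω
  rw [← h3]
  calc _ ≤ ‖fE ψ G n (∑ i ∈ s, (w i : ℂ) • K i) ((t : ℂ) * (1 + τ * Complex.I)) -
        star ψ ⬝ᵥ ((∑ i ∈ s, (w i : ℂ) • K i) *ᵥ ψ)‖ +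
      ‖star ψ ⬝ᵥ ((∑ i ∈ s, (w i : ℂ) • K i) *ᵥ ψ) -
        star Ω ⬝ᵥ ((∑ i ∈ s, (w i : ℂ) • K i) *ᵥ Ω)‖ := norm_sub_le_norm_sub_add_norm_sub _ _ _
    _ ≤ _ := by
      refine (add_le_add h1 h2).trans (le_of_eq ?_)
      rw [← Finset.sum_add_distrib]
      exact Finset.sum_congr rfl fun i _ => by ring

end mat

end Vale.Agent.P356.GA
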