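import Vale.Agent.P356.GA.TiltUp412

/-!
# GA, block TILTUP (helper412), step B: the doubled system
-/

set_option linter.all false

namespace Vale.Agent.P356.GA

open Matrix Finset Vale.Agent.P356 Vale.Agent.P356.SV Vale.Agent.P356.Path Vale.Agent.P356.SA
open scoped BigOperators ComplexOrder Kronecker Matrix.Norms.L2Operator

section stepB
variable {V : Type} [Fintype V] [DecidableEq V] {q : ℕ}

/-- **Step B, assembled.** Doubled system, start vector `Ω ⊗ Ω`, outer regions `E k` of the doubled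
lattice which contain the second crosswise factor, healing generator `Γ₁ ⊗ 1 + 1 ⊗ Γ₂` with `Γ₁`
on `X` and `Γ₂` on `Xᶜ`. -/
theorem tilt_stepB (X : Finset V) (E : ℕ → Finset (V ⊕ V)) (hEm : ∀ j k, j ≤ k → E k ⊆ E j)
    (n : ℕ) (hE : ∀ k < n, Ful X (E k))
    {θ : ℕ → ℝ} (hθ : ∀ k, 0 < θ k) {M : ℝ} (hM : 0 ≤ M) {Γ₁ Γ₂ : Op V q}
    (h1 : ActsOn X Γ₁) (h2 : ActsOn Xᶜ Γ₂) (hΓ : (Γ₁ + Γ₂).IsHermitian)
    {B : ℝ} (hB : ‖Γ₁ + Γ₂‖ ≤ B) {Ω : Conf V q → ℂ} (hΩ : nsq Ω = 1)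
    {ε T : ℝ} (hε : 0 < ε) (hε1 : ε ≤ 1) (hT : 1 + 2 / ε ≤ Real.cosh T) (hT0 : 0 ≤ T)
    (C : ℝ)
    (hC : ∀ τ : ℝ, |τ| ≤ T → ∀ t, 0 < t → t ≤ 1 → ∀ ψ,
      TState (fun k => cut (E k) q) θ M (cp1 Γ₁ + cp2 Γ₂ : Op (V ⊕ V) q) (dbl Ω Ω)
        (1 + τ * Complex.I) n t ψ →
      -(∑ k ∈ range n, θ k * entropyOf (E k) ψ) +
        ((1 + τ * Complex.I) * FT (fun k => cut (E k) q) ψ (gL (fun k => cut (E k) q) ψ θ M) n
          (cp1 Γ₁ + cp2 Γ₂ : Op (V ⊕ V) q) (fun _ => (t : ℂ) * (1 + τ * Complex.I))).re ≤ C) :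
    0 ≤ 2 * C + 2 * ((1 + ε) * ((∑ k ∈ range n, θ k * entropyOf (Wr X (E k)) Ω) +
        entropyOf X Ω - (star Ω ⬝ᵥ ((Γ₁ + Γ₂) *ᵥ Ω)).re) + ε * B) +
      2 * ∑ k ∈ range n, θ k * ((q : ℝ) ^ (E k).card * Real.exp (-M)) := by
  obtain ⟨τ, hτ, U, g, hU, hg, hpen, hlow⟩ := low_stepB' X E n hE θ (fun k => (hθ k).le) hM h1 h2 hΓ
    hB hΩ hε hε1 hT hT0
  have hre : (1 + τ * Complex.I : ℂ).re = 1 := by simp
  have hΩ2 : nsq (dbl Ω Ω) = 1 := by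
    rw [nsq_dbl, hΩ, one_mul]
  set π : ∀ k, Par (fun k => Conf {x // x ∈ E k} q) k := fun k => (U k, g k) with hπ
  have hfeas : π ∈ FeasC (fun k => Conf {x // x ∈ E k} q) (fun _ => -M) (fun _ => 0) :=
    fun k => ⟨hU k, hg k⟩
  have hup := tilt_upper_region E hEm hθ hM hre (cp1 Γ₁ + cp2 Γ₂ : Op (V ⊕ V) q) hΩ2 n C (hC τ hτ)
    hfeas
  rw [mulVec_mulVec] at hup
  have h3 : prR (YC (fun k => cut (E k) q) θ π (1 + τ * Complex.I)) n =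
      prR (fun k => opL (cut (E k) q) (U k * diagonal (fun a =>
          Complex.exp ((1 + τ * Complex.I) * ((θ k * g k a : ℝ) : ℂ))) * (U k)ᴴ)) n :=
    prR_congr fun j _ => rfl
  rw [h3] at hup
  have h4 : ∑ k ∈ range n, θ k * (∑ i, Real.exp ((π k).2 i) - 1) ≤
      ∑ k ∈ range n, θ k * ((q : ℝ) ^ (E k).card * Real.exp (-M)) := by
    refine Finset.sum_le_sum fun k _ => mul_le_mul_of_nonneg_left ?_ (hθ k).le
    have h5 := hpen k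
    have h6 : (Fintype.card ({y // y ∈ E k} → Fin q) : ℝ) = (q : ℝ) ^ (E k).card := by
      rw [Fintype.card_fun, Fintype.card_fin, Fintype.card_coe]
      push_cast
      rfl
    rw [h6] at h5
    show ∑ i, Real.exp (g k i) - 1 ≤ _
    linarith
  linarith

end stepB

end Vale.Agent.P356.GA
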