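import Vale.Agent.P356.GA.Defs341
import Vale.Agent.P356.GA.TiltB412
import Vale.Agent.P356.PH.Act
import Vale.Agent.P356.SV.Region
import Vale.Agent.P356.SA.DecGeo

/-!
# GA, block T2 (helper103): elementary facts about the geometric data `Gd`
-/

set_option linter.all false

namespace Vale.Agent.P356.GA

open Matrix Finset Vale.Agent.P356 Vale.Agent.P356.SV Vale.Agent.P356.Path Vale.Agent.P356.NA
open Vale.Agent.P356.SA
open scoped BigOperators ComplexOrder Kronecker Matrix.Norms.L2Operator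

section levels
variable {L : ℕ} {T : Site L → ℝ} {t u : ℝ} {x : Site L}

theorem mem_loT : x ∈ loT T t ↔ T x ≤ t := by
  simp [loT]

theorem mem_upT : x ∈ upT T t ↔ t < T x := by
  simp [upT]

theorem mem_slT : x ∈ slT T t u ↔ t < T x ∧ T x ≤ u := by
  simp [slT]

theorem loT_compl : (loT T t)ᶜ = upT T t := by
  ext x
  rw [mem_compl, mem_loT, mem_upT, not_le]

theorem upT_compl : (upT T t)ᶜ = loT T t := by
  rw [← loT_compl, compl_compl]

theorem loT_mono {t u : ℝ} (h : t ≤ u) : loT T t ⊆ loT T u := by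
  intro x hx
  rw [mem_loT] at hx ⊢
  exact hx.trans h

theorem slT_eq : slT T t u = loT T u \ loT T t := by
  ext x
  rw [mem_slT, mem_sdiff, mem_loT, mem_loT, not_le]
  exact and_comm

end levels

/-! ### Tiles -/

section tiles
variable {L M : ℕ} {x y j j' : Site L}

theorem mem_tileB : x ∈ tileB L M j ↔ x.1.val / M = j.1.val ∧ x.2.val / M = j.2.val := by
  simp [tileB]

/-- the index of the tile of `x` -/
def tileIx (M : ℕ) (x : Site L) : Site L :=
  (⟨x.1.val / M, (Nat.div_le_self _ _).trans_lt x.1.2⟩,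
    ⟨x.2.val / M, (Nat.div_le_self _ _).trans_lt x.2.2⟩)

theorem mem_tileB_ix : x ∈ tileB L M (tileIx M x) := mem_tileB.2 ⟨rfl, rfl⟩

theorem mem_tileB_iff : x ∈ tileB L M j ↔ j = tileIx M x := by
  rw [mem_tileB]
  constructor
  · rintro ⟨h1, h2⟩
    exact Prod.ext (Fin.ext h1.symm) (Fin.ext h2.symm)
  · rintro rfl
    exact ⟨rfl, rfl⟩

theorem tileB_disjoint (h : j ≠ j') : Disjoint (tileB L M j) (tileB L M j') := by
  rw [Finset.disjoint_left]
  intro x hx hx'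
  rw [mem_tileB_iff] at hx hx'
  exact h (hx.trans hx'.symm)

/-- points of one tile are at l1 distance at most `2 M - 2` -/
theorem tileB_dist (hM : 0 < M) (hx : x ∈ tileB L M j) (hy : y ∈ tileB L M j) :
    dist1 x y + 2 ≤ 2 * M := by
  rw [mem_tileB] at hx hy
  obtain ⟨h1, h2⟩ := hx
  obtain ⟨h3, h4⟩ := hy
  have e1 := Nat.div_add_mod x.1.val M
  have e2 := Nat.div_add_mod x.2.val M
  have e3 := Nat.div_add_mod y.1.val M
  have e4 := Nat.div_add_mod y.2.val M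
  have m1 := Nat.mod_lt x.1.val hM
  have m2 := Nat.mod_lt x.2.val hM
  have m3 := Nat.mod_lt y.1.val hM
  have m4 := Nat.mod_lt y.2.val hM
  rw [h1] at e1
  rw [h2] at e2
  rw [h3] at e3
  rw [h4] at e4
  unfold dist1
  omega

/-- a tile is contained in a rectangle of sides `M` -/
theorem tileB_sub_rect (hM : 0 < M) (j : Site L) :
    tileB L M j ⊆ rect L (M * j.1) (M * j.1 + M) (M * j.2) (M * j.2 + M) := by
  intro x hx
  rw [mem_tileB] at hx
  obtain ⟨h1, h2⟩ := hx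
  have e1 := Nat.div_add_mod x.1.val M
  have e2 := Nat.div_add_mod x.2.val M
  have m1 := Nat.mod_lt x.1.val hM
  have m2 := Nat.mod_lt x.2.val hM
  rw [h1] at e1
  rw [h2] at e2
  simp only [rect, Finset.mem_filter, Finset.mem_univ, true_and]
  omega

theorem card_tileB_le (hM : 0 < M) (j : Site L) : (tileB L M j).card ≤ M ^ 2 := by
  classical
  have h : Set.InjOn (fun x : Site L => (x.1.val % M, x.2.val % M)) (tileB L M j) := by
    intro x hx y hy hxy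
    rw [Finset.mem_coe, mem_tileB] at hx hy
    simp only [Prod.mk.injEq] at hxy
    have e1 := Nat.div_add_mod x.1.val M
    have e2 := Nat.div_add_mod x.2.val M
    have e3 := Nat.div_add_mod y.1.val M
    have e4 := Nat.div_add_mod y.2.val M
    rw [hx.1] at e1
    rw [hx.2] at e2
    rw [hy.1] at e3
    rw [hy.2] at e4
    refine Prod.ext (Fin.ext ?_) (Fin.ext ?_)
    · omega
    · omega
  calc (tileB L M j).card ≤ ((Finset.range M) ×ˢ (Finset.range M)).card := by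
        refine Finset.card_le_card_of_injOn _ ?_ h
        intro x _
        rw [Finset.mem_coe, Finset.mem_product, Finset.mem_range, Finset.mem_range]
        exact ⟨Nat.mod_lt _ hM, Nat.mod_lt _ hM⟩
    _ = M ^ 2 := by
        rw [Finset.card_product, Finset.card_range, pow_two]

/-- the tiles partition every region -/
theorem sum_card_tileB (A : Finset (Site L)) : ∑ j, (A ∩ tileB L M j).card = A.card := by
  classical
  rw [Finset.card_eq_sum_card_fiberwise (f := tileIx M) (t := Finset.univ)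
    (fun x _ => Finset.mem_coe.2 (Finset.mem_univ _))]
  refine Finset.sum_congr rfl fun j _ => ?_
  congr 1
  ext x
  rw [mem_inter, mem_filter, mem_tileB_iff]
  exact and_congr_right fun _ => eq_comm

theorem biUnion_tileB (A : Finset (Site L)) :
    (Finset.univ : Finset (Site L)).biUnion (fun j => A ∩ tileB L M j) = A := by
  ext x
  rw [mem_biUnion]
  constructor
  · rintro ⟨j, -, hj⟩
    exact (mem_inter.1 hj).1
  · intro hx
    exact ⟨tileIx M x, mem_univ _, mem_inter.2 ⟨hx, mem_tileB_ix⟩⟩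

theorem inter_tileB_disjoint {A B : Finset (Site L)} (h : j ≠ j') :
    Disjoint (A ∩ tileB L M j) (B ∩ tileB L M j') :=
  (tileB_disjoint h).mono inter_subset_right inter_subset_right

/-- the number of tiles which meet a region is at most its cardinality -/
theorem card_tiles_meet (A : Finset (Site L)) :
    (Finset.univ.filter fun j : Site L => (A ∩ tileB L M j).Nonempty).card ≤ A.card := by
  classical
  have h : (Finset.univ.filter fun j : Site L => (A ∩ tileB L M j).Nonempty) ⊆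
      A.image (tileIx M) := by
    intro j hj
    obtain ⟨x, hx⟩ := (mem_filter.1 hj).2
    rw [mem_inter, mem_tileB_iff] at hx
    exact mem_image.2 ⟨x, hx.1, hx.2.symm⟩
  exact (card_le_card h).trans card_image_le

end tiles

section ip
variable {V W : Type} [Fintype V] [DecidableEq V] [Fintype W] [DecidableEq W] {q : ℕ}

theorem ip_dbl103 (a c : Conf V q → ℂ) (b d : Conf W q → ℂ) :
    star (dbl a b) ⬝ᵥ dbl c d = (star a ⬝ᵥ c) * (star b ⬝ᵥ d) := by
  rw [dotProduct, dotProduct, dotProduct, Finset.sum_mul_sum, ← Finset.sum_product',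
    Finset.univ_product_univ]
  refine Fintype.sum_equiv (Equiv.sumArrowEquivProdArrow V W (Fin q)) _ _ fun s => ?_
  simp only [Pi.star_apply, dbl, Equiv.sumArrowEquivProdArrow, Equiv.coe_fn_mk, star_mul']
  ring

theorem ip_self103 {Ω : Conf V q → ℂ} (h : nsq Ω = 1) : star Ω ⬝ᵥ Ω = 1 := by
  have h1 : star Ω ⬝ᵥ Ω = ((nsq Ω : ℝ) : ℂ) := by
    rw [dotProduct, nsq]
    push_cast
    refine Finset.sum_congr rfl fun s _ => ?_
    rw [Pi.star_apply, RCLike.star_def, Complex.conj_mul']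
  rw [h1, h, Complex.ofReal_one]

end ip

/-! ### The regions -/

namespace Gd

variable {L : ℕ} (g : Gd L) {j k : ℕ} {x : Site L}

theorem mem_P : x ∈ g.P k ↔ g.T x ≤ g.t0 + k := mem_loT
theorem mem_Q : x ∈ g.Q k ↔ g.T x ≤ g.t0 + g.N - k := mem_loT
theorem mem_Mid : x ∈ g.Mid ↔ g.T x ≤ g.t0 + g.m := mem_loT

theorem mem_R {v : Site L ⊕ Site L} : v ∈ g.R k ↔
    Sum.elim (fun x => g.t0 + k < g.T x) (fun x => g.T x ≤ g.t0 + g.N - k) v := by
  unfold R
  simp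

theorem inl_mem_R : (Sum.inl x : Site L ⊕ Site L) ∈ g.R k ↔ g.t0 + k < g.T x := g.mem_R
theorem inr_mem_R : (Sum.inr x : Site L ⊕ Site L) ∈ g.R k ↔ g.T x ≤ g.t0 + g.N - k := g.mem_R

theorem inl_mem_R' : (Sum.inl x : Site L ⊕ Site L) ∈ g.R k ↔ x ∉ g.P k := by
  rw [inl_mem_R, mem_P, not_le]

theorem inr_mem_R' : (Sum.inr x : Site L ⊕ Site L) ∈ g.R k ↔ x ∈ g.Q k := by
  rw [inr_mem_R, mem_Q]

theorem mem_s1 : x ∈ g.s1 k ↔ g.t0 + k < g.T x ∧ g.T x ≤ g.t0 + k + g.mp := mem_slT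

theorem mem_s2 : x ∈ g.s2 k ↔ g.t0 + g.N - k - g.mp < g.T x ∧ g.T x ≤ g.t0 + g.N - k := mem_slT

theorem P_mono (h : j ≤ k) : g.P j ⊆ g.P k := by
  refine loT_mono ?_
  have : (j : ℝ) ≤ k := by exact_mod_cast h
  linarith

theorem Q_anti (h : j ≤ k) : g.Q k ⊆ g.Q j := by
  refine loT_mono ?_
  have : (j : ℝ) ≤ k := by exact_mod_cast h
  linarith

theorem P_sub_Mid (h : k ≤ g.m) : g.P k ⊆ g.Mid := by
  refine loT_mono ?_
  have : (k : ℝ) ≤ g.m := by exact_mod_cast h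
  linarith

theorem Mid_sub_Q (h : g.m + k ≤ g.N) : g.Mid ⊆ g.Q k := by
  refine loT_mono ?_
  have : (g.m : ℝ) + k ≤ g.N := by exact_mod_cast h
  linarith

theorem P_sub_Q (h : k ≤ g.m) (h' : g.m + k ≤ g.N) : g.P k ⊆ g.Q k :=
  (g.P_sub_Mid h).trans (g.Mid_sub_Q h')

theorem R_anti (h : j ≤ k) : g.R k ⊆ g.R j := by
  intro v hv
  rcases v with x | x
  · rw [inl_mem_R'] at hv ⊢
    exact fun hx => hv (g.P_mono h hx)
  · rw [inr_mem_R'] at hv ⊢
    exact g.Q_anti h hv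

/-- the outer region of the doubled lattice -/
theorem R_eq (k : ℕ) : g.R k = (g.P k)ᶜ.disjSum (g.Q k) := by
  ext v
  rcases v with x | x
  · rw [inl_mem_R', inl_mem_disjSum, mem_compl]
  · rw [inr_mem_R', inr_mem_disjSum]

/-- the inner region of the doubled lattice -/
theorem R_compl (k : ℕ) : (g.R k)ᶜ = (g.P k).disjSum (g.Q k)ᶜ := by
  ext v
  rcases v with x | x
  · rw [mem_compl, inl_mem_R', inl_mem_disjSum, not_not]
  · rw [mem_compl, inr_mem_R', inr_mem_disjSum, mem_compl]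

/-- the outer regions contain the second crosswise factor -/
theorem ful (h : k ≤ g.m) (h' : g.m + k ≤ g.N) : Ful g.Mid (g.R k) := by
  intro x
  unfold ixB
  split_ifs with hx
  · rw [inr_mem_R']
    exact g.Mid_sub_Q h' hx
  · rw [inl_mem_R']
    exact fun hP => hx (g.P_sub_Mid h hP)

/-- the region of the first crosswise factor is the ring -/
theorem wr (h : k ≤ g.m) (h' : g.m + k ≤ g.N) : Wr g.Mid (g.R k) = g.Q k \ g.P k := by
  ext x
  rw [mem_Wr, mem_sdiff]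
  unfold ixA
  split_ifs with hx
  · rw [inl_mem_R']
    exact ⟨fun h1 => ⟨g.Mid_sub_Q h' hx, h1⟩, fun h1 => h1.2⟩
  · rw [inr_mem_R']
    exact ⟨fun h1 => ⟨h1, fun hP => hx (g.P_sub_Mid h hP)⟩, fun h1 => h1.1⟩

theorem s1_sub_Mid (h : k + g.mp ≤ g.m) : g.s1 k ⊆ g.Mid := by
  intro x hx
  rw [mem_s1] at hx
  rw [mem_Mid]
  have : (k : ℝ) + g.mp ≤ g.m := by exact_mod_cast h
  linarith [hx.2]

theorem s2_sub_Mid (h : g.m + k + g.mp ≤ g.N) : g.s2 k ⊆ g.Midᶜ := by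
  intro x hx
  rw [mem_s2] at hx
  rw [mem_compl, mem_Mid, not_le]
  have : (g.m : ℝ) + k + g.mp ≤ g.N := by exact_mod_cast h
  linarith [hx.1]

/-- the slabs of layer one lie in the outer region, on its boundary side -/
theorem s1_sub_compl : g.s1 k ⊆ (g.P k)ᶜ := by
  intro x hx
  rw [mem_s1] at hx
  rw [mem_compl, mem_P, not_le]
  exact hx.1

theorem s2_sub_Q : g.s2 k ⊆ g.Q k := by
  intro x hx
  rw [mem_s2] at hx
  rw [mem_Q]
  exact hx.2

theorem s1_eq : g.s1 k = g.P (k + g.mp) \ g.P k := by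
  ext x
  rw [mem_s1, mem_sdiff, mem_P, mem_P, not_le]
  push_cast
  constructor
  · rintro ⟨h1, h2⟩
    exact ⟨by linarith, h1⟩
  · rintro ⟨h1, h2⟩
    exact ⟨h2, by linarith⟩

theorem s2_eq : g.s2 k = g.Q k \ g.Q (k + g.mp) := by
  ext x
  rw [mem_s2, mem_sdiff, mem_Q, mem_Q, not_le]
  push_cast
  constructor
  · rintro ⟨h1, h2⟩
    exact ⟨h2, by linarith⟩
  · rintro ⟨h1, h2⟩
    exact ⟨by linarith, h1⟩

theorem bdry_ring (k : ℕ) : bdry (g.Q k \ g.P k) ≤ bdry (g.Q k) + bdry (g.P k) := by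
  rw [Finset.sdiff_eq_inter_compl, ← b9_bdry_compl (g.Q k ∩ (g.P k)ᶜ)]
  rw [show (g.Q k ∩ (g.P k)ᶜ)ᶜ = (g.Q k)ᶜ ∪ g.P k by
    ext x
    simp only [mem_compl, mem_inter, mem_union]
    tauto]
  refine (sa7_bdry_union _ _).trans ?_
  rw [b9_bdry_compl]

/-! ### The generator -/

variable {q : ℕ} {θ : ℝ} {Kt : Finset (Site L) → Op (Site L) q}

theorem acts_sum {V ι : Type*} [Fintype V] [DecidableEq V] {X : Finset V} (s : Finset ι)
    (A : ι → Op V q) (h : ∀ i ∈ s, ActsOn X (A i)) : ActsOn X (∑ i ∈ s, A i) := by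
  classical
  induction s using Finset.induction_on with
  | empty => rw [Finset.sum_empty]; exact PH.act_zero X
  | insert i s hi ih =>
    rw [Finset.sum_insert hi]
    exact PH.act_add (h i (mem_insert_self _ _)) (ih fun j hj => h j (mem_insert_of_mem hj))

/-- layer one acts on the middle region -/
theorem Gm1_acts (hK : ∀ b, ActsOn b (Kt b)) (h : g.n + g.mp ≤ g.m) :
    ActsOn g.Mid (g.Gm1 θ Kt) := by
  refine acts_sum _ _ fun k hk => acts_sum _ _ fun j _ => PH.act_smul _ ?_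
  have hk' := mem_range.1 hk
  exact PH.act_mono (inter_subset_left.trans (g.s1_sub_Mid (by omega))) (hK _)

/-- layer two acts on the complement of the middle region -/
theorem Gm2_acts (hK : ∀ b, ActsOn b (Kt b)) (h : g.m + g.n + g.mp ≤ g.N) :
    ActsOn g.Midᶜ (g.Gm2 θ Kt) := by
  refine acts_sum _ _ fun k hk => acts_sum _ _ fun j _ => PH.act_smul _ ?_
  have hk' := mem_range.1 hk
  exact PH.act_mono (inter_subset_left.trans (g.s2_sub_Mid (by omega))) (hK _)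

theorem herm_rsmul {V : Type*} [Fintype V] {A : Op V q} (c : ℝ) (h : A.IsHermitian) :
    (((c : ℝ) : ℂ) • A).IsHermitian := by
  unfold Matrix.IsHermitian at h ⊢
  rw [conjTranspose_smul, h, RCLike.star_def, Complex.conj_ofReal]

theorem herm_sum {V ι : Type*} [Fintype V] (s : Finset ι) (A : ι → Op V q)
    (h : ∀ i ∈ s, (A i).IsHermitian) : (∑ i ∈ s, A i).IsHermitian := by
  unfold Matrix.IsHermitian
  rw [conjTranspose_sum]
  exact Finset.sum_congr rfl fun i hi => h i hi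

theorem Gm1_herm (hK : ∀ b, (Kt b).IsHermitian) : (g.Gm1 θ Kt).IsHermitian :=
  herm_sum _ _ fun _ _ => herm_sum _ _ fun _ _ => herm_rsmul _ (hK _)

theorem Gm2_herm (hK : ∀ b, (Kt b).IsHermitian) : (g.Gm2 θ Kt).IsHermitian :=
  herm_sum _ _ fun _ _ => herm_sum _ _ fun _ _ => herm_rsmul _ (hK _)

theorem Gm12_herm (hK : ∀ b, (Kt b).IsHermitian) : (g.Gm1 θ Kt + g.Gm2 θ Kt).IsHermitian :=
  (g.Gm1_herm hK).add (g.Gm2_herm hK)

theorem Gm_herm (hK : ∀ b, (Kt b).IsHermitian) : (g.Gm θ Kt).IsHermitian := by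
  unfold Gm Matrix.IsHermitian
  rw [conjTranspose_add, cp1_ct, cp2_ct, g.Gm1_herm hK, g.Gm2_herm hK]

theorem norm_Gm_aux (s : ℕ → Finset (Site L)) {B : ℝ} (hB : 0 ≤ B) (hθ : 0 ≤ θ)
    (hK0 : Kt ∅ = 0) (hK : ∀ b, ‖Kt b‖ ≤ B * b.card) :
    ‖∑ k ∈ range g.n, ∑ j : Site L, ((θ / 2 : ℝ) : ℂ) • Kt (s k ∩ tileB L g.tl j)‖ ≤
      θ / 2 * (B * ∑ k ∈ range g.n, ((s k).card : ℝ)) := by
  calc ‖∑ k ∈ range g.n, ∑ j : Site L, ((θ / 2 : ℝ) : ℂ) • Kt (s k ∩ tileB L g.tl j)‖ ≤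
      ∑ k ∈ range g.n, ∑ j : Site L, θ / 2 * (B * ((s k ∩ tileB L g.tl j).card : ℝ)) := by
        refine norm_sum_le_of_le _ fun k _ => norm_sum_le_of_le _ fun j _ => ?_
        rw [norm_smul, Complex.norm_real, Real.norm_of_nonneg (by linarith)]
        exact mul_le_mul_of_nonneg_left (hK _) (by linarith)
    _ = θ / 2 * (B * ∑ k ∈ range g.n, ((s k).card : ℝ)) := by
        rw [Finset.mul_sum, Finset.mul_sum]
        refine Finset.sum_congr rfl fun k _ => ?_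
        rw [← Finset.mul_sum, ← Finset.mul_sum]
        congr 2
        exact_mod_cast sum_card_tileB (s k)

/-- the norm of layer one, if `‖Kt b‖ ≤ B |b|` -/
theorem norm_Gm1 {B : ℝ} (hB : 0 ≤ B) (hθ : 0 ≤ θ) (hK0 : Kt ∅ = 0)
    (hK : ∀ b, ‖Kt b‖ ≤ B * b.card) :
    ‖g.Gm1 θ Kt‖ ≤ θ / 2 * (B * ∑ k ∈ range g.n, ((g.s1 k).card : ℝ)) :=
  g.norm_Gm_aux _ hB hθ hK0 hK

theorem norm_Gm2 {B : ℝ} (hB : 0 ≤ B) (hθ : 0 ≤ θ) (hK0 : Kt ∅ = 0)
    (hK : ∀ b, ‖Kt b‖ ≤ B * b.card) :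
    ‖g.Gm2 θ Kt‖ ≤ θ / 2 * (B * ∑ k ∈ range g.n, ((g.s2 k).card : ℝ)) :=
  g.norm_Gm_aux _ hB hθ hK0 hK

/-- the slabs are inside a region `W` : total norm at most `θ n B |W|` -/
theorem norm_Gm12 {B : ℝ} (hB : 0 ≤ B) (hθ : 0 ≤ θ) (hK0 : Kt ∅ = 0)
    (hK : ∀ b, ‖Kt b‖ ≤ B * b.card) {W : Finset (Site L)}
    (h1 : ∀ k < g.n, g.s1 k ⊆ W) (h2 : ∀ k < g.n, g.s2 k ⊆ W) :
    ‖g.Gm1 θ Kt + g.Gm2 θ Kt‖ ≤ θ * g.n * (B * W.card) := by
  have hs : ∀ s : ℕ → Finset (Site L), (∀ k < g.n, s k ⊆ W) →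
      ∑ k ∈ range g.n, ((s k).card : ℝ) ≤ g.n * W.card := by
    intro s hs
    calc ∑ k ∈ range g.n, ((s k).card : ℝ) ≤ ∑ k ∈ range g.n, (W.card : ℝ) := by
          refine Finset.sum_le_sum fun k hk => ?_
          exact_mod_cast card_le_card (hs k (mem_range.1 hk))
      _ = g.n * W.card := by
          rw [Finset.sum_const, card_range, nsmul_eq_mul]
  refine (norm_add_le _ _).trans ?_
  have e1 := g.norm_Gm1 hB hθ hK0 hK
  have e2 := g.norm_Gm2 hB hθ hK0 hK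
  have e3 : θ / 2 * (B * ∑ k ∈ range g.n, ((g.s1 k).card : ℝ)) ≤
      θ / 2 * (B * (g.n * W.card)) :=
    mul_le_mul_of_nonneg_left (mul_le_mul_of_nonneg_left (hs _ h1) hB) (by linarith)
  have e4 : θ / 2 * (B * ∑ k ∈ range g.n, ((g.s2 k).card : ℝ)) ≤
      θ / 2 * (B * (g.n * W.card)) :=
    mul_le_mul_of_nonneg_left (mul_le_mul_of_nonneg_left (hs _ h2) hB) (by linarith)
  linarith

/-- the expectation of the generator in `Ω ⊗ Ω` -/
theorem expv_Gm {Ω : Conf (Site L) q → ℂ} (hΩ : nsq Ω = 1) :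
    expv (dbl Ω Ω) (g.Gm θ Kt) = expv Ω (g.Gm1 θ Kt + g.Gm2 θ Kt) := by
  unfold Gm
  rw [expv_add, expv_add]
  unfold expv
  rw [cp1_dbl, cp2_dbl, ip_dbl103, ip_dbl103, ip_self103 hΩ, mul_one, one_mul]

/-- **Step B for the geometric data** (412's `tilt_stepB` with the regions of `Gd`). -/
theorem stepB (h1 : g.n + g.mp ≤ g.m) (h2 : g.m + g.n + g.mp ≤ g.N) (hθ : 0 < θ) {M : ℝ}
    (hM : 0 ≤ M) (hK : ∀ b, (Kt b).IsHermitian ∧ ActsOn b (Kt b)) {B : ℝ}
    (hB : ‖g.Gm1 θ Kt + g.Gm2 θ Kt‖ ≤ B) {Ω : Conf (Site L) q → ℂ} (hΩ : nsq Ω = 1)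
    {ε T : ℝ} (hε : 0 < ε) (hε1 : ε ≤ 1) (hT : 1 + 2 / ε ≤ Real.cosh T) (hT0 : 0 ≤ T) (C : ℝ)
    (hC : ∀ τ : ℝ, |τ| ≤ T → ∀ t, 0 < t → t ≤ 1 → ∀ ψ, g.St θ M Kt Ω τ t ψ →
      -(θ * ∑ k ∈ range g.n, entropyOf (g.R k) ψ) +
        ((1 + τ * Complex.I) * g.wkv θ M τ t ψ (g.Gm θ Kt)).re ≤ C) :
    0 ≤ 2 * C + 2 * ((1 + ε) * (θ * (∑ k ∈ range g.n, entropyOf (g.Q k \ g.P k) Ω) +
        entropyOf g.Mid Ω - expv (dbl Ω Ω) (g.Gm θ Kt)) + ε * B) +
      2 * (θ * ∑ k ∈ range g.n, ((q : ℝ) ^ (g.R k).card * Real.exp (-M))) := by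
  have hE : ∀ k < g.n, Ful g.Mid (g.R k) := fun k hk => g.ful (by omega) (by omega)
  have h := tilt_stepB g.Mid g.R (fun j k hjk => g.R_anti hjk) g.n hE (θ := fun _ => θ)
    (fun _ => hθ) hM (g.Gm1_acts (fun b => (hK b).2) h1) (g.Gm2_acts (fun b => (hK b).2) h2)
    (g.Gm12_herm fun b => (hK b).1) hB hΩ hε hε1 hT hT0 C ?_
  · have e1 : ∑ k ∈ range g.n, θ * entropyOf (Wr g.Mid (g.R k)) Ω =
        θ * ∑ k ∈ range g.n, entropyOf (g.Q k \ g.P k) Ω := by
      rw [Finset.mul_sum]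
      refine Finset.sum_congr rfl fun k hk => ?_
      have hk' := mem_range.1 hk
      rw [g.wr (by omega) (by omega)]
    rw [e1, ← Finset.mul_sum] at h
    rw [g.expv_Gm hΩ]
    exact h
  · intro τ hτ t ht ht1 ψ hψ
    have h3 := hC τ hτ t ht ht1 ψ hψ
    rw [Finset.mul_sum] at h3
    exact h3

end Gd

end Vale.Agent.P356.GA
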