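import Vale.Agent.P356.SV.Tilt1
import Vale.Agent.P356.SV.Ops
import Vale.Agent.P356.SV.Cut
import Mathlib.Analysis.Complex.Hadamard
import Mathlib.Analysis.Complex.CauchyIntegral

/-!
# GA, block TUBE (helper107), part a: complex functions of the reduced state, transport

* `cOp x f` : complex function of the reduced state of `x` on the first factor.
* `tOp x f` : the corresponding operator on the second factor (a unital `*`-homomorphism in `f`).
* `c_transport` : `opR e (tOp x f) ψ = opL e (cOp x f) ψ`.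
-/

set_option linter.all false

namespace Vale.Agent.P356.GA

open Matrix Finset Vale.Agent.P356 Vale.Agent.P356.SV Vale.Agent.P356.Path
open scoped BigOperators ComplexOrder Kronecker

section tr
variable {N α β : Type*} [Fintype N] [DecidableEq N] [Fintype α] [Fintype β] [DecidableEq α]
  [DecidableEq β]

/-- complex function of the reduced state of `x` on the first factor -/
noncomputable def cOp (x : α × β → ℂ) (f : α → ℂ) : Matrix α α ℂ :=
  eigU x * diagonal f * (eigU x)ᴴ

theorem fOp_eq_cOp (x : α × β → ℂ) (f : α → ℝ) : fOp x f = cOp x (fun i => (f i : ℂ)) := rfl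

theorem cOp_mul (x : α × β → ℂ) (f g : α → ℂ) : cOp x f * cOp x g = cOp x (fun i => f i * g i) := by
  have h := eigU_mul' x
  rw [cOp, cOp, cOp]
  calc eigU x * diagonal f * (eigU x)ᴴ * (eigU x * diagonal g * (eigU x)ᴴ) =
      eigU x * diagonal f * ((eigU x)ᴴ * eigU x) * diagonal g * (eigU x)ᴴ := by
        simp only [Matrix.mul_assoc]
    _ = eigU x * (diagonal f * diagonal g) * (eigU x)ᴴ := by
        rw [h, Matrix.mul_one, Matrix.mul_assoc (eigU x)]
    _ = _ := by rw [diagonal_mul_diagonal]

theorem cOp_one (x : α × β → ℂ) : cOp x (fun _ => 1) = 1 := by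
  rw [cOp, diagonal_one, Matrix.mul_one]
  exact eigU_mul x

theorem cOp_conjTranspose (x : α × β → ℂ) (f : α → ℂ) :
    (cOp x f)ᴴ = cOp x (fun i => star (f i)) := by
  rw [cOp, cOp, conjTranspose_mul, conjTranspose_mul, conjTranspose_conjTranspose,
    diagonal_conjTranspose, Matrix.mul_assoc]
  rfl

/-- the Schmidt vectors on the second factor -/
noncomputable def Phi (x : α × β → ℂ) : Matrix β α ℂ := fun b i => ((rotW x)ᴴ *ᵥ x) (i, b)

theorem Phi_gram (x : α × β → ℂ) : (Phi x)ᴴ * Phi x = diagonal (fun i => (eigp x i : ℂ)) := by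
  ext i j
  rw [Matrix.mul_apply, Matrix.diagonal_apply]
  simp only [conjTranspose_apply, Phi]
  have h := rot_self x j i
  have e1 : ∑ b, star (((rotW x)ᴴ *ᵥ x) (i, b)) * ((rotW x)ᴴ *ᵥ x) (j, b) =
      ∑ b, ((rotW x)ᴴ *ᵥ x) (j, b) * star (((rotW x)ᴴ *ᵥ x) (i, b)) :=
    Finset.sum_congr rfl fun b _ => mul_comm _ _
  rw [e1, h]
  by_cases hij : i = j
  · subst hij
    simp only [if_true]
  · rw [if_neg hij, if_neg (Ne.symm hij)]

/-- The operator on the second factor which acts on `x` like `cOp x f`. -/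
noncomputable def tOp (x : α × β → ℂ) (f : α → ℂ) : Matrix β β ℂ :=
  1 + Phi x * diagonal (fun i => (f i - 1) / (eigp x i : ℂ)) * (Phi x)ᴴ

theorem tOp_one (x : α × β → ℂ) : tOp x (fun _ => 1) = 1 := by
  rw [tOp]
  simp only [sub_self, zero_div]
  rw [diagonal_zero, Matrix.mul_zero, Matrix.zero_mul, add_zero]

theorem tOp_conjTranspose (x : α × β → ℂ) (f : α → ℂ) :
    (tOp x f)ᴴ = tOp x (fun i => star (f i)) := by
  rw [tOp, tOp, conjTranspose_add, conjTranspose_one, conjTranspose_mul, conjTranspose_mul,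
    conjTranspose_conjTranspose, diagonal_conjTranspose, Matrix.mul_assoc]
  congr 4
  funext i
  simp only [Pi.star_apply, RCLike.star_def, map_div₀, map_sub, map_one, Complex.conj_ofReal]

theorem tOp_mul (x : α × β → ℂ) (f g : α → ℂ) : tOp x f * tOp x g = tOp x (fun i => f i * g i) := by
  set Φ := Phi x with hΦ
  set s : α → ℂ := fun i => (f i - 1) / (eigp x i : ℂ) with hs
  set s' : α → ℂ := fun i => (g i - 1) / (eigp x i : ℂ) with hs'
  have hG : Φᴴ * Φ = diagonal (fun i => (eigp x i : ℂ)) := Phi_gram x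
  have e1 : Φ * diagonal s * Φᴴ * (Φ * diagonal s' * Φᴴ) =
      Φ * diagonal (fun i => s i * eigp x i * s' i) * Φᴴ := by
    calc Φ * diagonal s * Φᴴ * (Φ * diagonal s' * Φᴴ)
        = Φ * diagonal s * (Φᴴ * Φ) * diagonal s' * Φᴴ := by
          simp only [Matrix.mul_assoc]
      _ = Φ * (diagonal s * diagonal (fun i => (eigp x i : ℂ)) *
          diagonal s') * Φᴴ := by rw [hG]; simp only [Matrix.mul_assoc]
      _ = _ := by rw [diagonal_mul_diagonal, diagonal_mul_diagonal]
  have e2 : (fun i => (f i * g i - 1) / (eigp x i : ℂ)) =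
      fun i => s' i + (s i + s i * eigp x i * s' i) := by
    funext i
    rw [hs, hs']
    by_cases hp : (eigp x i : ℂ) = 0
    · simp only [hp, div_zero, mul_zero, add_zero]
    · field_simp
      ring
  rw [tOp, tOp, tOp, e2, ← hΦ, Matrix.add_mul, Matrix.mul_add, Matrix.mul_add, Matrix.one_mul,
    Matrix.mul_one, Matrix.one_mul, e1]
  have e4 : Φ * diagonal s' * Φᴴ + (Φ * diagonal s * Φᴴ +
      Φ * diagonal (fun i => s i * eigp x i * s' i) * Φᴴ) =
      Φ * diagonal (fun i => s' i + (s i + s i * eigp x i * s' i)) * Φᴴ := by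
    rw [← diagonal_add, ← diagonal_add, Matrix.mul_add, Matrix.mul_add, Matrix.add_mul,
      Matrix.add_mul]
  rw [← e4]
  abel

/-- action of a function of the reduced state in the rotated frame -/
theorem cOp_rot (x : α × β → ℂ) (f : α → ℂ) :
    (cOp x f ⊗ₖ (1 : Matrix β β ℂ)) *ᵥ x =
      rotW x *ᵥ (fun z : α × β => f z.1 * ((rotW x)ᴴ *ᵥ x) z) := by
  have hd : (fun z : α × β => f z.1 * ((rotW x)ᴴ *ᵥ x) z) =
      (diagonal f ⊗ₖ (1 : Matrix β β ℂ)) *ᵥ ((rotW x)ᴴ *ᵥ x) := by
    generalize (rotW x)ᴴ *ᵥ x = y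
    funext z
    obtain ⟨a, b⟩ := z
    simp only [mulVec, dotProduct, Fintype.sum_prod_type, kroneckerMap_apply,
      Matrix.one_apply, Matrix.diagonal_apply]
    rw [Finset.sum_eq_single a, Finset.sum_eq_single b]
    · simp only [if_true, mul_one]
    · intro b' _ hb
      rw [if_neg (Ne.symm hb), mul_zero, zero_mul]
    · intro h
      exact absurd (Finset.mem_univ b) h
    · intro a' _ ha
      refine Finset.sum_eq_zero fun b' _ => ?_
      rw [if_neg (Ne.symm ha), zero_mul, zero_mul]
    · intro h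
      exact absurd (Finset.mem_univ a) h
  rw [hd, mulVec_mulVec, mulVec_mulVec]
  congr 1
  rw [rotW, conjTranspose_kronecker, conjTranspose_one, ← mul_kronecker_mul,
    ← mul_kronecker_mul, Matrix.mul_one, Matrix.mul_one, cOp, Matrix.mul_assoc]

/-- **Transport** of complex functions of the reduced state to the other side. -/
theorem c_transport (e : N ≃ α × β) (ψ : N → ℂ) (y : α → ℂ) :
    opR e (tOp (ψ ∘ e.symm) y) *ᵥ ψ = opL e (cOp (ψ ∘ e.symm) y) *ᵥ ψ := by
  set x := ψ ∘ e.symm with hx
  set Ω := (rotW x)ᴴ *ᵥ x with hΩ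
  have hunrot : ∀ a b, ψ (e.symm (a, b)) = ∑ i, eigU x a i * Ω (i, b) := fun a b => b2_unrot x a b
  have hp := rot_self x
  have hpn : ∀ i, ∑ b, ‖Ω (i, b)‖ ^ 2 = eigp x i := row_norm_of_diag hp
  have hzero : ∀ i, eigp x i = 0 → ∀ b, Ω (i, b) = 0 := by
    intro i hi b
    have h1 := hpn i
    rw [hi] at h1
    have h2 := (Finset.sum_eq_zero_iff_of_nonneg (fun b _ => by (clear * -; positivity))).mp h1 b
      (Finset.mem_univ b)
    simpa using h2
  funext n
  obtain ⟨⟨a, b⟩, rfl⟩ := e.symm.surjective n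
  have hR : (opL e (cOp x y) *ᵥ ψ) (e.symm (a, b)) = ∑ i, eigU x a i * (y i * Ω (i, b)) := by
    have h1 := congrFun (opL_mulVec e (cOp x y) ψ) (a, b)
    simp only [Function.comp_apply] at h1
    rw [h1]
    have h2 := congrFun (cOp_rot x y) (a, b)
    rw [← hx, h2, ← hΩ]
    generalize Ω = z
    simp only [rotW, mulVec, dotProduct, Fintype.sum_prod_type, kroneckerMap_apply,
      Matrix.one_apply]
    refine Finset.sum_congr rfl fun i _ => ?_
    rw [Finset.sum_eq_single b]
    · rw [if_pos rfl, mul_one]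
    · intro b' _ hb
      rw [if_neg (Ne.symm hb), mul_zero, zero_mul]
    · intro h
      exact absurd (Finset.mem_univ b) h
  have hrow : ∀ i, ∑ b', tOp x y b b' * Ω (i, b') = y i * Ω (i, b) := by
    intro i
    have e1 : ∀ b', tOp x y b b' =
        (1 : Matrix β β ℂ) b b' + ∑ j, (Ω (j, b) * ((y j - 1) / (eigp x j : ℂ))) *
          star (Ω (j, b')) := by
      intro b'
      rw [tOp, Matrix.add_apply, Matrix.mul_apply]
      congr 1
      refine Finset.sum_congr rfl fun j _ => ?_
      rw [Matrix.mul_diagonal, conjTranspose_apply]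
      rfl
    simp only [e1, add_mul, Finset.sum_add_distrib, Finset.sum_mul]
    have e2 : ∑ b', (1 : Matrix β β ℂ) b b' * Ω (i, b') = Ω (i, b) := by
      rw [Finset.sum_eq_single b]
      · rw [Matrix.one_apply_eq, one_mul]
      · intro b' _ hb
        rw [Matrix.one_apply_ne (Ne.symm hb), zero_mul]
      · intro h
        exact absurd (Finset.mem_univ b) h
    have e3 : ∑ b', ∑ j, (Ω (j, b) * ((y j - 1) / (eigp x j : ℂ))) * star (Ω (j, b')) *
        Ω (i, b') = Ω (i, b) * ((y i - 1) / (eigp x i : ℂ)) * (eigp x i : ℂ) := by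
      rw [Finset.sum_comm, Finset.sum_eq_single i]
      · have h3 : ∑ b', Ω (i, b) * ((y i - 1) / (eigp x i : ℂ)) * star (Ω (i, b')) * Ω (i, b') =
            Ω (i, b) * ((y i - 1) / (eigp x i : ℂ)) * ∑ b', Ω (i, b') * star (Ω (i, b')) := by
          rw [Finset.mul_sum]
          refine Finset.sum_congr rfl fun b' _ => ?_
          ring
        rw [h3, hp i i, if_pos rfl]
      · intro j _ hj
        have h3 : ∑ b', Ω (j, b) * ((y j - 1) / (eigp x j : ℂ)) * star (Ω (j, b')) * Ω (i, b') =
            Ω (j, b) * ((y j - 1) / (eigp x j : ℂ)) * ∑ b', Ω (i, b') * star (Ω (j, b')) := by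
          rw [Finset.mul_sum]
          refine Finset.sum_congr rfl fun b' _ => ?_
          ring
        rw [h3, hp i j, if_neg (Ne.symm hj), mul_zero]
      · intro h
        exact absurd (Finset.mem_univ i) h
    rw [e2, e3]
    by_cases hpi : eigp x i = 0
    · rw [hzero i hpi b]
      simp only [zero_mul, mul_zero, add_zero]
    · have h5 : (y i - 1) / (eigp x i : ℂ) * (eigp x i : ℂ) = y i - 1 :=
        div_mul_cancel₀ _ (by exact_mod_cast hpi)
      rw [mul_assoc, h5]
      ring
  rw [hR, opR_mulVec_apply]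
  simp only [hunrot, Finset.mul_sum]
  rw [Finset.sum_comm]
  refine Finset.sum_congr rfl fun i _ => ?_
  rw [← hrow i, Finset.mul_sum]
  refine Finset.sum_congr rfl fun b' _ => ?_
  ring

/-- an operator which commutes with all operators on the second factor is an operator on the
first factor -/
theorem mem_opL_of_comm (e : N ≃ α × β) [Nonempty β] (M : Matrix N N ℂ)
    (h : ∀ S : Matrix β β ℂ, M * opR e S = opR e S * M) : ∃ Y : Matrix α α ℂ, M = opL e Y := by
  classical
  obtain ⟨b0⟩ := ‹Nonempty β›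
  have key : ∀ (a a' : α) (b b' : β), M (e.symm (a, b)) (e.symm (a', b')) =
      M (e.symm (a, b0)) (e.symm (a', b0)) * (if b = b' then 1 else 0) := by
    intro a a' b b'
    have h1 := congrFun (congrFun (h (Matrix.single b' b0 1)) (e.symm (a, b))) (e.symm (a', b0))
    rw [Matrix.mul_apply, Matrix.mul_apply, sum_equiv_prod e, sum_equiv_prod e] at h1
    simp only [opR_apply, Equiv.apply_symm_apply, Matrix.single_apply] at h1
    rw [Finset.sum_eq_single a', Finset.sum_eq_single b'] at h1
    · simp only [if_true, and_self, mul_one] at h1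
      rw [h1, Finset.sum_eq_single a, Finset.sum_eq_single b0]
      · by_cases hb : b' = b
        · subst hb
          simp
        · simp [hb, Ne.symm hb]
      · intro b1 _ hb1
        simp [Ne.symm hb1]
      · intro hh
        exact absurd (Finset.mem_univ _) hh
      · intro a1 _ ha1
        refine Finset.sum_eq_zero fun b1 _ => ?_
        simp [Ne.symm ha1]
      · intro hh
        exact absurd (Finset.mem_univ _) hh
    · intro b1 _ hb1
      simp [Ne.symm hb1]
    · intro hh
      exact absurd (Finset.mem_univ _) hh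
    · intro a1 _ ha1
      refine Finset.sum_eq_zero fun b1 _ => ?_
      simp [ha1]
    · intro hh
      exact absurd (Finset.mem_univ _) hh
  refine ⟨Matrix.of fun a a' => M (e.symm (a, b0)) (e.symm (a', b0)), ?_⟩
  refine Matrix.ext fun s t => ?_
  rw [opL_apply, Matrix.of_apply]
  have h2 := key (e s).1 (e t).1 (e s).2 (e t).2
  rw [← h2]
  have h3 : ∀ s, e.symm ((e s).1, (e s).2) = s := fun s => by
    rw [Prod.mk.eta, Equiv.symm_apply_apply]
  rw [h3, h3]

theorem opL_injective (e : N ≃ α × β) [Nonempty β] {Y Y' : Matrix α α ℂ}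
    (h : opL e Y = opL e Y') : Y = Y' := by
  obtain ⟨b0⟩ := ‹Nonempty β›
  ext a a'
  have h1 := congrFun (congrFun h (e.symm (a, b0))) (e.symm (a', b0))
  simpa [opL_apply] using h1

end tr

end Vale.Agent.P356.GA
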