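import Vale.Agent.P356.GA.Fun749
import Vale.Agent.P356.GA.Tube107a
import Vale.Agent.P356.GA.AbsOp

/-!
# GA, block HEAL (helper909)

* `NP P u` : the seminorm `√ re ⟨u|P|u⟩` of a positive operator.
* `dc K X = [K,[K,X]]`, `dc_zero` : it has expectation zero when `K Ω = K' Ω` with `K'` commuting
  with `K` and `X`; `np_dc` : `NP P (K Ω)² = -(1/2) ∑ ⟨dc K P_r⟩`.
-/

set_option linter.all false

namespace Vale.Agent.P356.GA.Heal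

open Matrix Finset Vale.Agent.P356 Vale.Agent.P356.SV Vale.Agent.P356.Path Vale.Agent.P356.GA
open scoped BigOperators ComplexOrder Kronecker Matrix.Norms.L2Operator MatrixOrder

section gen
variable {N : Type*} [Fintype N] [DecidableEq N]

/-! ## (H1) the seminorm -/

/-- the seminorm of a positive operator -/
noncomputable def NP (P : Matrix N N ℂ) (u : N → ℂ) : ℝ := Real.sqrt (star u ⬝ᵥ (P *ᵥ u)).re

theorem np_nonneg (P : Matrix N N ℂ) (u : N → ℂ) : 0 ≤ NP P u := Real.sqrt_nonneg _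

theorem np_factor {P : Matrix N N ℂ} (hP : P.PosSemidef) :
    ∃ C : Matrix N N ℂ, ∀ u, NP P u = nrm (C *ᵥ u) := by
  obtain ⟨C, hC⟩ := CStarAlgebra.nonneg_iff_eq_star_mul_self.mp
    (Matrix.nonneg_iff_posSemidef.2 hP)
  refine ⟨C, fun u => ?_⟩
  rw [NP, nrm, ← ip_self_re, hC]
  congr 2
  rw [ip_mulVec, mulVec_mulVec]
  rfl

theorem np_sq {P : Matrix N N ℂ} (hP : P.PosSemidef) (u : N → ℂ) :
    NP P u ^ 2 = (star u ⬝ᵥ (P *ᵥ u)).re := by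
  have h := hP.re_dotProduct_nonneg u
  simp only [RCLike.re_eq_complex_re] at h
  exact Real.sq_sqrt h

theorem np_add_le {P : Matrix N N ℂ} (hP : P.PosSemidef) (u v : N → ℂ) :
    NP P (u + v) ≤ NP P u + NP P v := by
  obtain ⟨C, hC⟩ := np_factor hP
  rw [hC, hC, hC, mulVec_add]
  exact nrm_add_le _ _

theorem np_smul {P : Matrix N N ℂ} (hP : P.PosSemidef) (c : ℂ) (u : N → ℂ) :
    NP P (c • u) = ‖c‖ * NP P u := by
  obtain ⟨C, hC⟩ := np_factor hP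
  rw [hC, hC, mulVec_smul, nrm_smul]

theorem np_neg {P : Matrix N N ℂ} (hP : P.PosSemidef) (u : N → ℂ) : NP P (-u) = NP P u := by
  obtain ⟨C, hC⟩ := np_factor hP
  rw [hC, hC, mulVec_neg, nrm_neg]

theorem np_sub_le {P : Matrix N N ℂ} (hP : P.PosSemidef) (u v : N → ℂ) :
    NP P (u - v) ≤ NP P u + NP P v := by
  rw [sub_eq_add_neg]
  refine (np_add_le hP _ _).trans ?_
  rw [np_neg hP]

theorem np_zero {P : Matrix N N ℂ} (hP : P.PosSemidef) : NP P 0 = 0 := by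
  obtain ⟨C, hC⟩ := np_factor hP
  rw [hC, mulVec_zero, nrm, nsq_def]
  simp

theorem np_sum_le {ι : Type*} {P : Matrix N N ℂ} (hP : P.PosSemidef) (s : Finset ι)
    (u : ι → N → ℂ) : NP P (∑ i ∈ s, u i) ≤ ∑ i ∈ s, NP P (u i) := by
  classical
  induction s using Finset.induction_on with
  | empty => rw [Finset.sum_empty, Finset.sum_empty, np_zero hP]
  | insert i s hi ih =>
    rw [Finset.sum_insert hi, Finset.sum_insert hi]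
    exact (np_add_le hP _ _).trans (by linarith)

/-- weighted sums -/
theorem np_wsum_le {ι : Type*} {P : Matrix N N ℂ} (hP : P.PosSemidef) (s : Finset ι)
    (c : ι → ℝ) (hc : ∀ i ∈ s, 0 ≤ c i) (u : ι → N → ℂ) :
    NP P (∑ i ∈ s, (c i : ℂ) • u i) ≤ ∑ i ∈ s, c i * NP P (u i) := by
  refine (np_sum_le hP s _).trans (Finset.sum_le_sum fun i hi => ?_)
  rw [np_smul hP, Complex.norm_real, Real.norm_eq_abs, abs_of_nonneg (hc i hi)]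

theorem np_le_norm {P : Matrix N N ℂ} (hP : P.PosSemidef) (u : N → ℂ) :
    NP P u ≤ Real.sqrt ‖P‖ * nrm u := by
  have h1 : NP P u ^ 2 ≤ (Real.sqrt ‖P‖ * nrm u) ^ 2 := by
    rw [np_sq hP, mul_pow, Real.sq_sqrt (norm_nonneg _), nrm_sq]
    have h2 : nrm (P *ᵥ u) ≤ ‖P‖ * nrm u := by
      refine Real.sqrt_le_iff.2 ⟨by have := norm_nonneg P; have := nrm_nonneg u; positivity, ?_⟩
      rw [mul_pow, nrm_sq]
      exact PH.ph_nsq_mulVec_le P u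
    have h3 := (Complex.re_le_norm _).trans (nrm_ip_le u (P *ᵥ u))
    have h4 := nrm_nonneg u
    have h5 := nrm_sq u
    have h6 := mul_le_mul_of_nonneg_left h2 h4
    calc (star u ⬝ᵥ (P *ᵥ u)).re ≤ nrm u * nrm (P *ᵥ u) := h3
      _ ≤ nrm u * (‖P‖ * nrm u) := h6
      _ = ‖P‖ * nsq u := by rw [← h5]; ring
  exact (sq_le_sq₀ (np_nonneg _ _) (mul_nonneg (Real.sqrt_nonneg _) (nrm_nonneg u))).mp h1

/-- replacing a vector (H4) -/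
theorem np_replace {P : Matrix N N ℂ} (hP : P.PosSemidef) (u v : N → ℂ) :
    NP P u ≤ NP P v + Real.sqrt ‖P‖ * nrm (u - v) := by
  have h : u = v + (u - v) := by abel
  nth_rewrite 1 [h]
  exact (np_add_le hP _ _).trans (add_le_add le_rfl (np_le_norm hP _))

/-- a Hermitian operator is controlled by its absolute value -/
theorem re_le_np {M : Matrix N N ℂ} (hM : M.IsHermitian) (u : N → ℂ) :
    |(star u ⬝ᵥ (M *ᵥ u)).re| ≤ NP (absM M) u ^ 2 := by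
  rw [np_sq (absM_psd M)]
  exact abs_re_le_absM hM u

/-! ## (H3) double commutators -/

/-- double commutator -/
def dc (K X : Matrix N N ℂ) : Matrix N N ℂ := K * (K * X - X * K) - (K * X - X * K) * K

/-- mixed double commutator -/
def dc2 (K L X : Matrix N N ℂ) : Matrix N N ℂ := K * (L * X - X * L) - (L * X - X * L) * K

theorem dc2_self (K X : Matrix N N ℂ) : dc2 K K X = dc K X := rfl

theorem dc_eq (K X : Matrix N N ℂ) : dc K X = K * K * X - (K * X * K + K * X * K) + X * (K * K) := by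
  rw [dc]
  noncomm_ring

theorem dc_sub (K L X : Matrix N N ℂ) :
    dc (K - L) X = dc K X + dc L X - (dc2 K L X + dc2 L K X) := by
  simp only [dc, dc2]
  noncomm_ring

theorem dc_comm {K X : Matrix N N ℂ} (h : K * X = X * K) : dc K X = 0 := by
  rw [dc, h, sub_self, Matrix.mul_zero, Matrix.zero_mul, sub_self]

theorem dc2_comm {K L X : Matrix N N ℂ} (h : L * X = X * L) : dc2 K L X = 0 := by
  rw [dc2, h, sub_self, Matrix.mul_zero, Matrix.zero_mul, sub_self]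

/-- `⟨K X K⟩` in terms of the double commutator -/
theorem kxk (Ω : N → ℂ) {K X : Matrix N N ℂ} (hK : Kᴴ = K) :
    star (K *ᵥ Ω) ⬝ᵥ (X *ᵥ (K *ᵥ Ω)) =
      (1 / 2 : ℂ) * (star Ω ⬝ᵥ ((K * K) *ᵥ (X *ᵥ Ω)) + star Ω ⬝ᵥ (X *ᵥ ((K * K) *ᵥ Ω)) -
        star Ω ⬝ᵥ (dc K X *ᵥ Ω)) := by
  rw [ip_mulVec, hK, dc_eq]
  simp only [add_mulVec, sub_mulVec, mulVec_mulVec, dotProduct_add, dotProduct_sub,
    Matrix.mul_assoc]
  ring

/-- (H3) the seminorm of `K Ω` in terms of double commutators with the pieces of `P` -/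
theorem np_dc {ι : Type*} (s : Finset ι) {P : Matrix N N ℂ} (hP : P.PosSemidef)
    {Ω : N → ℂ} (hPΩ : P *ᵥ Ω = 0) (Pr : ι → Matrix N N ℂ) (hsum : P = ∑ r ∈ s, Pr r)
    {K : Matrix N N ℂ} (hK : Kᴴ = K) :
    NP P (K *ᵥ Ω) ^ 2 = -(1 / 2) * ∑ r ∈ s, (star Ω ⬝ᵥ (dc K (Pr r) *ᵥ Ω)).re := by
  have hPh : Pᴴ = P := hP.isHermitian
  have h1 : star Ω ⬝ᵥ ((K * K) *ᵥ (P *ᵥ Ω)) = 0 := by rw [hPΩ, mulVec_zero, dotProduct_zero]
  have h2 : star Ω ⬝ᵥ (P *ᵥ ((K * K) *ᵥ Ω)) = 0 := by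
    have h3 : star (P *ᵥ Ω) ⬝ᵥ ((K * K) *ᵥ Ω) = 0 := by rw [hPΩ, star_zero, zero_dotProduct]
    rw [ip_mulVec, hPh] at h3
    exact h3
  rw [np_sq hP, kxk Ω hK, h1, h2, zero_add, zero_sub]
  have h4 : star Ω ⬝ᵥ (dc K P *ᵥ Ω) = ∑ r ∈ s, star Ω ⬝ᵥ (dc K (Pr r) *ᵥ Ω) := by
    have h5 : dc K P = ∑ r ∈ s, dc K (Pr r) := by
      rw [hsum]
      simp only [dc, Finset.mul_sum, Finset.sum_mul, ← Finset.sum_sub_distrib]
    rw [h5, Matrix.sum_mulVec, dotProduct_sum]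
  rw [h4, mul_neg, Complex.neg_re]
  have h6 : ((1 / 2 : ℂ) * ∑ r ∈ s, star Ω ⬝ᵥ (dc K (Pr r) *ᵥ Ω)).re =
      1 / 2 * ∑ r ∈ s, (star Ω ⬝ᵥ (dc K (Pr r) *ᵥ Ω)).re := by
    rw [show (1 / 2 : ℂ) = ((1 / 2 : ℝ) : ℂ) by push_cast; ring, Complex.re_ofReal_mul,
      Complex.re_sum]
  rw [h6]
  ring

/-- the double commutator has expectation zero if `K Ω = K' Ω`, `K'` commutes with `K`, `X` -/
theorem dc_zero {Ω : N → ℂ} {K K' X : Matrix N N ℂ} (hK : Kᴴ = K) (hK' : K'ᴴ = K')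
    (hΩ : K *ᵥ Ω = K' *ᵥ Ω) (hc : K * K' = K' * K) (hX : K' * X = X * K') :
    star Ω ⬝ᵥ (dc K X *ᵥ Ω) = 0 := by
  have hKK : (K * K) *ᵥ Ω = (K' * K') *ᵥ Ω := by
    rw [← mulVec_mulVec, hΩ, mulVec_mulVec, hc, ← mulVec_mulVec, hΩ, mulVec_mulVec]
  have h1 := kxk Ω (X := X) hK
  have h2 := kxk Ω (X := X) hK'
  have h3 : star (K *ᵥ Ω) ⬝ᵥ (X *ᵥ (K *ᵥ Ω)) = star (K' *ᵥ Ω) ⬝ᵥ (X *ᵥ (K' *ᵥ Ω)) := by
    rw [hΩ]
  have h4 : star Ω ⬝ᵥ ((K * K) *ᵥ (X *ᵥ Ω)) = star Ω ⬝ᵥ ((K' * K') *ᵥ (X *ᵥ Ω)) := by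
    have e1 : (K * K)ᴴ = K * K := by rw [conjTranspose_mul, hK]
    have e2 : (K' * K')ᴴ = K' * K' := by rw [conjTranspose_mul, hK']
    have h5 : star ((K * K) *ᵥ Ω) ⬝ᵥ (X *ᵥ Ω) = star ((K' * K') *ᵥ Ω) ⬝ᵥ (X *ᵥ Ω) := by rw [hKK]
    rw [ip_mulVec, ip_mulVec, e1, e2] at h5
    exact h5
  have h6 : star Ω ⬝ᵥ (X *ᵥ ((K * K) *ᵥ Ω)) = star Ω ⬝ᵥ (X *ᵥ ((K' * K') *ᵥ Ω)) := by rw [hKK]
  rw [h1, h2, h4, h6, dc_comm hX, zero_mulVec, dotProduct_zero, sub_zero] at h3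
  have h7 := mul_left_cancel₀ (by norm_num : (1 / 2 : ℂ) ≠ 0) h3
  linear_combination -h7

/-- mixed version: `⟨[K,[L,X]]⟩ = 0` if `K` is transported through `X` and `L` -/
theorem dc2_zero {Ω : N → ℂ} {K K' L X : Matrix N N ℂ} (hK : Kᴴ = K) (hK' : K'ᴴ = K')
    (hΩ : K *ᵥ Ω = K' *ᵥ Ω) (hL : K' * L = L * K') (hX : K' * X = X * K') :
    star Ω ⬝ᵥ (dc2 K L X *ᵥ Ω) = 0 := by
  set D := L * X - X * L with hD
  have hDc : K' * D = D * K' := by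
    rw [hD, Matrix.mul_sub, Matrix.sub_mul]
    have e1 : K' * (L * X) = L * X * K' := by
      rw [← Matrix.mul_assoc, hL, Matrix.mul_assoc, hX, Matrix.mul_assoc]
    have e2 : K' * (X * L) = X * L * K' := by
      rw [← Matrix.mul_assoc, hX, Matrix.mul_assoc, hL, Matrix.mul_assoc]
    rw [e1, e2]
  have h1 : dc2 K L X = K * D - D * K := rfl
  rw [h1, sub_mulVec, dotProduct_sub, ← mulVec_mulVec, ← mulVec_mulVec, hΩ]
  have h2 : star Ω ⬝ᵥ (K *ᵥ (D *ᵥ Ω)) = star Ω ⬝ᵥ (K' *ᵥ (D *ᵥ Ω)) := by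
    have h3 : star (K *ᵥ Ω) ⬝ᵥ (D *ᵥ Ω) = star (K' *ᵥ Ω) ⬝ᵥ (D *ᵥ Ω) := by rw [hΩ]
    rw [ip_mulVec, ip_mulVec, hK, hK'] at h3
    exact h3
  rw [h2, mulVec_mulVec, mulVec_mulVec, hDc, sub_self]

/-- (H3) final form: only the pieces in `t` contribute -/
theorem np_dc_le {ι : Type*} (s t : Finset ι) (hts : t ⊆ s) {P : Matrix N N ℂ}
    (hP : P.PosSemidef) {Ω : N → ℂ} (hPΩ : P *ᵥ Ω = 0) (Pr : ι → Matrix N N ℂ)
    (hsum : P = ∑ r ∈ s, Pr r) {K : Matrix N N ℂ} (hK : Kᴴ = K)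
    (h0 : ∀ r ∈ s, r ∉ t → star Ω ⬝ᵥ (dc K (Pr r) *ᵥ Ω) = 0) (C : ι → ℝ)
    (hC : ∀ r ∈ t, ‖star Ω ⬝ᵥ (dc K (Pr r) *ᵥ Ω)‖ ≤ C r) :
    NP P (K *ᵥ Ω) ^ 2 ≤ 1 / 2 * ∑ r ∈ t, C r := by
  rw [np_dc s hP hPΩ Pr hsum hK]
  have h1 : ∑ r ∈ s, (star Ω ⬝ᵥ (dc K (Pr r) *ᵥ Ω)).re =
      ∑ r ∈ t, (star Ω ⬝ᵥ (dc K (Pr r) *ᵥ Ω)).re := by
    refine (Finset.sum_subset hts fun r hr hrt => ?_).symm
    rw [h0 r hr hrt, Complex.zero_re]
  rw [h1]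
  have h2 : |∑ r ∈ t, (star Ω ⬝ᵥ (dc K (Pr r) *ᵥ Ω)).re| ≤ ∑ r ∈ t, C r :=
    (Finset.abs_sum_le_sum_abs _ _).trans
      (Finset.sum_le_sum fun r hr => (Complex.abs_re_le_norm _).trans (hC r hr))
  have h3 := neg_abs_le (∑ r ∈ t, (star Ω ⬝ᵥ (dc K (Pr r) *ᵥ Ω)).re)
  linarith

end gen

end Vale.Agent.P356.GA.Heal
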