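import Vale.Agent.P356.GA.Strip749
import Mathlib.Analysis.Complex.Liouville

/-!
Pointwise form of the strip inequality: a bounded analytic function on the strip
`0 ≤ Re z ≤ 1/2`, equal to one at the origin and with a small derivative there, is close to one at
every point of the imaginary axis.
-/

set_option linter.all false

namespace Vale.Agent.P356.GA

open MeasureTheory Set
open scoped Real Interval

section point
variable {φ : ℂ → ℂ} {K : ℝ}

/-- The strip inequality, integral form. -/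
theorem strip_int (hφ : Differentiable ℂ φ)
    (hb : ∀ z : ℂ, 0 ≤ z.re → z.re ≤ 1 / 2 → ‖φ z‖ ≤ 1)
    (h1 : φ 0 = 1) (hd : deriv φ 0 = ((-K : ℝ) : ℂ)) {a b : ℝ} (ha : 0 < a) (hab : a ≤ b)
    (hb1 : b ≤ 1) :
    (∫ y in a..b, ((1 - (φ ((y : ℂ) * Complex.I)).re) +
      (1 - (φ (((-y : ℝ) : ℂ) * Complex.I)).re))) ≤ Real.sinh (π * b) ^ 2 * (K / π) := by
  -- continuity of the kernel on the closed strip
  set G := stG φ ((-K : ℝ) : ℂ) with hG
  have hGd : ∀ z : ℂ, 0 ≤ z.re → z.re ≤ 1 / 2 → DifferentiableAt ℂ G z := fun z a b =>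
    stG_diff hφ a b
  have hline : ∀ x : ℝ, 0 ≤ x → x ≤ 1 / 2 →
      Continuous (fun y : ℝ => G ((x : ℂ) + y * Complex.I)) := fun x hx0 hx1 =>
    continuous_iff_continuousAt.2 fun y => by
      have h2 : ContinuousAt G ((x : ℂ) + y * Complex.I) :=
        (hGd _ (by simpa using hx0) (by simpa using hx1)).continuousAt
      exact ContinuousAt.comp (f := fun y : ℝ => ((x : ℂ) + y * Complex.I)) h2 (by fun_prop)
  have hrow : ∀ Y : ℝ, ContinuousOn (fun x : ℝ => G ((x : ℂ) + Y * Complex.I)) (Icc 0 (1 / 2)) :=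
    fun Y x hx => by
      have h2 : ContinuousAt G ((x : ℂ) + Y * Complex.I) :=
        (hGd _ (by simpa using hx.1) (by simpa using hx.2)).continuousAt
      exact (ContinuousAt.comp (f := fun x : ℝ => ((x : ℂ) + Y * Complex.I)) h2
        (by fun_prop)).continuousWithinAt
  -- the left edge weight
  let l : ℝ → ℝ := fun y => -(G (((0 : ℝ) : ℂ) + y * Complex.I)).re
  have hlc : Continuous l := (Complex.continuous_re.comp (hline 0 le_rfl (by norm_num))).neg
  have hl : ∀ y : ℝ, y ≠ 0 → l y = (1 - (φ (((0 : ℝ) : ℂ) + y * Complex.I)).re) /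
      Real.sinh (π * y) ^ 2 := fun y hy => by
    simp only [l]
    rw [st_left hφ h1 hd hy, neg_neg]
  have hφre : ∀ y : ℝ, (φ (((0 : ℝ) : ℂ) + y * Complex.I)).re ≤ 1 := fun y =>
    (Complex.re_le_norm _).trans (hb _ (by simp) (by simp))
  have hl0 : ∀ y : ℝ, 0 ≤ l y := by
    intro y
    have hclosed : IsClosed {y : ℝ | 0 ≤ l y} := isClosed_le continuous_const hlc
    have hsub : ({0}ᶜ : Set ℝ) ⊆ {y : ℝ | 0 ≤ l y} := fun y hy => by
      rw [mem_setOf_eq, hl y hy]
      exact div_nonneg (by linarith [hφre y]) (by positivity)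
    have hdense : Dense ({0}ᶜ : Set ℝ) := dense_compl_singleton 0
    have := hclosed.closure_subset_iff.2 hsub
    exact this (hdense y)
  -- bound for finite height
  have key : ∀ Y : ℝ, 1 ≤ Y → (∫ y in a..b, (l y + l (-y))) ≤ K / π + stE K Y := by
    intro Y hY
    have hY0 : 0 < Y := by linarith
    have hrect := Complex.integral_boundary_rect_eq_zero_of_differentiableOn G
      (((0 : ℝ) : ℂ) + ((-Y : ℝ) : ℂ) * Complex.I) (((1 / 2 : ℝ) : ℂ) + ((Y : ℝ) : ℂ) * Complex.I)
      (fun z hz => (hGd z (by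
          have := hz.1
          simp only [Complex.add_re, Complex.ofReal_re, Complex.mul_re, Complex.I_re, mul_zero,
            Complex.ofReal_im, Complex.I_im, mul_one, sub_zero, add_zero, zero_add, mem_preimage]
            at this
          rw [uIcc_of_le (by norm_num)] at this
          exact this.1) (by
          have := hz.1
          simp only [Complex.add_re, Complex.ofReal_re, Complex.mul_re, Complex.I_re, mul_zero,
            Complex.ofReal_im, Complex.I_im, mul_one, sub_zero, add_zero, zero_add, mem_preimage]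
            at this
          rw [uIcc_of_le (by norm_num)] at this
          exact this.2)).differentiableWithinAt)
    have r1 : (((0 : ℝ) : ℂ) + ((-Y : ℝ) : ℂ) * Complex.I).re = 0 := by simp
    have r2 : (((0 : ℝ) : ℂ) + ((-Y : ℝ) : ℂ) * Complex.I).im = -Y := by simp
    have r3 : (((1 / 2 : ℝ) : ℂ) + ((Y : ℝ) : ℂ) * Complex.I).re = 1 / 2 := by simp
    have r4 : (((1 / 2 : ℝ) : ℂ) + ((Y : ℝ) : ℂ) * Complex.I).im = Y := by simp
    rw [r1, r2, r3, r4] at hrect
    -- imaginary part
    have him := congrArg Complex.im hrect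
    rw [Complex.sub_im, Complex.add_im, Complex.sub_im, smul_eq_mul, smul_eq_mul,
      Complex.I_mul_im, Complex.I_mul_im, Complex.zero_im] at him
    have iY : ∀ Y' : ℝ, IntervalIntegrable (fun x : ℝ => G ((x : ℂ) + Y' * Complex.I)) volume 0
        (1 / 2) := fun Y' => by
      refine ContinuousOn.intervalIntegrable ?_
      rw [uIcc_of_le (by norm_num)]
      exact hrow Y'
    have iX : ∀ x : ℝ, 0 ≤ x → x ≤ 1 / 2 → ∀ a b : ℝ,
        IntervalIntegrable (fun y : ℝ => G ((x : ℂ) + y * Complex.I)) volume a b :=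
      fun x a b c d => (hline x a b).intervalIntegrable c d
    have c1 : (∫ x in (0 : ℝ)..(1 / 2), G ((x : ℂ) + ((-Y : ℝ) : ℂ) * Complex.I)).im =
        ∫ x in (0 : ℝ)..(1 / 2), (G ((x : ℂ) + ((-Y : ℝ) : ℂ) * Complex.I)).im :=
      (Complex.imCLM.intervalIntegral_comp_comm (iY (-Y))).symm
    have c2 : (∫ x in (0 : ℝ)..(1 / 2), G ((x : ℂ) + ((Y : ℝ) : ℂ) * Complex.I)).im =
        ∫ x in (0 : ℝ)..(1 / 2), (G ((x : ℂ) + ((Y : ℝ) : ℂ) * Complex.I)).im :=
      (Complex.imCLM.intervalIntegral_comp_comm (iY Y)).symm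
    have c3 : (∫ y in (-Y)..Y, G (((1 / 2 : ℝ) : ℂ) + y * Complex.I)).re =
        ∫ y in (-Y)..Y, (G (((1 / 2 : ℝ) : ℂ) + y * Complex.I)).re :=
      (Complex.reCLM.intervalIntegral_comp_comm (iX (1 / 2) (by norm_num) le_rfl _ _)).symm
    have c4 : (∫ y in (-Y)..Y, G (((0 : ℝ) : ℂ) + y * Complex.I)).re =
        ∫ y in (-Y)..Y, (G (((0 : ℝ) : ℂ) + y * Complex.I)).re :=
      (Complex.reCLM.intervalIntegral_comp_comm (iX 0 le_rfl (by norm_num) _ _)).symm
    rw [c1, c2, c3, c4] at him
    -- signs and bounds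
    have b1 : 0 ≤ ∫ y in (-Y)..Y, (G (((1 / 2 : ℝ) : ℂ) + y * Complex.I)).re :=
      intervalIntegral.integral_nonneg (by linarith) fun y _ => st_right hφ hb h1 hd y
    have b2 : (∫ x in (0 : ℝ)..(1 / 2), (G ((x : ℂ) + ((Y : ℝ) : ℂ) * Complex.I)).im) ≤
        (1 / 2) * (K / π + stE K Y) := by
      have hi : IntervalIntegrable (fun x : ℝ => (G ((x : ℂ) + ((Y : ℝ) : ℂ) * Complex.I)).im)
          volume 0 (1 / 2) := by
        refine ContinuousOn.intervalIntegrable ?_
        rw [uIcc_of_le (by norm_num)]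
        exact Complex.continuous_im.comp_continuousOn (hrow Y)
      have := intervalIntegral.integral_mono_on (by norm_num) hi
        (intervalIntegrable_const (c := K / π + stE K Y))
        (fun x hx => st_top hφ hb h1 hd hY0 hx.1 hx.2)
      refine this.trans (le_of_eq ?_)
      rw [intervalIntegral.integral_const, smul_eq_mul, sub_zero]
    have b3 : -(∫ x in (0 : ℝ)..(1 / 2), (G ((x : ℂ) + ((-Y : ℝ) : ℂ) * Complex.I)).im) ≤
        (1 / 2) * (K / π + stE K Y) := by
      rw [← intervalIntegral.integral_neg]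
      have hi : IntervalIntegrable
          (fun x : ℝ => -(G ((x : ℂ) + ((-Y : ℝ) : ℂ) * Complex.I)).im) volume 0 (1 / 2) := by
        refine ContinuousOn.intervalIntegrable ?_
        rw [uIcc_of_le (by norm_num)]
        exact (Complex.continuous_im.comp_continuousOn (hrow (-Y))).neg
      have := intervalIntegral.integral_mono_on (by norm_num) hi
        (intervalIntegrable_const (c := K / π + stE K Y))
        (fun x hx => st_bot hφ hb h1 hd hY0 hx.1 hx.2)
      refine this.trans (le_of_eq ?_)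
      rw [intervalIntegral.integral_const, smul_eq_mul, sub_zero]
    have b4 : (∫ y in (-Y)..Y, l y) ≤ K / π + stE K Y := by
      simp only [l]
      rw [intervalIntegral.integral_neg]
      linarith
    -- restrict to the two small intervals
    have b5 : (∫ y in a..b, (l y + l (-y))) ≤ ∫ y in (0 : ℝ)..Y, (l y + l (-y)) := by
      refine intervalIntegral.integral_mono_interval (by linarith) (by linarith) (by linarith) ?_ ?_
      · exact Filter.Eventually.of_forall fun y => add_nonneg (hl0 y) (hl0 (-y))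
      · exact (hlc.add (hlc.comp continuous_neg)).intervalIntegrable _ _
    have b6 : (∫ y in (0 : ℝ)..Y, (l y + l (-y))) = ∫ y in (-Y)..Y, l y := by
      have q1 : (∫ y in (0 : ℝ)..Y, (l y + l (-y))) =
          (∫ y in (0 : ℝ)..Y, l y) + ∫ y in (0 : ℝ)..Y, l (-y) :=
        intervalIntegral.integral_add (hlc.intervalIntegrable _ _)
          ((hlc.comp continuous_neg).intervalIntegrable _ _)
      have q2 : (∫ y in (0 : ℝ)..Y, l (-y)) = ∫ y in (-Y)..(-0), l y :=
        intervalIntegral.integral_comp_neg l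
      rw [q1, q2, neg_zero, add_comm]
      exact intervalIntegral.integral_add_adjacent_intervals (hlc.intervalIntegrable _ _)
        (hlc.intervalIntegrable _ _)
    rw [b6] at b5
    exact b5.trans b4
  have key2 : (∫ y in a..b, (l y + l (-y))) ≤ K / π := by
    have h2 : Filter.Tendsto (fun Y => K / π + stE K Y) Filter.atTop (nhds (K / π + 0)) :=
      (st_tendsto K).const_add _
    rw [add_zero] at h2
    refine ge_of_tendsto h2 ?_
    filter_upwards [Filter.eventually_ge_atTop 1] with Y hY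
    exact key Y hY  -- comparison of the weights
  have hpi := Real.pi_pos
  have hb0 : 0 < b := ha.trans_le hab
  have hsh : 0 < Real.sinh (π * b) := Real.sinh_pos_iff.2 (by positivity)
  let u : ℝ → ℝ := fun y => (1 - (φ ((y : ℂ) * Complex.I)).re) +
      (1 - (φ (((-y : ℝ) : ℂ) * Complex.I)).re)
  have huc : Continuous u := by
    have hφc := hφ.continuous
    simp only [u]
    fun_prop
  have hlow : ∀ x ∈ Icc a b, u x ≤ Real.sinh (π * b) ^ 2 * (l x + l (-x)) := by
    intro x hx
    have hx0 : 0 < x := ha.trans_le hx.1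
    have hxs : 0 < Real.sinh (π * x) := Real.sinh_pos_iff.2 (by positivity)
    have hle : Real.sinh (π * x) ≤ Real.sinh (π * b) :=
      Real.sinh_le_sinh.2 (mul_le_mul_of_nonneg_left hx.2 Real.pi_pos.le)
    rw [hl x hx0.ne', hl (-x) (neg_ne_zero.2 hx0.ne'), mul_neg,
      Real.sinh_neg, neg_sq, ← add_div]
    have e4 : u x = (1 - (φ (((0 : ℝ) : ℂ) + x * Complex.I)).re) +
        (1 - (φ (((0 : ℝ) : ℂ) + ((-x : ℝ) : ℂ) * Complex.I)).re) := by
      simp only [u, Complex.ofReal_zero, zero_add]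
    rw [← e4]
    have hu0 : 0 ≤ u x := by
      rw [e4]
      have e1 := hφre x
      have e2 := hφre (-x)
      linarith
    rw [mul_div_assoc', le_div_iff₀ (by positivity), mul_comm]
    exact mul_le_mul_of_nonneg_right (pow_le_pow_left₀ hxs.le hle 2) hu0
  have hint := intervalIntegral.integral_mono_on (μ := volume) hab
    (huc.intervalIntegrable a b)
    (((hlc.add (hlc.comp continuous_neg)).const_mul (Real.sinh (π * b) ^ 2)).intervalIntegrable _ _)
    hlow
  have e5 : (∫ y in a..b, Real.sinh (π * b) ^ 2 * (l y + l (-y))) =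
      Real.sinh (π * b) ^ 2 * ∫ y in a..b, (l y + l (-y)) :=
    intervalIntegral.integral_const_mul _ _
  exact (hint.trans (le_of_eq e5)).trans (mul_le_mul_of_nonneg_left key2 (by positivity))

/-- Pointwise form, with the Lipschitz constant on the axis. -/
theorem strip_point_lip (hφ : Differentiable ℂ φ)
    (hb : ∀ z : ℂ, 0 ≤ z.re → z.re ≤ 1 / 2 → ‖φ z‖ ≤ 1)
    (h1 : φ 0 = 1) (hd : deriv φ 0 = ((-K : ℝ) : ℂ)) {Λ : ℝ} (hΛ : 0 < Λ)
    (hlip : ∀ y y' : ℝ, |(φ ((y : ℂ) * Complex.I)).re - (φ ((y' : ℂ) * Complex.I)).re| ≤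
      Λ * |y - y'|) {y : ℝ} (hy : 0 < y) (hy1 : y ≤ 1) :
    (1 - (φ ((y : ℂ) * Complex.I)).re) + (1 - (φ (((-y : ℝ) : ℂ) * Complex.I)).re) ≤
      y * (Real.cosh π * Real.sqrt (8 * π * Λ * K)) := by
  have hpi := Real.pi_pos
  let u : ℝ → ℝ := fun y => (1 - (φ ((y : ℂ) * Complex.I)).re) +
      (1 - (φ (((-y : ℝ) : ℂ) * Complex.I)).re)
  have huc : Continuous u := by
    have hφc := hφ.continuous
    simp only [u]
    fun_prop
  have hul : ∀ s t : ℝ, |u s - u t| ≤ 2 * Λ * |s - t| := by
    intro s t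
    have e1 := hlip s t
    have e2 := hlip (-s) (-t)
    have e3 : |(-s) - (-t)| = |s - t| := by
      rw [← abs_neg (s - t)]
      congr 1
      ring
    rw [e3] at e2
    have e4 : u s - u t = -((φ ((s : ℂ) * Complex.I)).re - (φ ((t : ℂ) * Complex.I)).re) +
        -((φ (((-s : ℝ) : ℂ) * Complex.I)).re - (φ (((-t : ℝ) : ℂ) * Complex.I)).re) := by
      simp only [u]
      ring
    rw [e4]
    refine (abs_add_le _ _).trans ?_
    rw [abs_neg, abs_neg]
    linarith
  have hu0 : u 0 = 0 := by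
    simp only [u]
    simp [h1]
  have hφre : ∀ y : ℝ, (φ ((y : ℂ) * Complex.I)).re ≤ 1 := fun y =>
    (Complex.re_le_norm _).trans (hb _ (by simp) (by simp))
  have hun : ∀ y, 0 ≤ u y := fun y => by
    simp only [u]
    have e1 := hφre y
    have e2 := hφre (-y)
    linarith
  show u y ≤ _
  set η := u y with hη
  have hη0 : 0 ≤ η := hun y
  have hη1 : η ≤ 2 * Λ * y := by
    have := hul y 0
    rw [hu0, sub_zero, sub_zero, abs_of_nonneg hη0, abs_of_pos hy] at this
    exact this
  -- the interval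
  set a := y - η / (4 * Λ) with ha
  have ha0 : y / 2 ≤ a := by
    have : η / (4 * Λ) ≤ y / 2 := by
      rw [div_le_div_iff₀ (by positivity) (by norm_num)]
      nlinarith
    rw [ha]
    linarith
  have hapos : 0 < a := lt_of_lt_of_le (by positivity) ha0
  have hay : a ≤ y := by
    rw [ha]
    have : 0 ≤ η / (4 * Λ) := by positivity
    linarith
  have hI := strip_int hφ hb h1 hd hapos hay hy1
  have hlow : ∀ x ∈ Icc a y, η / 2 ≤ u x := by
    intro x hx
    have e1 := (abs_le.1 (hul y x)).2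
    have e2 : |y - x| ≤ η / (4 * Λ) := by
      rw [abs_of_nonneg (by linarith [hx.2])]
      have := hx.1
      rw [ha] at this
      linarith
    have e3 : 2 * Λ * |y - x| ≤ η / 2 := by
      calc 2 * Λ * |y - x| ≤ 2 * Λ * (η / (4 * Λ)) :=
            mul_le_mul_of_nonneg_left e2 (by positivity)
        _ = η / 2 := by field_simp; ring
    linarith
  have hJ := intervalIntegral.integral_mono_on (μ := volume) hay
    (intervalIntegrable_const (c := η / 2)) (huc.intervalIntegrable _ _) hlow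
  rw [intervalIntegral.integral_const, smul_eq_mul] at hJ
  have e6 : y - a = η / (4 * Λ) := by rw [ha]; ring
  rw [e6] at hJ
  have e7 : η / (4 * Λ) * (η / 2) ≤ Real.sinh (π * y) ^ 2 * (K / π) := hJ.trans hI
  have hsh : 0 < Real.sinh (π * y) := Real.sinh_pos_iff.2 (by positivity)
  have hsb : Real.sinh (π * y) ≤ Real.cosh π * (π * y) := by
    have hconv := (convex_Icc (0 : ℝ) π).norm_image_sub_le_of_norm_hasDerivWithin_le
      (f := Real.sinh) (f' := Real.cosh) (C := Real.cosh π) (x := 0) (y := π * y)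
      (fun x hx => (Real.hasDerivAt_sinh x).hasDerivWithinAt)
      (fun x hx => by
        rw [Real.norm_eq_abs, abs_of_pos (Real.cosh_pos x)]
        refine Real.cosh_le_cosh.2 ?_
        rw [abs_of_nonneg hx.1, abs_of_pos hpi]
        exact hx.2)
      ⟨le_rfl, hpi.le⟩ ⟨by positivity, by nlinarith⟩
    rw [Real.sinh_zero, sub_zero, sub_zero, Real.norm_eq_abs, Real.norm_eq_abs, abs_of_pos hsh,
      abs_of_pos (by positivity)] at hconv
    exact hconv
  have hK : 0 ≤ K := by
    have h0 : 0 ≤ Real.sinh (π * y) ^ 2 * (K / π) := le_trans (by positivity) e7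
    have h2 : 0 ≤ K / π := by
      by_contra hneg
      rw [not_le] at hneg
      have : Real.sinh (π * y) ^ 2 * (K / π) < 0 := mul_neg_of_pos_of_neg (by positivity) hneg
      linarith
    have h3 : K = K / π * π := by field_simp
    rw [h3]
    exact mul_nonneg h2 hpi.le
  have e8 : η ^ 2 ≤ (y * Real.cosh π) ^ 2 * (8 * π * Λ * K) := by
    have h8 : Real.sinh (π * y) ^ 2 ≤ (Real.cosh π * (π * y)) ^ 2 :=
      pow_le_pow_left₀ hsh.le hsb 2
    have h9 : η ^ 2 = 8 * Λ * (η / (4 * Λ) * (η / 2)) := by field_simp; ring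
    rw [h9]
    calc 8 * Λ * (η / (4 * Λ) * (η / 2)) ≤ 8 * Λ * (Real.sinh (π * y) ^ 2 * (K / π)) :=
          mul_le_mul_of_nonneg_left e7 (by positivity)
      _ ≤ 8 * Λ * ((Real.cosh π * (π * y)) ^ 2 * (K / π)) :=
          mul_le_mul_of_nonneg_left (mul_le_mul_of_nonneg_right h8 (by positivity)) (by positivity)
      _ = _ := by
          field_simp
  have hc : 0 ≤ Real.cosh π := (Real.cosh_pos _).le
  have e9 : y * (Real.cosh π * Real.sqrt (8 * π * Λ * K)) =
      Real.sqrt ((y * Real.cosh π) ^ 2 * (8 * π * Λ * K)) := by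
    rw [Real.sqrt_mul (sq_nonneg _), Real.sqrt_sq (mul_nonneg hy.le hc)]
    ring
  rw [e9]
  exact Real.le_sqrt_of_sq_le e8

/-- Lipschitz bound on the axis from the growth on the left. -/
theorem strip_lip (hφ : Differentiable ℂ φ)
    (hb : ∀ z : ℂ, 0 ≤ z.re → z.re ≤ 1 / 2 → ‖φ z‖ ≤ 1) {L : ℝ} (hL : 0 ≤ L)
    (hl : ∀ z : ℂ, -(1 / 2) ≤ z.re → z.re ≤ 0 → ‖φ z‖ ≤ Real.exp (-(2 * L * z.re)))
    (y y' : ℝ) : |(φ ((y : ℂ) * Complex.I)).re - (φ ((y' : ℂ) * Complex.I)).re| ≤
      2 * Real.exp 1 * (1 + L) * |y - y'| := by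
  set r : ℝ := 1 / (2 * (1 + L)) with hr
  have hr0 : 0 < r := by rw [hr]; positivity
  have hr1 : r ≤ 1 / 2 := by
    rw [hr, div_le_div_iff₀ (by positivity) (by norm_num)]
    nlinarith
  have hder : ∀ t : ℝ, ‖deriv φ ((t : ℂ) * Complex.I)‖ ≤ 2 * Real.exp 1 * (1 + L) := by
    intro t
    have h1 := Complex.norm_deriv_le_of_forall_mem_sphere_norm_le (c := (t : ℂ) * Complex.I)
      (R := r) (C := Real.exp 1) (f := φ) hr0 hφ.diffContOnCl (fun z hz => by
        have hz1 : ‖z - (t : ℂ) * Complex.I‖ = r := by simpa [dist_eq_norm] using hz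
        have hz2 : |z.re| ≤ r := by
          have := Complex.abs_re_le_norm (z - (t : ℂ) * Complex.I)
          rw [hz1] at this
          simpa using this
        rcases le_total 0 z.re with h | h
        · exact (hb z h (((le_abs_self _).trans hz2).trans hr1)).trans
            (by have := Real.add_one_le_exp (1 : ℝ); linarith)
        · have hz3 : -z.re ≤ r := (neg_le_abs _).trans hz2
          refine (hl z (by linarith) h).trans ?_
          refine Real.exp_le_exp.2 ?_
          have h4 : 2 * L * (-z.re) ≤ 2 * L * r := mul_le_mul_of_nonneg_left hz3 (by positivity)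
          have h5 : 2 * L * r ≤ 1 := by
            rw [hr, mul_one_div, div_le_one (by positivity)]
            linarith
          linarith)
    refine h1.trans (le_of_eq ?_)
    rw [hr]
    field_simp
  have h2 : ∀ t : ℝ, HasDerivAt (fun s : ℝ => φ ((s : ℂ) * Complex.I))
      (deriv φ ((t : ℂ) * Complex.I) * Complex.I) t := by
    intro t
    have e1 : HasDerivAt (fun s : ℝ => (s : ℂ) * Complex.I) (1 * Complex.I) t :=
      (Complex.ofRealCLM.hasDerivAt).mul_const Complex.I
    rw [one_mul] at e1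
    exact (hφ _).hasDerivAt.comp t e1
  have h3 := (convex_univ).norm_image_sub_le_of_norm_hasDerivWithin_le
    (f := fun s : ℝ => φ ((s : ℂ) * Complex.I))
    (f' := fun t : ℝ => deriv φ ((t : ℂ) * Complex.I) * Complex.I)
    (C := 2 * Real.exp 1 * (1 + L)) (x := y') (y := y) (s := univ)
    (fun x _ => (h2 x).hasDerivWithinAt)
    (fun x _ => by rw [norm_mul, Complex.norm_I, mul_one]; exact hder x) trivial trivial
  rw [← Complex.sub_re]
  exact (Complex.abs_re_le_norm _).trans h3

/-- **Pointwise strip inequality.** -/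
theorem strip_point (hφ : Differentiable ℂ φ)
    (hb : ∀ z : ℂ, 0 ≤ z.re → z.re ≤ 1 / 2 → ‖φ z‖ ≤ 1) {L : ℝ} (hL : 0 ≤ L)
    (hl : ∀ z : ℂ, -(1 / 2) ≤ z.re → z.re ≤ 0 → ‖φ z‖ ≤ Real.exp (-(2 * L * z.re)))
    (h1 : φ 0 = 1) (hd : deriv φ 0 = ((-K : ℝ) : ℂ)) {y : ℝ} (hy1 : |y| ≤ 1) :
    1 - (φ ((y : ℂ) * Complex.I)).re ≤
      |y| * (4 * Real.cosh π * Real.sqrt (π * Real.exp 1 * ((1 + L) * K))) := by
  have hΛ : 0 < 2 * Real.exp 1 * (1 + L) := by positivity
  have hφre : ∀ y : ℝ, (φ ((y : ℂ) * Complex.I)).re ≤ 1 := fun y =>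
    (Complex.re_le_norm _).trans (hb _ (by simp) (by simp))
  have hsq : Real.sqrt (8 * π * (2 * Real.exp 1 * (1 + L)) * K) =
      4 * Real.sqrt (π * Real.exp 1 * ((1 + L) * K)) := by
    have e : 8 * π * (2 * Real.exp 1 * (1 + L)) * K = 4 ^ 2 * (π * Real.exp 1 * ((1 + L) * K)) := by
      ring
    rw [e, Real.sqrt_mul (by norm_num), Real.sqrt_sq (by norm_num)]
  rcases lt_trichotomy y 0 with hy | hy | hy
  · have h2 := strip_point_lip hφ hb h1 hd hΛ (strip_lip hφ hb hL hl) (y := -y) (by linarith)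
      (by rw [abs_of_neg hy] at hy1; exact hy1)
    rw [neg_neg, hsq] at h2
    have h3 := hφre (-y)
    rw [abs_of_neg hy]
    have h4 : -y * (4 * Real.cosh π * Real.sqrt (π * Real.exp 1 * ((1 + L) * K))) =
      -y * (Real.cosh π * (4 * Real.sqrt (π * Real.exp 1 * ((1 + L) * K)))) := by ring
    rw [h4]
    linarith
  · subst hy
    simp [h1]
  · have h2 := strip_point_lip hφ hb h1 hd hΛ (strip_lip hφ hb hL hl) (y := y) hy
      (by rw [abs_of_pos hy] at hy1; exact hy1)
    rw [hsq] at h2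
    have h3 := hφre (-y)
    rw [abs_of_pos hy]
    have h4 : y * (4 * Real.cosh π * Real.sqrt (π * Real.exp 1 * ((1 + L) * K))) =
      y * (Real.cosh π * (4 * Real.sqrt (π * Real.exp 1 * ((1 + L) * K)))) := by ring
    rw [h4]
    linarith

end point

end Vale.Agent.P356.GA
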