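import Vale.Agent.P356.GA.Close749
import Vale.Agent.P356.GA.Point228
import Vale.Agent.P356.SV.Tilt1
import Mathlib.Algebra.Order.Chebyshev

/-!
Closeness of the modular flows of two overlapping regions at every real time: the overlap function
is bounded on the left of the imaginary axis by a power of the local dimension of `N \ M`, so that
the strip inequality holds pointwise.
-/

set_option linter.all false

namespace Vale.Agent.P356.GA

open Matrix Finset Vale.Agent.P356 Vale.Agent.P356.SV Vale.Agent.P356.Path Vale.Agent.P356.PH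
open scoped BigOperators ComplexOrder Kronecker Matrix.Norms.L2Operator

section pimsner
variable {V : Type*} [Fintype V] [DecidableEq V] {q : ℕ}

/-- matrix units of a region -/
noncomputable def pu_E (a : Finset V) (u c : Conf {x // x ∈ a} q) : Op V q :=
  opOn a (Matrix.single u c 1)

theorem pu_E_acts (a : Finset V) (u c : Conf {x // x ∈ a} q) : ActsOn a (pu_E a u c) :=
  ph_acts_opOn a _

theorem pu_opOn_sum {ι : Type*} (a : Finset V) (s : Finset ι) (A : ι → Op {x // x ∈ a} q) :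
    opOn a (∑ i ∈ s, A i) = ∑ i ∈ s, opOn a (A i) := opL_sum _ _ _

theorem pu_sum_one (a : Finset V) : ∑ u : Conf {x // x ∈ a} q, pu_E a u u = (1 : Op V q) := by
  rw [← opOn_one a, ← Matrix.sum_single_one, pu_opOn_sum]
  rfl

theorem pu_single (a : Finset V) (k : Op {x // x ∈ a} q) :
    ∑ u : Conf {x // x ∈ a} q, ∑ c : Conf {x // x ∈ a} q,
      (pu_E a u c)ᴴ * opOn a k * pu_E a u c = k.trace • (1 : Op V q) := by
  have h1 : ∀ u c : Conf {x // x ∈ a} q, (pu_E a u c)ᴴ * opOn a k * pu_E a u c =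
      opOn a (k u u • Matrix.single c c 1) := by
    intro u c
    rw [pu_E, opOn_conjTranspose, ← opOn_mul, ← opOn_mul, Matrix.conjTranspose_single, star_one]
    congr 1
    rw [Matrix.single_mul_mul_single, one_mul, mul_one, Matrix.smul_single, smul_eq_mul, mul_one]
  simp only [h1]
  have h2 : ∀ u : Conf {x // x ∈ a} q, ∑ c : Conf {x // x ∈ a} q,
      opOn a (k u u • Matrix.single c c 1) = k u u • (1 : Op V q) := by
    intro u
    rw [← pu_opOn_sum, ← Finset.smul_sum, Matrix.sum_single_one, opOn, opL_smul, opL_one]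
  simp only [h2]
  rw [← Finset.sum_smul]
  rfl

/-- the averaged expectation -/
theorem pu_twirl {M a : Finset V} (hd : Disjoint M a) (ψ : Conf V q → ℂ) {X : Op V q}
    (hX : ActsOn (M ∪ a) X) :
    (∑ u : Conf {x // x ∈ a} q, ∑ c : Conf {x // x ∈ a} q,
      star ψ ⬝ᵥ (((pu_E a u c)ᴴ * X * pu_E a u c) *ᵥ ψ)) * dO q M * dO q a =
      (opOn M (rdm M ψ) * X).trace * (q : ℂ) ^ (Fintype.card V) := by
  have hspan := act_span (Finset.subset_union_left (s₁ := M) (s₂ := a)) hX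
  have hsd : (M ∪ a) \ M = a := Finset.union_sdiff_cancel_left hd
  refine Submodule.span_induction (p := fun X _ =>
    (∑ u : Conf {x // x ∈ a} q, ∑ c : Conf {x // x ∈ a} q,
      star ψ ⬝ᵥ (((pu_E a u c)ᴴ * X * pu_E a u c) *ᵥ ψ)) * dO q M * dO q a =
      (opOn M (rdm M ψ) * X).trace * (q : ℂ) ^ (Fintype.card V)) ?_ ?_ ?_ ?_ hspan
  · rintro _ ⟨B, C, hB, hC, rfl⟩
    rw [hsd] at hC
    obtain ⟨k, rfl⟩ := ph_acts_iff.1 hC
    have e1 : ∀ u c : Conf {x // x ∈ a} q, (pu_E a u c)ᴴ * (B * opOn a k) * pu_E a u c =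
        B * ((pu_E a u c)ᴴ * opOn a k * pu_E a u c) := by
      intro u c
      have hc : (pu_E a u c)ᴴ * B = B * (pu_E a u c)ᴴ :=
        (ph_acts_comm hd hB (ph_acts_star (pu_E_acts a u c))).symm
      rw [← Matrix.mul_assoc, hc]
      simp only [Matrix.mul_assoc]
    have e2 : (∑ u : Conf {x // x ∈ a} q, ∑ c : Conf {x // x ∈ a} q,
        star ψ ⬝ᵥ (((pu_E a u c)ᴴ * (B * opOn a k) * pu_E a u c) *ᵥ ψ)) =
        k.trace * (star ψ ⬝ᵥ (B *ᵥ ψ)) := by
      have e3 : (∑ u : Conf {x // x ∈ a} q, ∑ c : Conf {x // x ∈ a} q,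
          star ψ ⬝ᵥ (((pu_E a u c)ᴴ * (B * opOn a k) * pu_E a u c) *ᵥ ψ)) =
          star ψ ⬝ᵥ ((B * ∑ u : Conf {x // x ∈ a} q, ∑ c : Conf {x // x ∈ a} q,
            (pu_E a u c)ᴴ * opOn a k * pu_E a u c) *ᵥ ψ) := by
        simp only [e1]
        rw [Finset.mul_sum, Matrix.sum_mulVec, dotProduct_sum]
        refine Finset.sum_congr rfl fun u _ => ?_
        rw [Finset.mul_sum, Matrix.sum_mulVec, dotProduct_sum]
      rw [e3, pu_single, Matrix.mul_smul, Matrix.mul_one, Matrix.smul_mulVec, dotProduct_smul,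
        smul_eq_mul]
    have e4 := trace_disj hd (ph_acts_mul (ph_acts_opOn M (rdm M ψ)) hB) hC
    rw [trace_rho M ψ hB, trace_opOn, Matrix.mul_assoc] at e4
    rw [e2, e4]
    ring
  · simp
  · intro x y _ _ hx hy
    have e : ∀ u c : Conf {x // x ∈ a} q,
        star ψ ⬝ᵥ (((pu_E a u c)ᴴ * (x + y) * pu_E a u c) *ᵥ ψ) =
        star ψ ⬝ᵥ (((pu_E a u c)ᴴ * x * pu_E a u c) *ᵥ ψ) +
        star ψ ⬝ᵥ (((pu_E a u c)ᴴ * y * pu_E a u c) *ᵥ ψ) := by
      intro u c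
      rw [Matrix.mul_add, Matrix.add_mul, Matrix.add_mulVec, dotProduct_add]
    simp only [e, Finset.sum_add_distrib]
    rw [add_mul, add_mul, hx, hy, Matrix.mul_add, Matrix.trace_add, add_mul]
  · intro r x _ hx
    have e : ∀ u c : Conf {x // x ∈ a} q,
        star ψ ⬝ᵥ (((pu_E a u c)ᴴ * (r • x) * pu_E a u c) *ᵥ ψ) =
        r * (star ψ ⬝ᵥ (((pu_E a u c)ᴴ * x * pu_E a u c) *ᵥ ψ)) := by
      intro u c
      rw [Matrix.mul_smul, Matrix.smul_mul, Matrix.smul_mulVec, dotProduct_smul, smul_eq_mul]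
    simp only [e, ← Finset.mul_sum]
    rw [Matrix.mul_smul, Matrix.trace_smul, smul_eq_mul, mul_assoc, mul_assoc, ← mul_assoc _ (dO q M),
      hx]
    ring

theorem pu_nsq_sum {ι : Type*} [Fintype ι] (w : ι → Conf V q → ℂ) :
    nsq (∑ i, w i) ≤ (Fintype.card ι : ℝ) * ∑ i, nsq (w i) := by
  unfold nsq
  rw [Finset.sum_comm, Finset.mul_sum]
  refine Finset.sum_le_sum fun s _ => ?_
  rw [Finset.sum_apply]
  have h1 : ‖∑ i, w i s‖ ≤ ∑ i, ‖w i s‖ := norm_sum_le _ _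
  have h2 := sq_sum_le_card_mul_sum_sq (s := (Finset.univ : Finset ι)) (f := fun i => ‖w i s‖)
  rw [Finset.card_univ] at h2
  exact (pow_le_pow_left₀ (norm_nonneg _) h1 2).trans h2

/-- the dimension inequality `ρ_(M ∪ a) ≤ d_a ρ_M`, tested with an operator -/
theorem pu_test {M a : Finset V} (hd : Disjoint M a) {ψ : Conf V q → ℂ} (hψ : nsq ψ = 1)
    {B : Op V q} (hB : ActsOn (M ∪ a) B) :
    ((dO q (M ∪ a)).re) * nsq (B *ᵥ ψ) ≤
      (q : ℝ) ^ a.card * ((opOn M (rdm M ψ) * (Bᴴ * B)).trace).re := by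
  obtain ⟨nM, hM0, hM⟩ := dO_pos hψ M
  obtain ⟨na, ha0, ha⟩ := dO_pos hψ a
  obtain ⟨nR, hR0, hR⟩ := dO_pos hψ (M ∪ a)
  have hBB : ActsOn (M ∪ a) (Bᴴ * B) := ph_acts_mul (ph_acts_star hB) hB
  have h1 := pu_twirl hd ψ hBB
  -- the sum in terms of norms
  have h2 : ∀ u c : Conf {x // x ∈ a} q,
      star ψ ⬝ᵥ (((pu_E a u c)ᴴ * (Bᴴ * B) * pu_E a u c) *ᵥ ψ) =
      ((nsq ((B * pu_E a u c) *ᵥ ψ) : ℝ) : ℂ) := by
    intro u c
    rw [nsq_mulVec_eq, conjTranspose_mul]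
    simp only [Matrix.mul_assoc]
  simp only [h2] at h1
  set S : ℝ := ∑ u : Conf {x // x ∈ a} q, ∑ c : Conf {x // x ∈ a} q,
    nsq ((B * pu_E a u c) *ᵥ ψ) with hS
  have h3 : (∑ u : Conf {x // x ∈ a} q, ∑ c : Conf {x // x ∈ a} q,
      ((nsq ((B * pu_E a u c) *ᵥ ψ) : ℝ) : ℂ)) = ((S : ℝ) : ℂ) := by
    rw [hS]; push_cast; rfl
  rw [h3, hM, ha] at h1
  have h4 : S * nM * na = ((opOn M (rdm M ψ) * (Bᴴ * B)).trace).re * (q : ℝ) ^ (Fintype.card V) := by
    have := congrArg Complex.re h1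
    have e1 : ((S : ℂ) * (nM : ℂ) * (na : ℂ)).re = S * nM * na := by
      have : ((S : ℂ) * (nM : ℂ) * (na : ℂ)) = ((S * nM * na : ℝ) : ℂ) := by push_cast; ring
      rw [this, Complex.ofReal_re]
    have e2 : ((opOn M (rdm M ψ) * (Bᴴ * B)).trace * (q : ℂ) ^ (Fintype.card V)).re =
        ((opOn M (rdm M ψ) * (Bᴴ * B)).trace).re * (q : ℝ) ^ (Fintype.card V) := by
      have : ((q : ℂ) ^ (Fintype.card V)) = (((q : ℝ) ^ (Fintype.card V) : ℝ) : ℂ) := by
        push_cast; ring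
      rw [this, Complex.re_mul_ofReal]
    rw [e1, e2] at this
    exact this
  -- Cauchy-Schwarz
  have h5 : nsq (B *ᵥ ψ) ≤ (q : ℝ) ^ a.card * S := by
    have e1 : B *ᵥ ψ = ∑ u : Conf {x // x ∈ a} q, (B * pu_E a u u) *ᵥ ψ := by
      rw [← Matrix.sum_mulVec, ← Finset.mul_sum, pu_sum_one, Matrix.mul_one]
    have e2 : (Fintype.card (Conf {x // x ∈ a} q) : ℝ) = (q : ℝ) ^ a.card := by
      rw [Fintype.card_fun, Fintype.card_fin, Fintype.card_coe]
      push_cast; rfl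
    rw [e1]
    refine (pu_nsq_sum _).trans ?_
    rw [e2]
    refine mul_le_mul_of_nonneg_left ?_ (by positivity)
    rw [hS]
    refine Finset.sum_le_sum fun u _ => ?_
    exact Finset.single_le_sum (f := fun c => nsq ((B * pu_E a u c) *ᵥ ψ))
      (fun c _ => Finset.sum_nonneg fun i _ => by positivity) (Finset.mem_univ u)
  -- dimensions
  have hR' : (dO q (M ∪ a)).re = nR := by rw [hR]; simp
  have hqa : (0 : ℝ) < (q : ℝ) ^ a.card := by
    rcases Nat.eq_zero_or_pos q with h | h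
    · rcases a.eq_empty_or_nonempty with ha' | ⟨x, hx⟩
      · rw [ha', Finset.card_empty, pow_zero]; exact one_pos
      · exfalso
        subst h
        have : IsEmpty (Conf V 0) := ⟨fun s => (s x).elim0⟩
        rw [nsq, Finset.univ_eq_empty, Finset.sum_empty] at hψ
        exact zero_ne_one hψ
    · have : (0 : ℝ) < q := by exact_mod_cast h
      positivity
  have c1 : (nM : ℝ) = (q : ℝ) ^ a.card * nR := by
    have e1 := dO_eq q M
    have e2 := dO_eq q (M ∪ a)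
    rw [hM] at e1
    rw [hR] at e2
    have e3 : Fintype.card V - M.card = a.card + (Fintype.card V - (M ∪ a).card) := by
      have := Finset.card_union_of_disjoint hd
      have h7 : (M ∪ a).card ≤ Fintype.card V := Finset.card_le_univ _
      omega
    rw [e3, pow_add, ← e2] at e1
    exact_mod_cast e1
  have c2 : (q : ℝ) ^ (Fintype.card V) = (q : ℝ) ^ a.card * na := by
    have e1 := dO_eq q a
    rw [ha] at e1
    have e3 : Fintype.card V = a.card + (Fintype.card V - a.card) := by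
      have h7 : a.card ≤ Fintype.card V := Finset.card_le_univ _
      omega
    have e4 : (q : ℂ) ^ (Fintype.card V) = (q : ℂ) ^ a.card * na := by
      conv_lhs => rw [e3]
      rw [pow_add, ← e1]
    exact_mod_cast e4
  have hna : (0 : ℝ) < na := by exact_mod_cast ha0
  have hnR : (0 : ℝ) < nR := by exact_mod_cast hR0
  have h6 : S * nR = ((opOn M (rdm M ψ) * (Bᴴ * B)).trace).re := by
    rw [c1, c2] at h4
    have : (S * nR) * ((q : ℝ) ^ a.card * na) =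
        ((opOn M (rdm M ψ) * (Bᴴ * B)).trace).re * ((q : ℝ) ^ a.card * na) := by
      linear_combination h4
    exact mul_right_cancel₀ (by positivity) this
  rw [hR', ← h6]
  calc (nR : ℝ) * nsq (B *ᵥ ψ) ≤ nR * ((q : ℝ) ^ a.card * S) :=
        mul_le_mul_of_nonneg_left h5 hnR.le
    _ = _ := by ring

theorem pu_nsq_half (S : Finset V) (ψ v : Conf V q → ℂ) :
    star v ⬝ᵥ (PP S ψ 1 *ᵥ v) = ((nsq (PP S ψ (1 / 2 : ℂ) *ᵥ v) : ℝ) : ℂ) := by
  have hhalf : PP S ψ 1 = (PP S ψ (1 / 2 : ℂ))ᴴ * PP S ψ (1 / 2 : ℂ) := by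
    rw [PP_star, PP_mul]
    congr 1
    rw [Complex.star_def]
    apply Complex.ext
    · simp; norm_num
    · simp
  rw [hhalf, nsq_mulVec_eq]

theorem pu_half (S : Finset V) (ψ : Conf V q → ℂ) :
    (PP S ψ (1 / 2 : ℂ))ᴴ * PP S ψ (1 / 2 : ℂ) = PP S ψ 1 := by
  rw [PP_star, PP_mul]
  congr 1
  rw [Complex.star_def]
  apply Complex.ext
  · simp; norm_num
  · simp

/-- the dimension inequality for quadratic forms -/
theorem pu_op {M a : Finset V} (hd : Disjoint M a) {ψ : Conf V q → ℂ} (hψ : nsq ψ = 1)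
    (v : Conf V q → ℂ) : nsq (PP (M ∪ a) ψ (1 / 2 : ℂ) *ᵥ v) ≤
      (q : ℝ) ^ a.card * nsq (PP M ψ (1 / 2 : ℂ) *ᵥ v) := by
  obtain ⟨nR, hR0, hR⟩ := dO_pos hψ (M ∪ a)
  set R := M ∪ a with hRdef
  have e1 := trace_rho R v (X := PP R ψ 1) (PP_acts R ψ 1)
  have e2 := trace_rho R ψ (X := PP R v 1) (PP_acts R v 1)
  have e3 := pu_test hd hψ (B := PP R v (1 / 2 : ℂ)) (PP_acts R v _)
  have e4 := trace_rho R v (X := PP M ψ 1)
    (ph_acts_mono Finset.subset_union_left (PP_acts M ψ 1))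
  rw [← PP_one, pu_nsq_half, hR] at e1 e2 e4
  rw [pu_half, ← PP_one, hR] at e3
  rw [Matrix.trace_mul_comm] at e2
  rw [e2] at e1
  rw [Matrix.trace_mul_comm (PP M ψ 1), e4] at e3
  have hnR : (0 : ℝ) < nR := by exact_mod_cast hR0
  have f1 : nsq (PP R v (1 / 2 : ℂ) *ᵥ ψ) = nsq (PP R ψ (1 / 2 : ℂ) *ᵥ v) := by
    have : ((nR : ℝ) * nsq (PP R v (1 / 2 : ℂ) *ᵥ ψ) : ℝ) =
        nR * nsq (PP R ψ (1 / 2 : ℂ) *ᵥ v) := by exact_mod_cast e1
    exact mul_left_cancel₀ hnR.ne' this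
  have f2 : ((nR : ℂ) * ((nsq (PP M ψ (1 / 2 : ℂ) *ᵥ v) : ℝ) : ℂ)).re =
      nR * nsq (PP M ψ (1 / 2 : ℂ) *ᵥ v) := by
    have : ((nR : ℂ) * ((nsq (PP M ψ (1 / 2 : ℂ) *ᵥ v) : ℝ) : ℂ)) =
        ((nR * nsq (PP M ψ (1 / 2 : ℂ) *ᵥ v) : ℝ) : ℂ) := by push_cast; ring
    rw [this, Complex.ofReal_re]
  rw [f1, f2] at e3
  have f3 : ((nR : ℂ)).re = (nR : ℝ) := by simp
  rw [f3] at e3
  have f4 : (nR : ℝ) * nsq (PP R ψ (1 / 2 : ℂ) *ᵥ v) ≤
      nR * ((q : ℝ) ^ a.card * nsq (PP M ψ (1 / 2 : ℂ) *ᵥ v)) := by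
    refine e3.trans (le_of_eq ?_)
    ring
  exact le_of_mul_le_mul_left f4 hnR

theorem pu_norm0 {M a : Finset V} (hd : Disjoint M a) {ψ : Conf V q → ℂ} (hψ : nsq ψ = 1) :
    ‖PP (M ∪ a) ψ (1 / 2 : ℂ) * PP M ψ (-(1 / 2) : ℂ)‖ ≤ Real.sqrt ((q : ℝ) ^ a.card) := by
  refine ph_norm_le (Real.sqrt_nonneg _) fun u => ?_
  rw [Real.sq_sqrt (by positivity), ← Matrix.mulVec_mulVec]
  refine (pu_op hd hψ _).trans ?_
  refine mul_le_mul_of_nonneg_left ?_ (by positivity)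
  rw [Matrix.mulVec_mulVec, PP_mul]
  refine nsq_le_norm _ _ ?_
  refine PP_norm_re0 M ψ ?_
  simp

/-- the dimension inequality for operators on the left edge -/
theorem pu_norm {M a : Finset V} (hd : Disjoint M a) {ψ : Conf V q → ℂ} (hψ : nsq ψ = 1) {z : ℂ}
    (hz : z.re = -(1 / 2)) :
    ‖PP M ψ z * PP (M ∪ a) ψ (-z)‖ ≤ Real.sqrt ((q : ℝ) ^ a.card) := by
  have h1 : PP M ψ z * PP (M ∪ a) ψ (-z) =
      (PP (M ∪ a) ψ (-(star z) - 1 / 2) * (PP (M ∪ a) ψ (1 / 2 : ℂ) * PP M ψ (-(1 / 2) : ℂ)) *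
        PP M ψ (star z + 1 / 2))ᴴ := by
    have e1 : PP (M ∪ a) ψ (-(star z) - 1 / 2) * (PP (M ∪ a) ψ (1 / 2 : ℂ) *
        PP M ψ (-(1 / 2) : ℂ)) * PP M ψ (star z + 1 / 2) =
        (PP (M ∪ a) ψ (-(star z) - 1 / 2) * PP (M ∪ a) ψ (1 / 2 : ℂ)) *
          (PP M ψ (-(1 / 2) : ℂ) * PP M ψ (star z + 1 / 2)) := by
      simp only [Matrix.mul_assoc]
    rw [e1, PP_mul, PP_mul, conjTranspose_mul, PP_star, PP_star]
    congr 2
    · rw [show (-(1 / 2) + (star z + 1 / 2) : ℂ) = star z by ring, star_star]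
    · rw [show (-(star z) - 1 / 2 + 1 / 2 : ℂ) = -star z by ring, star_neg, star_star]
  rw [h1]
  have h2 : ‖(PP (M ∪ a) ψ (-(star z) - 1 / 2) * (PP (M ∪ a) ψ (1 / 2 : ℂ) *
      PP M ψ (-(1 / 2) : ℂ)) * PP M ψ (star z + 1 / 2))ᴴ‖ =
      ‖PP (M ∪ a) ψ (-(star z) - 1 / 2) * (PP (M ∪ a) ψ (1 / 2 : ℂ) *
      PP M ψ (-(1 / 2) : ℂ)) * PP M ψ (star z + 1 / 2)‖ := norm_star _
  rw [h2]
  have a1 : ‖PP (M ∪ a) ψ (-(star z) - 1 / 2)‖ ≤ 1 := by
    refine PP_norm_re0 _ ψ ?_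
    rw [Complex.star_def]
    simp [hz]
  have a2 : ‖PP M ψ (star z + 1 / 2)‖ ≤ 1 := by
    refine PP_norm_re0 _ ψ ?_
    rw [Complex.star_def]
    simp [hz]
  have a3 := pu_norm0 hd hψ
  have hs := Real.sqrt_nonneg ((q : ℝ) ^ a.card)
  calc _ ≤ ‖PP (M ∪ a) ψ (-(star z) - 1 / 2) * (PP (M ∪ a) ψ (1 / 2 : ℂ) *
      PP M ψ (-(1 / 2) : ℂ))‖ * ‖PP M ψ (star z + 1 / 2)‖ := norm_mul_le _ _
    _ ≤ (‖PP (M ∪ a) ψ (-(star z) - 1 / 2)‖ * ‖PP (M ∪ a) ψ (1 / 2 : ℂ) *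
      PP M ψ (-(1 / 2) : ℂ)‖) * ‖PP M ψ (star z + 1 / 2)‖ :=
        mul_le_mul_of_nonneg_right (norm_mul_le _ _) (norm_nonneg _)
    _ ≤ (1 * Real.sqrt ((q : ℝ) ^ a.card)) * 1 := by
        refine mul_le_mul (mul_le_mul a1 a3 (norm_nonneg _) zero_le_one) a2 (norm_nonneg _) ?_
        positivity
    _ = _ := by ring

/-- the other factor on the left edge -/
theorem pu_vec {I N : Finset V} (hIN : I ⊆ N) {ψ : Conf V q → ℂ} (hψ : nsq ψ = 1) {z : ℂ}
    (hz : z.re = -(1 / 2)) :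
    nsq ((PP I ψ (-z) * PP N ψ z) *ᵥ ψ) ≤ (q : ℝ) ^ (N \ I).card := by
  obtain ⟨nI, hI0, hI⟩ := dO_pos hψ I
  obtain ⟨nN, hN0, hN⟩ := dO_pos hψ N
  have hzz : z + star z = -1 := by
    rw [Complex.star_def]
    apply Complex.ext
    · simp [hz]; norm_num
    · simp
  set X : Op V q := PP I ψ (-z) * PP N ψ z with hX
  have hXact : ActsOn N X := ph_acts_mul (ph_acts_mono hIN (PP_acts I ψ _)) (PP_acts N ψ _)
  have e1 := trace_rho N ψ (X := Xᴴ * X) (ph_acts_mul (ph_acts_star hXact) hXact)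
  rw [← nsq_mulVec_eq, hN, ← PP_one] at e1
  have e2 : (PP N ψ 1 * (Xᴴ * X)).trace = (PP N ψ 0 * PP I ψ 1).trace := by
    rw [hX, conjTranspose_mul, PP_star, PP_star]
    calc (PP N ψ 1 * (PP N ψ (star z) * PP I ψ (star (-z)) * (PP I ψ (-z) * PP N ψ z))).trace =
        (((PP N ψ 1 * PP N ψ (star z)) * (PP I ψ (star (-z)) * PP I ψ (-z))) *
          PP N ψ z).trace := by simp only [Matrix.mul_assoc]
      _ = (PP N ψ z * ((PP N ψ 1 * PP N ψ (star z)) *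
          (PP I ψ (star (-z)) * PP I ψ (-z)))).trace := Matrix.trace_mul_comm _ _
      _ = ((PP N ψ z * (PP N ψ 1 * PP N ψ (star z))) *
          (PP I ψ (star (-z)) * PP I ψ (-z))).trace := by simp only [Matrix.mul_assoc]
      _ = _ := by
          rw [PP_mul, PP_mul, PP_mul]
          congr 3
          · linear_combination hzz
          · rw [star_neg]
            linear_combination -hzz
  rw [e2] at e1
  have e3 : ((PP N ψ 0 * PP I ψ 1).trace).re ≤ nI := by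
    have e4 := tr_proj_le (Q := PP N ψ 0) (by rw [PP_mul, add_zero])
      (by rw [PP_star, star_zero]) (PP I ψ (1 / 2 : ℂ))
    rw [pu_half] at e4
    refine e4.trans (le_of_eq ?_)
    have e5 := trace_rho I ψ (X := 1) (ph_acts_one I)
    rw [mul_one, Matrix.one_mulVec, NA.na_spow_nsq_star, hψ, hI, ← PP_one] at e5
    rw [e5]
    simp
  have e6 : ((nN : ℂ) * ((nsq (X *ᵥ ψ) : ℝ) : ℂ)).re = nN * nsq (X *ᵥ ψ) := by
    have : ((nN : ℂ) * ((nsq (X *ᵥ ψ) : ℝ) : ℂ)) = ((nN * nsq (X *ᵥ ψ) : ℝ) : ℂ) := by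
      push_cast; ring
    rw [this, Complex.ofReal_re]
  have e7 := congrArg Complex.re e1
  rw [e6] at e7
  rw [e7] at e3
  have c1 : (nI : ℝ) = (q : ℝ) ^ (N \ I).card * nN := by
    have f1 := dO_eq q I
    have f2 := dO_eq q N
    rw [hI] at f1
    rw [hN] at f2
    have f3 : Fintype.card V - I.card = (N \ I).card + (Fintype.card V - N.card) := by
      have := Finset.card_sdiff_add_card_eq_card hIN
      have h7 : N.card ≤ Fintype.card V := Finset.card_le_univ _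
      omega
    rw [f3, pow_add, ← f2] at f1
    exact_mod_cast f1
  have hnN : (0 : ℝ) < nN := by exact_mod_cast hN0
  rw [c1] at e3
  have e8 : (nN : ℝ) * nsq (X *ᵥ ψ) ≤ nN * (q : ℝ) ^ (N \ I).card := by
    rw [mul_comm (nN : ℝ) ((q : ℝ) ^ (N \ I).card)]
    exact e3
  exact le_of_mul_le_mul_left e8 hnN

/-- the overlap function on the left edge -/
theorem vphi_edge_left (N M : Finset V) {ψ : Conf V q → ℂ} (hψ : nsq ψ = 1) {z : ℂ}
    (hz : z.re = -(1 / 2)) : ‖vphi N M ψ z‖ ≤ (q : ℝ) ^ (N \ M).card := by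
  have hI : N \ (N ∩ M) = N \ M := Finset.sdiff_inter_self_left N M
  have hU : N ∪ M = M ∪ (N \ M) := by
    ext x
    simp only [Finset.mem_union, Finset.mem_sdiff]
    tauto
  have hd : Disjoint M (N \ M) := Finset.disjoint_sdiff
  have hzs : (star z).re = -(1 / 2) := by rw [Complex.star_def]; simpa using hz
  have h1 : vphi N M ψ z = star ((PP (N ∩ M) ψ (-(star z)) * PP N ψ (star z)) *ᵥ ψ) ⬝ᵥ
      ((PP M ψ z * PP (M ∪ (N \ M)) ψ (-z)) *ᵥ ψ) := by
    rw [vphi, vv, hU, Matrix.star_mulVec, ← Matrix.dotProduct_mulVec, Matrix.mulVec_mulVec,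
      conjTranspose_mul, PP_star, PP_star, star_neg, star_star]
    simp only [Matrix.mul_assoc]
  rw [h1]
  refine (nrm_ip_le _ _).trans ?_
  have h2 := pu_vec (I := N ∩ M) (N := N) Finset.inter_subset_left hψ hzs
  rw [hI] at h2
  have h3 : nrm ((PP M ψ z * PP (M ∪ (N \ M)) ψ (-z)) *ᵥ ψ) ≤
      Real.sqrt ((q : ℝ) ^ (N \ M).card) := by
    refine Real.sqrt_le_sqrt ?_
    have h4 := ph_nsq_mulVec_le (PP M ψ z * PP (M ∪ (N \ M)) ψ (-z)) ψ
    rw [hψ, mul_one] at h4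
    have h5 := pu_norm hd hψ hz
    have h6 : ‖PP M ψ z * PP (M ∪ (N \ M)) ψ (-z)‖ ^ 2 ≤ (q : ℝ) ^ (N \ M).card := by
      calc _ ≤ (Real.sqrt ((q : ℝ) ^ (N \ M).card)) ^ 2 := pow_le_pow_left₀ (norm_nonneg _) h5 2
        _ = _ := Real.sq_sqrt (by positivity)
    exact h4.trans h6
  have h7 : nrm ((PP (N ∩ M) ψ (-(star z)) * PP N ψ (star z)) *ᵥ ψ) ≤
      Real.sqrt ((q : ℝ) ^ (N \ M).card) := Real.sqrt_le_sqrt h2
  calc _ ≤ Real.sqrt ((q : ℝ) ^ (N \ M).card) * Real.sqrt ((q : ℝ) ^ (N \ M).card) :=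
        mul_le_mul h7 h3 (nrm_nonneg _) (Real.sqrt_nonneg _)
    _ = _ := Real.mul_self_sqrt (by positivity)

/-- the overlap function on the left half of the strip -/
theorem vphi_left (N M : Finset V) {ψ : Conf V q → ℂ} (hψ : nsq ψ = 1) (z : ℂ)
    (h0 : -(1 / 2) ≤ z.re) (h1 : z.re ≤ 0) :
    ‖vphi N M ψ z‖ ≤ Real.exp (-(2 * ((N \ M).card * Real.log q) * z.re)) := by
  have hB : BddAbove ((norm ∘ vphi N M ψ) ''
      Complex.HadamardThreeLines.verticalClosedStrip (-(1 / 2)) 0) := by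
    refine ⟨Real.exp (PPc N ψ) * Real.exp (PPc (N ∩ M) ψ) * Real.exp (PPc M ψ) *
      Real.exp (PPc (N ∪ M) ψ), ?_⟩
    rintro _ ⟨w, hw, rfl⟩
    have hw' : |w.re| ≤ 1 := by
      have h2 : w.re ∈ Set.Icc (-(1 / 2) : ℝ) 0 := hw
      rw [abs_of_nonpos h2.2]
      have := h2.1
      linarith
    have hb : ∀ (S : Finset V) (u : ℂ), |u.re| ≤ 1 → ‖PP S ψ u‖ ≤ Real.exp (PPc S ψ) :=
      fun S u hu => by
        refine (PP_norm_le S ψ u).trans (Real.exp_le_exp.2 ?_)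
        have hc : 0 ≤ PPc S ψ := Finset.sum_nonneg fun i _ => abs_nonneg _
        nlinarith
    have hv : ‖vv N M ψ w‖ ≤ Real.exp (PPc N ψ) * Real.exp (PPc (N ∩ M) ψ) *
        Real.exp (PPc M ψ) * Real.exp (PPc (N ∪ M) ψ) := by
      have hwn : |(-w).re| ≤ 1 := by rw [Complex.neg_re, abs_neg]; exact hw'
      refine (norm_mul_le _ _).trans (mul_le_mul ?_ (hb _ _ hwn) (norm_nonneg _) (by positivity))
      refine (norm_mul_le _ _).trans (mul_le_mul ?_ (hb _ _ hw') (norm_nonneg _) (by positivity))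
      exact (norm_mul_le _ _).trans (mul_le_mul (hb _ _ hw') (hb _ _ hwn) (norm_nonneg _)
        (by positivity))
    have hd := dot_le_norm_bound ψ (vv N M ψ w) hψ
    exact hd.trans hv
  have hedge0 : ∀ w ∈ Complex.re ⁻¹' {(0 : ℝ)}, ‖vphi N M ψ w‖ ≤ 1 := by
    intro w hw
    have hw0 : w.re = 0 := hw
    exact vphi_bound N M hψ w hw0.ge (by rw [hw0]; norm_num)
  have hedge1 : ∀ w ∈ Complex.re ⁻¹' {(-(1 / 2) : ℝ)}, ‖vphi N M ψ w‖ ≤
      (q : ℝ) ^ (N \ M).card := by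
    intro w hw
    exact vphi_edge_left N M hψ hw
  have key := Complex.HadamardThreeLines.norm_le_interp_of_mem_verticalClosedStrip'
    (by norm_num : (-(1 / 2) : ℝ) < 0) (z := z) ⟨h0, h1⟩
    ((vphi_diff N M ψ).diffContOnCl) hB hedge1 hedge0
  refine key.trans (le_of_eq ?_)
  rw [Real.one_rpow, mul_one]
  have hqa : (0 : ℝ) < (q : ℝ) ^ (N \ M).card := by
    rcases Nat.eq_zero_or_pos q with h | h
    · rcases (N \ M).eq_empty_or_nonempty with ha' | ⟨x, hx⟩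
      · rw [ha', Finset.card_empty, pow_zero]; exact one_pos
      · exfalso
        subst h
        have : IsEmpty (Conf V 0) := ⟨fun s => (s x).elim0⟩
        rw [nsq, Finset.univ_eq_empty, Finset.sum_empty] at hψ
        exact zero_ne_one hψ
    · have : (0 : ℝ) < q := by exact_mod_cast h
      positivity
  rw [Real.rpow_def_of_pos hqa, Real.log_pow]
  congr 1
  ring

/-- **Closeness of the flows at every time.** -/
theorem close_flow_pt (N M : Finset V) {ψ : Conf V q → ℂ} (hψ : nsq ψ = 1) {s : ℝ}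
    (hs : |s| ≤ 1) :
    nsq (UU (N ∪ M) ψ (-s) *ᵥ ψ -
      UU M ψ (-s) *ᵥ (UU (N ∩ M) ψ s *ᵥ (UU N ψ (-s) *ᵥ ψ))) ≤
      |s| * (72 * Real.cosh Real.pi * Real.sqrt (Real.pi * Real.exp 1 *
        ((1 + (N \ M).card * Real.log q) * cmi N M ψ))) := by
  have hL : 0 ≤ ((N \ M).card : ℝ) * Real.log q :=
    mul_nonneg (Nat.cast_nonneg _) (Real.log_natCast_nonneg q)
  have h := strip_point (vphi_diff N M ψ) (fun z a b => vphi_bound N M hψ z a b) hL
    (fun z a b => vphi_left N M hψ z a b) (vphi_zero N M hψ) (vphi_deriv N M ψ) hs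
  refine (flow_of_overlap N M hψ s _ h).trans (le_of_eq ?_)
  ring

/-- the conditional mutual information is nonnegative (again) -/
theorem cmi_nonneg (N M : Finset V) {ψ : Conf V q → ℂ} (hψ : nsq ψ = 1) : 0 ≤ cmi N M ψ := by
  obtain ⟨y, hy, hle⟩ := strip_ineq (vphi_diff N M ψ)
    (fun z a b => vphi_bound N M hψ z a b) (vphi_zero N M hψ) (vphi_deriv N M ψ) one_pos le_rfl
  have hre : ∀ s : ℝ, 0 ≤ 1 - (vphi N M ψ ((s : ℂ) * Complex.I)).re := fun s => by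
    have := (Complex.re_le_norm _).trans
      (vphi_bound N M hψ ((s : ℂ) * Complex.I) (by simp) (by simp))
    linarith
  have h1 := hre y
  have h2 := hre (-y)
  have h3 : 0 ≤ 2 * Real.pi * Real.cosh Real.pi ^ 2 * 1 * cmi N M ψ := by linarith
  have h4 : 0 < 2 * Real.pi * Real.cosh Real.pi ^ 2 * 1 := by
    have := Real.cosh_pos Real.pi
    positivity
  exact nonneg_of_mul_nonneg_right h3 h4

end pimsner

end Vale.Agent.P356.GA
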