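import Mathlib.Analysis.Complex.Hadamard
import Mathlib.Analysis.Complex.CauchyIntegral
import Mathlib.Analysis.Convex.Combination

/-!
# GA, block TUBE (helper107), part b: functions of several complex variables in tubes
-/

set_option linter.all false

namespace Vale.Agent.P356.GA

open Finset Complex

/-- A function of the variables `z k`, `k < n`: entire along all complex lines, bounded on the
tubes over bounded sets. -/
structure Nice (n : ℕ) (F : (ℕ → ℂ) → ℂ) : Prop where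
  diff : ∀ a d : ℕ → ℂ, Differentiable ℂ (fun ζ : ℂ => F (fun k => a k + ζ * d k))
  bdd : ∀ R : ℝ, ∃ M, ∀ z : ℕ → ℂ, (∀ k < n, |(z k).re| ≤ R) → ‖F z‖ ≤ M

theorem Nice.const (n : ℕ) (c : ℂ) : Nice n (fun _ => c) :=
  ⟨fun _ _ => differentiable_const _, fun _ => ⟨‖c‖, fun _ _ => le_rfl⟩⟩

theorem Nice.add {n : ℕ} {F G : (ℕ → ℂ) → ℂ} (hF : Nice n F) (hG : Nice n G) :
    Nice n (fun z => F z + G z) := by
  refine ⟨fun a d => (hF.diff a d).add (hG.diff a d), fun R => ?_⟩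
  obtain ⟨M, hM⟩ := hF.bdd R
  obtain ⟨M', hM'⟩ := hG.bdd R
  exact ⟨M + M', fun z hz => (norm_add_le _ _).trans (add_le_add (hM z hz) (hM' z hz))⟩

theorem Nice.mul {n : ℕ} {F G : (ℕ → ℂ) → ℂ} (hF : Nice n F) (hG : Nice n G) :
    Nice n (fun z => F z * G z) := by
  refine ⟨fun a d => (hF.diff a d).mul (hG.diff a d), fun R => ?_⟩
  obtain ⟨M, hM⟩ := hF.bdd R
  obtain ⟨M', hM'⟩ := hG.bdd R
  refine ⟨|M| * |M'|, fun z hz => ?_⟩
  rw [norm_mul]
  exact mul_le_mul ((hM z hz).trans (le_abs_self _)) ((hM' z hz).trans (le_abs_self _))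
    (norm_nonneg _) (abs_nonneg _)

theorem Nice.sum {n : ℕ} {ι : Type*} (s : Finset ι) {F : ι → (ℕ → ℂ) → ℂ}
    (hF : ∀ i ∈ s, Nice n (F i)) : Nice n (fun z => ∑ i ∈ s, F i z) := by
  classical
  induction s using Finset.induction_on with
  | empty => simpa using Nice.const n 0
  | insert i s his ih =>
    have h1 : (fun z => ∑ j ∈ insert i s, F j z) = fun z => F i z + ∑ j ∈ s, F j z := by
      funext z
      rw [Finset.sum_insert his]
    rw [h1]
    exact (hF i (Finset.mem_insert_self i s)).add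
      (ih fun j hj => hF j (Finset.mem_insert_of_mem hj))

theorem Nice.exp {n k : ℕ} (hk : k < n) (g : ℝ) : Nice n (fun z => Complex.exp (z k * (g : ℂ))) := by
  refine ⟨fun a d => ?_, fun R => ⟨Real.exp (R * |g|), fun z hz => ?_⟩⟩
  · fun_prop
  · rw [Complex.norm_exp]
    refine Real.exp_le_exp.2 ?_
    have h1 : (z k * (g : ℂ)).re = (z k).re * g := by simp
    rw [h1]
    calc (z k).re * g ≤ |(z k).re * g| := le_abs_self _
      _ = |(z k).re| * |g| := abs_mul _ _
      _ ≤ R * |g| := mul_le_mul_of_nonneg_right (hz k hk) (abs_nonneg _)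

theorem Nice.exp_neg {n k : ℕ} (hk : k < n) (g : ℝ) :
    Nice n (fun z => Complex.exp (-(z k) * (g : ℂ))) := by
  have h1 : (fun z : ℕ → ℂ => Complex.exp (-(z k) * (g : ℂ))) =
      fun z => Complex.exp (z k * ((-g : ℝ) : ℂ)) := by
    funext z
    congr 1
    push_cast
    ring
  rw [h1]
  exact Nice.exp hk (-g)

/-- three lines -/
theorem three_lines {g : ℂ → ℂ} {C : ℝ} (hd : Differentiable ℂ g)
    (hb : ∃ M, ∀ ζ : ℂ, 0 ≤ ζ.re → ζ.re ≤ 1 → ‖g ζ‖ ≤ M) (h0 : ∀ ζ : ℂ, ζ.re = 0 → ‖g ζ‖ ≤ C)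
    (h1 : ∀ ζ : ℂ, ζ.re = 1 → ‖g ζ‖ ≤ C) {ζ : ℂ} (hζ0 : 0 ≤ ζ.re) (hζ1 : ζ.re ≤ 1) :
    ‖g ζ‖ ≤ C := by
  obtain ⟨M, hM⟩ := hb
  have hC : 0 ≤ C := (norm_nonneg _).trans (h0 0 (by simp))
  have h := Complex.HadamardThreeLines.norm_le_interp_of_mem_verticalClosedStrip₀₁' g (z := ζ)
    (a := C) (b := C) ⟨hζ0, hζ1⟩ hd.diffContOnCl ⟨M, by
      rintro _ ⟨w, hw, rfl⟩
      exact hM w hw.1 hw.2⟩ (fun w hw => h0 w hw) (fun w hw => h1 w hw)
  rwa [← Real.rpow_add_of_nonneg hC (by linarith) hζ0, sub_add_cancel, Real.rpow_one] at h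

/-- the set of the real parts where a nice function is bounded by `C` is convex -/
theorem Nice.convex {n : ℕ} {F : (ℕ → ℂ) → ℂ} (hF : Nice n F) (C : ℝ) :
    Convex ℝ {x : ℕ → ℝ | ∀ y : ℕ → ℝ, ‖F (fun k => (x k : ℂ) + (y k : ℂ) * I)‖ ≤ C} := by
  rw [convex_iff_add_mem]
  intro x0 h0 x1 h1 s t hs ht hst y
  have hs' : s = 1 - t := by linarith
  have h2 := three_lines (g := fun ζ : ℂ => F (fun k => ((x0 k : ℂ) + (y k : ℂ) * I) +
    ζ * (((x1 k - x0 k : ℝ)) : ℂ))) (C := C) (hF.diff _ _) ?_ ?_ ?_ (ζ := (t : ℂ))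
    (by simpa using ht) (by simpa using by linarith)
  · have h3 : (fun k => (((s • x0 + t • x1) k : ℝ) : ℂ) + (y k : ℂ) * I) =
        fun k => ((x0 k : ℂ) + (y k : ℂ) * I) + (t : ℂ) * (((x1 k - x0 k : ℝ)) : ℂ) := by
      funext k
      simp only [Pi.add_apply, Pi.smul_apply, smul_eq_mul, hs']
      push_cast
      ring
    rw [h3]
    exact h2
  · obtain ⟨M, hM⟩ := hF.bdd (∑ k ∈ range n, (|x0 k| + |x1 k - x0 k|))
    refine ⟨M, fun ζ hζ0 hζ1 => hM _ fun k hk => ?_⟩
    have h3 : (((x0 k : ℂ) + (y k : ℂ) * I) + ζ * (((x1 k - x0 k : ℝ)) : ℂ)).re =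
        x0 k + ζ.re * (x1 k - x0 k) := by simp
    show |(((x0 k : ℂ) + (y k : ℂ) * I) + ζ * (((x1 k - x0 k : ℝ)) : ℂ)).re| ≤ _
    rw [h3]
    calc |x0 k + ζ.re * (x1 k - x0 k)| ≤ |x0 k| + |ζ.re * (x1 k - x0 k)| := abs_add_le _ _
      _ ≤ |x0 k| + |x1 k - x0 k| := by
          rw [abs_mul, abs_of_nonneg hζ0]
          have := mul_le_mul_of_nonneg_right hζ1 (abs_nonneg (x1 k - x0 k))
          linarith
      _ ≤ ∑ k ∈ range n, (|x0 k| + |x1 k - x0 k|) :=
          Finset.single_le_sum (f := fun k => |x0 k| + |x1 k - x0 k|)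
            (fun i _ => by positivity) (Finset.mem_range.2 hk)
  · intro ζ hζ
    have h3 : (fun k => ((x0 k : ℂ) + (y k : ℂ) * I) + ζ * (((x1 k - x0 k : ℝ)) : ℂ)) =
        fun k => (x0 k : ℂ) + ((y k + ζ.im * (x1 k - x0 k) : ℝ) : ℂ) * I := by
      funext k
      apply Complex.ext
      · simp [hζ]
      · simp
    show ‖F _‖ ≤ C
    rw [h3]
    exact h0 (fun k => y k + ζ.im * (x1 k - x0 k))
  · intro ζ hζ
    have h3 : (fun k => ((x0 k : ℂ) + (y k : ℂ) * I) + ζ * (((x1 k - x0 k : ℝ)) : ℂ)) =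
        fun k => (x1 k : ℂ) + ((y k + ζ.im * (x1 k - x0 k) : ℝ) : ℂ) * I := by
      funext k
      apply Complex.ext
      · simp [hζ]
      · simp
    show ‖F _‖ ≤ C
    rw [h3]
    exact h1 (fun k => y k + ζ.im * (x1 k - x0 k))

/-- the cross polytope -/
theorem cross_mem {S : Set (ℕ → ℝ)} (hS : Convex ℝ S) {n : ℕ} {r : ℝ} (hr : 0 < r)
    (h0 : (0 : ℕ → ℝ) ∈ S) (h1 : ∀ k < n, Pi.single k r ∈ S) (h2 : ∀ k < n, Pi.single k (-r) ∈ S)
    {x : ℕ → ℝ} (hx : ∑ k ∈ range n, |x k| ≤ r) (hx0 : ∀ k, n ≤ k → x k = 0) : x ∈ S := by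
  classical
  -- weights
  set w : ℕ → ℝ := fun k => if k < n then |x k| / r else 1 - (∑ k ∈ range n, |x k|) / r with hw
  set z : ℕ → (ℕ → ℝ) := fun k => if k < n then (if 0 ≤ x k then Pi.single k r else
    Pi.single k (-r)) else 0 with hz
  have h3 : ∑ k ∈ range (n + 1), w k • z k ∈ S := by
    refine hS.sum_mem (fun k hk => ?_) ?_ (fun k hk => ?_)
    · by_cases hkn : k < n
      · simp only [hw, if_pos hkn]
        positivity
      · simp only [hw, if_neg hkn]
        have : (∑ k ∈ range n, |x k|) / r ≤ 1 := (div_le_one hr).2 hx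
        linarith
    · rw [Finset.sum_range_succ]
      have h4 : ∑ k ∈ range n, w k = (∑ k ∈ range n, |x k|) / r := by
        rw [Finset.sum_div]
        refine Finset.sum_congr rfl fun k hk => ?_
        simp only [hw, if_pos (Finset.mem_range.1 hk)]
      have h5 : w n = 1 - (∑ k ∈ range n, |x k|) / r := by
        simp only [hw, if_neg (lt_irrefl n)]
      rw [h4, h5]
      ring
    · by_cases hkn : k < n
      · simp only [hz, if_pos hkn]
        split_ifs
        · exact h1 k hkn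
        · exact h2 k hkn
      · simp only [hz, if_neg hkn]
        exact h0
  have h4 : ∑ k ∈ range (n + 1), w k • z k = x := by
    funext j
    rw [Finset.sum_apply, Finset.sum_range_succ]
    have h5 : (w n • z n) j = 0 := by
      simp only [hz, if_neg (lt_irrefl n), smul_zero, Pi.zero_apply]
    rw [h5, add_zero]
    have h6 : ∀ k ∈ range n, (w k • z k) j = if k = j then x j else 0 := by
      intro k hk
      have hkn := Finset.mem_range.1 hk
      simp only [hw, hz, if_pos hkn, Pi.smul_apply, smul_eq_mul]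
      by_cases hkj : k = j
      · subst hkj
        rw [if_pos rfl]
        split_ifs with h7
        · rw [Pi.single_eq_same, abs_of_nonneg h7]
          field_simp
        · rw [Pi.single_eq_same, abs_of_neg (not_le.1 h7)]
          field_simp
      · rw [if_neg hkj]
        split_ifs with h7
        · rw [Pi.single_eq_of_ne (Ne.symm hkj), mul_zero]
        · rw [Pi.single_eq_of_ne (Ne.symm hkj), mul_zero]
    rw [Finset.sum_congr rfl h6, Finset.sum_ite_eq']
    by_cases hjn : j < n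
    · rw [if_pos (Finset.mem_range.2 hjn)]
    · rw [if_neg (fun h => hjn (Finset.mem_range.1 h)), hx0 j (not_lt.1 hjn)]
  rwa [h4] at h3

/-- **The tube bound**: a nice function which only depends on the first `n` variables and is
bounded by `C` over the vertices of the cross polytope of radius `r` and over its centre is
bounded by `C` over the whole polytope. -/
theorem Nice.tube {n : ℕ} {F : (ℕ → ℂ) → ℂ} (hF : Nice n F) {C r : ℝ} (hr : 0 < r)
    (hloc : ∀ z z' : ℕ → ℂ, (∀ k < n, z k = z' k) → F z = F z')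
    (h0 : ∀ z : ℕ → ℂ, (∀ k, (z k).re = 0) → ‖F z‖ ≤ C)
    (h1 : ∀ z : ℕ → ℂ, ∀ k < n, |(z k).re| = r → (∀ j, j ≠ k → (z j).re = 0) → ‖F z‖ ≤ C)
    {z : ℕ → ℂ} (hz : ∑ k ∈ range n, |(z k).re| ≤ r) : ‖F z‖ ≤ C := by
  classical
  have h2 : (fun k => if k < n then (z k).re else 0) ∈
      {x : ℕ → ℝ | ∀ y : ℕ → ℝ, ‖F (fun k => (x k : ℂ) + (y k : ℂ) * I)‖ ≤ C} := by
    refine cross_mem (hF.convex C) hr ?_ ?_ ?_ ?_ ?_ (n := n)
    · intro y
      refine h0 _ fun k => ?_
      simp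
    · intro k hk y
      refine h1 _ k hk ?_ fun j hj => ?_
      · simp [abs_of_pos hr]
      · simp [Pi.single_eq_of_ne hj]
    · intro k hk y
      refine h1 _ k hk ?_ fun j hj => ?_
      · simp [abs_of_pos hr]
      · simp [Pi.single_eq_of_ne hj]
    · refine le_trans (le_of_eq ?_) hz
      refine Finset.sum_congr rfl fun k hk => ?_
      rw [if_pos (Finset.mem_range.1 hk)]
    · intro k hk
      rw [if_neg (not_lt.2 hk)]
  have h3 := h2 (fun k => (z k).im)
  rwa [hloc _ z fun k hk => ?_] at h3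
  show (((if k < n then (z k).re else 0 : ℝ)) : ℂ) + ((z k).im : ℂ) * I = z k
  rw [if_pos hk]
  exact Complex.re_add_im (z k)

end Vale.Agent.P356.GA
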