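import Vale.Agent.P356.GA.Tube107a
import Vale.Agent.P356.GA.Tube107b
import Vale.Agent.P356.PH.Mat749

/-!
# GA, block TUBE (helper107): the tube bound for ordered products of modular flows

Nested splittings `e k : N ≃ α k × β k`, `k = 0, 1, …` as in `SV.tilt_abstract` (`α k` shrinks).
-/

set_option linter.all false

namespace Vale.Agent.P356.GA

open Matrix Finset Vale.Agent.P356 Vale.Agent.P356.SV Vale.Agent.P356.Path
open scoped BigOperators ComplexOrder Kronecker Matrix.Norms.L2Operator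

section basic
variable {N : Type*} [Fintype N] [DecidableEq N]

theorem norm_one_le : ‖(1 : Matrix N N ℂ)‖ ≤ 1 := by
  refine PH.ph_norm_le zero_le_one fun ψ => ?_
  rw [one_mulVec, one_pow, one_mul]

theorem norm_le_of_iso {A : Matrix N N ℂ} (h : Aᴴ * A = 1) : ‖A‖ ≤ 1 := by
  have h1 : ‖A‖ * ‖A‖ ≤ 1 := by
    rw [← CStarRing.norm_star_mul_self]
    show ‖Aᴴ * A‖ ≤ 1
    rw [h]
    exact norm_one_le
  nlinarith [norm_nonneg A]

theorem norm_conjT (A : Matrix N N ℂ) : ‖Aᴴ‖ = ‖A‖ := norm_star A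

theorem nrm_mulVec_le (A : Matrix N N ℂ) (ψ : N → ℂ) : nrm (A *ᵥ ψ) ≤ ‖A‖ * nrm ψ := by
  refine Real.sqrt_le_iff.2 ⟨by have := norm_nonneg A; have := nrm_nonneg ψ; positivity, ?_⟩
  rw [mul_pow, nrm_sq]
  exact PH.ph_nsq_mulVec_le A ψ

/-- Transport of a product of operators (unitary version of `SV.chain_phi`). -/
theorem chainU (ψ : N → ℂ) (Y : ℕ → Matrix N N ℂ) (𝓡 : ℕ → Set (Matrix N N ℂ)) (k : ℕ)
    (hT : ∀ j < k, ∃ A ∈ 𝓡 j, Aᴴ * A = 1 ∧ A *ᵥ ψ = Y j *ᵥ ψ)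
    (hc : ∀ j < k, ∀ i ≤ j, ∀ A ∈ 𝓡 i, Y j * A = A * Y j) :
    ∃ A : Matrix N N ℂ, Aᴴ * A = 1 ∧ prL Y k *ᵥ ψ = A *ᵥ ψ ∧
      ∀ X : Matrix N N ℂ, (∀ j < k, ∀ B ∈ 𝓡 j, X * B = B * X) → X * A = A * X := by
  induction k with
  | zero =>
    refine ⟨1, ?_, rfl, fun X _ => ?_⟩
    · rw [conjTranspose_one, Matrix.mul_one]
    · rw [Matrix.mul_one, Matrix.one_mul]
  | succ k ih =>
    obtain ⟨A, h1, h2, h4⟩ := ih (fun j hj => hT j (Nat.lt_succ_of_lt hj))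
      (fun j hj => hc j (Nat.lt_succ_of_lt hj))
    obtain ⟨S, hS, h5, h6⟩ := hT k (Nat.lt_succ_self k)
    have hYA := h4 (Y k) (fun j hj B hB => hc k (Nat.lt_succ_self k) j hj.le B hB)
    refine ⟨A * S, ?_, ?_, ?_⟩
    · rw [conjTranspose_mul]
      calc Sᴴ * Aᴴ * (A * S) = Sᴴ * (Aᴴ * A) * S := by simp only [Matrix.mul_assoc]
        _ = 1 := by rw [h1, Matrix.mul_one, h5]
    · rw [prL, ← mulVec_mulVec, h2, mulVec_mulVec, hYA, ← mulVec_mulVec, ← h6, mulVec_mulVec]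
    · intro X hX
      have h8 := h4 X (fun j hj => hX j (Nat.lt_succ_of_lt hj))
      have h10 := hX k (Nat.lt_succ_self k) S hS
      rw [← Matrix.mul_assoc, h8, Matrix.mul_assoc, h10, Matrix.mul_assoc]

end basic

section split
variable {N α β : Type*} [Fintype N] [DecidableEq N] [Fintype α] [Fintype β] [DecidableEq α]
  [DecidableEq β]

theorem norm_opL_le' (e : N ≃ α × β) [Nonempty β] (Y : Matrix α α ℂ) : ‖Y‖ ≤ ‖opL e Y‖ := by
  classical
  obtain ⟨b0⟩ := ‹Nonempty β›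
  refine PH.ph_norm_le (norm_nonneg _) fun φ => ?_
  set ψ : N → ℂ := fun s => φ (e s).1 * (if (e s).2 = b0 then 1 else 0) with hψ
  have h1 : nsq ψ = nsq φ := by
    unfold nsq
    rw [sum_equiv_prod e]
    refine Finset.sum_congr rfl fun a _ => ?_
    rw [Finset.sum_eq_single b0]
    · simp [hψ]
    · intro b _ hb
      simp [hψ, hb]
    · intro h
      exact absurd (Finset.mem_univ _) h
  have h2 : nsq (opL e Y *ᵥ ψ) = nsq (Y *ᵥ φ) := by
    unfold nsq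
    rw [sum_equiv_prod e]
    refine Finset.sum_congr rfl fun a _ => ?_
    rw [Finset.sum_eq_single b0]
    · rw [opL_mulVec_apply]
      simp [hψ, mulVec, dotProduct]
    · intro b _ hb
      rw [opL_mulVec_apply]
      simp [hψ, hb]
    · intro h
      exact absurd (Finset.mem_univ _) h
  rw [← h1, ← h2]
  exact PH.ph_nsq_mulVec_le _ _

/-- `‖e^{G/2} Y e^{-G/2} ψ‖² ≤ K ‖Y‖²` for `e^G ≥ ρ`, `Tr e^G ≤ K`. -/
theorem half_bound (e : N ≃ α × β) (ψ : N → ℂ) (g : α → ℝ) {K : ℝ}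
    (hg1 : ∀ i, eigp (ψ ∘ e.symm) i ≤ Real.exp (g i)) (hg2 : ∑ i, Real.exp (g i) ≤ K)
    (Y : Matrix α α ℂ) (hY : ‖Y‖ ≤ 1) :
    nrm (opL e (cOp (ψ ∘ e.symm) (fun i => ((Real.exp (1 / 2 * g i) : ℝ) : ℂ)) * Y *
      cOp (ψ ∘ e.symm) (fun i => ((Real.exp (-(1 / 2) * g i) : ℝ) : ℂ))) *ᵥ ψ) ≤ Real.sqrt K := by
  set x := ψ ∘ e.symm with hx
  set U := eigU x with hU
  set a : α → ℝ := fun i => Real.exp (1 / 2 * g i) with ha
  set b : α → ℝ := fun i => Real.exp (-(1 / 2) * g i) with hb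
  set Z := cOp x (fun i => ((a i : ℝ) : ℂ)) * Y * cOp x (fun i => ((b i : ℝ) : ℂ)) with hZ
  set T := Uᴴ * Y * U with hT
  have hUU : Uᴴ * U = 1 := eigU_mul' x
  have hUU' : U * Uᴴ = 1 := eigU_mul x
  have hT1 : ‖T‖ ≤ 1 := by
    have h1 : ‖U‖ ≤ 1 := norm_le_of_iso hUU
    have h2 : ‖Uᴴ‖ ≤ 1 := by rw [norm_conjT]; exact h1
    calc ‖T‖ ≤ ‖Uᴴ * Y‖ * ‖U‖ := norm_mul_le _ _
      _ ≤ (‖Uᴴ‖ * ‖Y‖) * ‖U‖ := mul_le_mul_of_nonneg_right (norm_mul_le _ _) (norm_nonneg _)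
      _ ≤ (1 * 1) * 1 := by gcongr
      _ = 1 := by norm_num
  -- row sums of `T`
  have hrow : ∀ j, ∑ i, ‖T j i‖ ^ 2 ≤ 1 := by
    intro j
    refine contr_row (P := T) ?_ j
    intro v
    have := PH.ph_nsq_mulVec_le Tᴴ v
    rw [norm_conjT] at this
    have h3 : ‖T‖ ^ 2 ≤ 1 := pow_le_one₀ (norm_nonneg _) hT1
    have h4 : nsq (Tᴴ *ᵥ v) ≤ nsq v := by
      have := nsq_nonneg' v
      nlinarith
    exact h4
  have hZT : Z = U * (diagonal (fun i => ((a i : ℝ) : ℂ)) * T *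
      diagonal (fun i => ((b i : ℝ) : ℂ))) * Uᴴ := by
    rw [hZ, cOp, cOp, hT, ← hU]
    simp only [Matrix.mul_assoc]
  have hsq : nsq (opL e Z *ᵥ ψ) = ∑ i, ∑ j, eigp x i * (b i * b i) * (a j * a j) * ‖T j i‖ ^ 2 := by
    have h1 : ((nsq (opL e Z *ᵥ ψ) : ℝ) : ℂ) = (redA x * (Zᴴ * Z)).trace := by
      rw [← ip_self, ip_mulVec, opL_conjTranspose, mulVec_mulVec, ← opL_mul, ← expect_opL]
    have h2 : (redA x * (Zᴴ * Z)).trace =
        (diagonal (fun i => (eigp x i : ℂ)) * ((diagonal (fun i => ((b i : ℝ) : ℂ)) * Tᴴ *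
          diagonal (fun i => ((a i : ℝ) : ℂ))) * (diagonal (fun i => ((a i : ℝ) : ℂ)) * T *
          diagonal (fun i => ((b i : ℝ) : ℂ))))).trace := by
      have h3 : Zᴴ = U * (diagonal (fun i => ((b i : ℝ) : ℂ)) * Tᴴ *
          diagonal (fun i => ((a i : ℝ) : ℂ))) * Uᴴ := by
        have hd : ∀ f : α → ℝ, (diagonal (fun i => ((f i : ℝ) : ℂ)))ᴴ =
            diagonal (fun i => ((f i : ℝ) : ℂ)) := fun f => by
          rw [diagonal_conjTranspose]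
          congr 1
          funext i
          simp only [Pi.star_apply, RCLike.star_def, Complex.conj_ofReal]
        rw [hZT]
        simp only [conjTranspose_mul, conjTranspose_conjTranspose, hd, Matrix.mul_assoc]
      rw [h3, hZT, redA_spec x, ← hU]
      generalize diagonal (fun i => (eigp x i : ℂ)) = D
      generalize (diagonal (fun i => ((b i : ℝ) : ℂ)) * Tᴴ *
          diagonal (fun i => ((a i : ℝ) : ℂ))) = P
      generalize (diagonal (fun i => ((a i : ℝ) : ℂ)) * T *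
          diagonal (fun i => ((b i : ℝ) : ℂ))) = Q
      have h4 : U * D * Uᴴ * (U * P * Uᴴ * (U * Q * Uᴴ)) = U * (D * (P * Q)) * Uᴴ := by
        calc U * D * Uᴴ * (U * P * Uᴴ * (U * Q * Uᴴ)) =
            U * D * (Uᴴ * U) * P * (Uᴴ * U) * Q * Uᴴ := by simp only [Matrix.mul_assoc]
          _ = _ := by rw [hUU, Matrix.mul_one, Matrix.mul_one]; simp only [Matrix.mul_assoc]
      rw [h4, Matrix.trace_mul_comm, ← Matrix.mul_assoc, hUU, Matrix.one_mul]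
    have h3 : (diagonal (fun i => (eigp x i : ℂ)) * ((diagonal (fun i => ((b i : ℝ) : ℂ)) * Tᴴ *
          diagonal (fun i => ((a i : ℝ) : ℂ))) * (diagonal (fun i => ((a i : ℝ) : ℂ)) * T *
          diagonal (fun i => ((b i : ℝ) : ℂ))))).trace =
        ((∑ i, ∑ j, eigp x i * (b i * b i) * (a j * a j) * ‖T j i‖ ^ 2 : ℝ) : ℂ) := by
      rw [Matrix.trace]
      push_cast
      refine Finset.sum_congr rfl fun i _ => ?_
      rw [Matrix.diag_apply, Matrix.diagonal_mul, Matrix.mul_apply, Finset.mul_sum]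
      refine Finset.sum_congr rfl fun j _ => ?_
      rw [Matrix.mul_diagonal, Matrix.diagonal_mul, Matrix.mul_diagonal, Matrix.diagonal_mul,
        conjTranspose_apply, ← Complex.mul_conj', RCLike.star_def]
      ring
    have h4 := h1.trans (h2.trans h3)
    exact_mod_cast h4
  refine Real.sqrt_le_sqrt ?_
  rw [hsq]
  calc ∑ i, ∑ j, eigp x i * (b i * b i) * (a j * a j) * ‖T j i‖ ^ 2
      ≤ ∑ i, ∑ j, Real.exp (g j) * ‖T j i‖ ^ 2 := by
        refine Finset.sum_le_sum fun i _ => Finset.sum_le_sum fun j _ => ?_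
        have h1 : b i * b i = Real.exp (-(g i)) := by
          rw [hb]
          simp only
          rw [← Real.exp_add]
          congr 1
          ring
        have h2 : a j * a j = Real.exp (g j) := by
          rw [ha]
          simp only
          rw [← Real.exp_add]
          congr 1
          ring
        have h3 : eigp x i * (b i * b i) ≤ 1 := by
          rw [h1, Real.exp_neg, ← div_eq_mul_inv, div_le_one (Real.exp_pos _)]
          exact hg1 i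
        rw [h2]
        refine mul_le_mul_of_nonneg_right ?_ (sq_nonneg _)
        have := mul_le_mul_of_nonneg_right h3 (Real.exp_pos (g j)).le
        linarith
    _ = ∑ j, Real.exp (g j) * ∑ i, ‖T j i‖ ^ 2 := by
        rw [Finset.sum_comm]
        simp only [Finset.mul_sum]
    _ ≤ ∑ j, Real.exp (g j) * 1 :=
        Finset.sum_le_sum fun j _ => mul_le_mul_of_nonneg_left (hrow j) (Real.exp_pos _).le
    _ ≤ K := by simpa using hg2

end split

section family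
variable {N : Type*} [Fintype N] [DecidableEq N] {α β : ℕ → Type*} [∀ k, Fintype (α k)]
  [∀ k, DecidableEq (α k)] [∀ k, Fintype (β k)] [∀ k, DecidableEq (β k)]

/-- `e^{z G_k}`, `G_k` the function `g k` of the reduced state of `ψ` on the first factor of the
splitting `k` -/
noncomputable def sg (e : ∀ k, N ≃ α k × β k) (ψ : N → ℂ) (g : ∀ k, α k → ℝ) (k : ℕ) (z : ℂ) :
    Matrix N N ℂ :=
  opL (e k) (cOp (ψ ∘ (e k).symm) (fun i => Complex.exp (z * (g k i : ℂ))))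

/-- `⟨ψ| e^{z_0 G_0} ⋯ e^{z_{n-1} G_{n-1}} X e^{-z_{n-1} G_{n-1}} ⋯ e^{-z_0 G_0} |ψ⟩` -/
noncomputable def FT (e : ∀ k, N ≃ α k × β k) (ψ : N → ℂ) (g : ∀ k, α k → ℝ) (n : ℕ)
    (X : Matrix N N ℂ) (z : ℕ → ℂ) : ℂ :=
  star ψ ⬝ᵥ ((prR (fun k => sg e ψ g k (z k)) n * X *
    prL (fun k => sg e ψ g k (-(z k))) n) *ᵥ ψ)

/-- `X` is a sum of products across the splitting, of total weight `w` -/
def SplitLe {α β : Type*} [DecidableEq α] [DecidableEq β] [Fintype α] [Fintype β] (e : N ≃ α × β)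
    (X : Matrix N N ℂ) (w : ℝ) : Prop :=
  ∃ (m : ℕ) (c : Fin m → ℂ) (P : Fin m → Matrix α α ℂ) (Q : Fin m → Matrix β β ℂ),
    X = ∑ j, c j • (opL e (P j) * opR e (Q j)) ∧ (∀ j, ‖opL e (P j)‖ ≤ 1) ∧
      (∀ j, ‖opR e (Q j)‖ ≤ 1) ∧ ∑ j, ‖c j‖ ≤ w

variable (e : ∀ k, N ≃ α k × β k) (ψ : N → ℂ) (g : ∀ k, α k → ℝ)

theorem sg_mul (k : ℕ) (z z' : ℂ) : sg e ψ g k z * sg e ψ g k z' = sg e ψ g k (z + z') := by
  rw [sg, sg, sg, ← opL_mul, cOp_mul]
  congr 2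
  funext i
  rw [← Complex.exp_add, add_mul]

theorem sg_zero (k : ℕ) : sg e ψ g k 0 = 1 := by
  rw [sg]
  simp only [zero_mul, Complex.exp_zero]
  rw [cOp_one, opL_one]

theorem sg_conjTranspose (k : ℕ) (z : ℂ) : (sg e ψ g k z)ᴴ = sg e ψ g k (star z) := by
  rw [sg, sg, opL_conjTranspose, cOp_conjTranspose]
  congr 2
  funext i
  rw [RCLike.star_def, ← Complex.exp_conj, map_mul, Complex.conj_ofReal]

theorem sg_inv (k : ℕ) (z : ℂ) : sg e ψ g k z * sg e ψ g k (-z) = 1 := by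
  rw [sg_mul, add_neg_cancel, sg_zero]

theorem star_of_re_zero {z : ℂ} (hz : z.re = 0) : star z = -z := by
  apply Complex.ext
  · simp [hz]
  · simp

/-- transport of an imaginary power -/
theorem sg_transport (k : ℕ) {z : ℂ} (hz : z.re = 0) :
    ∃ A ∈ Set.range (opR (e k) : Matrix (β k) (β k) ℂ → Matrix N N ℂ),
      Aᴴ * A = 1 ∧ A *ᵥ ψ = sg e ψ g k z *ᵥ ψ := by
  refine ⟨opR (e k) (tOp (ψ ∘ (e k).symm) (fun i => Complex.exp (z * (g k i : ℂ)))), ⟨_, rfl⟩,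
    ?_, ?_⟩
  · rw [opR_conjTranspose, ← opR_mul, tOp_conjTranspose, tOp_mul]
    have h1 : (fun i => star (Complex.exp (z * (g k i : ℂ))) * Complex.exp (z * (g k i : ℂ))) =
        fun _ => 1 := by
      funext i
      rw [RCLike.star_def, ← Complex.exp_conj, ← Complex.exp_add, map_mul, Complex.conj_ofReal]
      have h2 : (starRingEnd ℂ) z = -z := star_of_re_zero hz
      rw [h2]
      have h3 : -z * (g k i : ℂ) + z * (g k i : ℂ) = 0 := by ring
      rw [h3, Complex.exp_zero]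
    rw [h1, tOp_one, opR_one]
  · exact c_transport (e k) ψ _

theorem sg_real (k : ℕ) (s : ℝ) : sg e ψ g k (s : ℂ) =
    opL (e k) (cOp (ψ ∘ (e k).symm) (fun i => ((Real.exp (s * g k i) : ℝ) : ℂ))) := by
  rw [sg]
  congr 2
  funext i
  push_cast
  rfl

theorem prL_split (Y : ℕ → Matrix N N ℂ) (k m : ℕ) :
    prL Y (k + m) = prL (fun j => Y (k + j)) m * prL Y k := by
  induction m with
  | zero => rw [Nat.add_zero, prL, Matrix.one_mul]
  | succ m ih => rw [Nat.add_succ, prL, ih, prL, Matrix.mul_assoc]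

theorem prL_congr {Y Y' : ℕ → Matrix N N ℂ} {k : ℕ} (h : ∀ j < k, Y j = Y' j) :
    prL Y k = prL Y' k := by
  induction k with
  | zero => rfl
  | succ k ih =>
    rw [prL, prL, ih (fun j hj => h j (Nat.lt_succ_of_lt hj)), h k (Nat.lt_succ_self k)]

theorem prL_iso {Y : ℕ → Matrix N N ℂ} {m : ℕ} (h : ∀ j < m, (Y j)ᴴ * Y j = 1) :
    (prL Y m)ᴴ * prL Y m = 1 := by
  induction m with
  | zero => rw [prL, conjTranspose_one, Matrix.mul_one]
  | succ m ih =>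
    rw [prL, conjTranspose_mul]
    calc (prL Y m)ᴴ * (Y m)ᴴ * (Y m * prL Y m) = (prL Y m)ᴴ * ((Y m)ᴴ * Y m) * prL Y m := by
          simp only [Matrix.mul_assoc]
      _ = 1 := by
          rw [h m (Nat.lt_succ_self m), Matrix.mul_one, ih (fun j hj => h j (Nat.lt_succ_of_lt hj))]

theorem prL_comm {Y : ℕ → Matrix N N ℂ} {m : ℕ} {B : Matrix N N ℂ}
    (h : ∀ j < m, Y j * B = B * Y j) : prL Y m * B = B * prL Y m := by
  induction m with
  | zero => rw [prL, Matrix.mul_one, Matrix.one_mul]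
  | succ m ih =>
    rw [prL, Matrix.mul_assoc, ih (fun j hj => h j (Nat.lt_succ_of_lt hj)), ← Matrix.mul_assoc,
      h m (Nat.lt_succ_self m), Matrix.mul_assoc]

theorem FT_eq (n : ℕ) (X : Matrix N N ℂ) (z : ℕ → ℂ) : FT e ψ g n X z =
    star (prL (fun k => sg e ψ g k (star (z k))) n *ᵥ ψ) ⬝ᵥ
      (X *ᵥ (prL (fun k => sg e ψ g k (-(z k))) n *ᵥ ψ)) := by
  have h1 : prL (fun k => sg e ψ g k (star (z k))) n = (prR (fun k => sg e ψ g k (z k)) n)ᴴ := by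
    rw [prR_conjTranspose]
    refine prL_congr fun j _ => ?_
    rw [sg_conjTranspose]
  rw [FT, h1, ip_mulVec, conjTranspose_conjTranspose, mulVec_mulVec, mulVec_mulVec,
    Matrix.mul_assoc]

theorem sg_iso (k : ℕ) {z : ℂ} (hz : z.re = 0) : (sg e ψ g k z)ᴴ * sg e ψ g k z = 1 := by
  rw [sg_conjTranspose, sg_mul, star_of_re_zero hz, neg_add_cancel, sg_zero]

/-- one term at a vertex -/
theorem vertex_term (hψ : nsq ψ = 1) (k : ℕ) [Nonempty (β k)] {K : ℝ}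
    (hg1 : ∀ i, eigp (ψ ∘ (e k).symm) i ≤ Real.exp (g k i)) (hg2 : ∑ i, Real.exp (g k i) ≤ K)
    {s : ℝ} (hs : |s| = 1 / 2) (P : Matrix (α k) (α k) ℂ) (hP : ‖opL (e k) P‖ ≤ 1)
    (Q : Matrix N N ℂ) (hQ : ‖Q‖ ≤ 1) (hQc : ∀ Y, Q * opL (e k) Y = opL (e k) Y * Q) :
    ‖star (sg e ψ g k (s : ℂ) *ᵥ ψ) ⬝ᵥ ((opL (e k) P * Q) *ᵥ (sg e ψ g k (((-s : ℝ)) : ℂ) *ᵥ ψ))‖ ≤
      Real.sqrt K := by
  have hP1 : ‖P‖ ≤ 1 := (norm_opL_le' (e k) P).trans hP
  have hP2 : ‖Pᴴ‖ ≤ 1 := by rw [norm_conjT]; exact hP1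
  have hn1 : nrm ψ = 1 := by rw [nrm, hψ, Real.sqrt_one]
  have hnQ : nrm (Q *ᵥ ψ) ≤ 1 := by
    refine (nrm_mulVec_le Q ψ).trans ?_
    rw [hn1, mul_one]; exact hQ
  have hnQ' : nrm (Qᴴ *ᵥ ψ) ≤ 1 := by
    refine (nrm_mulVec_le Qᴴ ψ).trans ?_
    rw [hn1, mul_one, norm_conjT]; exact hQ
  have hsg : ∀ r : ℝ, (sg e ψ g k (r : ℂ))ᴴ = sg e ψ g k (r : ℂ) := fun r => by
    rw [sg_conjTranspose, RCLike.star_def, Complex.conj_ofReal]
  rcases (abs_eq (by norm_num : (0:ℝ) ≤ 1 / 2)).1 hs with hs | hs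
  · subst hs
    have h1 := half_bound (e k) ψ (g k) hg1 hg2 P hP1
    rw [opL_mul, opL_mul] at h1
    have h2 : (-(1 / 2) : ℝ) = -(1 / 2 : ℝ) := rfl
    rw [← sg_real e ψ g k (1 / 2), ← sg_real e ψ g k (-(1 / 2))] at h1
    have h3 : star (sg e ψ g k ((1 / 2 : ℝ) : ℂ) *ᵥ ψ) ⬝ᵥ
        ((opL (e k) P * Q) *ᵥ (sg e ψ g k (((-(1 / 2) : ℝ)) : ℂ) *ᵥ ψ)) =
        star (Qᴴ *ᵥ ψ) ⬝ᵥ ((sg e ψ g k ((1 / 2 : ℝ) : ℂ) * opL (e k) P *
          sg e ψ g k (((-(1 / 2) : ℝ)) : ℂ)) *ᵥ ψ) := by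
      rw [ip_mulVec, ip_mulVec, hsg, conjTranspose_conjTranspose, mulVec_mulVec, mulVec_mulVec,
        mulVec_mulVec]
      congr 2
      have h4 : Q * sg e ψ g k ((1 / 2 : ℝ) : ℂ) = sg e ψ g k ((1 / 2 : ℝ) : ℂ) * Q := hQc _
      have h5 : Q * sg e ψ g k (((-(1 / 2) : ℝ)) : ℂ) = sg e ψ g k (((-(1 / 2) : ℝ)) : ℂ) * Q :=
        hQc _
      have h6 := hQc P
      calc sg e ψ g k ((1 / 2 : ℝ) : ℂ) * (opL (e k) P * Q) * sg e ψ g k (((-(1 / 2) : ℝ)) : ℂ)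
          = (sg e ψ g k ((1 / 2 : ℝ) : ℂ) * Q) * opL (e k) P *
            sg e ψ g k (((-(1 / 2) : ℝ)) : ℂ) := by rw [← h6]; simp only [Matrix.mul_assoc]
        _ = Q * (sg e ψ g k ((1 / 2 : ℝ) : ℂ) * opL (e k) P *
            sg e ψ g k (((-(1 / 2) : ℝ)) : ℂ)) := by rw [← h4]; simp only [Matrix.mul_assoc]
    rw [h3]
    refine (nrm_ip_le _ _).trans ?_
    calc nrm (Qᴴ *ᵥ ψ) * _ ≤ 1 * Real.sqrt K := mul_le_mul hnQ' h1 (nrm_nonneg _) zero_le_one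
      _ = Real.sqrt K := one_mul _
  · subst hs
    have h1 := half_bound (e k) ψ (g k) hg1 hg2 Pᴴ hP2
    rw [opL_mul, opL_mul] at h1
    rw [← sg_real e ψ g k (1 / 2), ← sg_real e ψ g k (-(1 / 2))] at h1
    have hneg : ((-(-(1 / 2)) : ℝ)) = 1 / 2 := by norm_num
    rw [hneg]
    have h3 : star (sg e ψ g k (((-(1 / 2) : ℝ)) : ℂ) *ᵥ ψ) ⬝ᵥ
        ((opL (e k) P * Q) *ᵥ (sg e ψ g k ((1 / 2 : ℝ) : ℂ) *ᵥ ψ)) =
        star ((sg e ψ g k ((1 / 2 : ℝ) : ℂ) * opL (e k) Pᴴ *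
          sg e ψ g k (((-(1 / 2) : ℝ)) : ℂ)) *ᵥ ψ) ⬝ᵥ (Q *ᵥ ψ) := by
      rw [ip_mulVec, ip_mulVec, hsg, mulVec_mulVec, mulVec_mulVec, mulVec_mulVec]
      congr 2
      have h4 : Q * sg e ψ g k ((1 / 2 : ℝ) : ℂ) = sg e ψ g k ((1 / 2 : ℝ) : ℂ) * Q := hQc _
      rw [conjTranspose_mul, conjTranspose_mul, hsg, hsg, opL_conjTranspose,
        conjTranspose_conjTranspose]
      calc sg e ψ g k (((-(1 / 2) : ℝ)) : ℂ) * (opL (e k) P * Q) * sg e ψ g k ((1 / 2 : ℝ) : ℂ)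
          = sg e ψ g k (((-(1 / 2) : ℝ)) : ℂ) * opL (e k) P *
            (Q * sg e ψ g k ((1 / 2 : ℝ) : ℂ)) := by simp only [Matrix.mul_assoc]
        _ = _ := by rw [h4]; simp only [Matrix.mul_assoc]
    rw [h3]
    refine (nrm_ip_le _ _).trans ?_
    calc _ * nrm (Q *ᵥ ψ) ≤ Real.sqrt K * 1 := mul_le_mul h1 hnQ (nrm_nonneg _) (Real.sqrt_nonneg _)
      _ = Real.sqrt K := mul_one _

/-- bound at the vertices of the cross polytope -/
theorem FT_vertex (hcomm : ∀ j k, j ≤ k → ∀ (Y : Matrix (α k) (α k) ℂ) (S : Matrix (β j) (β j) ℂ),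
      opL (e k) Y * opR (e j) S = opR (e j) S * opL (e k) Y) (hψ : nsq ψ = 1) (n : ℕ) {K w : ℝ}
    (X : Matrix N N ℂ) (k : ℕ) (hk : k < n)
    (hg1 : ∀ i, eigp (ψ ∘ (e k).symm) i ≤ Real.exp (g k i)) (hg2 : ∑ i, Real.exp (g k i) ≤ K)
    (hX : SplitLe (e k) X w) (z : ℕ → ℂ) (hzk : |(z k).re| = 1 / 2)
    (hz : ∀ j, j ≠ k → (z j).re = 0) : ‖FT e ψ g n X z‖ ≤ w * Real.sqrt K := by
  classical
  -- `β k` is nonempty
  haveI : Nonempty (β k) := by
    by_contra h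
    rw [not_nonempty_iff] at h
    have h1 : IsEmpty N := ⟨fun s => h.elim (e k s).2⟩
    have h2 : nsq ψ = 0 := by
      unfold nsq
      exact Fintype.sum_empty _
    rw [h2] at hψ
    exact zero_ne_one hψ
  obtain ⟨m, rfl⟩ := Nat.exists_eq_add_of_lt hk
  set Y : ℕ → Matrix N N ℂ := fun j => sg e ψ g j (-(z j)) with hY
  set Yb : ℕ → Matrix N N ℂ := fun j => sg e ψ g j (star (z j)) with hYb
  have hre : ∀ j, j ≠ k → (-(z j)).re = 0 := fun j hj => by rw [Complex.neg_re, hz j hj, neg_zero]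
  have hYY : ∀ j, j ≠ k → Yb j = Y j := fun j hj => by
    simp only [hY, hYb]
    rw [star_of_re_zero (hz j hj)]
  -- the inner product
  set V := prL (fun j => Y (k + 1 + j)) m with hV
  have hVb : prL (fun j => Yb (k + 1 + j)) m = V :=
    prL_congr fun j _ => hYY _ (by omega)
  have hViso : Vᴴ * V = 1 := prL_iso fun j _ => sg_iso e ψ g _ (hre _ (by omega))
  have hVc : ∀ S, V * opR (e k) S = opR (e k) S * V := fun S =>
    prL_comm fun j _ => hcomm k _ (by omega) _ _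
  obtain ⟨v, hv⟩ := mem_opL_of_comm (e k) V hVc
  obtain ⟨A, hA1, hA2, hA3⟩ := chainU ψ Y
    (fun j => Set.range (opR (e j) : Matrix (β j) (β j) ℂ → Matrix N N ℂ)) k
    (fun j hj => sg_transport e ψ g j (hre j (by omega)))
    (by
      rintro j hj i hij B ⟨S, rfl⟩
      exact hcomm i j hij _ _)
  have hAc : ∀ Z, opL (e k) Z * A = A * opL (e k) Z := fun Z => hA3 _ (by
    rintro j hj B ⟨S, rfl⟩
    exact hcomm j k hj.le _ _)
  have hAb : prL Yb k *ᵥ ψ = A *ᵥ ψ := by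
    rw [← hA2]
    congr 1
    exact prL_congr fun j hj => hYY _ (by omega)
  set s := (z k).re with hs
  set y : ℂ := -((z k).im * Complex.I) with hy
  have hy0 : y.re = 0 := by simp [hy]
  obtain ⟨B, ⟨S, hBS⟩, hB1, hB2⟩ := sg_transport e ψ g k hy0
  have hBc : ∀ Z, opL (e k) Z * B = B * opL (e k) Z := fun Z => by
    rw [← hBS]
    exact opL_opR_comm _ _ _
  have hzb : star (z k) = ((s : ℝ) : ℂ) + y := by
    apply Complex.ext
    · simp [hy, hs]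
    · simp [hy]
  have hzm : -(z k) = ((-s : ℝ) : ℂ) + y := by
    apply Complex.ext
    · simp [hy, hs]
    · simp [hy]
  have hYbk : Yb k *ᵥ (A *ᵥ ψ) = (A * B) *ᵥ (sg e ψ g k ((s : ℝ) : ℂ) *ᵥ ψ) := by
    have h1 : Yb k = sg e ψ g k ((s : ℝ) : ℂ) * sg e ψ g k y := by
      rw [sg_mul, ← hzb]
    have h2 : Yb k * A = A * Yb k := hAc _
    have h3 : sg e ψ g k ((s : ℝ) : ℂ) * B = B * sg e ψ g k ((s : ℝ) : ℂ) := hBc _
    rw [mulVec_mulVec, h2, ← mulVec_mulVec, h1, ← mulVec_mulVec, ← hB2]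
    simp only [mulVec_mulVec]
    rw [Matrix.mul_assoc, h3]
  have hYk : Y k *ᵥ (A *ᵥ ψ) = (A * B) *ᵥ (sg e ψ g k ((-s : ℝ) : ℂ) *ᵥ ψ) := by
    have h1 : Y k = sg e ψ g k ((-s : ℝ) : ℂ) * sg e ψ g k y := by
      rw [sg_mul, ← hzm]
    have h2 : Y k * A = A * Y k := hAc _
    have h3 : sg e ψ g k ((-s : ℝ) : ℂ) * B = B * sg e ψ g k ((-s : ℝ) : ℂ) := hBc _
    rw [mulVec_mulVec, h2, ← mulVec_mulVec, h1, ← mulVec_mulVec, ← hB2]
    simp only [mulVec_mulVec]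
    rw [Matrix.mul_assoc, h3]
  obtain ⟨C, hC⟩ : ∃ C, C = A * B := ⟨_, rfl⟩
  rw [← hC] at hYbk hYk
  have hCiso : Cᴴ * C = 1 := by
    rw [hC, conjTranspose_mul]
    calc Bᴴ * Aᴴ * (A * B) = Bᴴ * (Aᴴ * A) * B := by simp only [Matrix.mul_assoc]
      _ = 1 := by rw [hA1, Matrix.mul_one, hB1]
  have hCc : ∀ Z, opL (e k) Z * C = C * opL (e k) Z := fun Z => by
    rw [hC, ← Matrix.mul_assoc, hAc, Matrix.mul_assoc, hBc, Matrix.mul_assoc]
  have hCc' : ∀ Z, Cᴴ * opL (e k) Z = opL (e k) Z * Cᴴ := fun Z => by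
    have h1 := congrArg conjTranspose (hCc Zᴴ)
    rw [conjTranspose_mul, conjTranspose_mul, opL_conjTranspose, conjTranspose_conjTranspose] at h1
    exact h1
  have hFT : FT e ψ g (k + m + 1) X z = star (sg e ψ g k ((s : ℝ) : ℂ) *ᵥ ψ) ⬝ᵥ
      (((V * C)ᴴ * X * (V * C)) *ᵥ (sg e ψ g k ((-s : ℝ) : ℂ) *ᵥ ψ)) := by
    have e1 : k + m + 1 = k + 1 + m := by omega
    rw [FT_eq, e1]
    have h1 : prL (fun k => sg e ψ g k (star (z k))) (k + 1 + m) *ᵥ ψ =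
        (V * C) *ᵥ (sg e ψ g k ((s : ℝ) : ℂ) *ᵥ ψ) := by
      show prL Yb (k + 1 + m) *ᵥ ψ = _
      rw [prL_split, hVb, prL, ← mulVec_mulVec, ← mulVec_mulVec, hAb, hYbk, mulVec_mulVec]
    have h2 : prL (fun k => sg e ψ g k (-(z k))) (k + 1 + m) *ᵥ ψ =
        (V * C) *ᵥ (sg e ψ g k ((-s : ℝ) : ℂ) *ᵥ ψ) := by
      show prL Y (k + 1 + m) *ᵥ ψ = _
      rw [prL_split, ← hV, prL, ← mulVec_mulVec, ← mulVec_mulVec, hA2, hYk, mulVec_mulVec]
    rw [h1, h2, ip_mulVec, mulVec_mulVec, mulVec_mulVec, ← Matrix.mul_assoc]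
  obtain ⟨M, c, P, Q, hXeq, hP, hQ, hc⟩ := hX
  have hterm : ∀ j, (V * C)ᴴ * (opL (e k) (P j) * opR (e k) (Q j)) * (V * C) =
      opL (e k) (vᴴ * P j * v) * (Cᴴ * opR (e k) (Q j) * C) := by
    intro j
    have h1 : Vᴴ = opL (e k) vᴴ := by rw [hv, opL_conjTranspose]
    have h2 := hVc (Q j)
    have h3 : opL (e k) (vᴴ * P j * v) = Vᴴ * opL (e k) (P j) * V := by
      rw [opL_mul, opL_mul, ← h1, ← hv]
    have h4 := hCc' (vᴴ * P j * v)
    rw [conjTranspose_mul]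
    calc Cᴴ * Vᴴ * (opL (e k) (P j) * opR (e k) (Q j)) * (V * C)
        = Cᴴ * Vᴴ * opL (e k) (P j) * (opR (e k) (Q j) * V) * C := by
          simp only [Matrix.mul_assoc]
      _ = Cᴴ * (Vᴴ * opL (e k) (P j) * V) * opR (e k) (Q j) * C := by
          rw [← h2]; simp only [Matrix.mul_assoc]
      _ = opL (e k) (vᴴ * P j * v) * Cᴴ * opR (e k) (Q j) * C := by rw [← h3, h4]
      _ = _ := by simp only [Matrix.mul_assoc]
  have hsum : (V * C)ᴴ * X * (V * C) =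
      ∑ j, c j • (opL (e k) (vᴴ * P j * v) * (Cᴴ * opR (e k) (Q j) * C)) := by
    rw [hXeq, Finset.mul_sum, Finset.sum_mul]
    refine Finset.sum_congr rfl fun j _ => ?_
    rw [Matrix.mul_smul, Matrix.smul_mul, hterm]
  rw [hFT, hsum, Matrix.sum_mulVec, dotProduct_sum]
  refine (norm_sum_le _ _).trans ?_
  have hbd : ∀ j, ‖star (sg e ψ g k ((s : ℝ) : ℂ) *ᵥ ψ) ⬝ᵥ
      ((c j • (opL (e k) (vᴴ * P j * v) * (Cᴴ * opR (e k) (Q j) * C))) *ᵥ
        (sg e ψ g k ((-s : ℝ) : ℂ) *ᵥ ψ))‖ ≤ ‖c j‖ * Real.sqrt K := by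
    intro j
    rw [smul_mulVec, dotProduct_smul, norm_smul]
    refine mul_le_mul_of_nonneg_left ?_ (norm_nonneg _)
    refine vertex_term e ψ g hψ k hg1 hg2 hzk _ ?_ _ ?_ ?_
    · have h3 : opL (e k) (vᴴ * P j * v) = Vᴴ * opL (e k) (P j) * V := by
        rw [opL_mul, opL_mul, hv, opL_conjTranspose]
      rw [h3]
      have h4 : ‖V‖ ≤ 1 := norm_le_of_iso hViso
      have h5 : ‖Vᴴ‖ ≤ 1 := by rw [norm_conjT]; exact h4
      calc ‖Vᴴ * opL (e k) (P j) * V‖ ≤ ‖Vᴴ * opL (e k) (P j)‖ * ‖V‖ := norm_mul_le _ _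
        _ ≤ (‖Vᴴ‖ * ‖opL (e k) (P j)‖) * ‖V‖ :=
            mul_le_mul_of_nonneg_right (norm_mul_le _ _) (norm_nonneg _)
        _ ≤ (1 * 1) * 1 := by
            have := hP j
            gcongr
        _ = 1 := by norm_num
    · have h4 : ‖C‖ ≤ 1 := norm_le_of_iso hCiso
      have h5 : ‖Cᴴ‖ ≤ 1 := by rw [norm_conjT]; exact h4
      calc ‖Cᴴ * opR (e k) (Q j) * C‖ ≤ ‖Cᴴ * opR (e k) (Q j)‖ * ‖C‖ := norm_mul_le _ _
        _ ≤ (‖Cᴴ‖ * ‖opR (e k) (Q j)‖) * ‖C‖ :=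
            mul_le_mul_of_nonneg_right (norm_mul_le _ _) (norm_nonneg _)
        _ ≤ (1 * 1) * 1 := by
            have := hQ j
            gcongr
        _ = 1 := by norm_num
    · intro Z
      have h1 := hCc Z
      have h2 := hCc' Z
      have h3 : opR (e k) (Q j) * opL (e k) Z = opL (e k) Z * opR (e k) (Q j) :=
        (opL_opR_comm _ _ _).symm
      calc Cᴴ * opR (e k) (Q j) * C * opL (e k) Z
          = Cᴴ * opR (e k) (Q j) * (opL (e k) Z * C) := by rw [h1]; simp only [Matrix.mul_assoc]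
        _ = Cᴴ * (opR (e k) (Q j) * opL (e k) Z) * C := by simp only [Matrix.mul_assoc]
        _ = Cᴴ * opL (e k) Z * opR (e k) (Q j) * C := by rw [h3]; simp only [Matrix.mul_assoc]
        _ = opL (e k) Z * (Cᴴ * opR (e k) (Q j) * C) := by
            rw [h2]; simp only [Matrix.mul_assoc]
  calc ∑ j, _ ≤ ∑ j, ‖c j‖ * Real.sqrt K := Finset.sum_le_sum fun j _ => hbd j
    _ = (∑ j, ‖c j‖) * Real.sqrt K := by rw [Finset.sum_mul]
    _ ≤ w * Real.sqrt K := mul_le_mul_of_nonneg_right hc (Real.sqrt_nonneg _)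

/-- bound on the imaginary subspace -/
theorem FT_imag (hψ : nsq ψ = 1) (n : ℕ) (X : Matrix N N ℂ) (z : ℕ → ℂ)
    (hz : ∀ j, (z j).re = 0) : ‖FT e ψ g n X z‖ ≤ ‖X‖ := by
  have hre : ∀ j, (-(z j)).re = 0 := fun j => by rw [Complex.neg_re, hz j, neg_zero]
  have h1 : prL (fun k => sg e ψ g k (star (z k))) n = prL (fun k => sg e ψ g k (-(z k))) n :=
    prL_congr fun j _ => by rw [star_of_re_zero (hz j)]
  rw [FT_eq, h1]
  have h2 : (prL (fun k => sg e ψ g k (-(z k))) n)ᴴ * prL (fun k => sg e ψ g k (-(z k))) n = 1 :=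
    prL_iso fun j _ => sg_iso e ψ g _ (hre j)
  set W := prL (fun k => sg e ψ g k (-(z k))) n with hW
  have h3 : nrm (W *ᵥ ψ) ≤ 1 := by
    refine (nrm_mulVec_le W ψ).trans ?_
    have h4 : nrm ψ = 1 := by rw [nrm, hψ, Real.sqrt_one]
    rw [h4, mul_one]
    exact norm_le_of_iso h2
  refine (nrm_ip_le _ _).trans ?_
  have h4 := nrm_mulVec_le X (W *ᵥ ψ)
  have h5 := norm_nonneg X
  have h6 := nrm_nonneg (W *ᵥ ψ)
  calc nrm (W *ᵥ ψ) * nrm (X *ᵥ (W *ᵥ ψ)) ≤ 1 * (‖X‖ * 1) := by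
        refine mul_le_mul h3 (h4.trans (mul_le_mul_of_nonneg_left h3 h5)) (nrm_nonneg _) zero_le_one
    _ = ‖X‖ := by ring

/-- `FT` is real for Hermitian `X` on the imaginary subspace -/
theorem FT_real {X : Matrix N N ℂ} (hX : X.IsHermitian) (n : ℕ) (z : ℕ → ℂ)
    (hz : ∀ j, (z j).re = 0) : (FT e ψ g n X z).im = 0 := by
  have h1 : prL (fun k => sg e ψ g k (star (z k))) n = prL (fun k => sg e ψ g k (-(z k))) n :=
    prL_congr fun j _ => by rw [star_of_re_zero (hz j)]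
  rw [FT_eq, h1]
  set u := prL (fun k => sg e ψ g k (-(z k))) n *ᵥ ψ with hu
  have h2 : star (star u ⬝ᵥ (X *ᵥ u)) = star u ⬝ᵥ (X *ᵥ u) := by
    rw [← star_dotProduct, ip_mulVec, hX]
  exact Complex.conj_eq_iff_im.1 h2

/-- `FT` only depends on the first `n` variables -/
theorem FT_congr (n : ℕ) (X : Matrix N N ℂ) {z z' : ℕ → ℂ} (h : ∀ k < n, z k = z' k) :
    FT e ψ g n X z = FT e ψ g n X z' := by
  rw [FT, FT, prR_congr (Y := fun k => sg e ψ g k (z k)) (Y' := fun k => sg e ψ g k (z' k))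
    (fun j hj => by simp only [h j hj]), prL_congr (Y := fun k => sg e ψ g k (-(z k)))
    (Y' := fun k => sg e ψ g k (-(z' k))) (fun j hj => by simp only [h j hj])]

theorem cOp_apply {α β : Type*} [Fintype α] [Fintype β] [DecidableEq α] [DecidableEq β]
    (x : α × β → ℂ) (f : α → ℂ) (i j : α) :
    cOp x f i j = ∑ a, eigU x i a * f a * star (eigU x j a) := by
  rw [cOp, Matrix.mul_apply]
  refine Finset.sum_congr rfl fun a _ => ?_
  rw [Matrix.mul_diagonal, conjTranspose_apply]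

theorem nice_sg {n k : ℕ} (hk : k < n) (i j : N) :
    Nice n (fun z => sg e ψ g k (z k) i j) := by
  simp only [sg, opL_apply, cOp_apply]
  refine (Nice.sum _ fun a _ => ?_).mul (Nice.const n _)
  exact ((Nice.const n _).mul (Nice.exp hk _)).mul (Nice.const n _)

theorem nice_sg_neg {n k : ℕ} (hk : k < n) (i j : N) :
    Nice n (fun z => sg e ψ g k (-(z k)) i j) := by
  simp only [sg, opL_apply, cOp_apply]
  refine (Nice.sum _ fun a _ => ?_).mul (Nice.const n _)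
  exact ((Nice.const n _).mul (Nice.exp_neg hk _)).mul (Nice.const n _)

theorem nice_prR {n m : ℕ} (hm : m ≤ n) (i j : N) :
    Nice n (fun z => prR (fun k => sg e ψ g k (z k)) m i j) := by
  induction m generalizing i j with
  | zero =>
    simp only [prR]
    exact Nice.const n _
  | succ m ih =>
    simp only [prR, Matrix.mul_apply]
    exact Nice.sum _ fun a _ => (ih (by omega) i a).mul (nice_sg e ψ g (by omega) a j)

theorem nice_prL {n m : ℕ} (hm : m ≤ n) (i j : N) :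
    Nice n (fun z => prL (fun k => sg e ψ g k (-(z k))) m i j) := by
  induction m generalizing i j with
  | zero =>
    simp only [prL]
    exact Nice.const n _
  | succ m ih =>
    simp only [prL, Matrix.mul_apply]
    exact Nice.sum _ fun a _ => (nice_sg_neg e ψ g (by omega) i a).mul (ih (by omega) a j)

theorem nice_FT (n : ℕ) (X : Matrix N N ℂ) : Nice n (FT e ψ g n X) := by
  have h1 : FT e ψ g n X = fun z => ∑ i, star (ψ i) * ∑ j,
      (∑ b, (∑ a, prR (fun k => sg e ψ g k (z k)) n i a * X a b) *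
        prL (fun k => sg e ψ g k (-(z k))) n b j) * ψ j := by
    funext z
    simp only [FT, dotProduct, mulVec, Pi.star_apply, Matrix.mul_apply]
  rw [h1]
  refine Nice.sum _ fun i _ => (Nice.const n _).mul (Nice.sum _ fun j _ => ?_)
  refine (Nice.sum _ fun b _ => ?_).mul (Nice.const n _)
  exact (Nice.sum _ fun a _ => (nice_prR e ψ g le_rfl i a).mul (Nice.const n _)).mul
    (nice_prL e ψ g le_rfl b j)

/-- **The tube bound.** -/
theorem FT_tube (hcomm : ∀ j k, j ≤ k → ∀ (Y : Matrix (α k) (α k) ℂ) (S : Matrix (β j) (β j) ℂ),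
      opL (e k) Y * opR (e j) S = opR (e j) S * opL (e k) Y) (hψ : nsq ψ = 1) (n : ℕ) {K w : ℝ}
    (hK : 1 ≤ K) (X : Matrix N N ℂ) (hX0 : ‖X‖ ≤ w)
    (hg1 : ∀ k < n, ∀ i, eigp (ψ ∘ (e k).symm) i ≤ Real.exp (g k i))
    (hg2 : ∀ k < n, ∑ i, Real.exp (g k i) ≤ K)
    (hX : ∀ k < n, SplitLe (e k) X w) {z : ℕ → ℂ} (hz : ∑ k ∈ range n, |(z k).re| ≤ 1 / 2) :
    ‖FT e ψ g n X z‖ ≤ w * Real.sqrt K := by
  have hK1 : 1 ≤ Real.sqrt K := by
    rw [Real.one_le_sqrt]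
    exact hK
  have hw : 0 ≤ w := (norm_nonneg X).trans hX0
  refine (nice_FT e ψ g n X).tube (r := 1 / 2) (by norm_num)
    (fun z z' h => FT_congr e ψ g n X h) ?_ ?_ hz
  · intro z hz
    refine (FT_imag e ψ g hψ n X z hz).trans (hX0.trans ?_)
    nlinarith
  · intro z k hk hzk hz
    exact FT_vertex e ψ g hcomm hψ n X k hk (hg1 k hk) (hg2 k hk) (hX k hk) z hzk hz

end family

end Vale.Agent.P356.GA
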