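import Vale.Agent.P356.GA.Dual860
import Vale.Agent.P356.GA.PointU228
import Vale.Agent.P356.GA.Tube107
import Vale.Agent.P356.GA.Taylor107

/-!
Block KAPPA2, part a: finite difference on a strip with exponential growth; expansion of a local
operator over the matrix units of a part of its support; the edge bound for one line.
-/

set_option linter.all false

namespace Vale.Agent.P356.GA

open Matrix Finset Vale.Agent.P356 Vale.Agent.P356.SV Vale.Agent.P356.Path Vale.Agent.P356.PH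
open scoped BigOperators ComplexOrder Kronecker Matrix.Norms.L2Operator

/-- second coefficient from two values on the imaginary axis -/
theorem k2_scalar {g : ℂ → ℂ} (hg : Differentiable ℂ g) {L : ℝ} (hL : 0 ≤ L)
    (hb : ∀ z : ℂ, |z.re| ≤ 1 / 2 → ‖g z‖ ≤ Real.exp (2 * L * |z.re|)) {y : ℝ} (hy : 0 < y)
    (hy1 : y * (8 * (1 + L)) ≤ 1) :
    -(iteratedDeriv 2 g 0).re / 2 ≤
      ((g (((2 * y : ℝ) : ℂ) * Complex.I)).re + (g (((-(2 * y) : ℝ) : ℂ) * Complex.I)).re
        - 2 * (g 0).re) / (8 * y ^ 2) + 128 * Real.exp 1 * (1 + L) ^ 4 * y ^ 2 := by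
  set r : ℝ := 1 / (2 * (1 + L)) with hr
  have hr0 : 0 < r := by rw [hr]; positivity
  have hr1 : r ≤ 1 / 2 := by
    rw [hr, div_le_div_iff₀ (by positivity) (by norm_num)]
    nlinarith
  have hM : ∀ z : ℂ, ‖z‖ ≤ r → ‖g z‖ ≤ Real.exp 1 := fun z hz => by
    have h1 : |z.re| ≤ r := (Complex.abs_re_le_norm z).trans hz
    refine (hb z (h1.trans hr1)).trans (Real.exp_le_exp.2 ?_)
    have h2 : 2 * L * |z.re| ≤ 2 * L * r := mul_le_mul_of_nonneg_left h1 (by positivity)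
    have h3 : 2 * L * r ≤ 1 := by
      rw [hr, mul_one_div, div_le_one (by positivity)]
      linarith
    linarith
  set ζ : ℂ := ((2 * y : ℝ) : ℂ) * Complex.I with hζ
  have hζn : ‖ζ‖ = 2 * y := by
    rw [hζ, norm_mul, Complex.norm_I, mul_one, Complex.norm_real,
      Real.norm_of_nonneg (by positivity)]
  have hneg : ((-(2 * y) : ℝ) : ℂ) * Complex.I = -ζ := by rw [hζ]; push_cast; ring
  have hζr : 2 * y ≤ r / 2 := by
    rw [hr, div_div, le_div_iff₀ (by positivity)]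
    linarith
  have h1 := taylor_rem hg hr0 hM 4 (ζ := ζ) (by rw [hζn]; exact hζr)
  have h2 := taylor_rem hg hr0 hM 4 (ζ := -ζ) (by rw [norm_neg, hζn]; exact hζr)
  rw [hζn] at h1
  rw [norm_neg, hζn] at h2
  simp only [Finset.sum_range_succ, Finset.sum_range_zero, zero_add, iteratedDeriv_zero,
    iteratedDeriv_one] at h1 h2
  rw [hneg]
  set a0 := (((0 : ℕ).factorial : ℂ))⁻¹ * g 0 with ha0
  set a1 := (((1 : ℕ).factorial : ℂ))⁻¹ * deriv g 0 with ha1
  set a2 := (((2 : ℕ).factorial : ℂ))⁻¹ * iteratedDeriv 2 g 0 with ha2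
  set a3 := (((3 : ℕ).factorial : ℂ))⁻¹ * iteratedDeriv 3 g 0 with ha3
  have ha0' : g 0 = a0 := by rw [ha0]; simp
  have ha2' : iteratedDeriv 2 g 0 = 2 * a2 := by
    rw [ha2]
    simp only [Nat.factorial, Nat.cast_mul, Nat.cast_ofNat]
    field_simp
    simp
  have hζ2 : ζ ^ 2 = ((-(4 * y ^ 2) : ℝ) : ℂ) := by
    rw [hζ, mul_pow, Complex.I_sq]
    push_cast
    ring
  have key : g ζ + g (-ζ) - 2 * g 0 - iteratedDeriv 2 g 0 * ζ ^ 2 =
      (g ζ - (a0 * ζ ^ 0 + a1 * ζ ^ 1 + a2 * ζ ^ 2 + a3 * ζ ^ 3)) +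
        (g (-ζ) - (a0 * (-ζ) ^ 0 + a1 * (-ζ) ^ 1 + a2 * (-ζ) ^ 2 + a3 * (-ζ) ^ 3)) := by
    rw [ha2', ha0']
    ring
  have h3 : ‖g ζ + g (-ζ) - 2 * g 0 - iteratedDeriv 2 g 0 * ζ ^ 2‖ ≤
      2 * Real.exp 1 * (2 * y / r) ^ 4 + 2 * Real.exp 1 * (2 * y / r) ^ 4 := by
    rw [key]
    exact (norm_add_le _ _).trans (add_le_add h1 h2)
  have h4 : 2 * Real.exp 1 * (2 * y / r) ^ 4 + 2 * Real.exp 1 * (2 * y / r) ^ 4 =
      (128 * Real.exp 1 * (1 + L) ^ 4 * y ^ 2) * (8 * y ^ 2) := by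
    rw [hr]
    field_simp
    ring
  rw [h4] at h3
  have h5 := (Complex.abs_re_le_norm _).trans h3
  have h6 : (g ζ + g (-ζ) - 2 * g 0 - iteratedDeriv 2 g 0 * ζ ^ 2).re =
      (g ζ).re + (g (-ζ)).re - 2 * (g 0).re + (iteratedDeriv 2 g 0).re * (4 * y ^ 2) := by
    rw [hζ2]
    simp only [Complex.sub_re, Complex.add_re, Complex.re_mul_ofReal]
    have : (2 * g 0).re = 2 * (g 0).re := by simp
    rw [this]
    ring
  rw [h6] at h5
  have h7 := (abs_le.1 h5).1
  have h8 : (0 : ℝ) < 8 * y ^ 2 := by positivity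
  have h9 : -(iteratedDeriv 2 g 0).re / 2 * (8 * y ^ 2) ≤
      ((g ζ).re + (g (-ζ)).re - 2 * (g 0).re) +
        (128 * Real.exp 1 * (1 + L) ^ 4 * y ^ 2) * (8 * y ^ 2) := by
    linarith
  have h10 : ((g ζ).re + (g (-ζ)).re - 2 * (g 0).re) / (8 * y ^ 2) +
      128 * Real.exp 1 * (1 + L) ^ 4 * y ^ 2 =
      (((g ζ).re + (g (-ζ)).re - 2 * (g 0).re) +
        (128 * Real.exp 1 * (1 + L) ^ 4 * y ^ 2) * (8 * y ^ 2)) / (8 * y ^ 2) := by
    rw [add_div, mul_div_assoc (128 * Real.exp 1 * (1 + L) ^ 4 * y ^ 2), div_self h8.ne', mul_one]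
  rw [h10, le_div_iff₀ h8]
  exact h9

section units
variable {V : Type*} [Fintype V] [DecidableEq V] {q : ℕ}

theorem k2_single_mul (a : Finset V) (u c u' c' : Conf {x // x ∈ a} q) :
    pu_E a u c * pu_E a u' c' = if c = u' then pu_E a u c' else 0 := by
  rw [pu_E, pu_E, ← opOn_mul]
  by_cases h : c = u'
  · subst h
    rw [Matrix.single_mul_single_same, mul_one, if_pos rfl]
    rfl
  · rw [Matrix.single_mul_single_of_ne (h := h), if_neg h, opOn, opL_zero]

/-- the coefficient of a matrix unit -/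
noncomputable def k2_coef (a : Finset V) (P : Op V q) (u c : Conf {x // x ∈ a} q) : Op V q :=
  ∑ v : Conf {x // x ∈ a} q, pu_E a v u * P * pu_E a c v

theorem k2_expand (a : Finset V) (P : Op V q) :
    P = ∑ u : Conf {x // x ∈ a} q, ∑ c : Conf {x // x ∈ a} q, k2_coef a P u c * pu_E a u c := by
  have h1 : ∀ u c : Conf {x // x ∈ a} q, k2_coef a P u c * pu_E a u c =
      pu_E a u u * P * pu_E a c c := by
    intro u c
    rw [k2_coef, Finset.sum_mul, Finset.sum_eq_single u]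
    · rw [Matrix.mul_assoc, k2_single_mul, if_pos rfl]
    · intro v _ hv
      rw [Matrix.mul_assoc, k2_single_mul, if_neg hv, Matrix.mul_zero]
    · intro h
      exact absurd (Finset.mem_univ u) h
  simp only [h1]
  have h2 : ∀ u : Conf {x // x ∈ a} q, ∑ c : Conf {x // x ∈ a} q, pu_E a u u * P * pu_E a c c =
      pu_E a u u * P := by
    intro u
    rw [← Finset.mul_sum, pu_sum_one, Matrix.mul_one]
  simp only [h2]
  rw [← Finset.sum_mul, pu_sum_one, Matrix.one_mul]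

theorem k2_coef_acts {M a : Finset V} (hd : Disjoint M a) {P : Op V q} (hP : ActsOn (M ∪ a) P)
    (u c : Conf {x // x ∈ a} q) : ActsOn M (k2_coef a P u c) := by
  have hspan := act_span (Finset.subset_union_left (s₁ := M) (s₂ := a)) hP
  have hsd : (M ∪ a) \ M = a := Finset.union_sdiff_cancel_left hd
  refine Submodule.span_induction (p := fun P _ => ActsOn M (k2_coef a P u c)) ?_ ?_ ?_ ?_ hspan
  · rintro _ ⟨B, C, hB, hC, rfl⟩
    rw [hsd] at hC
    obtain ⟨k, rfl⟩ := ph_acts_iff.1 hC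
    have e1 : k2_coef a (B * opOn a k) u c = k u c • B := by
      have e2 : ∀ v : Conf {x // x ∈ a} q, pu_E a v u * (B * opOn a k) * pu_E a c v =
          B * (k u c • pu_E a v v) := by
        intro v
        have hc : pu_E a v u * B = B * pu_E a v u :=
          (ph_acts_comm hd hB (pu_E_acts a v u)).symm
        rw [← Matrix.mul_assoc, hc, Matrix.mul_assoc, Matrix.mul_assoc]
        congr 1
        rw [pu_E, pu_E, pu_E, ← Matrix.mul_assoc, ← opOn_mul, ← opOn_mul,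
          Matrix.single_mul_mul_single, one_mul, mul_one, opOn, opOn, ← opL_smul,
          Matrix.smul_single, smul_eq_mul, mul_one]
      rw [k2_coef]
      simp only [e2]
      rw [← Finset.mul_sum, ← Finset.smul_sum, pu_sum_one, Matrix.mul_smul, Matrix.mul_one]
    rw [e1]
    exact ph_acts_smul _ hB
  · have e : k2_coef a (0 : Op V q) u c = 0 := by
      rw [k2_coef]
      simp
    rw [e]
    exact ph_acts_zero M
  · intro x y _ _ hx hy
    have e : k2_coef a (x + y) u c = k2_coef a x u c + k2_coef a y u c := by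
      rw [k2_coef, k2_coef, k2_coef, ← Finset.sum_add_distrib]
      refine Finset.sum_congr rfl fun v _ => ?_
      rw [Matrix.mul_add, Matrix.add_mul]
    rw [e]
    exact ph_acts_add hx hy
  · intro r x _ hx
    have e : k2_coef a (r • x) u c = r • k2_coef a x u c := by
      rw [k2_coef, k2_coef, Finset.smul_sum]
      refine Finset.sum_congr rfl fun v _ => ?_
      rw [Matrix.mul_smul, Matrix.smul_mul]
    rw [e]
    exact ph_acts_smul _ hx

theorem k2_E_conj (a : Finset V) (u c : Conf {x // x ∈ a} q) : (pu_E a u c)ᴴ = pu_E a c u := by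
  rw [pu_E, opOn_conjTranspose, Matrix.conjTranspose_single, star_one]
  rfl

theorem k2_ip_zero (a : Finset V) (φ : Conf V q → ℂ) : ∑ v : Conf {x // x ∈ a} q,
    nsq (pu_E a v v *ᵥ φ) = nsq φ := by
  have h : ((∑ v : Conf {x // x ∈ a} q, nsq (pu_E a v v *ᵥ φ) : ℝ) : ℂ) = ((nsq φ : ℝ) : ℂ) := by
    push_cast
    have h1 : ∀ v : Conf {x // x ∈ a} q, ((nsq (pu_E a v v *ᵥ φ) : ℝ) : ℂ) =
        star φ ⬝ᵥ (pu_E a v v *ᵥ φ) := by
      intro v
      rw [nsq_mulVec_eq, k2_E_conj, k2_single_mul, if_pos rfl]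
    simp only [h1]
    rw [← dotProduct_sum, ← Matrix.sum_mulVec, pu_sum_one, Matrix.one_mulVec,
      NA.na_spow_nsq_star]
  exact_mod_cast h

theorem k2_E_nsq (a : Finset V) (u c : Conf {x // x ∈ a} q) (φ : Conf V q → ℂ) :
    nsq (pu_E a u c *ᵥ φ) = nsq (pu_E a c c *ᵥ φ) := by
  have h : ((nsq (pu_E a u c *ᵥ φ) : ℝ) : ℂ) = ((nsq (pu_E a c c *ᵥ φ) : ℝ) : ℂ) := by
    rw [nsq_mulVec_eq, nsq_mulVec_eq, k2_E_conj, k2_E_conj, k2_single_mul, k2_single_mul,
      if_pos rfl, if_pos rfl]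
  exact_mod_cast h

theorem k2_coef_norm (a : Finset V) (P : Op V q) (u c : Conf {x // x ∈ a} q) :
    ‖k2_coef a P u c‖ ≤ ‖P‖ := by
  refine ph_norm_le (norm_nonneg _) fun φ => ?_
  have h1 := k2_ip_zero a (k2_coef a P u c *ᵥ φ)
  rw [← h1]
  have h2 : ∀ v : Conf {x // x ∈ a} q, pu_E a v v *ᵥ (k2_coef a P u c *ᵥ φ) =
      pu_E a v u *ᵥ (P *ᵥ (pu_E a c v *ᵥ φ)) := by
    intro v
    rw [k2_coef, Matrix.mulVec_mulVec, Finset.mul_sum, Finset.sum_eq_single v]
    · rw [Matrix.mul_assoc, ← Matrix.mul_assoc, k2_single_mul, if_pos rfl, Matrix.mulVec_mulVec,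
        Matrix.mulVec_mulVec, ← Matrix.mul_assoc]
    · intro v' _ hv
      rw [Matrix.mul_assoc, ← Matrix.mul_assoc, k2_single_mul, if_neg (Ne.symm hv),
        Matrix.zero_mul]
    · intro h
      exact absurd (Finset.mem_univ v) h
  have hE : ∀ (x y : Conf {x // x ∈ a} q) (χ : Conf V q → ℂ), nsq (pu_E a x y *ᵥ χ) ≤ nsq χ := by
    intro x y χ
    rw [k2_E_nsq]
    have := k2_ip_zero a χ
    rw [← this]
    exact Finset.single_le_sum (f := fun v => nsq (pu_E a v v *ᵥ χ))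
      (fun v _ => Finset.sum_nonneg fun i _ => by positivity) (Finset.mem_univ y)
  calc ∑ v : Conf {x // x ∈ a} q, nsq (pu_E a v v *ᵥ (k2_coef a P u c *ᵥ φ))
      = ∑ v : Conf {x // x ∈ a} q, nsq (pu_E a v u *ᵥ (P *ᵥ (pu_E a c v *ᵥ φ))) := by
        simp only [h2]
    _ ≤ ∑ v : Conf {x // x ∈ a} q, ‖P‖ ^ 2 * nsq (pu_E a v v *ᵥ φ) := by
        refine Finset.sum_le_sum fun v _ => ?_
        refine (hE _ _ _).trans ((ph_nsq_mulVec_le P _).trans ?_)
        rw [k2_E_nsq a c v]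
    _ = _ := by rw [← Finset.mul_sum, k2_ip_zero]

theorem k2_E_norm (a : Finset V) (u c : Conf {x // x ∈ a} q) : ‖(pu_E a u c : Op V q)‖ ≤ 1 := by
  refine ph_norm_le zero_le_one fun φ => ?_
  rw [k2_E_nsq, one_pow, one_mul]
  have := k2_ip_zero a φ
  rw [← this]
  exact Finset.single_le_sum (f := fun v => nsq (pu_E a v v *ᵥ φ))
    (fun v _ => Finset.sum_nonneg fun i _ => by positivity) (Finset.mem_univ c)

end units

end Vale.Agent.P356.GA
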