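import Vale.Agent.P356.GA.Avg103

/-!
# P356, GA: block KAPPA3

`S` is an entropy function of a pure state (`SA.EntLike`), `k b` is the expectation of the
logarithm of a noisy reference state on the region `b`.  The only input is the monotonicity of the
relative entropy `S (a ∪ N) - S N ≤ k (a ∪ N) - k N`.  The number `kap S k R b a` is the error of the
mixed closeness lemma for the region `R` and the window `b ⊆ R` with the core `a ⊆ b`; it is at most
`pot k b b' a`, the expectation of one local operator, and `pot` in the state itself is at most the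
Markov error `cutErr` of the window, plus the noise.
-/

set_option linter.all false

namespace Vale.Agent.P356.GA.Kap

open Finset Vale.Agent.P356 Vale.Agent.P356.SA Vale.Agent.P356.GA Vale.Agent.P356.GA.Cut
open scoped BigOperators

section abs

variable {V : Type*} [Fintype V] [DecidableEq V]

/-- the error of the mixed closeness lemma -/
def kap (S k : Finset V → ℝ) (R b a : Finset V) : ℝ := (k b - k (b \ a)) - (S R - S (R \ a))

/-- the local quantity which dominates `kap` -/
def pot (k : Finset V → ℝ) (b b' a : Finset V) : ℝ := (k b - k (b \ a)) + (k (a ∪ b') - k b')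

variable {S k : Finset V → ℝ}

/-- conditioning decreases the entropy: `S(a | N ∪ F) ≤ S(a | N)` -/
theorem cond_anti (hS : EntLike S) {a N M : Finset V} (h : N ⊆ M) (hd : Disjoint a M) :
    S (a ∪ M) - S M ≤ S (a ∪ N) - S N := by
  have h1 := hS.ssa a N (M \ N) (disjoint_of_subset_right h hd)
    (disjoint_of_subset_right sdiff_subset hd) disjoint_sdiff
  have e1 : a ∪ N ∪ (M \ N) = a ∪ M := by
    rw [Finset.union_assoc, union_sdiff_of_subset h]
  rw [e1, union_sdiff_of_subset h] at h1
  linarith

/-- purity: `- S(a | R \ a) = S(a | R^c)` -/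
theorem cond_dual (hS : EntLike S) {a R : Finset V} (h : a ⊆ R) :
    -(S R - S (R \ a)) = S (a ∪ Rᶜ) - S Rᶜ := by
  have e : a ∪ Rᶜ = (R \ a)ᶜ := by
    ext x
    simp only [mem_union, mem_compl, mem_sdiff, not_and_or, not_not]
    tauto
  rw [e, hS.compl, hS.compl]
  ring

theorem kap_nonneg (hS : EntLike S)
    (hmono : ∀ a N, Disjoint a N → S (a ∪ N) - S N ≤ k (a ∪ N) - k N)
    {R b a : Finset V} (hb : b ⊆ R) (ha : a ⊆ b) : 0 ≤ kap S k R b a := by
  have h1 := hmono a (b \ a) disjoint_sdiff
  have h2 := cond_anti hS (a := a) (N := b \ a) (M := R \ a) (sdiff_subset_sdiff hb subset_rfl)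
    disjoint_sdiff
  rw [union_sdiff_of_subset ha] at h1 h2
  rw [union_sdiff_of_subset (ha.trans hb)] at h2
  unfold kap
  linarith

/-- the error is at most the expectation of one local operator -/
theorem kap_le (hS : EntLike S)
    (hmono : ∀ a N, Disjoint a N → S (a ∪ N) - S N ≤ k (a ∪ N) - k N)
    {R b b' a : Finset V} (hb : b ⊆ R) (hb' : Disjoint b' R) (ha : a ⊆ b) :
    kap S k R b a ≤ pot k b b' a := by
  have haR : a ⊆ R := ha.trans hb
  have h1 := cond_dual hS haR
  have hsub : b' ⊆ Rᶜ := fun x hx => mem_compl.2 fun h => Finset.disjoint_left.1 hb' hx h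
  have h2 := cond_anti hS (a := a) (N := b') (M := Rᶜ) hsub
    (disjoint_of_subset_left haR disjoint_compl_right)
  have h3 := hmono a b' (disjoint_of_subset_left haR hb'.symm)
  unfold kap pot
  linarith

/-- the local quantity is nonnegative -/
theorem pot_nonneg (hS : EntLike S)
    (hmono : ∀ a N, Disjoint a N → S (a ∪ N) - S N ≤ k (a ∪ N) - k N)
    {b b' a : Finset V} (hb' : Disjoint b' b) (ha : a ⊆ b) : 0 ≤ pot k b b' a :=
  (kap_nonneg hS hmono subset_rfl ha).trans (kap_le hS hmono subset_rfl hb' ha)

/-- in the state itself the local quantity is the Markov error, up to the noise -/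
theorem pot_le (hlow : ∀ b, S b ≤ k b) {η : Finset V → ℝ} (hup : ∀ b, k b ≤ S b + η b)
    {b b' a : Finset V} :
    pot k b b' a ≤ pot S b b' a + (η b + η (a ∪ b')) := by
  have h1 := hlow (b \ a)
  have h2 := hlow b'
  have h3 := hup b
  have h4 := hup (a ∪ b')
  unfold pot
  linarith

/-- smaller windows give a larger Markov error -/
theorem pot_anti (hS : EntLike S) {b b' a C C' : Finset V} (ha : a ⊆ b) (hab' : Disjoint a b')
    (hC : C ⊆ b \ a) (hC' : C' ⊆ b') :
    pot S b b' a ≤ (S (a ∪ C) - S C) + (S (a ∪ C') - S C') := by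
  have h1 := cond_anti hS (a := a) (N := C) (M := b \ a) hC disjoint_sdiff
  have h2 := cond_anti hS (a := a) (N := C') (M := b') hC' hab'
  rw [union_sdiff_of_subset ha] at h1
  unfold pot
  linarith

end abs

section chain

variable {I : Type*} [Fintype I] [DecidableEq I] {S : Finset I → ℝ}

/-- the conditional entropies of the part `A` of a core are dominated by the sum over the patterns
of the core -/
theorem chain_dpat (hS : EntLike S) {out W c A N N' : Finset I} {Nb : I → Finset I} (hAc : A ⊆ c)
    (hN : out ∩ (W \ c) ⊆ N) (hN' : (c \ A) ∪ ((W \ c) \ out) ⊆ N')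
    (hAN : Disjoint A N) (hAN' : Disjoint A N') :
    (S (A ∪ N) - S N) + (S (A ∪ N') - S N') ≤
      ∑ i ∈ A, ∑ B ∈ (c.erase i).powerset, dpat S Nb out W c i B := by
  classical
  -- number the elements of `A`
  let e : I → ℕ := fun i => (Fintype.equivFin I i : ℕ)
  have he : Function.Injective e := fun i j h =>
    (Fintype.equivFin I).injective (Fin.ext h)
  have h1 := chain_below he S A N
  have h2 := chain_above he S A N'
  rw [h1, h2, ← Finset.sum_add_distrib]
  refine Finset.sum_le_sum fun i hi => ?_
  have hic : i ∈ c := hAc hi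
  have hB : below e A i ∈ (c.erase i).powerset := by
    rw [mem_powerset]
    intro j hj
    unfold below at hj
    rw [mem_filter] at hj
    rw [mem_erase]
    refine ⟨?_, hAc hj.1⟩
    rintro rfl
    exact lt_irrefl _ hj.2
  refine le_trans ?_ (Finset.single_le_sum
    (f := fun B => dpat S Nb out W c i B)
    (fun B hB => dpat_nonneg hS hic (mem_powerset.1 hB)) hB)
  unfold dpat
  have hiN : i ∉ N := fun h => Finset.disjoint_left.1 hAN hi h
  have hiN' : i ∉ N' := fun h => Finset.disjoint_left.1 hAN' hi h
  refine add_le_add ?_ ?_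
  · refine ce_anti hS ?_ ?_
    · intro j hj
      rw [mem_inter, mem_union] at hj
      rw [mem_union]
      rcases hj.1 with h | h
      · exact Or.inl h
      · exact Or.inr (hN h)
    · rw [mem_union]
      rintro (h | h)
      · exact notMem_below e A i h
      · exact hiN h
  · refine ce_anti hS ?_ ?_
    · intro j hj
      rw [mem_inter, mem_union] at hj
      rw [mem_union]
      rcases hj.1 with h | h
      · rw [mem_sdiff, mem_erase] at h
        by_cases hjA : j ∈ A
        · left
          unfold above
          rw [mem_filter]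
          refine ⟨hjA, ?_⟩
          have hn : ¬ e j < e i := fun hlt => h.2 (by
            unfold below
            rw [mem_filter]
            exact ⟨hjA, hlt⟩)
          exact lt_of_le_of_ne (not_lt.1 hn) fun h' => h.1.1 (he h'.symm)
        · right
          refine hN' ?_
          rw [mem_union, mem_sdiff]
          exact Or.inl ⟨h.1.2, hjA⟩
      · right
        refine hN' ?_
        rw [mem_union]
        exact Or.inr h
    · rw [mem_union]
      rintro (h | h)
      · exact notMem_above e A i h
      · exact hiN' h

/-- both sides of the cut: the Markov errors of the two parts of the core are at most `cutErr` -/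
theorem cut_le (hS : EntLike S) {out W c b b' : Finset I} {Nb : I → Finset I} (hc : c ⊆ W)
    (hb : W ∩ out ⊆ b) (hb' : W \ out ⊆ b') (hd : Disjoint b b') :
    pot S b b' (c ∩ out) + pot S b' b (c \ out) ≤ cutErr S Nb out W c := by
  classical
  have hcW : c ∩ out ⊆ b := fun x hx => hb (by
    rw [mem_inter] at hx ⊢
    exact ⟨hc hx.1, hx.2⟩)
  have hcW' : c \ out ⊆ b' := fun x hx => hb' (by
    rw [mem_sdiff] at hx ⊢
    exact ⟨hc hx.1, hx.2⟩)
  -- the part above
  have h1 : pot S b b' (c ∩ out) ≤
      ∑ i ∈ c ∩ out, ∑ B ∈ (c.erase i).powerset, dpat S Nb out W c i B := by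
    have h := chain_dpat hS (out := out) (W := W) (c := c) (A := c ∩ out) (N := b \ (c ∩ out))
      (N' := b') (Nb := Nb) inter_subset_left ?_ ?_ disjoint_sdiff
      (disjoint_of_subset_left hcW hd)
    · rw [union_sdiff_of_subset hcW] at h
      exact h
    · intro x hx
      rw [mem_inter, mem_sdiff] at hx
      rw [mem_sdiff, mem_inter]
      exact ⟨hb (by rw [mem_inter]; exact ⟨hx.2.1, hx.1⟩), fun h => hx.2.2 h.1⟩
    · intro x hx
      rw [mem_union, mem_sdiff, mem_inter, mem_sdiff, mem_sdiff] at hx
      rcases hx with h | h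
      · exact hb' (by
          rw [mem_sdiff]
          exact ⟨hc h.1, fun ho => h.2 ⟨h.1, ho⟩⟩)
      · exact hb' (by
          rw [mem_sdiff]
          exact ⟨h.1.1, h.2⟩)
  -- the part below
  have h2 : pot S b' b (c \ out) ≤
      ∑ i ∈ c \ out, ∑ B ∈ (c.erase i).powerset, dpat S Nb out W c i B := by
    -- use the chain rule in the other order
    let e : I → ℕ := fun i => (Fintype.equivFin I i : ℕ)
    have he : Function.Injective e := fun i j h =>
      (Fintype.equivFin I).injective (Fin.ext h)
    have g1 := chain_above he S (c \ out) (b' \ (c \ out))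
    have g2 := chain_below he S (c \ out) b
    rw [union_sdiff_of_subset hcW'] at g1
    unfold pot
    rw [g1, g2, ← Finset.sum_add_distrib]
    refine Finset.sum_le_sum fun i hi => ?_
    have hic : i ∈ c := (mem_sdiff.1 hi).1
    have hio : i ∉ out := (mem_sdiff.1 hi).2
    have hB : (c ∩ out) ∪ below e (c \ out) i ∈ (c.erase i).powerset := by
      rw [mem_powerset]
      intro j hj
      rw [mem_union, mem_inter] at hj
      rw [mem_erase]
      rcases hj with h | h
      · exact ⟨fun h' => hio (h' ▸ h.2), h.1⟩
      · unfold below at h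
        rw [mem_filter, mem_sdiff] at h
        refine ⟨?_, h.1.1⟩
        rintro rfl
        exact lt_irrefl _ h.2
    refine le_trans ?_ (Finset.single_le_sum
      (f := fun B => dpat S Nb out W c i B)
      (fun B hB => dpat_nonneg hS hic (mem_powerset.1 hB)) hB)
    unfold dpat
    rw [add_comm]
    have hib : i ∉ b := fun h => Finset.disjoint_left.1 hd h (hcW' hi)
    refine add_le_add ?_ ?_
    · refine ce_anti hS ?_ ?_
      · intro j hj
        rw [mem_inter, mem_union, mem_union, mem_inter] at hj
        rw [mem_union]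
        rcases hj.1 with (h | h) | h
        · exact Or.inr (hb (by rw [mem_inter]; exact ⟨hc h.1, h.2⟩))
        · exact Or.inl h
        · rw [mem_inter, mem_sdiff] at h
          exact Or.inr (hb (by rw [mem_inter]; exact ⟨h.2.1, h.1⟩))
      · rw [mem_union]
        rintro (h | h)
        · exact notMem_below e _ i h
        · exact hib h
    · refine ce_anti hS ?_ ?_
      · intro j hj
        rw [mem_inter, mem_union] at hj
        rw [mem_union]
        rcases hj.1 with h | h
        · rw [mem_sdiff, mem_erase, mem_union, mem_inter] at h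
          have hjo : j ∉ out := fun ho => h.2 (Or.inl ⟨h.1.2, ho⟩)
          left
          unfold above
          rw [mem_filter, mem_sdiff]
          refine ⟨⟨h.1.2, hjo⟩, ?_⟩
          have hn : ¬ e j < e i := fun hlt => h.2 (Or.inr (by
            unfold below
            rw [mem_filter, mem_sdiff]
            exact ⟨⟨h.1.2, hjo⟩, hlt⟩))
          exact lt_of_le_of_ne (not_lt.1 hn) fun h' => h.1.1 (he h'.symm)
        · rw [mem_sdiff, mem_sdiff] at h
          right
          rw [mem_sdiff, mem_sdiff]
          exact ⟨hb' (by rw [mem_sdiff]; exact ⟨h.1.1, h.2⟩), fun h' => h.1.2 h'.1⟩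
      · rw [mem_union]
        rintro (h | h)
        · exact notMem_above e _ i h
        · exact (mem_sdiff.1 h).2 hi
  have h3 : cutErr S Nb out W c =
      ∑ i ∈ c ∩ out, ∑ B ∈ (c.erase i).powerset, dpat S Nb out W c i B +
      ∑ i ∈ c \ out, ∑ B ∈ (c.erase i).powerset, dpat S Nb out W c i B := by
    unfold cutErr
    rw [← Finset.sum_inter_add_sum_sdiff c out]
  rw [h3]
  exact add_le_add h1 h2

end chain

section blocks

variable {V I : Type*} [Fintype V] [DecidableEq V] [Fintype I] [DecidableEq I]

theorem blk_sdiff (β : V → I) (C D : Finset I) : blk β (C \ D) = blk β C \ blk β D := by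
  ext x
  simp [mem_blk]

theorem blk_mono (β : V → I) {C D : Finset I} (h : C ⊆ D) : blk β C ⊆ blk β D := fun x hx => by
  rw [mem_blk] at hx ⊢
  exact h hx

theorem blk_disj (β : V → I) {C D : Finset I} (h : Disjoint C D) :
    Disjoint (blk β C) (blk β D) := by
  rw [Finset.disjoint_left]
  intro x h1 h2
  rw [mem_blk] at h1 h2
  exact Finset.disjoint_left.1 h h1 h2

theorem pot_blk (k : Finset V → ℝ) (β : V → I) (b b' a : Finset I) :
    pot k (blk β b) (blk β b') (blk β a) = pot (fun C => k (blk β C)) b b' a := by
  simp only [pot, blk_sdiff, blk_union]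

/-- **KAPPA3**, the state itself: the local quantities of the two sides of a cut are at most the
Markov error of the window, up to the noise -/
theorem pot_cut {S k η : Finset V → ℝ} (hS : EntLike S) (hlow : ∀ b, S b ≤ k b)
    (hup : ∀ b, k b ≤ S b + η b) (β : V → I) {out W c b b' : Finset I} {Nb : I → Finset I}
    (hc : c ⊆ W) (hb : W ∩ out ⊆ b) (hb' : W \ out ⊆ b') (hd : Disjoint b b') :
    pot k (blk β b) (blk β b') (blk β (c ∩ out)) + pot k (blk β b') (blk β b) (blk β (c \ out)) ≤
      cutErr (fun C => S (blk β C)) Nb out W c +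
        (η (blk β b) + η (blk β ((c ∩ out) ∪ b')) + η (blk β b') + η (blk β ((c \ out) ∪ b))) := by
  have h1 := pot_le (b := blk β b) (b' := blk β b') (a := blk β (c ∩ out)) hlow hup
  have h2 := pot_le (b := blk β b') (b' := blk β b) (a := blk β (c \ out)) hlow hup
  have h3 := cut_le (entLike_blk hS β) (Nb := Nb) hc hb hb' hd
  rw [pot_blk, pot_blk] at h1 h2
  rw [pot_blk, pot_blk]
  rw [← blk_union] at h1 h2
  linarith

/-- **KAPPA3**, an arbitrary pure state: the errors of the mixed closeness lemma on the two sides
of a cut, for unions of blocks -/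
theorem kap_cut {S k : Finset V → ℝ} (hS : EntLike S)
    (hmono : ∀ a N, Disjoint a N → S (a ∪ N) - S N ≤ k (a ∪ N) - k N) (β : V → I)
    {out W c b b' : Finset I} (hc : c ⊆ W) (hb : W ∩ out ⊆ b) (hb' : W \ out ⊆ b')
    {R : Finset V} (hR : blk β b ⊆ R) (hR' : blk β b' ⊆ Rᶜ) :
    kap S k R (blk β b) (blk β (c ∩ out)) ≤
        pot k (blk β b) (blk β b') (blk β (c ∩ out)) ∧
      kap S k Rᶜ (blk β b') (blk β (c \ out)) ≤
        pot k (blk β b') (blk β b) (blk β (c \ out)) := by
  have hcW : c ∩ out ⊆ b := fun x hx => hb (by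
    rw [mem_inter] at hx ⊢
    exact ⟨hc hx.1, hx.2⟩)
  have hcW' : c \ out ⊆ b' := fun x hx => hb' (by
    rw [mem_sdiff] at hx ⊢
    exact ⟨hc hx.1, hx.2⟩)
  refine ⟨kap_le hS hmono hR ?_ (blk_mono β hcW), kap_le hS hmono hR' ?_ (blk_mono β hcW')⟩
  · exact disjoint_of_subset_left hR' disjoint_compl_left
  · exact disjoint_of_subset_left hR disjoint_compl_right

end blocks

end Vale.Agent.P356.GA.Kap
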