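import Vale.Agent.P356.GA.KapQ87
import Vale.Agent.P356.GA.Theta124

/-!
# P356, GA: block KAPPA3, symmetric form

Sites (no blocks).  For a core `c` and a cut `O` the two errors of the mixed closeness lemma (regions
`O` and `Oᶜ`, windows `b ⊆ O` and `b' ⊆ Oᶜ`) are together at most the expectation of one local
operator `Theta`; in the reference state this expectation is at most the functional `th` of
`Theta124`, up to the noise.
-/

set_option linter.all false

namespace Vale.Agent.P356.GA.Kap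

open Matrix Finset Vale.Agent.P356 Vale.Agent.P356.SV Vale.Agent.P356.Path Vale.Agent.P356.PH
open Vale.Agent.P356.SA Vale.Agent.P356.GA Vale.Agent.P356.GA.Theta
open scoped BigOperators ComplexOrder Kronecker Matrix.Norms.L2Operator

section abs

variable {V : Type*} [Fintype V] [DecidableEq V] {S k : Finset V → ℝ}

/-- the two local quantities add up to conditional quantities of the whole core -/
theorem pot_add {c O b b' : Finset V} (hb : b ⊆ O) (hb' : Disjoint b' O) (hc : c ∩ O ⊆ b)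
    (hc' : c \ O ⊆ b') :
    pot k b b' (c ∩ O) + pot k b' b (c \ O) = ced k c (b \ c) + ced k c (b' \ c) := by
  have e1 : b \ (c ∩ O) = b \ c := by
    ext x
    simp only [mem_sdiff, mem_inter, not_and]
    exact ⟨fun h => ⟨h.1, fun h' => h.2 h' (hb h.1)⟩, fun h => ⟨h.1, fun h' _ => h.2 h'⟩⟩
  have e2 : b' \ (c \ O) = b' \ c := by
    ext x
    simp only [mem_sdiff, not_and, not_not]
    exact ⟨fun h => ⟨h.1, fun h' => Finset.disjoint_left.1 hb' h.1 (h.2 h')⟩,
      fun h => ⟨h.1, fun h' => absurd h' h.2⟩⟩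
  have e3 : (c ∩ O) ∪ b' = c ∪ (b' \ c) := by
    ext x
    simp only [mem_union, mem_inter, mem_sdiff]
    constructor
    · rintro (h | h)
      · exact Or.inl h.1
      · by_cases hx : x ∈ c
        · exact Or.inl hx
        · exact Or.inr ⟨h, hx⟩
    · rintro (h | h)
      · by_cases hO : x ∈ O
        · exact Or.inl ⟨h, hO⟩
        · exact Or.inr (hc' (by rw [mem_sdiff]; exact ⟨h, hO⟩))
      · exact Or.inr h.1
  have e4 : (c \ O) ∪ b = c ∪ (b \ c) := by
    ext x
    simp only [mem_union, mem_sdiff]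
    constructor
    · rintro (h | h)
      · exact Or.inl h.1
      · by_cases hx : x ∈ c
        · exact Or.inl hx
        · exact Or.inr ⟨h, hx⟩
    · rintro (h | h)
      · by_cases hO : x ∈ O
        · exact Or.inr (hc (by rw [mem_inter]; exact ⟨h, hO⟩))
        · exact Or.inl ⟨h, hO⟩
      · exact Or.inr h.1
  unfold pot ced
  rw [e1, e2, e3, e4]
  ring

/-- both errors of a cut are at most the conditional quantities of the whole core -/
theorem kap_ced (hS : EntLike S)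
    (hmono : ∀ a N, Disjoint a N → S (a ∪ N) - S N ≤ k (a ∪ N) - k N)
    {c O b b' : Finset V} (hb : b ⊆ O) (hb' : Disjoint b' O) (hc : c ∩ O ⊆ b)
    (hc' : c \ O ⊆ b') :
    0 ≤ kap S k O b (c ∩ O) ∧ 0 ≤ kap S k Oᶜ b' (c \ O) ∧
      kap S k O b (c ∩ O) + kap S k Oᶜ b' (c \ O) ≤ ced k c (b \ c) + ced k c (b' \ c) := by
  have hb2 : b' ⊆ Oᶜ := fun x hx => mem_compl.2 fun h => Finset.disjoint_left.1 hb' hx h
  have hb3 : Disjoint b Oᶜ := disjoint_of_subset_left hb disjoint_compl_right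
  refine ⟨kap_nonneg hS hmono hb hc, kap_nonneg hS hmono hb2 hc', ?_⟩
  rw [← pot_add hb hb' hc hc']
  exact add_le_add (kap_le hS hmono hb hb' hc) (kap_le hS hmono hb2 hb3 hc')

/-- the conditional quantities in the reference state -/
theorem ced_le_th (hS : EntLike S) (hlow : ∀ b, S b ≤ k b) {η : Finset V → ℝ}
    (hup : ∀ b, k b ≤ S b + η b) {c W O b b' : Finset V} (hbW : O ∩ W ⊆ b ∪ c)
    (hbW' : W \ O ⊆ b' ∪ c) :
    ced k c (b \ c) + ced k c (b' \ c) ≤
      th S c W O + (η (c ∪ (b \ c)) + η (c ∪ (b' \ c))) := by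
  have h1 := hlow (b \ c)
  have h2 := hlow (b' \ c)
  have h3 := hup (c ∪ (b \ c))
  have h4 := hup (c ∪ (b' \ c))
  have h5 : ced S c (b \ c) ≤ ced S c ((O ∩ W) \ c) := by
    refine ced_anti hS ?_ disjoint_sdiff
    intro x hx
    rw [mem_sdiff] at hx ⊢
    exact ⟨(mem_union.1 (hbW hx.1)).resolve_right hx.2, hx.2⟩
  have h6 : ced S c (b' \ c) ≤ ced S c ((W \ O) \ c) := by
    refine ced_anti hS ?_ disjoint_sdiff
    intro x hx
    rw [mem_sdiff] at hx ⊢
    exact ⟨(mem_union.1 (hbW' hx.1)).resolve_right hx.2, hx.2⟩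
  unfold th
  unfold ced at h5 h6 ⊢
  linarith

end abs

section main

variable {V : Type} [Fintype V] [DecidableEq V] {q : ℕ}

/-- the local operator of a core `c` with the outer parts `N`, `N'` of the two windows -/
noncomputable def Theta (K : Finset V → Op V q) (c N N' : Finset V) : Op V q :=
  (K (c ∪ N) - K N) + (K (c ∪ N') - K N')

theorem Theta_herm {K : Finset V → Op V q} (hK : RefFam K) (c N N' : Finset V) :
    (Theta K c N N').IsHermitian :=
  ((hK.herm _).sub (hK.herm _)).add ((hK.herm _).sub (hK.herm _))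

theorem Theta_acts {K : Finset V → Op V q} (hK : RefFam K) {c N N' A : Finset V} (hc : c ⊆ A)
    (hN : N ⊆ A) (hN' : N' ⊆ A) : ActsOn A (Theta K c N N') := by
  have hsub : ∀ {X Y : Op V q}, ActsOn A X → ActsOn A Y → ActsOn A (X - Y) := by
    intro X Y hX hY
    rw [sub_eq_add_neg, ← neg_one_smul ℂ Y]
    exact ph_acts_add hX (ph_acts_smul _ hY)
  refine ph_acts_add (hsub ?_ ?_) (hsub ?_ ?_)
  · exact ph_acts_mono (union_subset hc hN) (hK.acts _)
  · exact ph_acts_mono hN (hK.acts _)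
  · exact ph_acts_mono (union_subset hc hN') (hK.acts _)
  · exact ph_acts_mono hN' (hK.acts _)

theorem Theta_norm {K : Finset V → Op V q} {c N N' : Finset V} {B : ℝ}
    (h1 : ‖K (c ∪ N)‖ ≤ B) (h2 : ‖K N‖ ≤ B) (h3 : ‖K (c ∪ N')‖ ≤ B) (h4 : ‖K N'‖ ≤ B) :
    ‖Theta K c N N'‖ ≤ 4 * B := by
  unfold Theta
  refine (norm_add_le _ _).trans ?_
  have e1 := norm_sub_le (K (c ∪ N)) (K N)
  have e2 := norm_sub_le (K (c ∪ N')) (K N')
  linarith

theorem Theta_expv (K : Finset V → Op V q) (c N N' : Finset V) (ψ : Conf V q → ℂ) :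
    expv ψ (Theta K c N N') =
      ced (fun A => expv ψ (K A)) c N + ced (fun A => expv ψ (K A)) c N' := by
  unfold Theta ced
  rw [expv_add, expv_sub, expv_sub]

/-- **KAPPA3, symmetric form, the state `ψ`** -/
theorem kap_theta {K : Finset V → Op V q} (hK : RefFam K) {ψ : Conf V q → ℂ} (hψ : nsq ψ = 1)
    {c O b b' : Finset V} (hb : b ⊆ O) (hb' : Disjoint b' O) (hc : c ∩ O ⊆ b)
    (hc' : c \ O ⊆ b') :
    0 ≤ kap (fun A => entropyOf A ψ) (fun A => expv ψ (K A)) O b (c ∩ O) ∧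
    0 ≤ kap (fun A => entropyOf A ψ) (fun A => expv ψ (K A)) Oᶜ b' (c \ O) ∧
      kap (fun A => entropyOf A ψ) (fun A => expv ψ (K A)) O b (c ∩ O) +
        kap (fun A => entropyOf A ψ) (fun A => expv ψ (K A)) Oᶜ b' (c \ O) ≤
        expv ψ (Theta K c (b \ c) (b' \ c)) := by
  rw [Theta_expv]
  exact kap_ced (SA.entLike ψ hψ) (fun a N _ => hK.mono hψ a N) hb hb' hc hc'

/-- **KAPPA3, symmetric form, the reference state `Ω`** -/
theorem theta_le {K : Finset V → Op V q} (hK : RefFam K) {Ω : Conf V q → ℂ} (hΩ : nsq Ω = 1)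
    {η : Finset V → ℝ} (hup : ∀ b, expv Ω (K b) ≤ entropyOf b Ω + η b)
    {c W O b b' : Finset V} (hbW : O ∩ W ⊆ b ∪ c) (hbW' : W \ O ⊆ b' ∪ c) :
    expv Ω (Theta K c (b \ c) (b' \ c)) ≤
      th (fun A => entropyOf A Ω) c W O + (η (c ∪ (b \ c)) + η (c ∪ (b' \ c))) := by
  rw [Theta_expv]
  exact ced_le_th (SA.entLike Ω hΩ) (fun b => hK.low hΩ b) hup hbW hbW'

/-- the same operator in another state: the difference is controlled by the window -/
theorem theta_near {K : Finset V → Op V q} (hK : RefFam K) {ψ Ω : Conf V q → ℂ}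
    {c N N' A : Finset V} (hc : c ⊆ A) (hN : N ⊆ A) (hN' : N' ⊆ A) {B δ : ℝ} (hδ : 0 ≤ δ)
    (h1 : ‖K (c ∪ N)‖ ≤ B) (h2 : ‖K N‖ ≤ B) (h3 : ‖K (c ∪ N')‖ ≤ B) (h4 : ‖K N'‖ ≤ B)
    (hdev : ∀ X : Op V q, ActsOn A X →
      ‖star ψ ⬝ᵥ (X *ᵥ ψ) - star Ω ⬝ᵥ (X *ᵥ Ω)‖ ≤ δ * ‖X‖) :
    expv ψ (Theta K c N N') ≤ expv Ω (Theta K c N N') + δ * (4 * B) := by
  have h := hdev _ (Theta_acts hK hc hN hN')
  have h' : expv ψ (Theta K c N N') - expv Ω (Theta K c N N') ≤
      ‖star ψ ⬝ᵥ (Theta K c N N' *ᵥ ψ) - star Ω ⬝ᵥ (Theta K c N N' *ᵥ Ω)‖ := by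
    have h0 := Complex.abs_re_le_norm
      (star ψ ⬝ᵥ (Theta K c N N' *ᵥ ψ) - star Ω ⬝ᵥ (Theta K c N N' *ᵥ Ω))
    rw [Complex.sub_re] at h0
    exact (le_abs_self _).trans h0
  have h5 := mul_le_mul_of_nonneg_left (Theta_norm h1 h2 h3 h4) hδ
  linarith

end main

end Vale.Agent.P356.GA.Kap
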