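import Vale.Agent.P356.GA.Dual860
import Vale.Agent.P356.GA.PointU228
import Vale.Agent.P356.GA.Tube107b
import Vale.Agent.P356.GA.Taylor107

/-!
# GA, block KAPPA (helper225), part a

Exponentials `EX S ψ f z = exp (z f(ρ_S))` of a function of the reduced state, and the bound
`‖EX M ψ f z * EX R ψ f (-z) ψ‖² ≤ K q^|R \ M|` for `M ⊆ R` on both edges `re z = ± 1/2`.
-/

set_option linter.all false

namespace Vale.Agent.P356.GA.Kappa

open Matrix Finset Vale.Agent.P356 Vale.Agent.P356.SV Vale.Agent.P356.Path Vale.Agent.P356.PH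
open Vale.Agent.P356.GA
open scoped BigOperators ComplexOrder Kronecker Matrix.Norms.L2Operator

section exCalc
variable {V : Type*} [Fintype V] [DecidableEq V] {q : ℕ}
variable (S : Finset V) (ψ : Conf V q → ℂ) (f : ℝ → ℝ)

/-- exponential of a function of the reduced state -/
noncomputable def EX (z : ℂ) : Op V q := fr S ψ (fun p => Complex.exp (z * (f p : ℂ)))

/-- function of the reduced state -/
noncomputable def GX : Op V q := fr S ψ (fun p => (f p : ℂ))

theorem EX_mul (z w : ℂ) : EX S ψ f z * EX S ψ f w = EX S ψ f (z + w) := by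
  rw [EX, EX, fr_mul, EX]
  congr 1
  funext p
  rw [← Complex.exp_add, add_mul]

theorem EX_zero : EX S ψ f 0 = 1 := by
  rw [EX, ← fr_one S ψ]
  congr 1
  funext p
  rw [zero_mul, Complex.exp_zero]

theorem EX_star (z : ℂ) : (EX S ψ f z)ᴴ = EX S ψ f (star z) := by
  rw [EX, fr_conj, EX]
  congr 1
  funext p
  rw [Complex.star_def, ← Complex.exp_conj, map_mul, Complex.conj_ofReal]

theorem EX_acts (z : ℂ) : ActsOn S (EX S ψ f z) := fr_acts S ψ _

theorem GX_acts : ActsOn S (GX S ψ f) := fr_acts S ψ _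

theorem GX_herm : (GX S ψ f)ᴴ = GX S ψ f := by
  rw [GX, fr_conj]
  congr 1
  funext p
  rw [Complex.star_def, Complex.conj_ofReal]

/-- bound on vertical lines -/
noncomputable def Ec : ℝ := ∑ i, |f (eigp (ψ ∘ (cut S q).symm) i)|

theorem Ec_nonneg : 0 ≤ Ec S ψ f := Finset.sum_nonneg fun i _ => abs_nonneg _

theorem EX_norm_le (z : ℂ) : ‖EX S ψ f z‖ ≤ Real.exp (|z.re| * Ec S ψ f) := by
  refine cr_norm S ψ _ (by positivity) fun i => ?_
  rw [Complex.norm_exp]
  refine Real.exp_le_exp.2 ?_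
  have h1 : (z * (f (eigp (ψ ∘ (cut S q).symm) i) : ℂ)).re =
      z.re * f (eigp (ψ ∘ (cut S q).symm) i) := by simp
  rw [h1]
  refine (le_abs_self _).trans ?_
  rw [abs_mul]
  refine mul_le_mul_of_nonneg_left ?_ (abs_nonneg _)
  exact Finset.single_le_sum (f := fun i => |f (eigp (ψ ∘ (cut S q).symm) i)|)
    (fun j _ => abs_nonneg _) (Finset.mem_univ i)

theorem EX_norm_re0 {z : ℂ} (hz : z.re = 0) : ‖EX S ψ f z‖ ≤ 1 := by
  have h := EX_norm_le S ψ f z
  rw [hz, abs_zero, zero_mul, Real.exp_zero] at h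
  exact h

theorem EX_hasDerivAt (z : ℂ) :
    HasDerivAt (fun z => EX S ψ f z) (GX S ψ f * EX S ψ f z) z := by
  have h1 : HasDerivAt (fun z : ℂ => (fun i => Complex.exp (z * (f (eigp (ψ ∘ (cut S q).symm) i) : ℂ))))
      (fun i => (f (eigp (ψ ∘ (cut S q).symm) i) : ℂ) *
        Complex.exp (z * (f (eigp (ψ ∘ (cut S q).symm) i) : ℂ))) z := by
    refine hasDerivAt_pi.2 fun i => ?_
    have h2 : HasDerivAt (fun z : ℂ => z * (f (eigp (ψ ∘ (cut S q).symm) i) : ℂ))
        (f (eigp (ψ ∘ (cut S q).symm) i) : ℂ) z := by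
      simpa using (hasDerivAt_id z).mul_const (f (eigp (ψ ∘ (cut S q).symm) i) : ℂ)
    refine h2.cexp.congr_deriv ?_
    ring
  have h3 := ((crL S ψ).toContinuousLinearMap).hasFDerivAt.comp_hasDerivAt z h1
  refine h3.congr_deriv ?_
  rw [GX, EX, fr_mul]
  rfl

theorem GX_comm_EX (z : ℂ) : GX S ψ f * EX S ψ f z = EX S ψ f z * GX S ψ f := by
  rw [GX, EX, fr_mul, fr_mul]
  congr 1
  funext p
  ring

theorem EX_dual (z : ℂ) : EX S ψ f z *ᵥ ψ = EX Sᶜ ψ f z *ᵥ ψ := fr_dual S ψ _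

theorem GX_dual : GX S ψ f *ᵥ ψ = GX Sᶜ ψ f *ᵥ ψ := fr_dual S ψ _

theorem clF_trace' {α β : Type*} [Fintype α] [Fintype β] [DecidableEq α] [DecidableEq β]
    (x : α × β → ℂ) (g : α → ℂ) : (clF x g).trace = ∑ i, g i := by
  rw [clF, Matrix.trace_mul_comm, ← Matrix.mul_assoc, eigU_mul', Matrix.one_mul,
    Matrix.trace_diagonal]

theorem fr_trace (g : ℝ → ℂ) :
    (fr S ψ g).trace = dO q S * ∑ i, g (eigp (ψ ∘ (cut S q).symm) i) := by
  rw [fr, cr, trace_opOn, clF_trace']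

/-- traces against a function of the reduced state with values in `[0,1]` -/
theorem tr_fr_le (r : ℝ → ℝ) (hr : ∀ p, 0 ≤ p → r p ≤ 1) (X : Op V q) :
    ((fr S ψ (fun p => (r p : ℂ)) * (Xᴴ * X)).trace).re ≤ ((Xᴴ * X).trace).re := by
  set T : Op V q := fr S ψ (fun p => ((Real.sqrt (1 - r p) : ℝ) : ℂ)) with hT
  have hTT : T * Tᴴ = 1 - fr S ψ (fun p => (r p : ℂ)) := by
    rw [hT, fr_conj, fr_mul, ← fr_one S ψ]
    have e : (fr S ψ (fun _ => 1) : Op V q) - fr S ψ (fun p => (r p : ℂ)) =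
        fr S ψ (fun p => 1 - (r p : ℂ)) := cr_sub S ψ _ _
    rw [e]
    unfold fr
    congr 1
    funext i
    have hp := eigp_nonneg (ψ ∘ (cut S q).symm) i
    generalize eigp (ψ ∘ (cut S q).symm) i = p at hp
    show ((Real.sqrt (1 - r p) : ℝ) : ℂ) * star ((Real.sqrt (1 - r p) : ℝ) : ℂ) = 1 - (r p : ℂ)
    rw [Complex.star_def, Complex.conj_ofReal, ← Complex.ofReal_mul,
      Real.mul_self_sqrt (by linarith [hr _ hp])]
    push_cast
    ring
  have h1 := tr_star_nonneg (X * T)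
  have h2 : ((X * T)ᴴ * (X * T)).trace = (Xᴴ * X).trace -
      (fr S ψ (fun p => (r p : ℂ)) * (Xᴴ * X)).trace := by
    rw [conjTranspose_mul]
    calc (Tᴴ * Xᴴ * (X * T)).trace = ((Tᴴ * (Xᴴ * X)) * T).trace := by
          simp only [Matrix.mul_assoc]
      _ = (T * (Tᴴ * (Xᴴ * X))).trace := Matrix.trace_mul_comm _ _
      _ = ((T * Tᴴ) * (Xᴴ * X)).trace := by simp only [Matrix.mul_assoc]
      _ = _ := by rw [hTT, sub_mul, one_mul, Matrix.trace_sub]
  rw [h2, Complex.sub_re] at h1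
  linarith

end exCalc

section edge
variable {V : Type*} [Fintype V] [DecidableEq V] {q : ℕ}

theorem dO_sdiff {M R : Finset V} (hMR : M ⊆ R) :
    dO q M = (q : ℂ) ^ (R \ M).card * dO q R := by
  rw [dO_eq, dO_eq, ← pow_add]
  congr 1
  have h1 := Finset.card_sdiff_add_card_eq_card hMR
  have h2 : R.card ≤ Fintype.card V := Finset.card_le_univ _
  omega

theorem nsq_col (A : Op V q) : ((Aᴴ * A).trace).re = ∑ j, nsq (fun i => A i j) := by
  have h : (Aᴴ * A).trace = ((∑ j, nsq (fun i => A i j) : ℝ) : ℂ) := by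
    rw [Matrix.trace]
    push_cast
    refine Finset.sum_congr rfl fun j _ => ?_
    rw [Matrix.diag_apply, Matrix.mul_apply, nsq]
    push_cast
    refine Finset.sum_congr rfl fun i _ => ?_
    rw [Matrix.conjTranspose_apply, RCLike.star_def, Complex.conj_mul']
  rw [h, Complex.ofReal_re]

theorem tr_norm_le (Y E : Op V q) :
    (((Y * E)ᴴ * (Y * E)).trace).re ≤ ‖Y‖ ^ 2 * ((Eᴴ * E).trace).re := by
  rw [nsq_col, nsq_col, Finset.mul_sum]
  refine Finset.sum_le_sum fun j _ => ?_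
  have h1 : (fun i => (Y * E) i j) = Y *ᵥ (fun i => E i j) := by
    funext i
    rw [Matrix.mul_apply, Matrix.mulVec, dotProduct]
  rw [h1]
  exact ph_nsq_mulVec_le Y _

variable {ψ : Conf V q → ℂ} {f : ℝ → ℝ}

theorem edge_trace {M R : Finset V} (hMR : M ⊆ R) (z : ℂ) :
    (dO q R) * ((nsq ((EX M ψ f z * EX R ψ f (-z)) *ᵥ ψ) : ℝ) : ℂ) =
      (fr R ψ (fun p => ((p * Real.exp (-(2 * z.re) * f p) : ℝ) : ℂ)) *
        ((EX M ψ f z)ᴴ * EX M ψ f z)).trace := by
  set X : Op V q := EX M ψ f z with hX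
  set P : Op V q := EX R ψ f (-z) with hP
  have hXact : ActsOn R X := ph_acts_mono hMR (EX_acts M ψ f z)
  have hPact : ActsOn R P := EX_acts R ψ f (-z)
  have e1 := trace_rho R ψ (X := (X * P)ᴴ * (X * P))
    (ph_acts_mul (ph_acts_star (ph_acts_mul hXact hPact)) (ph_acts_mul hXact hPact))
  rw [← nsq_mulVec_eq] at e1
  rw [← e1, ← fr_rho, conjTranspose_mul]
  calc (fr R ψ (fun p => (p : ℂ)) * (Pᴴ * Xᴴ * (X * P))).trace =
      ((fr R ψ (fun p => (p : ℂ)) * Pᴴ * (Xᴴ * X)) * P).trace := by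
        simp only [Matrix.mul_assoc]
    _ = (P * (fr R ψ (fun p => (p : ℂ)) * Pᴴ * (Xᴴ * X))).trace := Matrix.trace_mul_comm _ _
    _ = ((P * fr R ψ (fun p => (p : ℂ)) * Pᴴ) * (Xᴴ * X)).trace := by
        simp only [Matrix.mul_assoc]
    _ = _ := by
        have e2 : P * fr R ψ (fun p => (p : ℂ)) * Pᴴ =
            fr R ψ (fun p => ((p * Real.exp (-(2 * z.re) * f p) : ℝ) : ℂ)) := by
          rw [hP, EX_star, EX, EX, fr_mul, fr_mul]
          congr 1
          funext p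
          push_cast
          have e3 : Complex.exp (-z * (f p : ℂ)) * Complex.exp (star (-z) * (f p : ℂ)) =
              Complex.exp (-(2 * (z.re : ℂ)) * (f p : ℂ)) := by
            rw [← Complex.exp_add, ← add_mul]
            congr 2
            rw [Complex.star_def]
            apply Complex.ext
            · simp; ring
            · simp
          calc Complex.exp (-z * (f p : ℂ)) * (p : ℂ) * Complex.exp (star (-z) * (f p : ℂ)) =
              (p : ℂ) * (Complex.exp (-z * (f p : ℂ)) * Complex.exp (star (-z) * (f p : ℂ))) := by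
                ring
            _ = _ := by rw [e3]
        rw [e2]

/-- the right edge -/
theorem edge_right (hψ : nsq ψ = 1) (hf : ∀ p, 0 ≤ p → p ≤ Real.exp (f p)) {M R : Finset V}
    (hMR : M ⊆ R) {K : ℝ} (hK : ∑ i, Real.exp (f (eigp (ψ ∘ (cut M q).symm) i)) ≤ K) {z : ℂ}
    (hz : z.re = 1 / 2) :
    nsq ((EX M ψ f z * EX R ψ f (-z)) *ᵥ ψ) ≤ K * (q : ℝ) ^ (R \ M).card := by
  obtain ⟨nR, hR0, hR⟩ := dO_pos hψ R
  obtain ⟨nM, hM0, hM⟩ := dO_pos hψ M
  have h1 := congrArg Complex.re (edge_trace (ψ := ψ) (f := f) hMR z)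
  have h2 : ((dO q R) * ((nsq ((EX M ψ f z * EX R ψ f (-z)) *ᵥ ψ) : ℝ) : ℂ)).re =
      nR * nsq ((EX M ψ f z * EX R ψ f (-z)) *ᵥ ψ) := by
    rw [hR]; simp
  rw [h2] at h1
  have h3 := tr_fr_le R ψ (fun p => p * Real.exp (-(2 * z.re) * f p)) (fun p hp => by
    have e : -(2 * z.re) * f p = -f p := by rw [hz]; ring
    rw [e, Real.exp_neg, ← div_eq_mul_inv, div_le_one (Real.exp_pos _)]
    exact hf p hp) (EX M ψ f z)
  rw [← h1] at h3
  have h4 : (EX M ψ f z)ᴴ * EX M ψ f z = fr M ψ (fun p => ((Real.exp (f p) : ℝ) : ℂ)) := by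
    rw [EX_star, EX_mul, EX]
    congr 1
    funext p
    push_cast
    congr 1
    have : star z + z = 1 := by
      rw [Complex.star_def]
      apply Complex.ext
      · simp [hz]; norm_num
      · simp
    rw [this, one_mul]
  have h5 : (((EX M ψ f z)ᴴ * EX M ψ f z).trace).re ≤ nM * K := by
    rw [h4, fr_trace, hM]
    have : ((nM : ℂ) * ∑ i, ((Real.exp (f (eigp (ψ ∘ (cut M q).symm) i)) : ℝ) : ℂ)).re =
        nM * ∑ i, Real.exp (f (eigp (ψ ∘ (cut M q).symm) i)) := by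
      rw [← Complex.ofReal_sum, ← Complex.ofReal_natCast, ← Complex.ofReal_mul,
        Complex.ofReal_re]
    rw [this]
    exact mul_le_mul_of_nonneg_left hK (by positivity)
  have h6 : (nM : ℝ) = (q : ℝ) ^ (R \ M).card * nR := by
    have := dO_sdiff (q := q) hMR
    rw [hM, hR] at this
    exact_mod_cast this
  have h7 : (0 : ℝ) < nR := by exact_mod_cast hR0
  have h8 : nR * nsq ((EX M ψ f z * EX R ψ f (-z)) *ᵥ ψ) ≤ nR * (K * (q : ℝ) ^ (R \ M).card) := by
    refine (h3.trans h5).trans (le_of_eq ?_)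
    rw [h6]; ring
  exact le_of_mul_le_mul_left h8 h7

theorem PP_half_nsq (S : Finset V) (ψ : Conf V q → ℂ) :
    fr S ψ (fun p => ((Real.sqrt p : ℝ) : ℂ)) = PP S ψ (1 / 2 : ℂ) := by
  unfold fr PP
  congr 1
  funext i
  have hp := eigp_nonneg (ψ ∘ (cut S q).symm) i
  unfold pw
  split_ifs with h
  · rw [h]; simp
  · have hp' : 0 < eigp (ψ ∘ (cut S q).symm) i := lt_of_le_of_ne hp (Ne.symm h)
    show ((Real.sqrt (eigp (ψ ∘ (cut S q).symm) i) : ℝ) : ℂ) = _
    rw [← Complex.ofReal_ofNat 2, ← Complex.ofReal_one, ← Complex.ofReal_div, ← Complex.ofReal_mul,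
      ← Complex.ofReal_exp]
    congr 1
    rw [mul_comm, ← Real.rpow_def_of_pos hp', Real.sqrt_eq_rpow]

/-- the left edge -/
theorem edge_left (hψ : nsq ψ = 1) (hf : ∀ p, 0 ≤ p → p ≤ Real.exp (f p)) {M R : Finset V}
    (hMR : M ⊆ R) {K : ℝ} (hK : ∑ i, Real.exp (f (eigp (ψ ∘ (cut R q).symm) i)) ≤ K) {z : ℂ}
    (hz : z.re = -(1 / 2)) :
    nsq ((EX M ψ f z * EX R ψ f (-z)) *ᵥ ψ) ≤ K * (q : ℝ) ^ (R \ M).card := by
  obtain ⟨nR, hR0, hR⟩ := dO_pos hψ R
  have h1 := congrArg Complex.re (edge_trace (ψ := ψ) (f := f) hMR z)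
  have h2 : ((dO q R) * ((nsq ((EX M ψ f z * EX R ψ f (-z)) *ᵥ ψ) : ℝ) : ℂ)).re =
      nR * nsq ((EX M ψ f z * EX R ψ f (-z)) *ᵥ ψ) := by
    rw [hR]; simp
  rw [h2] at h1
  set X : Op V q := EX M ψ f z with hX
  set H : Op V q := fr R ψ (fun p => ((Real.sqrt p : ℝ) : ℂ)) with hH
  set E : Op V q := fr R ψ (fun p => ((Real.exp (f p / 2) : ℝ) : ℂ)) with hE
  have hHH : Hᴴ = H := by
    rw [hH, fr_conj]; congr 1; funext p; rw [Complex.star_def, Complex.conj_ofReal]
  have hEE : Eᴴ = E := by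
    rw [hE, fr_conj]; congr 1; funext p; rw [Complex.star_def, Complex.conj_ofReal]
  have hfac : fr R ψ (fun p => ((p * Real.exp (-(2 * z.re) * f p) : ℝ) : ℂ)) = (H * E) * (E * H) := by
    rw [hH, hE, fr_mul, fr_mul, fr_mul]
    unfold fr
    congr 1
    funext i
    have hp := eigp_nonneg (ψ ∘ (cut R q).symm) i
    generalize eigp (ψ ∘ (cut R q).symm) i = p at hp
    show ((p * Real.exp (-(2 * z.re) * f p) : ℝ) : ℂ) = ((Real.sqrt p : ℝ) : ℂ) *
      ((Real.exp (f p / 2) : ℝ) : ℂ) * (((Real.exp (f p / 2) : ℝ) : ℂ) * ((Real.sqrt p : ℝ) : ℂ))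
    rw [← Complex.ofReal_mul, ← Complex.ofReal_mul, ← Complex.ofReal_mul]
    congr 1
    have e1 : -(2 * z.re) * f p = f p / 2 + f p / 2 := by rw [hz]; ring
    rw [e1, Real.exp_add]
    have e2 : p = Real.sqrt p * Real.sqrt p := (Real.mul_self_sqrt hp).symm
    nth_rewrite 1 [e2]
    ring
  have h3 : (fr R ψ (fun p => ((p * Real.exp (-(2 * z.re) * f p) : ℝ) : ℂ)) *
      (Xᴴ * X)).trace = (((X * H) * E)ᴴ * ((X * H) * E)).trace := by
    rw [hfac, conjTranspose_mul, conjTranspose_mul, hHH, hEE]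
    calc (H * E * (E * H) * (Xᴴ * X)).trace = ((H * E) * (E * (H * (Xᴴ * X)))).trace := by
          simp only [Matrix.mul_assoc]
      _ = ((E * (H * (Xᴴ * X))) * (H * E)).trace := Matrix.trace_mul_comm _ _
      _ = _ := by simp only [Matrix.mul_assoc]
  rw [h3] at h1
  have hY : ‖X * H‖ ^ 2 ≤ (q : ℝ) ^ (R \ M).card := by
    have hn : ‖X * H‖ = ‖H * Xᴴ‖ := by
      rw [← norm_star (X * H)]
      congr 1
      show (X * H)ᴴ = _
      rw [conjTranspose_mul, hHH]
    have hb : ‖H * Xᴴ‖ ≤ Real.sqrt ((q : ℝ) ^ (R \ M).card) := by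
      refine ph_norm_le (Real.sqrt_nonneg _) fun u => ?_
      rw [Real.sq_sqrt (by positivity), ← Matrix.mulVec_mulVec, hH, PP_half_nsq]
      have hu : M ∪ R \ M = R := Finset.union_sdiff_of_subset hMR
      have h4 := pu_op (M := M) (a := R \ M) Finset.disjoint_sdiff hψ (Xᴴ *ᵥ u)
      rw [hu] at h4
      refine h4.trans ?_
      refine mul_le_mul_of_nonneg_left ?_ (by positivity)
      rw [Matrix.mulVec_mulVec]
      refine nsq_le_norm _ _ ?_
      rw [← PP_half_nsq, hX, EX_star, EX, fr_mul]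
      refine cr_norm M ψ _ zero_le_one fun i => ?_
      have hp := eigp_nonneg (ψ ∘ (cut M q).symm) i
      set p := eigp (ψ ∘ (cut M q).symm) i with hpdef
      rw [norm_mul, Complex.norm_real, Real.norm_eq_abs, abs_of_nonneg (Real.sqrt_nonneg _),
        Complex.norm_exp]
      have e1 : (star z * (f p : ℂ)).re = -(f p / 2) := by
        rw [Complex.star_def]; simp [hz]; ring
      rw [e1]
      have e2 : Real.sqrt p ≤ Real.exp (f p / 2) := by
        rw [Real.sqrt_le_left (by positivity), ← Real.exp_nat_mul]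
        have : ((2 : ℕ) : ℝ) * (f p / 2) = f p := by push_cast; ring
        rw [this]
        exact hf p hp
      calc Real.sqrt p * Real.exp (-(f p / 2)) ≤ Real.exp (f p / 2) * Real.exp (-(f p / 2)) :=
            mul_le_mul_of_nonneg_right e2 (by positivity)
        _ = 1 := by rw [← Real.exp_add]; simp
    rw [hn]
    have h5 := pow_le_pow_left₀ (norm_nonneg _) hb 2
    rwa [Real.sq_sqrt (by positivity)] at h5
  have h6 := tr_norm_le (X * H) E
  have h7 : ((Eᴴ * E).trace).re ≤ nR * K := by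
    have e1 : Eᴴ * E = fr R ψ (fun p => ((Real.exp (f p) : ℝ) : ℂ)) := by
      rw [hEE, hE, fr_mul]
      congr 1
      funext p
      rw [← Complex.ofReal_mul, ← Real.exp_add, add_halves]
    rw [e1, fr_trace, hR]
    have : ((nR : ℂ) * ∑ i, ((Real.exp (f (eigp (ψ ∘ (cut R q).symm) i)) : ℝ) : ℂ)).re =
        nR * ∑ i, Real.exp (f (eigp (ψ ∘ (cut R q).symm) i)) := by
      rw [← Complex.ofReal_sum, ← Complex.ofReal_natCast, ← Complex.ofReal_mul,
        Complex.ofReal_re]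
    rw [this]
    exact mul_le_mul_of_nonneg_left hK (by positivity)
  have h7' : (0 : ℝ) < nR := by exact_mod_cast hR0
  have hKn : 0 ≤ nR * K := by
    refine le_trans ?_ h7
    exact tr_star_nonneg E
  have h8 : nR * nsq ((X * EX R ψ f (-z)) *ᵥ ψ) ≤ nR * (K * (q : ℝ) ^ (R \ M).card) := by
    rw [h1]
    refine h6.trans ?_
    calc ‖X * H‖ ^ 2 * ((Eᴴ * E).trace).re ≤ (q : ℝ) ^ (R \ M).card * (nR * K) :=
          mul_le_mul hY h7 (tr_star_nonneg E) (by positivity)
      _ = _ := by ring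
  exact le_of_mul_le_mul_left h8 h7'

end edge

end Vale.Agent.P356.GA.Kappa
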