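import Vale.Agent.P356.GA.Kappa225a
import Vale.Agent.P356.GA.Energy980
import Vale.Agent.P356.GA.Heal909

/-!
# GA, block KAPPA (helper225), part b: the kappa bounds

* `vec_coeff` : norms of the first and second Taylor coefficient of `W ζ *ᵥ ψ` from bounds on
  the imaginary axis and on the edges of a strip (three lines and Cauchy).
* `kap_one`, `kap_two` : `‖(G_M - G_R) ψ‖ ≤ 6 L`, `‖(G_M² - 2 G_M G_R + G_R²) ψ‖ ≤ 24 L²`.
* `kap_prod` : `‖(G_M - G_R)(G_{M'} - G_{R'}) ψ‖ ≤ 48 L²` for disjoint `R`, `R'`.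
-/

set_option linter.all false

namespace Vale.Agent.P356.GA.Kappa

open Matrix Finset Vale.Agent.P356 Vale.Agent.P356.SV Vale.Agent.P356.Path Vale.Agent.P356.PH
open Vale.Agent.P356.GA
open scoped BigOperators ComplexOrder Kronecker Matrix.Norms.L2Operator

section interp

/-- three lines on a symmetric strip of half width `s` -/
theorem strip_interp {F : ℂ → ℂ} (hd : Differentiable ℂ F) {s a A : ℝ} (hs : 0 < s)
    (hb : ∃ M, ∀ ζ : ℂ, |ζ.re| ≤ s → ‖F ζ‖ ≤ M) (ha : 0 ≤ a) (hA : 1 ≤ A)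
    (h0 : ∀ ζ : ℂ, ζ.re = 0 → ‖F ζ‖ ≤ a) (h1 : ∀ ζ : ℂ, |ζ.re| = s → ‖F ζ‖ ≤ a * A)
    {ζ : ℂ} (hζ : |ζ.re| ≤ s) : ‖F ζ‖ ≤ a * Real.exp (Real.log A * (|ζ.re| / s)) := by
  -- it suffices to treat `0 ≤ re ζ`
  have key : ∀ G : ℂ → ℂ, Differentiable ℂ G → (∃ M, ∀ ζ : ℂ, |ζ.re| ≤ s → ‖G ζ‖ ≤ M) →
      (∀ ζ : ℂ, ζ.re = 0 → ‖G ζ‖ ≤ a) → (∀ ζ : ℂ, |ζ.re| = s → ‖G ζ‖ ≤ a * A) →
      ∀ ζ : ℂ, 0 ≤ ζ.re → ζ.re ≤ s → ‖G ζ‖ ≤ a * Real.exp (Real.log A * (ζ.re / s)) := by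
    intro G hd hb h0 h1 ζ hζ0 hζ1
    have hA0 : 0 < A := lt_of_lt_of_le one_pos hA
    have hlog : 0 ≤ Real.log A := Real.log_nonneg hA
    set g : ℂ → ℂ := fun w => G (s * w) * Complex.exp (-(Real.log A : ℂ) * w) with hg
    have hgn : ∀ w : ℂ, ‖g w‖ = ‖G (s * w)‖ * Real.exp (-Real.log A * w.re) := by
      intro w
      rw [hg]
      simp only [norm_mul, Complex.norm_exp]
      congr 2
      simp
    have hre : ∀ w : ℂ, ((s : ℂ) * w).re = s * w.re := by intro w; simp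
    have h2 := three_lines (g := g) (C := a) ?_ ?_ ?_ ?_ (ζ := ζ / s)
      (by rw [Complex.div_ofReal_re]; positivity)
      (by rw [Complex.div_ofReal_re]; exact (div_le_one hs).2 hζ1)
    · rw [hgn] at h2
      have e1 : (s : ℂ) * (ζ / s) = ζ := by
        have : (s : ℂ) ≠ 0 := by exact_mod_cast hs.ne'
        field_simp
      rw [e1, Complex.div_ofReal_re] at h2
      calc ‖G ζ‖ = ‖G ζ‖ * Real.exp (-Real.log A * (ζ.re / s)) *
            Real.exp (Real.log A * (ζ.re / s)) := by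
              rw [mul_assoc, ← Real.exp_add]
              simp
        _ ≤ _ := mul_le_mul_of_nonneg_right h2 (Real.exp_pos _).le
    · exact (hd.comp (by fun_prop)).mul (by fun_prop)
    · obtain ⟨M, hM⟩ := hb
      refine ⟨|M|, fun w hw0 hw1 => ?_⟩
      rw [hgn]
      have h3 : ‖G (s * w)‖ ≤ |M| := by
        refine (hM _ ?_).trans (le_abs_self _)
        rw [hre, abs_of_nonneg (by positivity)]
        calc s * w.re ≤ s * 1 := mul_le_mul_of_nonneg_left hw1 hs.le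
          _ = s := mul_one s
      have h4 : Real.exp (-Real.log A * w.re) ≤ 1 := by
        rw [Real.exp_le_one_iff]
        have := mul_nonneg hlog hw0
        linarith
      calc _ ≤ |M| * 1 := mul_le_mul h3 h4 (Real.exp_pos _).le (abs_nonneg _)
        _ = |M| := mul_one _
    · intro w hw
      rw [hgn, hw, mul_zero, Real.exp_zero, mul_one]
      refine h0 _ ?_
      rw [hre, hw, mul_zero]
    · intro w hw
      rw [hgn, hw, mul_one, Real.exp_neg, Real.exp_log hA0]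
      have h3 := h1 (s * w) (by rw [hre, hw, mul_one, abs_of_pos hs])
      rw [← div_eq_mul_inv, div_le_iff₀ hA0]
      exact h3
  rcases le_total 0 ζ.re with h | h
  · rw [abs_of_nonneg h] at hζ ⊢
    exact key F hd hb h0 h1 ζ h hζ
  · rw [abs_of_nonpos h] at hζ ⊢
    have h3 := key (fun w => F (-w)) (hd.comp differentiable_neg) ?_ ?_ ?_ (-ζ) (by simpa using h)
      (by simpa using hζ)
    · simp only [neg_neg, Complex.neg_re] at h3
      exact h3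
    · obtain ⟨M, hM⟩ := hb
      exact ⟨M, fun w hw => hM _ (by simpa using hw)⟩
    · exact fun w hw => h0 _ (by simpa using hw)
    · exact fun w hw => h1 _ (by simpa using hw)

theorem exp_one_le_three : Real.exp 1 ≤ 3 := by
  have := Real.exp_one_lt_d9
  linarith

/-- Taylor coefficients from the strip -/
theorem strip_coeff {F : ℂ → ℂ} {x b c : ℂ} (hF : HasT2 F x b c) {s a A : ℝ} (hs : 0 < s)
    (hb : ∃ M, ∀ ζ : ℂ, |ζ.re| ≤ s → ‖F ζ‖ ≤ M) (ha : 0 ≤ a) (hA : 1 ≤ A)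
    (h0 : ∀ ζ : ℂ, ζ.re = 0 → ‖F ζ‖ ≤ a) (h1 : ∀ ζ : ℂ, |ζ.re| = s → ‖F ζ‖ ≤ a * A) :
    ‖b‖ ≤ 3 * a * ((1 + Real.log A) / s) ∧ ‖c‖ ≤ 3 * a * ((1 + Real.log A) / s) ^ 2 := by
  have hlog : 0 ≤ Real.log A := Real.log_nonneg hA
  set L : ℝ := 1 + Real.log A with hL
  have hL1 : 1 ≤ L := by linarith
  have hL0 : 0 < L := by linarith
  set R : ℝ := s / L with hR
  have hR0 : 0 < R := by positivity
  have hRs : R ≤ s := div_le_self hs.le hL1
  have hM : ∀ z : ℂ, ‖z‖ ≤ R → ‖F z‖ ≤ 3 * a := by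
    intro z hz
    have h2 : |z.re| ≤ R := (Complex.abs_re_le_norm z).trans hz
    refine (strip_interp hF.differentiable hs hb ha hA h0 h1 (h2.trans hRs)).trans ?_
    rw [mul_comm 3 a]
    refine mul_le_mul_of_nonneg_left ?_ ha
    refine le_trans (Real.exp_le_exp.2 ?_) exp_one_le_three
    have h3 : |z.re| / s ≤ 1 / L := by
      rw [div_le_div_iff₀ hs hL0]
      have : |z.re| * L ≤ s / L * L := mul_le_mul_of_nonneg_right h2 hL0.le
      rw [div_mul_cancel₀ _ hL0.ne'] at this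
      linarith
    calc Real.log A * (|z.re| / s) ≤ L * (1 / L) :=
          mul_le_mul (by linarith) h3 (by positivity) hL0.le
      _ = 1 := by field_simp
  have e1 : iteratedDeriv 1 F 0 = b := by
    obtain ⟨F', f1, f2, f3, f4⟩ := hF
    rw [iteratedDeriv_one, (f1 0).deriv, f3]
  have h3 := taylor_coeff hF.differentiable hR0 hM 1
  have h4 := taylor_coeff hF.differentiable hR0 hM 2
  have e2 : ((2 : ℕ).factorial : ℂ)⁻¹ * iteratedDeriv 2 F 0 = c := c2_of_T2 hF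
  rw [e2] at h4
  rw [e1, Nat.factorial_one, Nat.cast_one, inv_one, one_mul, pow_one] at h3
  constructor
  · refine h3.trans (le_of_eq ?_)
    rw [hR]
    field_simp
  · refine h4.trans (le_of_eq ?_)
    rw [hR]
    field_simp

end interp

section vec
variable {V : Type*} [Fintype V] [DecidableEq V] {q : ℕ}

/-- the functional `X ↦ ⟨u|X|ψ⟩` -/
noncomputable def ipL (u ψ : Conf V q → ℂ) : Op V q →L[ℂ] ℂ :=
  LinearMap.toContinuousLinearMap
    { toFun := fun X => star u ⬝ᵥ (X *ᵥ ψ)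
      map_add' := fun X Y => by rw [add_mulVec, dotProduct_add]
      map_smul' := fun c X => by rw [smul_mulVec, dotProduct_smul]; rfl }

theorem ipL_apply (u ψ : Conf V q → ℂ) (X : Op V q) : ipL u ψ X = star u ⬝ᵥ (X *ᵥ ψ) := rfl

theorem nrm_le_of_ip {v : Conf V q → ℂ} {C : ℝ} (hC : 0 ≤ C)
    (h : ‖star v ⬝ᵥ v‖ ≤ C * nrm v) : nrm v ≤ C := by
  have h1 : nrm v ^ 2 ≤ C * nrm v := by
    rw [nrm_sq]
    refine le_trans ?_ h
    rw [← ip_self_re]
    exact Complex.re_le_norm _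
  rcases (nrm_nonneg v).lt_or_eq with h2 | h2
  · have h3 : nrm v * nrm v ≤ C * nrm v := by rw [← sq]; exact h1
    exact le_of_mul_le_mul_right h3 h2
  · rw [← h2]; exact hC

/-- **Coefficients of a vector valued entire function.** -/
theorem vec_coeff {W : ℂ → Op V q} {x b c : Op V q} (hW : HasT2 W x b c) {ψ : Conf V q → ℂ}
    {s a A : ℝ} (hs : 0 < s) (hb : ∃ M, ∀ ζ : ℂ, |ζ.re| ≤ s → nrm (W ζ *ᵥ ψ) ≤ M) (ha : 0 ≤ a)
    (hA : 1 ≤ A) (h0 : ∀ ζ : ℂ, ζ.re = 0 → nrm (W ζ *ᵥ ψ) ≤ a)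
    (h1 : ∀ ζ : ℂ, |ζ.re| = s → nrm (W ζ *ᵥ ψ) ≤ a * A) :
    nrm (b *ᵥ ψ) ≤ 3 * a * ((1 + Real.log A) / s) ∧
      nrm (c *ᵥ ψ) ≤ 3 * a * ((1 + Real.log A) / s) ^ 2 := by
  have hlog : 0 ≤ Real.log A := Real.log_nonneg hA
  have key : ∀ u : Conf V q → ℂ,
      ‖star u ⬝ᵥ (b *ᵥ ψ)‖ ≤ 3 * (nrm u * a) * ((1 + Real.log A) / s) ∧
      ‖star u ⬝ᵥ (c *ᵥ ψ)‖ ≤ 3 * (nrm u * a) * ((1 + Real.log A) / s) ^ 2 := by
    intro u
    have hu := nrm_nonneg u
    have hF : HasT2 (fun ζ => star u ⬝ᵥ (W ζ *ᵥ ψ)) (star u ⬝ᵥ (x *ᵥ ψ)) (star u ⬝ᵥ (b *ᵥ ψ))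
        (star u ⬝ᵥ (c *ᵥ ψ)) := hW.clm (ipL u ψ)
    refine strip_coeff hF hs ?_ (mul_nonneg hu ha) hA ?_ ?_
    · obtain ⟨M, hM⟩ := hb
      refine ⟨nrm u * M, fun ζ hζ => (nrm_ip_le u _).trans ?_⟩
      exact mul_le_mul_of_nonneg_left (hM ζ hζ) hu
    · intro ζ hζ
      exact (nrm_ip_le u _).trans (mul_le_mul_of_nonneg_left (h0 ζ hζ) hu)
    · intro ζ hζ
      refine (nrm_ip_le u _).trans ?_
      rw [mul_assoc]
      exact mul_le_mul_of_nonneg_left (h1 ζ hζ) hu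
  constructor
  · refine nrm_le_of_ip (by positivity) ?_
    refine (key _).1.trans (le_of_eq ?_)
    ring
  · refine nrm_le_of_ip (by positivity) ?_
    refine (key _).2.trans (le_of_eq ?_)
    ring

variable {ψ : Conf V q → ℂ} {f : ℝ → ℝ}

theorem EX_T2 (S : Finset V) (ψ : Conf V q → ℂ) (f : ℝ → ℝ) (α : ℂ) :
    HasT2 (fun z => EX S ψ f (α * z)) 1 (α • GX S ψ f)
      ((α ^ 2 / 2) • (GX S ψ f * GX S ψ f)) := by
  have hd : ∀ z : ℂ, HasDerivAt (fun z => EX S ψ f (α * z))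
      (α • (GX S ψ f * EX S ψ f (α * z))) z := by
    intro z
    have h1 : HasDerivAt (fun z : ℂ => α * z) α z := by
      simpa using (hasDerivAt_id z).const_mul α
    exact (EX_hasDerivAt S ψ f (α * z)).scomp z h1
  refine ⟨fun z => α • (GX S ψ f * EX S ψ f (α * z)), hd, ?_, ?_, ?_⟩
  · simp only
    rw [mul_zero, EX_zero]
  · simp only
    rw [mul_zero, EX_zero, mul_one]
  · have h2 := ((hd 0).const_mul (GX S ψ f)).const_smul α
    refine h2.congr_deriv ?_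
    rw [mul_zero, EX_zero, mul_one, mul_smul_comm, smul_smul, smul_smul]
    congr 1
    ring

/-- the pair `e^{ζ G_M} e^{-ζ G_R}` -/
noncomputable def pr (M R : Finset V) (ψ : Conf V q → ℂ) (f : ℝ → ℝ) (z : ℂ) : Op V q :=
  EX M ψ f z * EX R ψ f (-z)

/-- first and second coefficients of the pair -/
noncomputable def p1 (M R : Finset V) (ψ : Conf V q → ℂ) (f : ℝ → ℝ) : Op V q :=
  GX M ψ f - GX R ψ f
noncomputable def p2 (M R : Finset V) (ψ : Conf V q → ℂ) (f : ℝ → ℝ) : Op V q :=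
  (2 : ℂ)⁻¹ • (GX M ψ f * GX M ψ f) - GX M ψ f * GX R ψ f + (2 : ℂ)⁻¹ • (GX R ψ f * GX R ψ f)

theorem pr_T2 (M R : Finset V) (ψ : Conf V q → ℂ) (f : ℝ → ℝ) (σ : ℂ) :
    HasT2 (fun z => pr M R ψ f (σ * z)) 1 (σ • p1 M R ψ f) (σ ^ 2 • p2 M R ψ f) := by
  have h := (EX_T2 M ψ f σ).mul (EX_T2 R ψ f (-σ))
  have e : (fun z : ℂ => pr M R ψ f (σ * z)) =
      fun z => EX M ψ f (σ * z) * EX R ψ f (-σ * z) := by
    funext z
    rw [pr, neg_mul]
  rw [e]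
  refine h.congr (one_mul _) ?_ ?_
  · rw [p1, one_mul, mul_one, smul_sub, neg_smul]
    abel
  · rw [p2, one_mul, mul_one, smul_add, smul_sub, smul_smul, smul_smul, smul_mul_assoc,
      mul_smul_comm, smul_smul]
    have e1 : (-σ) ^ 2 / 2 = σ ^ 2 * 2⁻¹ := by ring
    have e2 : σ ^ 2 / 2 = σ ^ 2 * 2⁻¹ := by ring
    have e3 : σ * -σ = -σ ^ 2 := by ring
    rw [e1, e2, e3, neg_smul]
    abel

theorem pr_acts {M R : Finset V} (hMR : M ⊆ R) (ψ : Conf V q → ℂ) (f : ℝ → ℝ) (z : ℂ) :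
    ActsOn R (pr M R ψ f z) := ph_acts_mul (ph_acts_mono hMR (EX_acts M ψ f z)) (EX_acts R ψ f _)

theorem pr_norm (M R : Finset V) (ψ : Conf V q → ℂ) (f : ℝ → ℝ) (z : ℂ) :
    ‖pr M R ψ f z‖ ≤ Real.exp (|z.re| * (Ec M ψ f + Ec R ψ f)) := by
  refine (norm_mul_le _ _).trans ?_
  rw [mul_add, Real.exp_add]
  refine mul_le_mul (EX_norm_le M ψ f z) ?_ (norm_nonneg _) (Real.exp_pos _).le
  have h := EX_norm_le R ψ f (-z)
  rwa [Complex.neg_re, abs_neg] at h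

theorem pr_norm_re0 (M R : Finset V) (ψ : Conf V q → ℂ) (f : ℝ → ℝ) {z : ℂ} (hz : z.re = 0) :
    ‖pr M R ψ f z‖ ≤ 1 := by
  have h := pr_norm M R ψ f z
  rwa [hz, abs_zero, zero_mul, Real.exp_zero] at h

theorem nrm_contr {A : Op V q} (hA : ‖A‖ ≤ 1) (u : Conf V q → ℂ) : nrm (A *ᵥ u) ≤ nrm u := by
  refine (nrm_mulVec_le A u).trans ?_
  have := mul_le_mul_of_nonneg_right hA (nrm_nonneg u)
  linarith

theorem nrm_psi (hψ : nsq ψ = 1) : nrm ψ = 1 := by rw [nrm, hψ, Real.sqrt_one]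

theorem pr_bdd (M R : Finset V) (ψ : Conf V q → ℂ) (f : ℝ → ℝ) (s : ℝ) :
    ∃ C, ∀ ζ : ℂ, |ζ.re| ≤ s → ‖pr M R ψ f ζ‖ ≤ C := by
  refine ⟨Real.exp (s * (Ec M ψ f + Ec R ψ f)), fun ζ hζ => (pr_norm M R ψ f ζ).trans ?_⟩
  refine Real.exp_le_exp.2 (mul_le_mul_of_nonneg_right hζ ?_)
  exact add_nonneg (Ec_nonneg _ _ _) (Ec_nonneg _ _ _)

/-- the edges, both sides -/
theorem pr_edge (hψ : nsq ψ = 1) (hf : ∀ p, 0 ≤ p → p ≤ Real.exp (f p)) {M R : Finset V}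
    (hMR : M ⊆ R) {K : ℝ} (hKM : ∑ i, Real.exp (f (eigp (ψ ∘ (cut M q).symm) i)) ≤ K)
    (hKR : ∑ i, Real.exp (f (eigp (ψ ∘ (cut R q).symm) i)) ≤ K) {z : ℂ}
    (hz : |z.re| = 1 / 2) :
    nrm (pr M R ψ f z *ᵥ ψ) ≤ Real.sqrt (K * (q : ℝ) ^ (R \ M).card) := by
  refine Real.sqrt_le_sqrt ?_
  rcases le_total 0 z.re with h | h
  · rw [abs_of_nonneg h] at hz
    exact edge_right hψ hf hMR hKM hz
  · rw [abs_of_nonpos h] at hz
    exact edge_left hψ hf hMR hKR (by linarith)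

theorem le_sqrt_of_one_le {K : ℝ} (hK : 1 ≤ K) : 1 ≤ Real.sqrt K := by
  rw [show (1 : ℝ) = Real.sqrt 1 by simp]
  exact Real.sqrt_le_sqrt hK

theorem log_sqrt_le {K : ℝ} (hK : 1 ≤ K) :
    1 + Real.log (Real.sqrt K) ≤ 1 + Real.log K := by
  rw [Real.log_sqrt (by linarith)]
  have := Real.log_nonneg hK
  linarith

/-- **The kappa bounds**, one region. -/
theorem kap_one (hψ : nsq ψ = 1) (hf : ∀ p, 0 ≤ p → p ≤ Real.exp (f p)) {M R : Finset V}
    (hMR : M ⊆ R) {K : ℝ} (hKM : ∑ i, Real.exp (f (eigp (ψ ∘ (cut M q).symm) i)) ≤ K)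
    (hKR : ∑ i, Real.exp (f (eigp (ψ ∘ (cut R q).symm) i)) ≤ K)
    (hK : 1 ≤ K * (q : ℝ) ^ (R \ M).card) :
    nrm (p1 M R ψ f *ᵥ ψ) ≤ 6 * (1 + Real.log (K * (q : ℝ) ^ (R \ M).card)) ∧
      nrm (p2 M R ψ f *ᵥ ψ) ≤ 12 * (1 + Real.log (K * (q : ℝ) ^ (R \ M).card)) ^ 2 := by
  set A : ℝ := K * (q : ℝ) ^ (R \ M).card with hA
  have hW := pr_T2 M R ψ f 1
  have h := vec_coeff (W := fun z => pr M R ψ f (1 * z)) hW (ψ := ψ) (s := 1 / 2) (a := 1)
    (A := Real.sqrt A) (by norm_num) ?_ zero_le_one (le_sqrt_of_one_le hK) ?_ ?_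
  · have hl := log_sqrt_le hK
    have hl0 : 0 ≤ Real.log (Real.sqrt A) := Real.log_nonneg (le_sqrt_of_one_le hK)
    rw [one_smul, one_pow, one_smul] at h
    refine ⟨h.1.trans ?_, h.2.trans ?_⟩
    · have : (1 + Real.log (Real.sqrt A)) / (1 / 2) = 2 * (1 + Real.log (Real.sqrt A)) := by ring
      rw [this]
      linarith
    · have : 3 * 1 * ((1 + Real.log (Real.sqrt A)) / (1 / 2)) ^ 2 =
          12 * (1 + Real.log (Real.sqrt A)) ^ 2 := by ring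
      rw [this]
      have h3 := pow_le_pow_left₀ (by linarith : (0:ℝ) ≤ 1 + Real.log (Real.sqrt A)) hl 2
      linarith
  · obtain ⟨C, hC⟩ := pr_bdd M R ψ f (1 / 2)
    refine ⟨C, fun ζ hζ => ?_⟩
    simp only [one_mul]
    refine (nrm_mulVec_le _ _).trans ?_
    rw [nrm_psi hψ, mul_one]
    exact hC ζ hζ
  · intro ζ hζ
    simp only [one_mul]
    refine (nrm_contr (pr_norm_re0 M R ψ f hζ) ψ).trans ?_
    rw [nrm_psi hψ]
  · intro ζ hζ
    simp only [one_mul]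
    exact pr_edge hψ hf hMR hKM hKR hζ

/-- **The kappa bound**, two disjoint regions. -/
theorem kap_prod (hψ : nsq ψ = 1) (hf : ∀ p, 0 ≤ p → p ≤ Real.exp (f p))
    {M R M' R' : Finset V} (hMR : M ⊆ R) (hMR' : M' ⊆ R') (hd : Disjoint R R') {K : ℝ}
    (hKM : ∑ i, Real.exp (f (eigp (ψ ∘ (cut M q).symm) i)) ≤ K)
    (hKR : ∑ i, Real.exp (f (eigp (ψ ∘ (cut R q).symm) i)) ≤ K)
    (hKM' : ∑ i, Real.exp (f (eigp (ψ ∘ (cut M' q).symm) i)) ≤ K)
    (hKR' : ∑ i, Real.exp (f (eigp (ψ ∘ (cut R' q).symm) i)) ≤ K) {A : ℝ} (hA1 : 1 ≤ A)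
    (hA : K * (q : ℝ) ^ (R \ M).card ≤ A) (hA' : K * (q : ℝ) ^ (R' \ M').card ≤ A) :
    nrm ((p1 M R ψ f * p1 M' R' ψ f) *ᵥ ψ) ≤ 48 * (1 + Real.log A) ^ 2 := by
  -- the two variable function
  have hedge : ∀ z0 z1 : ℂ, |z0.re| + |z1.re| ≤ 1 / 2 →
      nrm ((pr M R ψ f z0 * pr M' R' ψ f z1) *ᵥ ψ) ≤ Real.sqrt A := by
    intro z0 z1 hz
    have hsA : 0 ≤ Real.sqrt A := Real.sqrt_nonneg _
    have hsA1 := le_sqrt_of_one_le hA1
    refine nrm_le_of_ip hsA ?_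
    set u : Conf V q → ℂ := (pr M R ψ f z0 * pr M' R' ψ f z1) *ᵥ ψ with hu
    have hun := nrm_nonneg u
    set F : (ℕ → ℂ) → ℂ := fun z => star u ⬝ᵥ ((pr M R ψ f (z 0) * pr M' R' ψ f (z 1)) *ᵥ ψ)
      with hF
    have hdp : ∀ (X Y : Finset V) (a d : ℂ),
        Differentiable ℂ (fun ζ : ℂ => pr X Y ψ f (a + ζ * d)) := by
      intro X Y a d
      have h1 : Differentiable ℂ (fun z : ℂ => EX X ψ f z) :=
        fun z => (EX_hasDerivAt X ψ f z).differentiableAt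
      have h2 : Differentiable ℂ (fun z : ℂ => EX Y ψ f z) :=
        fun z => (EX_hasDerivAt Y ψ f z).differentiableAt
      have h3 : Differentiable ℂ (fun ζ : ℂ => EX X ψ f (a + ζ * d)) :=
        h1.comp (by fun_prop)
      have h4 : Differentiable ℂ (fun ζ : ℂ => EX Y ψ f (-(a + ζ * d))) :=
        h2.comp (by fun_prop)
      exact h3.mul h4
    have hN : Nice 2 F := by
      refine ⟨fun a d => ?_, fun S => ?_⟩
      · have h1 := (hdp M R (a 0) (d 0)).mul (hdp M' R' (a 1) (d 1))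
        exact (ipL u ψ).differentiable.comp h1
      · obtain ⟨C, hC⟩ := pr_bdd M R ψ f S
        obtain ⟨C', hC'⟩ := pr_bdd M' R' ψ f S
        refine ⟨nrm u * (|C| * |C'|), fun z hz => (nrm_ip_le u _).trans ?_⟩
        refine mul_le_mul_of_nonneg_left ?_ hun
        refine (nrm_mulVec_le _ _).trans ?_
        rw [nrm_psi hψ, mul_one]
        refine (norm_mul_le _ _).trans ?_
        exact mul_le_mul ((hC _ (hz 0 (by norm_num))).trans (le_abs_self _))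
          ((hC' _ (hz 1 (by norm_num))).trans (le_abs_self _)) (norm_nonneg _) (abs_nonneg _)
    have hcomm : ∀ z0 z1 : ℂ, pr M R ψ f z0 * pr M' R' ψ f z1 =
        pr M' R' ψ f z1 * pr M R ψ f z0 := fun z0 z1 =>
      ph_acts_comm hd (pr_acts hMR ψ f z0) (pr_acts hMR' ψ f z1)
    have h := hN.tube (C := Real.sqrt A * nrm u) (r := 1 / 2) (by norm_num) ?_ ?_ ?_
      (z := fun k => if k = 0 then z0 else z1) ?_
    · exact h
    · intro z z' hzz
      rw [hF]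
      simp only [hzz 0 (by norm_num), hzz 1 (by norm_num)]
    · intro z hz
      refine (nrm_ip_le u _).trans ?_
      rw [mul_comm]
      refine mul_le_mul_of_nonneg_right ?_ hun
      rw [← Matrix.mulVec_mulVec]
      refine (nrm_contr (pr_norm_re0 M R ψ f (hz 0)) _).trans ?_
      refine (nrm_contr (pr_norm_re0 M' R' ψ f (hz 1)) _).trans ?_
      rw [nrm_psi hψ]
      exact hsA1
    · intro z k hk hz hz'
      refine (nrm_ip_le u _).trans ?_
      rw [mul_comm]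
      refine mul_le_mul_of_nonneg_right ?_ hun
      have hk' : k = 0 ∨ k = 1 := by omega
      rcases hk' with rfl | rfl
      · rw [hcomm, ← Matrix.mulVec_mulVec]
        refine (nrm_contr (pr_norm_re0 M' R' ψ f (hz' 1 (by norm_num))) _).trans ?_
        refine (pr_edge hψ hf hMR hKM hKR hz).trans (Real.sqrt_le_sqrt hA)
      · rw [← Matrix.mulVec_mulVec]
        refine (nrm_contr (pr_norm_re0 M R ψ f (hz' 0 (by norm_num))) _).trans ?_
        refine (pr_edge hψ hf hMR' hKM' hKR' hz).trans (Real.sqrt_le_sqrt hA')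
    · rw [Finset.sum_range_succ, Finset.sum_range_one]
      simpa using hz
  -- the two directions
  have hdir : ∀ σ : ℂ, |σ.re| = 1 → σ.im = 0 →
      nrm ((σ ^ 2 • p2 M' R' ψ f + p1 M R ψ f * (σ • p1 M' R' ψ f) + p2 M R ψ f) *ᵥ ψ) ≤
        48 * (1 + Real.log A) ^ 2 := by
    intro σ hσ hσi
    have hsre : ∀ ζ : ℂ, |(σ * ζ).re| = |ζ.re| := by
      intro ζ
      rw [Complex.mul_re, hσi, zero_mul, sub_zero, abs_mul, hσ, one_mul]
    have hW := (pr_T2 M R ψ f 1).mul (pr_T2 M' R' ψ f σ)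
    have h := vec_coeff (W := fun z => pr M R ψ f (1 * z) * pr M' R' ψ f (σ * z)) hW (ψ := ψ)
      (s := 1 / 4) (a := 1) (A := Real.sqrt A) (by norm_num) ?_ zero_le_one
      (le_sqrt_of_one_le hA1) ?_ ?_
    · have h2 := h.2
      rw [one_mul, mul_one, one_smul, one_pow, one_smul] at h2
      refine h2.trans ?_
      have hl := log_sqrt_le hA1
      have hl0 : 0 ≤ Real.log (Real.sqrt A) := Real.log_nonneg (le_sqrt_of_one_le hA1)
      have : 3 * 1 * ((1 + Real.log (Real.sqrt A)) / (1 / 4)) ^ 2 =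
          48 * (1 + Real.log (Real.sqrt A)) ^ 2 := by ring
      rw [this]
      have h3 := pow_le_pow_left₀ (by linarith : (0:ℝ) ≤ 1 + Real.log (Real.sqrt A)) hl 2
      linarith
    · refine ⟨Real.sqrt A, fun ζ hζ => ?_⟩
      simp only [one_mul]
      refine hedge _ _ ?_
      rw [hsre]
      linarith
    · intro ζ hζ
      simp only [one_mul]
      rw [← Matrix.mulVec_mulVec]
      refine (nrm_contr (pr_norm_re0 M R ψ f hζ) _).trans ?_
      have h3 : (σ * ζ).re = 0 := by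
        have := hsre ζ
        rw [hζ, abs_zero] at this
        exact abs_eq_zero.1 this
      refine (nrm_contr (pr_norm_re0 M' R' ψ f h3) _).trans ?_
      rw [nrm_psi hψ]
    · intro ζ hζ
      simp only [one_mul]
      refine hedge _ _ ?_
      rw [hsre, hζ]
      norm_num
  have hp := hdir 1 (by simp) (by simp)
  have hm := hdir (-1) (by simp) (by simp)
  have e : (p1 M R ψ f * p1 M' R' ψ f) *ᵥ ψ =
      (2 : ℂ)⁻¹ • (((1 : ℂ) ^ 2 • p2 M' R' ψ f + p1 M R ψ f * ((1 : ℂ) • p1 M' R' ψ f) +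
        p2 M R ψ f) *ᵥ ψ - ((-1 : ℂ) ^ 2 • p2 M' R' ψ f + p1 M R ψ f * ((-1 : ℂ) • p1 M' R' ψ f) +
        p2 M R ψ f) *ᵥ ψ) := by
    rw [← Matrix.sub_mulVec, ← Matrix.smul_mulVec]
    congr 1
    have e1 : (-1 : ℂ) ^ 2 = 1 := by norm_num
    rw [e1, one_pow, one_smul, one_smul, neg_smul, one_smul, mul_neg]
    have e2 : p2 M' R' ψ f + p1 M R ψ f * p1 M' R' ψ f + p2 M R ψ f -
        (p2 M' R' ψ f + -(p1 M R ψ f * p1 M' R' ψ f) + p2 M R ψ f) =
        (2 : ℂ) • (p1 M R ψ f * p1 M' R' ψ f) := by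
      rw [two_smul]; abel
    rw [e2, smul_smul, inv_mul_cancel₀ two_ne_zero, one_smul]
  rw [e, nrm_smul]
  have h2 : ‖(2 : ℂ)⁻¹‖ = 1 / 2 := by simp
  rw [h2]
  have h3 := nrm_sub_le (((1 : ℂ) ^ 2 • p2 M' R' ψ f + p1 M R ψ f * ((1 : ℂ) • p1 M' R' ψ f) +
        p2 M R ψ f) *ᵥ ψ) (((-1 : ℂ) ^ 2 • p2 M' R' ψ f + p1 M R ψ f * ((-1 : ℂ) • p1 M' R' ψ f) +
        p2 M R ψ f) *ᵥ ψ)
  have h4 := h3.trans (add_le_add hp hm)
  have h5 := mul_le_mul_of_nonneg_left h4 (by norm_num : (0:ℝ) ≤ 1 / 2)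
  refine h5.trans (le_of_eq ?_)
  ring

end vec

end Vale.Agent.P356.GA.Kappa
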