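import Vale.Agent.P356.GA.Close749
import Mathlib.Analysis.Normed.Algebra.MatrixExponential
import Mathlib.Analysis.SpecialFunctions.Exponential

/-!
# GA, block KAPPA1 (helper660): mixed closeness

The modular flow of a region `R = E ∪ A` of a state `ψ` is compared with the flows of `E` and with
a fixed strictly positive operator `σ_A = exp (-KA)` on `A` and its marginal `σ_I = exp (-KI)` on
`I = E ∩ A`.
-/

set_option linter.all false

namespace Vale.Agent.P356.GA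

open Matrix Finset Vale.Agent.P356 Vale.Agent.P356.SV Vale.Agent.P356.Path Vale.Agent.P356.PH
open scoped BigOperators ComplexOrder Kronecker Matrix.Norms.L2Operator

section sz
variable {N : Type*} [Fintype N] [DecidableEq N]

/-- complex power of `exp (-K)` -/
noncomputable def sz (K : Matrix N N ℂ) (z : ℂ) : Matrix N N ℂ := NormedSpace.exp (-(z • K))

theorem sz_mul (K : Matrix N N ℂ) (z w : ℂ) : sz K z * sz K w = sz K (z + w) := by
  letI : NormedAlgebra ℚ (Matrix N N ℂ) := NormedAlgebra.restrictScalars ℚ ℝ (Matrix N N ℂ)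
  have hc : Commute (-(z • K)) (-(w • K)) :=
    (((Commute.refl K).smul_left z).smul_right w).neg_left.neg_right
  rw [sz, sz, sz, ← NormedSpace.exp_add_of_commute hc]
  congr 1
  rw [add_smul, neg_add]

theorem sz_zero (K : Matrix N N ℂ) : sz K 0 = 1 := by
  rw [sz, zero_smul, neg_zero, NormedSpace.exp_zero]

theorem sz_star {K : Matrix N N ℂ} (hK : K.IsHermitian) (z : ℂ) : (sz K z)ᴴ = sz K (star z) := by
  rw [sz, sz, ← Matrix.exp_conjTranspose, conjTranspose_neg, conjTranspose_smul, hK.eq]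

theorem sz_neg_mul (K : Matrix N N ℂ) (z : ℂ) : sz K (-z) * sz K z = 1 := by
  rw [sz_mul, neg_add_cancel, sz_zero]

theorem sz_mul_neg (K : Matrix N N ℂ) (z : ℂ) : sz K z * sz K (-z) = 1 := by
  rw [sz_mul, add_neg_cancel, sz_zero]

theorem sz_star_re0 {z : ℂ} (hz : z.re = 0) : star z = -z := by
  rw [Complex.star_def]
  apply Complex.ext
  · simp [hz]
  · simp

theorem sz_unit {K : Matrix N N ℂ} (hK : K.IsHermitian) {z : ℂ} (hz : z.re = 0) :
    (sz K z)ᴴ * sz K z = 1 := by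
  rw [sz_star hK, sz_star_re0 hz, sz_neg_mul]

theorem sz_nsq_iso {A : Matrix N N ℂ} (h : Aᴴ * A = 1) (ψ : N → ℂ) : nsq (A *ᵥ ψ) = nsq ψ := by
  have h1 : ((nsq (A *ᵥ ψ) : ℝ) : ℂ) = ((nsq ψ : ℝ) : ℂ) := by
    rw [← NA.na_spow_nsq_star, Matrix.star_mulVec, ← Matrix.dotProduct_mulVec,
      Matrix.mulVec_mulVec, h, Matrix.one_mulVec, NA.na_spow_nsq_star]
  exact_mod_cast h1

theorem sz_norm_iso {A : Matrix N N ℂ} (h : Aᴴ * A = 1) : ‖A‖ ≤ 1 := by
  refine ph_norm_le zero_le_one fun ψ => ?_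
  rw [one_pow, one_mul]
  exact (sz_nsq_iso h ψ).le

theorem sz_norm_re0 {K : Matrix N N ℂ} (hK : K.IsHermitian) {z : ℂ} (hz : z.re = 0) :
    ‖sz K z‖ ≤ 1 := sz_norm_iso (sz_unit hK hz)

theorem sz_hasDerivAt (K : Matrix N N ℂ) (z : ℂ) : HasDerivAt (sz K) (sz K z * -K) z := by
  letI : NormedAlgebra ℚ (Matrix N N ℂ) := NormedAlgebra.restrictScalars ℚ ℝ (Matrix N N ℂ)
  have h := hasDerivAt_exp_smul_const (𝕂 := ℂ) (-K) z
  have e : sz K = fun u : ℂ => NormedSpace.exp (u • (-K)) := by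
    funext u
    rw [sz, smul_neg]
  rw [e]
  exact h

theorem sz_neg_hasDerivAt (K : Matrix N N ℂ) (z : ℂ) :
    HasDerivAt (fun z => sz K (-z)) (sz K (-z) * K) z := by
  have h := (sz_hasDerivAt K (-z)).scomp z (hasDerivAt_neg z)
  refine h.congr_deriv ?_
  rw [neg_smul, one_smul, mul_neg, neg_neg]

theorem sz_continuous (K : Matrix N N ℂ) : Continuous (sz K) :=
  continuous_iff_continuousAt.2 fun z => (sz_hasDerivAt K z).continuousAt

/-- bounded on vertical strips -/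
theorem sz_bdd {K : Matrix N N ℂ} (hK : K.IsHermitian) :
    ∃ B : ℝ, 1 ≤ B ∧ ∀ z : ℂ, |z.re| ≤ 1 → ‖sz K z‖ ≤ B := by
  have hc : Continuous fun t : ℝ => ‖sz K (t : ℂ)‖ :=
    ((sz_continuous K).comp Complex.continuous_ofReal).norm
  obtain ⟨B, hB⟩ := (isCompact_Icc (a := (-1 : ℝ)) (b := 1)).bddAbove_image hc.continuousOn
  refine ⟨max B 1, le_max_right _ _, fun z hz => ?_⟩
  have h1 : sz K z = sz K (z.re : ℂ) * sz K ((z.im : ℂ) * Complex.I) := by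
    rw [sz_mul, Complex.re_add_im]
  have h2 : ‖sz K ((z.im : ℂ) * Complex.I)‖ ≤ 1 := sz_norm_re0 hK (by simp)
  have h3 : ‖sz K (z.re : ℂ)‖ ≤ B := hB ⟨z.re, abs_le.1 hz, rfl⟩
  rw [h1]
  calc _ ≤ ‖sz K (z.re : ℂ)‖ * ‖sz K ((z.im : ℂ) * Complex.I)‖ := norm_mul_le _ _
    _ ≤ ‖sz K (z.re : ℂ)‖ * 1 := mul_le_mul_of_nonneg_left h2 (norm_nonneg _)
    _ ≤ max B 1 := by rw [mul_one]; exact h3.trans (le_max_left _ _)

end sz

section eg
variable {V : Type*} [Fintype V] [DecidableEq V] {q : ℕ}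

theorem sz_acts {X : Finset V} {K : Op V q} (hK : ActsOn X K) (z : ℂ) : ActsOn X (sz K z) :=
  ph_acts_exp (ph_acts_neg (ph_acts_smul z hK))

/-- `exp (z g(ρ_S))` for the reduced state `ρ_S` of `ψ` -/
noncomputable def eg (S : Finset V) (ψ : Conf V q → ℂ) (g : ℝ → ℝ) (z : ℂ) : Op V q :=
  cr S ψ (fun i => Complex.exp (z * (g (eigp (ψ ∘ (cut S q).symm) i) : ℂ)))

/-- the generator `g(ρ_S)` -/
noncomputable def egd (S : Finset V) (ψ : Conf V q → ℂ) (g : ℝ → ℝ) : Op V q :=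
  cr S ψ (fun i => (g (eigp (ψ ∘ (cut S q).symm) i) : ℂ))

variable (S : Finset V) (ψ : Conf V q → ℂ) (g : ℝ → ℝ)

theorem eg_mul (z w : ℂ) : eg S ψ g z * eg S ψ g w = eg S ψ g (z + w) := by
  rw [eg, eg, cr_mul, eg]
  congr 1
  funext i
  rw [← Complex.exp_add, add_mul]

theorem eg_zero : eg S ψ g 0 = 1 := by
  rw [eg, ← cr_one S ψ]
  congr 1
  funext i
  rw [zero_mul, Complex.exp_zero]

theorem eg_star (z : ℂ) : (eg S ψ g z)ᴴ = eg S ψ g (star z) := by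
  rw [eg, cr_conj, eg]
  congr 1
  funext i
  rw [Complex.star_def, ← Complex.exp_conj, map_mul, Complex.conj_ofReal]

theorem eg_acts (z : ℂ) : ActsOn S (eg S ψ g z) := cr_acts S ψ _

theorem eg_unit {z : ℂ} (hz : z.re = 0) : (eg S ψ g z)ᴴ * eg S ψ g z = 1 := by
  rw [eg_star, sz_star_re0 hz, eg_mul, neg_add_cancel, eg_zero]

theorem eg_bdd : ∃ B : ℝ, 1 ≤ B ∧ ∀ z : ℂ, |z.re| ≤ 1 → ‖eg S ψ g z‖ ≤ B := by
  refine ⟨Real.exp (∑ i, |g (eigp (ψ ∘ (cut S q).symm) i)|), Real.one_le_exp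
    (Finset.sum_nonneg fun i _ => abs_nonneg _), fun z hz => ?_⟩
  refine cr_norm S ψ _ (Real.exp_pos _).le fun i => ?_
  rw [Complex.norm_exp]
  refine Real.exp_le_exp.2 ?_
  have h1 : (z * (g (eigp (ψ ∘ (cut S q).symm) i) : ℂ)).re =
      z.re * g (eigp (ψ ∘ (cut S q).symm) i) := by simp
  rw [h1]
  have h2 : z.re * g (eigp (ψ ∘ (cut S q).symm) i) ≤ |z.re| * |g (eigp (ψ ∘ (cut S q).symm) i)| := by
    rw [← abs_mul]
    exact le_abs_self _
  have h3 : |g (eigp (ψ ∘ (cut S q).symm) i)| ≤ ∑ i, |g (eigp (ψ ∘ (cut S q).symm) i)| :=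
    Finset.single_le_sum (f := fun i => |g (eigp (ψ ∘ (cut S q).symm) i)|)
      (fun j _ => abs_nonneg _) (Finset.mem_univ i)
  have h4 := abs_nonneg (g (eigp (ψ ∘ (cut S q).symm) i))
  calc _ ≤ |z.re| * |g (eigp (ψ ∘ (cut S q).symm) i)| := h2
    _ ≤ 1 * |g (eigp (ψ ∘ (cut S q).symm) i)| := mul_le_mul_of_nonneg_right hz h4
    _ ≤ _ := by rw [one_mul]; exact h3

theorem eg_hasDerivAt (z : ℂ) : HasDerivAt (eg S ψ g) (egd S ψ g * eg S ψ g z) z := by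
  have h1 : HasDerivAt (fun z : ℂ => (fun i => Complex.exp (z *
      (g (eigp (ψ ∘ (cut S q).symm) i) : ℂ)))) (fun i =>
        (g (eigp (ψ ∘ (cut S q).symm) i) : ℂ) * Complex.exp (z *
      (g (eigp (ψ ∘ (cut S q).symm) i) : ℂ))) z :=
    hasDerivAt_pi.2 fun i => by
      have h2 : HasDerivAt (fun z : ℂ => z * (g (eigp (ψ ∘ (cut S q).symm) i) : ℂ))
          (g (eigp (ψ ∘ (cut S q).symm) i) : ℂ) z := by
        simpa using (hasDerivAt_id z).mul_const (g (eigp (ψ ∘ (cut S q).symm) i) : ℂ)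
      refine h2.cexp.congr_deriv ?_
      ring
  have h3 := ((crL S ψ).toContinuousLinearMap).hasFDerivAt.comp_hasDerivAt z h1
  refine h3.congr_deriv ?_
  rw [egd, eg, cr_mul]
  rfl

theorem eg_neg_hasDerivAt (z : ℂ) :
    HasDerivAt (fun z => eg S ψ g (-z)) (-(egd S ψ g * eg S ψ g (-z))) z := by
  have h := (eg_hasDerivAt S ψ g (-z)).scomp z (hasDerivAt_neg z)
  refine h.congr_deriv ?_
  rw [neg_smul, one_smul]

theorem UU_eq_eg (s : ℝ) : UU S ψ s = eg S ψ Real.log ((s : ℂ) * Complex.I) := by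
  rw [UU, eg]
  congr 1
  funext i
  congr 1
  push_cast
  ring

/-- `Tr (f(ρ_S) X^* X) ≤ Tr (X^* X)` for `0 ≤ f ≤ 1` -/
theorem cr_trace_le (f : ({x // x ∈ S} → Fin q) → ℝ) (h1 : ∀ i, f i ≤ 1) (X : Op V q) :
    ((cr S ψ (fun i => (f i : ℂ)) * (Xᴴ * X)).trace).re ≤ ((Xᴴ * X).trace).re := by
  set T : Op V q := cr S ψ (fun i => ((Real.sqrt (1 - f i) : ℝ) : ℂ)) with hT
  have h2 : T * Tᴴ = 1 - cr S ψ (fun i => (f i : ℂ)) := by
    rw [hT, cr_conj, cr_mul, ← cr_one S ψ, cr_sub]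
    congr 1
    funext i
    rw [Complex.star_def, Complex.conj_ofReal, ← Complex.ofReal_mul,
      Real.mul_self_sqrt (by linarith [h1 i])]
    push_cast
    ring
  have h3 := tr_star_nonneg (X * T)
  have h4 : ((X * T)ᴴ * (X * T)).trace = (Xᴴ * X).trace -
      (cr S ψ (fun i => (f i : ℂ)) * (Xᴴ * X)).trace := by
    rw [conjTranspose_mul]
    calc (Tᴴ * Xᴴ * (X * T)).trace = (Tᴴ * ((Xᴴ * X) * T)).trace := by
          simp only [Matrix.mul_assoc]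
      _ = (((Xᴴ * X) * T) * Tᴴ).trace := Matrix.trace_mul_comm _ _
      _ = ((Xᴴ * X) * (T * Tᴴ)).trace := by simp only [Matrix.mul_assoc]
      _ = _ := by
        rw [h2, mul_sub, mul_one, Matrix.trace_sub, Matrix.trace_mul_comm]
        congr 1
        exact Matrix.trace_mul_comm _ _
  rw [h4, Complex.sub_re] at h3
  linarith

end eg

section mix
variable {V : Type*} [Fintype V] [DecidableEq V] {q : ℕ}

/-- the data of the mixed closeness lemma: `exp (-KI)` is the marginal of `exp (-KA)` on `E ∩ A` -/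
structure MixData (E A : Finset V) (KA KI : Op V q) : Prop where
  hA : KA.IsHermitian
  hI : KI.IsHermitian
  aA : ActsOn A KA
  aI : ActsOn (E ∩ A) KI
  cons : ∀ Y : Op V q, ActsOn (E ∩ A) Y →
    (sz KA 1 * Y).trace * dO q (E ∩ A) = (sz KI 1 * Y).trace * dO q A

/-- the operator on the strip -/
noncomputable def vK (E A : Finset V) (KA KI : Op V q) (g : ℝ → ℝ) (ψ : Conf V q → ℂ) (z : ℂ) :
    Op V q :=
  PP E ψ z * sz KI (-z) * sz KA z * eg (E ∪ A) ψ g (-z)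

theorem k660_re_half {z : ℂ} (hz : z.re = 1 / 2) : z + star z = 1 := by
  rw [Complex.star_def]
  apply Complex.ext
  · simp [hz]; norm_num
  · simp

theorem vK_edge {E A : Finset V} {KA KI : Op V q} (D : MixData E A KA KI) {g : ℝ → ℝ}
    (hg : ∀ p, 0 ≤ p → p ≤ Real.exp (g p)) {ψ : Conf V q → ℂ} (hψ : nsq ψ = 1) {z : ℂ}
    (hz : z.re = 1 / 2) : nsq (vK E A KA KI g ψ z *ᵥ ψ) ≤ 1 := by
  have hzz := k660_re_half hz
  set X : Op V q := PP E ψ z * sz KI (-z) * sz KA z with hX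
  set P : Op V q := eg (E ∪ A) ψ g (-z) with hP
  have hXact : ActsOn (E ∪ A) X := ph_acts_mul (ph_acts_mul
    (ph_acts_mono Finset.subset_union_left (PP_acts E ψ z))
    (ph_acts_mono (Finset.inter_subset_left.trans Finset.subset_union_left) (sz_acts D.aI _)))
    (ph_acts_mono Finset.subset_union_right (sz_acts D.aA z))
  have hPact : ActsOn (E ∪ A) P := eg_acts (E ∪ A) ψ g (-z)
  obtain ⟨nR, hR0, hR⟩ := dO_pos hψ (E ∪ A)
  obtain ⟨nI, hI0, hI⟩ := dO_pos hψ (E ∩ A)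
  obtain ⟨nE, hE0, hE⟩ := dO_pos hψ E
  obtain ⟨nA, hA0, hA⟩ := dO_pos hψ A
  have hcard : (nA : ℝ) * nE = nR * nI := by
    have := dO_inter_union (q := q) E A
    rw [hR, hI, hE, hA] at this
    exact_mod_cast this
  have hnegstar : star (-z) = -star z := star_neg z
  -- step 1
  have h1 : (nR : ℝ) * nsq (vK E A KA KI g ψ z *ᵥ ψ) ≤ ((Xᴴ * X).trace).re := by
    have e1 := trace_rho (E ∪ A) ψ (X := (X * P)ᴴ * (X * P))
      (ph_acts_mul (ph_acts_star (ph_acts_mul hXact hPact)) (ph_acts_mul hXact hPact))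
    rw [← nsq_mulVec_eq, hR] at e1
    set f : ({x // x ∈ E ∪ A} → Fin q) → ℝ := fun i =>
      eigp (ψ ∘ (cut (E ∪ A) q).symm) i * Real.exp (-g (eigp (ψ ∘ (cut (E ∪ A) q).symm) i))
      with hf
    have e2 : P * opOn (E ∪ A) (rdm (E ∪ A) ψ) * Pᴴ =
        cr (E ∪ A) ψ (fun i => (f i : ℂ)) := by
      rw [← cr_rho, hP, eg_star, eg, eg, cr_mul, cr_mul]
      congr 1
      funext i
      rw [hf]
      simp only
      rw [mul_right_comm, ← Complex.exp_add, ← add_mul, hnegstar]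
      have : -z + -star z = -1 := by linear_combination -hzz
      rw [this]
      push_cast
      ring_nf
    have e3 : (opOn (E ∪ A) (rdm (E ∪ A) ψ) * ((X * P)ᴴ * (X * P))).trace =
        (cr (E ∪ A) ψ (fun i => (f i : ℂ)) * (Xᴴ * X)).trace := by
      rw [← e2, conjTranspose_mul]
      calc (opOn (E ∪ A) (rdm (E ∪ A) ψ) * (Pᴴ * Xᴴ * (X * P))).trace =
          ((opOn (E ∪ A) (rdm (E ∪ A) ψ) * Pᴴ * (Xᴴ * X)) * P).trace := by
            simp only [Matrix.mul_assoc]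
        _ = (P * (opOn (E ∪ A) (rdm (E ∪ A) ψ) * Pᴴ * (Xᴴ * X))).trace :=
            Matrix.trace_mul_comm _ _
        _ = _ := by simp only [Matrix.mul_assoc]
    rw [e3] at e1
    have e4 := congrArg Complex.re e1
    have : ((nR : ℂ) * ((nsq ((X * P) *ᵥ ψ) : ℝ) : ℂ)) = ((nR * nsq ((X * P) *ᵥ ψ) : ℝ) : ℂ) := by
      push_cast; ring
    rw [this, Complex.ofReal_re] at e4
    have e5 : nR * nsq (vK E A KA KI g ψ z *ᵥ ψ) = nR * nsq ((X * P) *ᵥ ψ) := rfl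
    rw [e5, ← e4]
    refine cr_trace_le (E ∪ A) ψ f (fun i => ?_) X
    have hp := eigp_nonneg (ψ ∘ (cut (E ∪ A) q).symm) i
    have h2 := hg _ hp
    rw [hf]
    simp only
    rw [Real.exp_neg, ← div_eq_mul_inv, div_le_one (Real.exp_pos _)]
    exact h2
  -- step 3
  set X' : Op V q := sz KI (-z) * sz KA 1 * sz KI (star (-z)) with hX'
  have h3 : (Xᴴ * X).trace = (opOn E (rdm E ψ) * X').trace := by
    rw [hX, conjTranspose_mul, conjTranspose_mul, PP_star, sz_star D.hI, sz_star D.hA, ← PP_one]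
    calc (sz KA (star z) * (sz KI (star (-z)) * PP E ψ (star z)) *
        (PP E ψ z * sz KI (-z) * sz KA z)).trace =
        ((sz KA (star z) * sz KI (star (-z))) *
          ((PP E ψ (star z) * PP E ψ z) * (sz KI (-z) * sz KA z))).trace := by
          simp only [Matrix.mul_assoc]
      _ = (((PP E ψ (star z) * PP E ψ z) * (sz KI (-z) * sz KA z)) *
          (sz KA (star z) * sz KI (star (-z)))).trace := Matrix.trace_mul_comm _ _
      _ = ((PP E ψ (star z) * PP E ψ z) * (sz KI (-z) * (sz KA z * sz KA (star z)) *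
          sz KI (star (-z)))).trace := by simp only [Matrix.mul_assoc]
      _ = _ := by
          rw [PP_mul, sz_mul, hX', hzz, add_comm (star z) z, hzz]
  have hX'act : ActsOn A X' := ph_acts_mul (ph_acts_mul
    (ph_acts_mono Finset.inter_subset_right (sz_acts D.aI _)) (sz_acts D.aA 1))
    (ph_acts_mono Finset.inter_subset_right (sz_acts D.aI _))
  have hdis : Disjoint E (A \ (E ∩ A)) := by
    rw [Finset.disjoint_left]
    intro x hx hx'
    rw [Finset.mem_sdiff, Finset.mem_inter] at hx'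
    exact hx'.2 ⟨hx, hx'.1⟩
  have h4 := trace_marg (Finset.inter_subset_left) (Finset.inter_subset_right) hdis ψ hX'act
  rw [hI, hE] at h4
  -- step 5
  set Y : Op V q := sz KI (star (-z)) * PP (E ∩ A) ψ 1 * sz KI (-z) with hY
  have hYact : ActsOn (E ∩ A) Y := ph_acts_mul (ph_acts_mul (sz_acts D.aI _)
    (PP_acts (E ∩ A) ψ 1)) (sz_acts D.aI _)
  have h5 : (opOn (E ∩ A) (rdm (E ∩ A) ψ) * X').trace = (sz KA 1 * Y).trace := by
    rw [← PP_one, hX', hY]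
    calc (PP (E ∩ A) ψ 1 * (sz KI (-z) * sz KA 1 * sz KI (star (-z)))).trace =
        ((PP (E ∩ A) ψ 1 * sz KI (-z)) * (sz KA 1 * sz KI (star (-z)))).trace := by
          simp only [Matrix.mul_assoc]
      _ = ((sz KA 1 * sz KI (star (-z))) * (PP (E ∩ A) ψ 1 * sz KI (-z))).trace :=
          Matrix.trace_mul_comm _ _
      _ = _ := by simp only [Matrix.mul_assoc]
  have h6 : (sz KI 1 * Y).trace = nI := by
    have e1 : (sz KI 1 * Y).trace = (opOn (E ∩ A) (rdm (E ∩ A) ψ) * 1).trace := by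
      rw [← PP_one, hY, mul_one]
      calc (sz KI 1 * (sz KI (star (-z)) * PP (E ∩ A) ψ 1 * sz KI (-z))).trace =
          ((sz KI 1 * sz KI (star (-z)) * PP (E ∩ A) ψ 1) * sz KI (-z)).trace := by
            simp only [Matrix.mul_assoc]
        _ = (sz KI (-z) * (sz KI 1 * sz KI (star (-z)) * PP (E ∩ A) ψ 1)).trace :=
            Matrix.trace_mul_comm _ _
        _ = (sz KI (-z) * (sz KI 1 * sz KI (star (-z))) * PP (E ∩ A) ψ 1).trace := by
            simp only [Matrix.mul_assoc]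
        _ = _ := by
            rw [sz_mul, sz_mul, hnegstar]
            have : -z + (1 + -star z) = 0 := by linear_combination -hzz
            rw [this, sz_zero, one_mul]
    rw [e1, trace_rho (E ∩ A) ψ (ph_acts_one _), Matrix.one_mulVec, NA.na_spow_nsq_star, hψ, hI]
    simp
  have h7 := D.cons Y hYact
  rw [hI, hA, h6] at h7
  have hnI : (nI : ℂ) ≠ 0 := by exact_mod_cast hI0.ne'
  have h8 : (sz KA 1 * Y).trace = nA := by
    have : (sz KA 1 * Y).trace * (nI : ℂ) = (nA : ℂ) * nI := by rw [h7, mul_comm]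
    exact mul_right_cancel₀ hnI this
  rw [h5, h8, ← h3] at h4
  have h9 : ((Xᴴ * X).trace).re * nI = nA * nE := by
    have := congrArg Complex.re h4
    simpa using this
  have h10 : ((Xᴴ * X).trace).re = nR := by
    rw [hcard] at h9
    have : (0 : ℝ) < nI := by exact_mod_cast hI0
    exact mul_right_cancel₀ this.ne' h9
  rw [h10] at h1
  have hR0' : (0 : ℝ) < nR := by exact_mod_cast hR0
  nlinarith

/-- a function on the strip as in `strip_ineq` -/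
structure StripF (φ : ℂ → ℂ) (K : ℝ) : Prop where
  diff : Differentiable ℂ φ
  bd : ∀ z : ℂ, 0 ≤ z.re → z.re ≤ 1 / 2 → ‖φ z‖ ≤ 1
  one : φ 0 = 1
  der : deriv φ 0 = ((-K : ℝ) : ℂ)

theorem StripF.avg {φ₁ φ₂ : ℂ → ℂ} {K₁ K₂ : ℝ} (h₁ : StripF φ₁ K₁) (h₂ : StripF φ₂ K₂) :
    StripF (fun z => (φ₁ z + φ₂ z) / 2) ((K₁ + K₂) / 2) where
  diff := (h₁.diff.add h₂.diff).div_const 2
  bd := fun z a b => by
    rw [norm_div, Complex.norm_ofNat]
    have e1 := h₁.bd z a b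
    have e2 := h₂.bd z a b
    have e3 := norm_add_le (φ₁ z) (φ₂ z)
    linarith
  one := by rw [h₁.one, h₂.one]; norm_num
  der := by
    have e1 : HasDerivAt φ₁ ((-K₁ : ℝ) : ℂ) 0 := by
      rw [← h₁.der]; exact (h₁.diff 0).hasDerivAt
    have e2 : HasDerivAt φ₂ ((-K₂ : ℝ) : ℂ) 0 := by
      rw [← h₂.der]; exact (h₂.diff 0).hasDerivAt
    have e3 := ((e1.add e2).div_const 2).deriv
    have e4 : (fun z => (φ₁ z + φ₂ z) / 2) = fun z => (φ₁ + φ₂) z / 2 := rfl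
    rw [e4, e3]
    push_cast
    ring

theorem StripF.re_le {φ : ℂ → ℂ} {K : ℝ} (H : StripF φ K) (s : ℝ) :
    0 ≤ 1 - (φ ((s : ℂ) * Complex.I)).re := by
  have := (Complex.re_le_norm _).trans (H.bd ((s : ℂ) * Complex.I) (by simp) (by simp))
  linarith

theorem StripF.ineq {φ : ℂ → ℂ} {K : ℝ} (H : StripF φ K) {h : ℝ} (h0 : 0 < h) (h1 : h ≤ 1) :
    ∃ y ∈ Set.Icc (h / 2) h, (1 - (φ ((y : ℂ) * Complex.I)).re) +
      (1 - (φ (((-y : ℝ) : ℂ) * Complex.I)).re) ≤ 2 * Real.pi * Real.cosh Real.pi ^ 2 * h * K :=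
  strip_ineq H.diff H.bd H.one H.der h0 h1

theorem StripF.nonneg {φ : ℂ → ℂ} {K : ℝ} (H : StripF φ K) : 0 ≤ K := by
  obtain ⟨y, hy, hle⟩ := H.ineq one_pos le_rfl
  have e1 := H.re_le y
  have e2 := H.re_le (-y)
  by_contra hK
  push Not at hK
  have : 2 * Real.pi * Real.cosh Real.pi ^ 2 * 1 * K < 0 := by
    have := Real.pi_pos
    have := Real.cosh_pos Real.pi
    have h3 : 0 < 2 * Real.pi * Real.cosh Real.pi ^ 2 * 1 := by positivity
    exact mul_neg_of_pos_of_neg h3 hK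
  linarith

/-- the overlap function -/
noncomputable def phK (E A : Finset V) (KA KI : Op V q) (g : ℝ → ℝ) (ψ : Conf V q → ℂ) (z : ℂ) :
    ℂ :=
  star ψ ⬝ᵥ (vK E A KA KI g ψ z *ᵥ ψ)

/-- the defect: with `g = Real.log` this is
`S(E) - S(E ∪ A) + ⟨KA⟩ - ⟨KI⟩` -/
noncomputable def kapM (E A : Finset V) (KA KI : Op V q) (g : ℝ → ℝ) (ψ : Conf V q → ℂ) : ℝ :=
  entropyOf E ψ + (star ψ ⬝ᵥ (KA *ᵥ ψ)).re - (star ψ ⬝ᵥ (KI *ᵥ ψ)).re +
    ∑ i, eigp (ψ ∘ (cut (E ∪ A) q).symm) i * g (eigp (ψ ∘ (cut (E ∪ A) q).symm) i)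

theorem vK_hasDerivAt (E A : Finset V) (KA KI : Op V q) (g : ℝ → ℝ) (ψ : Conf V q → ℂ) (z : ℂ) :
    HasDerivAt (fun z => vK E A KA KI g ψ z)
      (((PPd E ψ z * sz KI (-z) + PP E ψ z * (sz KI (-z) * KI)) * sz KA z +
        PP E ψ z * sz KI (-z) * (sz KA z * -KA)) * eg (E ∪ A) ψ g (-z) +
        PP E ψ z * sz KI (-z) * sz KA z * -(egd (E ∪ A) ψ g * eg (E ∪ A) ψ g (-z))) z :=
  (((PP_hasDerivAt E ψ z).mul (sz_neg_hasDerivAt KI z)).mul (sz_hasDerivAt KA z)).mul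
    (eg_neg_hasDerivAt (E ∪ A) ψ g z)

theorem phK_hasDerivAt (E A : Finset V) (KA KI : Op V q) (g : ℝ → ℝ) (ψ : Conf V q → ℂ) (z : ℂ) :
    HasDerivAt (phK E A KA KI g ψ) (star ψ ⬝ᵥ
      ((((PPd E ψ z * sz KI (-z) + PP E ψ z * (sz KI (-z) * KI)) * sz KA z +
        PP E ψ z * sz KI (-z) * (sz KA z * -KA)) * eg (E ∪ A) ψ g (-z) +
        PP E ψ z * sz KI (-z) * sz KA z * -(egd (E ∪ A) ψ g * eg (E ∪ A) ψ g (-z))) *ᵥ ψ)) z :=
  ((exL ψ).toContinuousLinearMap).hasFDerivAt.comp_hasDerivAt z (vK_hasDerivAt E A KA KI g ψ z)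

theorem phK_diff (E A : Finset V) (KA KI : Op V q) (g : ℝ → ℝ) (ψ : Conf V q → ℂ) :
    Differentiable ℂ (phK E A KA KI g ψ) :=
  fun z => (phK_hasDerivAt E A KA KI g ψ z).differentiableAt

theorem phK_zero (E A : Finset V) (KA KI : Op V q) (g : ℝ → ℝ) {ψ : Conf V q → ℂ}
    (hψ : nsq ψ = 1) : phK E A KA KI g ψ 0 = 1 := by
  rw [phK, vK, neg_zero, sz_zero, sz_zero, eg_zero, mul_one, mul_one, mul_one, PP_zero_mulVec,
    NA.na_spow_nsq_star, hψ]
  simp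

theorem k660_expect {K : Op V q} (hK : K.IsHermitian) (ψ : Conf V q → ℂ) :
    star ψ ⬝ᵥ (K *ᵥ ψ) = (((star ψ ⬝ᵥ (K *ᵥ ψ)).re : ℝ) : ℂ) := by
  have h : star (star ψ ⬝ᵥ (K *ᵥ ψ)) = star ψ ⬝ᵥ (K *ᵥ ψ) := by
    rw [← Matrix.star_dotProduct, Matrix.star_mulVec, hK.eq, Matrix.dotProduct_mulVec]
  exact (Complex.conj_eq_iff_re.1 h).symm

theorem phK_deriv {E A : Finset V} {KA KI : Op V q} (hA : KA.IsHermitian) (hI : KI.IsHermitian)
    (g : ℝ → ℝ) (ψ : Conf V q → ℂ) :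
    deriv (phK E A KA KI g ψ) 0 = ((-(kapM E A KA KI g ψ) : ℝ) : ℂ) := by
  rw [(phK_hasDerivAt E A KA KI g ψ 0).deriv, neg_zero, sz_zero, sz_zero, eg_zero]
  simp only [mul_one, one_mul, mul_neg, Matrix.add_mulVec, Matrix.neg_mulVec,
    ← Matrix.mulVec_mulVec, dotProduct_add, dotProduct_neg, PP_zero_left, PPd_expect]
  rw [k660_expect hA, k660_expect hI, egd, cr_expect, kapM]
  push_cast
  ring

theorem phK_bound {E A : Finset V} {KA KI : Op V q} (D : MixData E A KA KI) {g : ℝ → ℝ}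
    (hg : ∀ p, 0 ≤ p → p ≤ Real.exp (g p)) {ψ : Conf V q → ℂ} (hψ : nsq ψ = 1) (z : ℂ)
    (h0 : 0 ≤ z.re) (h1 : z.re ≤ 1 / 2) : ‖phK E A KA KI g ψ z‖ ≤ 1 := by
  obtain ⟨B1, hB1, b1⟩ := sz_bdd D.hI
  obtain ⟨B2, hB2, b2⟩ := sz_bdd D.hA
  obtain ⟨B3, hB3, b3⟩ := eg_bdd (E ∪ A) ψ g
  have hB : BddAbove ((norm ∘ phK E A KA KI g ψ) ''
      Complex.HadamardThreeLines.verticalClosedStrip 0 (1 / 2)) := by
    refine ⟨Real.exp (PPc E ψ) * B1 * B2 * B3, ?_⟩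
    rintro _ ⟨w, hw, rfl⟩
    have hw' : |w.re| ≤ 1 := by
      have h2 : w.re ∈ Set.Icc (0 : ℝ) (1 / 2) := hw
      rw [abs_of_nonneg h2.1]
      have := h2.2
      linarith
    have hwn : |(-w).re| ≤ 1 := by rw [Complex.neg_re, abs_neg]; exact hw'
    have hb : ‖PP E ψ w‖ ≤ Real.exp (PPc E ψ) := by
      refine (PP_norm_le E ψ w).trans (Real.exp_le_exp.2 ?_)
      have hc : 0 ≤ PPc E ψ := Finset.sum_nonneg fun i _ => abs_nonneg _
      nlinarith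
    have hv : ‖vK E A KA KI g ψ w‖ ≤ Real.exp (PPc E ψ) * B1 * B2 * B3 := by
      refine (norm_mul_le _ _).trans (mul_le_mul ?_ (b3 _ hwn) (norm_nonneg _) (by positivity))
      refine (norm_mul_le _ _).trans (mul_le_mul ?_ (b2 _ hw') (norm_nonneg _) (by positivity))
      exact (norm_mul_le _ _).trans (mul_le_mul hb (b1 _ hwn) (norm_nonneg _) (by positivity))
    exact (dot_le_norm_bound ψ (vK E A KA KI g ψ w) hψ).trans hv
  have hedge0 : ∀ w ∈ Complex.re ⁻¹' {(0 : ℝ)}, ‖phK E A KA KI g ψ w‖ ≤ 1 := by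
    intro w hw
    have hw0 : w.re = 0 := hw
    have hwn : (-w).re = 0 := by rw [Complex.neg_re, hw0, neg_zero]
    refine dot_le_one hψ.le ?_
    refine (nsq_le_norm _ ψ ?_).trans hψ.le
    refine (norm_mul_le _ _).trans (mul_le_one₀ ?_ (norm_nonneg _)
      (sz_norm_iso (eg_unit (E ∪ A) ψ g hwn)))
    refine (norm_mul_le _ _).trans (mul_le_one₀ ?_ (norm_nonneg _) (sz_norm_re0 D.hA hw0))
    exact (norm_mul_le _ _).trans (mul_le_one₀ (PP_norm_re0 _ ψ hw0) (norm_nonneg _)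
      (sz_norm_re0 D.hI hwn))
  have hedge1 : ∀ w ∈ Complex.re ⁻¹' {(1 / 2 : ℝ)}, ‖phK E A KA KI g ψ w‖ ≤ 1 := by
    intro w hw
    exact dot_le_one hψ.le (vK_edge D hg hψ hw)
  have key := Complex.HadamardThreeLines.norm_le_interp_of_mem_verticalClosedStrip'
    (by norm_num : (0 : ℝ) < 1 / 2) (z := z) ⟨h0, h1⟩
    ((phK_diff E A KA KI g ψ).diffContOnCl) hB hedge0 hedge1
  simpa using key

theorem phK_strip {E A : Finset V} {KA KI : Op V q} (D : MixData E A KA KI) {g : ℝ → ℝ}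
    (hg : ∀ p, 0 ≤ p → p ≤ Real.exp (g p)) {ψ : Conf V q → ℂ} (hψ : nsq ψ = 1) :
    StripF (phK E A KA KI g ψ) (kapM E A KA KI g ψ) :=
  ⟨phK_diff E A KA KI g ψ, fun z a b => phK_bound D hg hψ z a b, phK_zero E A KA KI g hψ,
    phK_deriv D.hA D.hI g ψ⟩

theorem kapM_nonneg {E A : Finset V} {KA KI : Op V q} (D : MixData E A KA KI) {g : ℝ → ℝ}
    (hg : ∀ p, 0 ≤ p → p ≤ Real.exp (g p)) {ψ : Conf V q → ℂ} (hψ : nsq ψ = 1) :
    0 ≤ kapM E A KA KI g ψ := (phK_strip D hg hψ).nonneg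

/-- from the overlap to the flows, exact -/
theorem mix_flow {E A : Finset V} {KA KI : Op V q} (hA : KA.IsHermitian) (hI : KI.IsHermitian)
    (g : ℝ → ℝ) {ψ : Conf V q → ℂ} (hψ : nsq ψ = 1) (s : ℝ) :
    nsq (sz KA ((s : ℂ) * Complex.I) *ᵥ (eg (E ∪ A) ψ g (-((s : ℂ) * Complex.I)) *ᵥ ψ) -
      sz KI ((s : ℂ) * Complex.I) *ᵥ (UU E ψ (-s) *ᵥ ψ)) =
      2 * (1 - (phK E A KA KI g ψ ((s : ℂ) * Complex.I)).re) := by
  have hz : ((s : ℂ) * Complex.I).re = 0 := by simp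
  have hzn : (-((s : ℂ) * Complex.I)).re = 0 := by simp
  set w := sz KA ((s : ℂ) * Complex.I) *ᵥ (eg (E ∪ A) ψ g (-((s : ℂ) * Complex.I)) *ᵥ ψ) with hw
  set u := sz KI ((s : ℂ) * Complex.I) *ᵥ (UU E ψ (-s) *ᵥ ψ) with hu
  have nw : nsq w = 1 := by
    rw [hw, sz_nsq_iso (sz_unit hA hz), sz_nsq_iso (eg_unit (E ∪ A) ψ g hzn), hψ]
  have nu : nsq u = 1 := by rw [hu, sz_nsq_iso (sz_unit hI hz), UU_nsq, hψ]
  have hov : star u ⬝ᵥ w = phK E A KA KI g ψ ((s : ℂ) * Complex.I) := by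
    have e1 : (((-s : ℝ) : ℂ) * Complex.I) = -((s : ℂ) * Complex.I) := by push_cast; ring
    have e2 : star (-((s : ℂ) * Complex.I)) = (s : ℂ) * Complex.I := by
      rw [sz_star_re0 hzn, neg_neg]
    rw [hu, UU_eq_PP, e1, Matrix.mulVec_mulVec, Matrix.star_mulVec, ← Matrix.dotProduct_mulVec,
      conjTranspose_mul, PP_star, sz_star hI, e2, sz_star_re0 hz, hw, Matrix.mulVec_mulVec,
      Matrix.mulVec_mulVec, phK, vK]
  rw [nsq_sub_expand, nw, nu]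
  have e3 : star w ⬝ᵥ u = star (star u ⬝ᵥ w) := by rw [Matrix.star_dotProduct]
  rw [e3, hov, Complex.star_def, Complex.conj_re]
  ring

/-- the unitary `V` of the mixed closeness lemma -/
noncomputable def kV (E : Finset V) (KI : Op V q) (ψ : Conf V q → ℂ) (s : ℝ) : Op V q :=
  sz KI ((s : ℂ) * Complex.I) * UU E ψ (-s)

theorem kV_unit (E : Finset V) {KI : Op V q} (hI : KI.IsHermitian) (ψ : Conf V q → ℂ) (s : ℝ) :
    (kV E KI ψ s)ᴴ * kV E KI ψ s = 1 := by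
  rw [kV, conjTranspose_mul]
  calc (UU E ψ (-s))ᴴ * (sz KI ((s : ℂ) * Complex.I))ᴴ *
      (sz KI ((s : ℂ) * Complex.I) * UU E ψ (-s)) =
      (UU E ψ (-s))ᴴ * ((sz KI ((s : ℂ) * Complex.I))ᴴ * sz KI ((s : ℂ) * Complex.I)) *
        UU E ψ (-s) := by simp only [Matrix.mul_assoc]
    _ = 1 := by rw [sz_unit hI (by simp), mul_one, UU_norm_one]

theorem kV_acts {E B : Finset V} (hB : B ⊆ E) {KI : Op V q} (aI : ActsOn B KI)
    (ψ : Conf V q → ℂ) (s : ℝ) : ActsOn E (kV E KI ψ s) :=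
  ph_acts_mul (ph_acts_mono hB (sz_acts aI _)) (cr_acts E ψ _)

theorem kV_mulVec (E : Finset V) (KI : Op V q) (ψ : Conf V q → ℂ) (s : ℝ) :
    kV E KI ψ s *ᵥ ψ = sz KI ((s : ℂ) * Complex.I) *ᵥ (UU E ψ (-s) *ᵥ ψ) := by
  rw [kV, Matrix.mulVec_mulVec]

/-- for `g = Real.log` the last term of `kapM` is minus the entropy of `E ∪ A` -/
theorem kapM_log (E A : Finset V) (KA KI : Op V q) (ψ : Conf V q → ℂ) :
    kapM E A KA KI Real.log ψ = entropyOf E ψ - entropyOf (E ∪ A) ψ +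
      (star ψ ⬝ᵥ (KA *ᵥ ψ)).re - (star ψ ⬝ᵥ (KI *ᵥ ψ)).re := by
  have h1 : entropyOf (E ∪ A) ψ =
      ∑ i, Real.negMulLog (eigp (ψ ∘ (cut (E ∪ A) q).symm) i) := by
    have hh : (rdm (E ∪ A) ψ).IsHermitian := redA_isHermitian (ψ ∘ (cut (E ∪ A) q).symm)
    rw [entropyOf, vnEntropy, dif_pos hh]
    rfl
  rw [kapM, h1]
  simp only [Real.negMulLog, neg_mul, Finset.sum_neg_distrib]
  ring

/-- **KAPPA1, mixed closeness.** -/
theorem kappa1 {E A : Finset V} {KA KI : Op V q} (D : MixData E A KA KI) {g : ℝ → ℝ}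
    (hg : ∀ p, 0 ≤ p → p ≤ Real.exp (g p)) {ψ : Conf V q → ℂ} (hψ : nsq ψ = 1) {h : ℝ}
    (h0 : 0 < h) (h1 : h ≤ 1) : ∃ y ∈ Set.Icc (h / 2) h, ∀ s : ℝ, (s = y ∨ s = -y) →
      nsq (sz KA ((s : ℂ) * Complex.I) *ᵥ (eg (E ∪ A) ψ g (-((s : ℂ) * Complex.I)) *ᵥ ψ) -
        sz KI ((s : ℂ) * Complex.I) *ᵥ (UU E ψ (-s) *ᵥ ψ)) ≤
        4 * Real.pi * Real.cosh Real.pi ^ 2 * h * kapM E A KA KI g ψ := by
  have H := phK_strip D hg hψ
  obtain ⟨y, hy, hle⟩ := H.ineq h0 h1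
  refine ⟨y, hy, fun s hs => ?_⟩
  rw [mix_flow D.hA D.hI g hψ s]
  rcases hs with rfl | rfl
  · have := H.re_le (-s)
    linarith
  · have := H.re_le y
    linarith

/-- **KAPPA1 for two regions**, at a common time. -/
theorem kappa1_pair {E A E' A' : Finset V} {KA KI KA' KI' : Op V q} (D : MixData E A KA KI)
    (D' : MixData E' A' KA' KI') {g g' : ℝ → ℝ}
    (hg : ∀ p, 0 ≤ p → p ≤ Real.exp (g p)) (hg' : ∀ p, 0 ≤ p → p ≤ Real.exp (g' p))
    {ψ : Conf V q → ℂ} (hψ : nsq ψ = 1) {h : ℝ} (h0 : 0 < h) (h1 : h ≤ 1) :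
    ∃ y ∈ Set.Icc (h / 2) h, ∀ s : ℝ, (s = y ∨ s = -y) →
      nsq (sz KA ((s : ℂ) * Complex.I) *ᵥ (eg (E ∪ A) ψ g (-((s : ℂ) * Complex.I)) *ᵥ ψ) -
        sz KI ((s : ℂ) * Complex.I) *ᵥ (UU E ψ (-s) *ᵥ ψ)) +
      nsq (sz KA' ((s : ℂ) * Complex.I) *ᵥ (eg (E' ∪ A') ψ g' (-((s : ℂ) * Complex.I)) *ᵥ ψ) -
        sz KI' ((s : ℂ) * Complex.I) *ᵥ (UU E' ψ (-s) *ᵥ ψ)) ≤
        4 * Real.pi * Real.cosh Real.pi ^ 2 * h *
          (kapM E A KA KI g ψ + kapM E' A' KA' KI' g' ψ) := by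
  have H₁ := phK_strip D hg hψ
  have H₂ := phK_strip D' hg' hψ
  obtain ⟨y, hy, hle⟩ := (H₁.avg H₂).ineq h0 h1
  have e : ∀ s : ℝ, ((phK E A KA KI g ψ ((s : ℂ) * Complex.I) +
      phK E' A' KA' KI' g' ψ ((s : ℂ) * Complex.I)) / 2).re =
      ((phK E A KA KI g ψ ((s : ℂ) * Complex.I)).re +
        (phK E' A' KA' KI' g' ψ ((s : ℂ) * Complex.I)).re) / 2 := fun s => by
    rw [Complex.div_ofNat_re, Complex.add_re]
  rw [e y, e (-y)] at hle
  refine ⟨y, hy, fun s hs => ?_⟩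
  rw [mix_flow D.hA D.hI g hψ s, mix_flow D'.hA D'.hI g' hψ s]
  rcases hs with rfl | rfl
  · have := H₁.re_le (-s)
    have := H₂.re_le (-s)
    linarith
  · have := H₁.re_le y
    have := H₂.re_le y
    linarith

end mix

end Vale.Agent.P356.GA
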