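import Vale.Agent.P356.GA.Pair749
import Vale.Agent.P356.GA.PointU228
import Mathlib.Analysis.Normed.Algebra.Exponential
import Mathlib.Analysis.Normed.Algebra.MatrixExponential
import Mathlib.Analysis.SpecialFunctions.Exponential

/-!
The mixed closeness lemma: the modular flow of a region of the state is close to the flow of a fixed
local operator (the logarithm of any faithful state on a window), up to a unitary which does not
touch the core.
-/

set_option linter.all false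

namespace Vale.Agent.P356.GA.K1

open Matrix Finset Vale.Agent.P356 Vale.Agent.P356.SV Vale.Agent.P356.Path Vale.Agent.P356.PH
  Vale.Agent.P356.GA
open scoped BigOperators ComplexOrder Kronecker Matrix.Norms.L2Operator

section se
variable {V : Type*} [Fintype V] [DecidableEq V] {q : ℕ}

/-- `exp (-z K)` -/
noncomputable def SE (K : Op V q) (z : ℂ) : Op V q := NormedSpace.exp (-(z • K))

theorem SE_add (K : Op V q) (z w : ℂ) : SE K z * SE K w = SE K (z + w) := by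
  have hc : Commute (-(z • K)) (-(w • K)) :=
    ((Commute.refl K).smul_left z |>.smul_right w).neg_left.neg_right
  rw [SE, SE, SE, ← Matrix.exp_add_of_commute _ _ hc]
  congr 1
  rw [add_smul, neg_add]

theorem SE_zero (K : Op V q) : SE K 0 = 1 := by
  rw [SE, zero_smul, neg_zero, NormedSpace.exp_zero]

theorem SE_star {K : Op V q} (hK : K.IsHermitian) (z : ℂ) : (SE K z)ᴴ = SE K (star z) := by
  rw [SE, ← Matrix.exp_conjTranspose, SE, conjTranspose_neg, conjTranspose_smul, hK.eq]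

theorem SE_acts {S : Finset V} {K : Op V q} (hK : ActsOn S K) (z : ℂ) : ActsOn S (SE K z) :=
  ph_acts_exp (ph_acts_neg (ph_acts_smul z hK))

theorem SE_hasDerivAt (K : Op V q) (z : ℂ) :
    HasDerivAt (fun z => SE K z) (-K * SE K z) z := by
  have h := hasDerivAt_exp_smul_const (𝕂 := ℂ) (-K) z
  have e1 : (fun z : ℂ => NormedSpace.exp (z • (-K))) = fun z => SE K z := by
    funext z
    rw [SE, smul_neg]
  have e2 : NormedSpace.exp (z • (-K)) * (-K) = -K * SE K z := by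
    have hc : Commute (NormedSpace.exp (z • (-K))) (-K) :=
      ((Commute.refl (-K)).smul_left z).exp_left
    rw [hc.eq, SE, smul_neg]
  rw [e1, e2] at h
  exact h

theorem SE_neg_hasDerivAt (K : Op V q) (z : ℂ) :
    HasDerivAt (fun z => SE K (-z)) (K * SE K (-z)) z := by
  have h := (SE_hasDerivAt K (-z)).scomp z (hasDerivAt_neg z)
  exact h.congr_deriv (by rw [neg_smul, one_smul, Matrix.neg_mul, neg_neg])

theorem SE_unit {K : Op V q} (hK : K.IsHermitian) {z : ℂ} (hz : z.re = 0) :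
    (SE K z)ᴴ * SE K z = 1 := by
  rw [SE_star hK, SE_add, ← SE_zero K]
  congr 1
  apply Complex.ext <;> simp [hz]

theorem norm_le_one_of_unit {A : Op V q} (h : Aᴴ * A = 1) : ‖A‖ ≤ 1 := by
  refine ph_norm_le zero_le_one fun w => ?_
  rw [one_pow, one_mul, nsq_of_unit h]

theorem norm_exp_le' (x : Op V q) : ‖(NormedSpace.exp x : Op V q)‖ ≤ Real.exp ‖x‖ := by
  rw [NormedSpace.exp_eq_tsum ℂ]
  have hs := NormedSpace.norm_expSeries_summable' (𝕂 := ℂ) x
  have hs2 : Summable fun n : ℕ => ‖x‖ ^ n / (n.factorial : ℝ) :=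
    Real.summable_pow_div_factorial ‖x‖
  refine (norm_tsum_le_tsum_norm hs).trans ?_
  rw [Real.exp_eq_exp_ℝ, NormedSpace.exp_eq_tsum_div]
  refine hs.tsum_le_tsum (fun n => ?_) hs2
  rw [norm_smul, norm_inv, Complex.norm_natCast, div_eq_inv_mul]
  refine mul_le_mul_of_nonneg_left ?_ (by positivity)
  rcases Nat.eq_zero_or_pos n with hn | hn
  · rw [hn, pow_zero, pow_zero]
    exact norm_le_one_of_unit (by rw [Matrix.mul_one, conjTranspose_one])
  · exact norm_pow_le' x hn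

theorem SE_norm_le {K : Op V q} (hK : K.IsHermitian) (z : ℂ) :
    ‖SE K z‖ ≤ Real.exp (|z.re| * ‖K‖) := by
  have e : SE K z = SE K (z.re : ℂ) * SE K ((z.im : ℂ) * Complex.I) := by
    rw [SE_add, Complex.re_add_im]
  rw [e]
  have h1 : ‖SE K ((z.im : ℂ) * Complex.I)‖ ≤ 1 := norm_le_one_of_unit (SE_unit hK (by simp))
  have h2 : ‖SE K (z.re : ℂ)‖ ≤ Real.exp (|z.re| * ‖K‖) := by
    rw [SE]
    refine (norm_exp_le' _).trans (Real.exp_le_exp.2 ?_)
    rw [norm_neg, norm_smul, Complex.norm_real, Real.norm_eq_abs]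
  calc _ ≤ ‖SE K (z.re : ℂ)‖ * ‖SE K ((z.im : ℂ) * Complex.I)‖ := norm_mul_le _ _
    _ ≤ Real.exp (|z.re| * ‖K‖) * 1 := mul_le_mul h2 h1 (norm_nonneg _) (Real.exp_pos _).le
    _ = _ := mul_one _

end se

section kappa
variable {V : Type*} [Fintype V] [DecidableEq V] {q : ℕ}

/-- the operator on the strip; `M ∪ a` is the region, `a` the core -/
noncomputable def kv (M a : Finset V) (ψ : Conf V q → ℂ) (Kb KN : Op V q) (z : ℂ) : Op V q :=
  PP M ψ z * SE KN (-z) * SE Kb z * PP (M ∪ a) ψ (-z)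

/-- the overlap function -/
noncomputable def kphi (M a : Finset V) (ψ : Conf V q → ℂ) (Kb KN : Op V q) (z : ℂ) : ℂ :=
  star ψ ⬝ᵥ (kv M a ψ Kb KN z *ᵥ ψ)

/-- the defect: `⟨Kb - KN⟩ - S(a | M)` -/
noncomputable def kap (M a : Finset V) (ψ : Conf V q → ℂ) (Kb KN : Op V q) : ℝ :=
  (star ψ ⬝ᵥ (Kb *ᵥ ψ)).re - (star ψ ⬝ᵥ (KN *ᵥ ψ)).re -
    (entropyOf (M ∪ a) ψ - entropyOf M ψ)

variable {M a : Finset V} {ψ : Conf V q → ℂ} {Kb KN : Op V q}

theorem kphi_hasDerivAt (z : ℂ) :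
    HasDerivAt (kphi M a ψ Kb KN) (star ψ ⬝ᵥ
      ((((PPd M ψ z * SE KN (-z) + PP M ψ z * (KN * SE KN (-z))) * SE Kb z +
        PP M ψ z * SE KN (-z) * (-Kb * SE Kb z)) * PP (M ∪ a) ψ (-z) +
        PP M ψ z * SE KN (-z) * SE Kb z * -PPd (M ∪ a) ψ (-z)) *ᵥ ψ)) z :=
  ((exL ψ).toContinuousLinearMap).hasFDerivAt.comp_hasDerivAt z
    ((((PP_hasDerivAt M ψ z).mul (SE_neg_hasDerivAt KN z)).mul (SE_hasDerivAt Kb z)).mul
      (PP_neg_hasDerivAt (M ∪ a) ψ z))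

theorem kphi_diff : Differentiable ℂ (kphi M a ψ Kb KN) :=
  fun z => (kphi_hasDerivAt z).differentiableAt

theorem kphi_zero (hψ : nsq ψ = 1) : kphi M a ψ Kb KN 0 = 1 := by
  rw [kphi, kv, neg_zero, SE_zero, SE_zero, Matrix.mul_one, Matrix.mul_one]
  simp only [← Matrix.mulVec_mulVec, PP_zero_mulVec]
  rw [NA.na_spow_nsq_star, hψ]
  simp

theorem expect_re {K : Op V q} (hK : K.IsHermitian) (w : Conf V q → ℂ) :
    star w ⬝ᵥ (K *ᵥ w) = (((star w ⬝ᵥ (K *ᵥ w)).re : ℝ) : ℂ) := by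
  have h1 : star (star w ⬝ᵥ (K *ᵥ w)) = star w ⬝ᵥ (K *ᵥ w) := by
    rw [← star_dotProduct, Matrix.star_mulVec, hK.eq, ← Matrix.dotProduct_mulVec]
  exact (Complex.conj_eq_iff_re.1 h1).symm

theorem kphi_deriv (hKb : Kb.IsHermitian) (hKN : KN.IsHermitian) :
    deriv (kphi M a ψ Kb KN) 0 = ((-(kap M a ψ Kb KN) : ℝ) : ℂ) := by
  rw [(kphi_hasDerivAt 0).deriv, neg_zero, SE_zero, SE_zero]
  simp only [add_mul, mul_neg, neg_mul, Matrix.mul_one, Matrix.add_mulVec, Matrix.neg_mulVec,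
    ← Matrix.mulVec_mulVec, PP_zero_mulVec, dotProduct_add, dotProduct_neg, PP_zero_left,
    PPd_expect]
  rw [kap, expect_re hKb, expect_re hKN]
  simp only [Complex.ofReal_re]
  push_cast
  ring

/-- the edge bound on the right -/
theorem kv_edge (hd : Disjoint M a) (hψ : nsq ψ = 1) (hKb : Kb.IsHermitian)
    (hKN : KN.IsHermitian) (hKba : ActsOn (M ∪ a) Kb) (hKNa : ActsOn M KN)
    (hmarg : ∀ X : Op V q, ActsOn M X →
      (q : ℂ) ^ a.card * (SE Kb 1 * X).trace = (SE KN 1 * X).trace) {z : ℂ}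
    (hz : z.re = 1 / 2) : nsq (kv M a ψ Kb KN z *ᵥ ψ) ≤ 1 := by
  have hzz : z + star z = 1 := by
    rw [Complex.star_def]
    apply Complex.ext
    · simp [hz]; norm_num
    · simp
  set X : Op V q := PP M ψ z * SE KN (-z) * SE Kb z with hX
  set P : Op V q := PP (M ∪ a) ψ (-z) with hP
  have hMR : M ⊆ M ∪ a := Finset.subset_union_left
  have hXact : ActsOn (M ∪ a) X := ph_acts_mul (ph_acts_mul
    (ph_acts_mono hMR (PP_acts M ψ z)) (ph_acts_mono hMR (SE_acts hKNa _))) (SE_acts hKba _)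
  have hPact : ActsOn (M ∪ a) P := PP_acts (M ∪ a) ψ (-z)
  obtain ⟨nR, hR0, hR⟩ := dO_pos hψ (M ∪ a)
  obtain ⟨nM, hM0, hM⟩ := dO_pos hψ M
  have hcard : (nM : ℝ) = (q : ℝ) ^ a.card * nR := by
    have e1 := dO_eq q M
    have e2 := dO_eq q (M ∪ a)
    rw [hM] at e1
    rw [hR] at e2
    have e3 : Fintype.card V - M.card = a.card + (Fintype.card V - (M ∪ a).card) := by
      have := Finset.card_union_of_disjoint hd
      have h7 : (M ∪ a).card ≤ Fintype.card V := Finset.card_le_univ _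
      omega
    rw [e3, pow_add, ← e2] at e1
    exact_mod_cast e1
  -- step 1
  have h1 : (nR : ℝ) * nsq (kv M a ψ Kb KN z *ᵥ ψ) = ((PP (M ∪ a) ψ 0 * (Xᴴ * X)).trace).re := by
    have e1 := trace_rho (M ∪ a) ψ (X := (X * P)ᴴ * (X * P))
      (ph_acts_mul (ph_acts_star (ph_acts_mul hXact hPact)) (ph_acts_mul hXact hPact))
    rw [← nsq_mulVec_eq, hR] at e1
    have e2 : (opOn (M ∪ a) (rdm (M ∪ a) ψ) * ((X * P)ᴴ * (X * P))).trace =
        (PP (M ∪ a) ψ 0 * (Xᴴ * X)).trace := by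
      rw [← PP_one, conjTranspose_mul]
      calc (PP (M ∪ a) ψ 1 * (Pᴴ * Xᴴ * (X * P))).trace =
          ((PP (M ∪ a) ψ 1 * Pᴴ * (Xᴴ * X)) * P).trace := by simp only [Matrix.mul_assoc]
        _ = (P * (PP (M ∪ a) ψ 1 * Pᴴ * (Xᴴ * X))).trace := Matrix.trace_mul_comm _ _
        _ = ((P * PP (M ∪ a) ψ 1 * Pᴴ) * (Xᴴ * X)).trace := by simp only [Matrix.mul_assoc]
        _ = _ := by
            rw [hP, PP_star, PP_mul, PP_mul]
            congr 3
            rw [star_neg]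
            linear_combination -hzz
    rw [e2] at e1
    have e3 := congrArg Complex.re e1
    rw [e3]
    have : ((nR : ℂ) * ((nsq ((X * P) *ᵥ ψ) : ℝ) : ℂ)) = ((nR * nsq ((X * P) *ᵥ ψ) : ℝ) : ℂ) := by
      push_cast; ring
    rw [this, Complex.ofReal_re]
    rfl
  -- step 2
  have h2 : ((PP (M ∪ a) ψ 0 * (Xᴴ * X)).trace).re ≤ ((Xᴴ * X).trace).re :=
    tr_proj_le (by rw [PP_mul, add_zero]) (by rw [PP_star, star_zero]) X
  -- step 3
  set Y : Op V q := SE KN (star (-z)) * PP M ψ 1 * SE KN (-z) with hY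
  have hYact : ActsOn M Y := ph_acts_mul (ph_acts_mul (SE_acts hKNa _) (PP_acts M ψ 1))
    (SE_acts hKNa _)
  have h3 : (Xᴴ * X).trace = (SE Kb 1 * Y).trace := by
    rw [hX, conjTranspose_mul, conjTranspose_mul, PP_star, SE_star hKN, SE_star hKb]
    calc (SE Kb (star z) * (SE KN (star (-z)) * PP M ψ (star z)) *
        (PP M ψ z * SE KN (-z) * SE Kb z)).trace =
        ((SE Kb (star z) * (SE KN (star (-z)) * (PP M ψ (star z) * PP M ψ z) * SE KN (-z))) *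
          SE Kb z).trace := by simp only [Matrix.mul_assoc]
      _ = (SE Kb z * (SE Kb (star z) * (SE KN (star (-z)) * (PP M ψ (star z) * PP M ψ z) *
          SE KN (-z)))).trace := Matrix.trace_mul_comm _ _
      _ = ((SE Kb z * SE Kb (star z)) * (SE KN (star (-z)) * (PP M ψ (star z) * PP M ψ z) *
          SE KN (-z))).trace := by simp only [Matrix.mul_assoc]
      _ = _ := by
          rw [SE_add, PP_mul, hY, hzz, add_comm (star z) z, hzz]
  have h4 := hmarg Y hYact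
  have h5 : (SE KN 1 * Y).trace = (nM : ℂ) := by
    have e1 : (SE KN 1 * Y).trace = (PP M ψ 1).trace := by
      rw [hY]
      calc (SE KN 1 * (SE KN (star (-z)) * PP M ψ 1 * SE KN (-z))).trace =
          ((SE KN 1 * SE KN (star (-z)) * PP M ψ 1) * SE KN (-z)).trace := by
            simp only [Matrix.mul_assoc]
        _ = (SE KN (-z) * (SE KN 1 * SE KN (star (-z)) * PP M ψ 1)).trace :=
            Matrix.trace_mul_comm _ _
        _ = ((SE KN (-z) * (SE KN 1 * SE KN (star (-z)))) * PP M ψ 1).trace := by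
            simp only [Matrix.mul_assoc]
        _ = _ := by
            rw [SE_add, SE_add]
            have e0 : -z + (1 + star (-z)) = 0 := by
              rw [star_neg]
              linear_combination -hzz
            rw [e0, SE_zero, Matrix.one_mul]
    have e2 := trace_rho M ψ (X := 1) (ph_acts_one M)
    rw [mul_one, Matrix.one_mulVec, NA.na_spow_nsq_star, hψ, hM, ← PP_one] at e2
    rw [e1, e2]
    simp
  rw [h5, ← h3] at h4
  have h6 : (q : ℝ) ^ a.card * ((Xᴴ * X).trace).re = nM := by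
    have e1 := congrArg Complex.re h4
    have e2 : ((q : ℂ) ^ a.card * (Xᴴ * X).trace).re = (q : ℝ) ^ a.card * ((Xᴴ * X).trace).re := by
      have : ((q : ℂ) ^ a.card) = (((q : ℝ) ^ a.card : ℝ) : ℂ) := by push_cast; ring
      rw [this, Complex.re_ofReal_mul]
    rw [e2] at e1
    rw [e1]
    simp
  have hqa : (0 : ℝ) < (q : ℝ) ^ a.card := by
    have hM0' : (0 : ℝ) < nM := by exact_mod_cast hM0
    rw [hcard] at hM0'
    have hR0' : (0 : ℝ) < nR := by exact_mod_cast hR0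
    exact lt_of_not_ge (fun h => by nlinarith)
  have hR0' : (0 : ℝ) < nR := by exact_mod_cast hR0
  have h7 : ((Xᴴ * X).trace).re = nR := by
    rw [hcard] at h6
    exact mul_left_cancel₀ hqa.ne' h6
  have h8 : (nR : ℝ) * nsq (kv M a ψ Kb KN z *ᵥ ψ) ≤ nR * 1 := by
    rw [h1, mul_one, ← h7]
    exact h2
  exact le_of_mul_le_mul_left h8 hR0'

/-- boundedness on vertical strips -/
theorem kphi_bdd (hψ : nsq ψ = 1) (hKb : Kb.IsHermitian) (hKN : KN.IsHermitian) :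
    ∃ C : ℝ, ∀ w : ℂ, |w.re| ≤ 1 → ‖kphi M a ψ Kb KN w‖ ≤ C := by
  refine ⟨Real.exp (PPc M ψ) * Real.exp ‖KN‖ * Real.exp ‖Kb‖ * Real.exp (PPc (M ∪ a) ψ),
    fun w hw => ?_⟩
  have hb : ∀ (S : Finset V) (u : ℂ), |u.re| ≤ 1 → ‖PP S ψ u‖ ≤ Real.exp (PPc S ψ) :=
    fun S u hu => by
      refine (PP_norm_le S ψ u).trans (Real.exp_le_exp.2 ?_)
      have hc : 0 ≤ PPc S ψ := Finset.sum_nonneg fun i _ => abs_nonneg _
      nlinarith
  have hs : ∀ (K : Op V q) (hK : K.IsHermitian) (u : ℂ), |u.re| ≤ 1 →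
      ‖SE K u‖ ≤ Real.exp ‖K‖ := fun K hK u hu => by
    refine (SE_norm_le hK u).trans (Real.exp_le_exp.2 ?_)
    nlinarith [norm_nonneg K]
  have hwn : |(-w).re| ≤ 1 := by rw [Complex.neg_re, abs_neg]; exact hw
  have hv : ‖kv M a ψ Kb KN w‖ ≤ Real.exp (PPc M ψ) * Real.exp ‖KN‖ * Real.exp ‖Kb‖ *
      Real.exp (PPc (M ∪ a) ψ) := by
    refine (norm_mul_le _ _).trans (mul_le_mul ?_ (hb _ _ hwn) (norm_nonneg _) (by positivity))
    refine (norm_mul_le _ _).trans (mul_le_mul ?_ (hs _ hKb _ hw) (norm_nonneg _) (by positivity))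
    exact (norm_mul_le _ _).trans (mul_le_mul (hb _ _ hw) (hs _ hKN _ hwn) (norm_nonneg _)
      (by positivity))
  exact (dot_le_norm_bound ψ (kv M a ψ Kb KN w) hψ).trans hv

theorem kphi_im (hψ : nsq ψ = 1) (hKb : Kb.IsHermitian) (hKN : KN.IsHermitian) {w : ℂ}
    (hw : w.re = 0) : ‖kphi M a ψ Kb KN w‖ ≤ 1 := by
  have hwn : (-w).re = 0 := by rw [Complex.neg_re, hw, neg_zero]
  refine dot_le_one hψ.le ?_
  refine (nsq_le_norm _ ψ ?_).trans hψ.le
  refine (norm_mul_le _ _).trans (mul_le_one₀ ?_ (norm_nonneg _) (PP_norm_re0 _ ψ hwn))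
  refine (norm_mul_le _ _).trans (mul_le_one₀ ?_ (norm_nonneg _)
    (norm_le_one_of_unit (SE_unit hKb hw)))
  exact (norm_mul_le _ _).trans (mul_le_one₀ (PP_norm_re0 _ ψ hw) (norm_nonneg _)
    (norm_le_one_of_unit (SE_unit hKN hwn)))

/-- the bound on the right half of the strip -/
theorem kphi_bound (hd : Disjoint M a) (hψ : nsq ψ = 1) (hKb : Kb.IsHermitian)
    (hKN : KN.IsHermitian) (hKba : ActsOn (M ∪ a) Kb) (hKNa : ActsOn M KN)
    (hmarg : ∀ X : Op V q, ActsOn M X →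
      (q : ℂ) ^ a.card * (SE Kb 1 * X).trace = (SE KN 1 * X).trace) (z : ℂ)
    (h0 : 0 ≤ z.re) (h1 : z.re ≤ 1 / 2) : ‖kphi M a ψ Kb KN z‖ ≤ 1 := by
  obtain ⟨C, hC⟩ := kphi_bdd (M := M) (a := a) hψ hKb hKN
  have hB : BddAbove ((norm ∘ kphi M a ψ Kb KN) ''
      Complex.HadamardThreeLines.verticalClosedStrip 0 (1 / 2)) := by
    refine ⟨C, ?_⟩
    rintro _ ⟨w, hw, rfl⟩
    refine hC w ?_
    have h2 : w.re ∈ Set.Icc (0 : ℝ) (1 / 2) := hw
    rw [abs_of_nonneg h2.1]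
    have := h2.2
    linarith
  have key := Complex.HadamardThreeLines.norm_le_interp_of_mem_verticalClosedStrip'
    (by norm_num : (0 : ℝ) < 1 / 2) (z := z) (a := 1) (b := 1) ⟨h0, h1⟩
    ((kphi_diff (M := M) (a := a) (ψ := ψ) (Kb := Kb) (KN := KN)).diffContOnCl) hB
    (fun w hw => kphi_im hψ hKb hKN hw)
    (fun w hw => dot_le_one hψ.le (kv_edge hd hψ hKb hKN hKba hKNa hmarg hw))
  simpa using key

theorem PP_crF (S : Finset V) (ψ : Conf V q → ℂ) (z : ℂ) : PP S ψ z = crF S ψ (pw z) := rfl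

theorem PP_transport (S : Finset V) (ψ : Conf V q → ℂ) (z : ℂ) :
    PP Sᶜ ψ z *ᵥ ψ = PP S ψ z *ᵥ ψ := by
  rw [PP_crF, PP_crF, crF_transport]

/-- the bound on the left edge -/
theorem kphi_left_edge (hd : Disjoint M a) (hψ : nsq ψ = 1) (hKba : ActsOn (M ∪ a) Kb)
    (hKNa : ActsOn M KN) {L1 : ℝ}
    (hleft : ∀ z : ℂ, z.re = -(1 / 2) → ‖SE KN (-z) * SE Kb z‖ ≤ L1) {z : ℂ}
    (hz : z.re = -(1 / 2)) :
    ‖kphi M a ψ Kb KN z‖ ≤ Real.sqrt ((q : ℝ) ^ a.card) * L1 := by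
  have hL1 : 0 ≤ L1 := (norm_nonneg _).trans (hleft z hz)
  set R := M ∪ a with hR
  have hMR : M ⊆ R := Finset.subset_union_left
  set C : Op V q := PP Rᶜ ψ (-z) with hC
  have hCact : ActsOn Rᶜ C := PP_acts _ _ _
  have hdis : Disjoint R Rᶜ := disjoint_compl_right
  have c1 : SE Kb z * C = C * SE Kb z := ph_acts_comm hdis (SE_acts hKba z) hCact
  have c2 : SE KN (-z) * C = C * SE KN (-z) :=
    ph_acts_comm hdis (ph_acts_mono hMR (SE_acts hKNa _)) hCact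
  have e1 : kphi M a ψ Kb KN z =
      star ψ ⬝ᵥ ((PP M ψ z * C * (SE KN (-z) * SE Kb z)) *ᵥ ψ) := by
    rw [kphi, kv, ← Matrix.mulVec_mulVec, ← PP_transport, Matrix.mulVec_mulVec, ← hR, ← hC]
    congr 2
    calc PP M ψ z * SE KN (-z) * SE Kb z * C = PP M ψ z * (SE KN (-z) * (SE Kb z * C)) := by
          simp only [Matrix.mul_assoc]
      _ = PP M ψ z * ((SE KN (-z) * C) * SE Kb z) := by rw [c1]; simp only [Matrix.mul_assoc]
      _ = _ := by rw [c2]; simp only [Matrix.mul_assoc]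
  have hzs : (star z).re = -(1 / 2) := by rw [Complex.star_def]; simpa using hz
  have c3 : PP M ψ (star z) * PP Rᶜ ψ (-(star z)) = PP Rᶜ ψ (-(star z)) * PP M ψ (star z) :=
    ph_acts_comm hdis (ph_acts_mono hMR (PP_acts _ _ _)) (PP_acts _ _ _)
  have e2 : (PP M ψ z * C)ᴴ *ᵥ ψ = (PP M ψ (star z) * PP R ψ (-(star z))) *ᵥ ψ := by
    rw [conjTranspose_mul, hC, PP_star, PP_star, star_neg, ← c3, ← Matrix.mulVec_mulVec,
      ← Matrix.mulVec_mulVec, PP_transport]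
  have e3 : star ψ ⬝ᵥ ((PP M ψ z * C * (SE KN (-z) * SE Kb z)) *ᵥ ψ) =
      star ((PP M ψ z * C)ᴴ *ᵥ ψ) ⬝ᵥ ((SE KN (-z) * SE Kb z) *ᵥ ψ) := by
    rw [Matrix.star_mulVec, conjTranspose_conjTranspose, ← Matrix.dotProduct_mulVec,
      Matrix.mulVec_mulVec]
  rw [e1, e3, e2]
  refine (nrm_ip_le _ _).trans ?_
  have hn : nrm ψ = 1 := nrm_one hψ
  have f1 : nrm ((PP M ψ (star z) * PP R ψ (-(star z))) *ᵥ ψ) ≤ Real.sqrt ((q : ℝ) ^ a.card) := by
    refine (nrm_mulVec_le' _ _).trans ?_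
    rw [hn, mul_one]
    exact pu_norm hd hψ hzs
  have f2 : nrm ((SE KN (-z) * SE Kb z) *ᵥ ψ) ≤ L1 := by
    refine (nrm_mulVec_le' _ _).trans ?_
    rw [hn, mul_one]
    exact hleft z hz
  exact mul_le_mul f1 f2 (nrm_nonneg _) (Real.sqrt_nonneg _)

/-- the bound on the left half of the strip -/
theorem kphi_left (hd : Disjoint M a) (hψ : nsq ψ = 1) (hKb : Kb.IsHermitian)
    (hKN : KN.IsHermitian) (hKba : ActsOn (M ∪ a) Kb) (hKNa : ActsOn M KN) {l1 : ℝ}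
    (hleft : ∀ z : ℂ, z.re = -(1 / 2) → ‖SE KN (-z) * SE Kb z‖ ≤ Real.exp l1) (z : ℂ)
    (h0 : -(1 / 2) ≤ z.re) (h1 : z.re ≤ 0) :
    ‖kphi M a ψ Kb KN z‖ ≤ Real.exp (-(2 * (a.card * Real.log q / 2 + l1) * z.re)) := by
  obtain ⟨C, hC⟩ := kphi_bdd (M := M) (a := a) hψ hKb hKN
  have hB : BddAbove ((norm ∘ kphi M a ψ Kb KN) ''
      Complex.HadamardThreeLines.verticalClosedStrip (-(1 / 2)) 0) := by
    refine ⟨C, ?_⟩
    rintro _ ⟨w, hw, rfl⟩
    refine hC w ?_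
    have h2 : w.re ∈ Set.Icc (-(1 / 2) : ℝ) 0 := hw
    rw [abs_of_nonpos h2.2]
    have := h2.1
    linarith
  have hqa : (0 : ℝ) < (q : ℝ) ^ a.card := by
    rcases Nat.eq_zero_or_pos q with h | h
    · rcases a.eq_empty_or_nonempty with ha' | ⟨x, hx⟩
      · rw [ha', Finset.card_empty, pow_zero]; exact one_pos
      · exfalso
        subst h
        have : IsEmpty (Conf V 0) := ⟨fun s => (s x).elim0⟩
        rw [nsq, Finset.univ_eq_empty, Finset.sum_empty] at hψ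
        exact zero_ne_one hψ
    · have : (0 : ℝ) < q := by exact_mod_cast h
      positivity
  have key := Complex.HadamardThreeLines.norm_le_interp_of_mem_verticalClosedStrip'
    (by norm_num : (-(1 / 2) : ℝ) < 0) (z := z) (a := Real.sqrt ((q : ℝ) ^ a.card) * Real.exp l1)
    (b := 1) ⟨h0, h1⟩
    ((kphi_diff (M := M) (a := a) (ψ := ψ) (Kb := Kb) (KN := KN)).diffContOnCl) hB
    (fun w hw => kphi_left_edge hd hψ hKba hKNa hleft hw)
    (fun w hw => kphi_im hψ hKb hKN hw)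
  refine key.trans (le_of_eq ?_)
  rw [Real.one_rpow, mul_one, Real.rpow_def_of_pos (mul_pos (Real.sqrt_pos.2 hqa)
    (Real.exp_pos _)), Real.log_mul (Real.sqrt_pos.2 hqa).ne' (Real.exp_pos _).ne', Real.log_exp,
    Real.log_sqrt hqa.le, Real.log_pow]
  congr 1
  ring

/-- the defect is nonnegative -/
theorem kap_nonneg (hd : Disjoint M a) (hψ : nsq ψ = 1) (hKb : Kb.IsHermitian)
    (hKN : KN.IsHermitian) (hKba : ActsOn (M ∪ a) Kb) (hKNa : ActsOn M KN)
    (hmarg : ∀ X : Op V q, ActsOn M X →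
      (q : ℂ) ^ a.card * (SE Kb 1 * X).trace = (SE KN 1 * X).trace) :
    0 ≤ kap M a ψ Kb KN := by
  obtain ⟨y, hy, hle⟩ := strip_ineq (kphi_diff (M := M) (a := a) (ψ := ψ) (Kb := Kb) (KN := KN))
    (fun z h0 h1 => kphi_bound hd hψ hKb hKN hKba hKNa hmarg z h0 h1) (kphi_zero hψ)
    (kphi_deriv hKb hKN) one_pos le_rfl
  have hre : ∀ s : ℝ, 0 ≤ 1 - (kphi M a ψ Kb KN ((s : ℂ) * Complex.I)).re := fun s => by
    have := (Complex.re_le_norm _).trans
      (kphi_im (M := M) (a := a) hψ hKb hKN (w := (s : ℂ) * Complex.I) (by simp))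
    linarith
  have h1 := hre y
  have h2 := hre (-y)
  have h3 : 0 ≤ 2 * Real.pi * Real.cosh Real.pi ^ 2 * 1 * kap M a ψ Kb KN := by linarith
  have h4 : 0 < 2 * Real.pi * Real.cosh Real.pi ^ 2 * 1 := by
    have := Real.cosh_pos Real.pi
    positivity
  exact nonneg_of_mul_nonneg_right h3 h4

/-- from the overlap to the flows -/
theorem kflow_of_overlap (hψ : nsq ψ = 1) (hKb : Kb.IsHermitian) (hKN : KN.IsHermitian) (s δ : ℝ)
    (hδ : 1 - (kphi M a ψ Kb KN ((s : ℂ) * Complex.I)).re ≤ δ) :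
    nsq (SE Kb ((s : ℂ) * Complex.I) *ᵥ (UU (M ∪ a) ψ (-s) *ᵥ ψ) -
      SE KN ((s : ℂ) * Complex.I) *ᵥ (UU M ψ (-s) *ᵥ ψ)) ≤ 8 * δ := by
  have hneg : ((-s : ℝ) : ℂ) * Complex.I = -((s : ℂ) * Complex.I) := by push_cast; ring
  have hstar : star ((s : ℂ) * Complex.I) = -((s : ℂ) * Complex.I) := by
    rw [Complex.star_def, map_mul, Complex.conj_ofReal, Complex.conj_I]
    ring
  set ζ : ℂ := (s : ℂ) * Complex.I with hζ
  have hζre : ζ.re = 0 := by simp [hζ]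
  have hζre' : (-ζ).re = 0 := by simp [hζ]
  set u := SE Kb ζ *ᵥ (UU (M ∪ a) ψ (-s) *ᵥ ψ) with hu
  set w := PP M ψ (-ζ) *ᵥ ψ with hw
  have nu : nsq u = 1 := by rw [hu, nsq_of_unit (SE_unit hKb hζre), UU_nsq, hψ]
  have huw : UU M ψ (-s) *ᵥ ψ = w := by rw [UU_eq_PP, hneg]
  have nw : nsq (SE KN ζ *ᵥ w) = 1 := by
    rw [nsq_of_unit (SE_unit hKN hζre), ← huw, UU_nsq, hψ]
  rw [huw]
  have hov : star (SE KN ζ *ᵥ w) ⬝ᵥ u = kphi M a ψ Kb KN ζ := by
    rw [hu, UU_eq_PP, hneg, hw, kphi, kv, Matrix.mulVec_mulVec, Matrix.mulVec_mulVec,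
      Matrix.star_mulVec, ← Matrix.dotProduct_mulVec, Matrix.mulVec_mulVec, conjTranspose_mul,
      PP_star, SE_star hKN, star_neg, hstar, neg_neg]
    simp only [Matrix.mul_assoc]
  have h1 := nsq_sub_expand (SE KN ζ *ᵥ w) u
  rw [hov, nw, nu] at h1
  have h2 : nsq (u - SE KN ζ *ᵥ w) = nsq (SE KN ζ *ᵥ w - u) := by
    unfold nsq
    refine Finset.sum_congr rfl fun i _ => ?_
    rw [Pi.sub_apply, Pi.sub_apply, norm_sub_rev]
  have h3 : 0 ≤ nsq (SE KN ζ *ᵥ w - u) := Finset.sum_nonneg fun i _ => by positivity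
  rw [h2]
  linarith

/-- **KAPPA1, pointwise.**  The unitary `V = SE KN (is) UU M ψ (-s)` acts on `M`. -/
theorem kappa1 (hd : Disjoint M a) (hψ : nsq ψ = 1) (hKb : Kb.IsHermitian)
    (hKN : KN.IsHermitian) (hKba : ActsOn (M ∪ a) Kb) (hKNa : ActsOn M KN)
    (hmarg : ∀ X : Op V q, ActsOn M X →
      (q : ℂ) ^ a.card * (SE Kb 1 * X).trace = (SE KN 1 * X).trace) {l1 : ℝ} (hl1 : 0 ≤ l1)
    (hleft : ∀ z : ℂ, z.re = -(1 / 2) → ‖SE KN (-z) * SE Kb z‖ ≤ Real.exp l1) {s : ℝ}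
    (hs : |s| ≤ 1) :
    nsq (SE Kb ((s : ℂ) * Complex.I) *ᵥ (UU (M ∪ a) ψ (-s) *ᵥ ψ) -
      SE KN ((s : ℂ) * Complex.I) *ᵥ (UU M ψ (-s) *ᵥ ψ)) ≤
      |s| * (32 * Real.cosh Real.pi * Real.sqrt (Real.pi * Real.exp 1 *
        ((1 + (a.card * Real.log q / 2 + l1)) * kap M a ψ Kb KN))) := by
  have hL : 0 ≤ (a.card : ℝ) * Real.log q / 2 + l1 := by
    have := mul_nonneg (Nat.cast_nonneg (α := ℝ) a.card) (Real.log_natCast_nonneg q)
    linarith
  have h := strip_point (kphi_diff (M := M) (a := a) (ψ := ψ) (Kb := Kb) (KN := KN))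
    (fun z h0 h1 => kphi_bound hd hψ hKb hKN hKba hKNa hmarg z h0 h1) hL
    (fun z h0 h1 => kphi_left hd hψ hKb hKN hKba hKNa hleft z h0 h1) (kphi_zero hψ)
    (kphi_deriv hKb hKN) hs
  refine (kflow_of_overlap hψ hKb hKN s _ h).trans (le_of_eq ?_)
  ring

/-- **KAPPA1, linear in the defect**, at some time in `[h/2, h]` (both signs). -/
theorem kappa1_lin (hd : Disjoint M a) (hψ : nsq ψ = 1) (hKb : Kb.IsHermitian)
    (hKN : KN.IsHermitian) (hKba : ActsOn (M ∪ a) Kb) (hKNa : ActsOn M KN)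
    (hmarg : ∀ X : Op V q, ActsOn M X →
      (q : ℂ) ^ a.card * (SE Kb 1 * X).trace = (SE KN 1 * X).trace) {h : ℝ} (h0 : 0 < h)
    (h1 : h ≤ 1) : ∃ y ∈ Set.Icc (h / 2) h, ∀ s : ℝ, (s = y ∨ s = -y) →
      nsq (SE Kb ((s : ℂ) * Complex.I) *ᵥ (UU (M ∪ a) ψ (-s) *ᵥ ψ) -
        SE KN ((s : ℂ) * Complex.I) *ᵥ (UU M ψ (-s) *ᵥ ψ)) ≤
        16 * Real.pi * Real.cosh Real.pi ^ 2 * h * kap M a ψ Kb KN := by
  obtain ⟨y, hy, hle⟩ := strip_ineq (kphi_diff (M := M) (a := a) (ψ := ψ) (Kb := Kb) (KN := KN))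
    (fun z a b => kphi_bound hd hψ hKb hKN hKba hKNa hmarg z a b) (kphi_zero hψ)
    (kphi_deriv hKb hKN) h0 h1
  have hre : ∀ s : ℝ, 0 ≤ 1 - (kphi M a ψ Kb KN ((s : ℂ) * Complex.I)).re := fun s => by
    have := (Complex.re_le_norm _).trans
      (kphi_im (M := M) (a := a) hψ hKb hKN (w := (s : ℂ) * Complex.I) (by simp))
    linarith
  refine ⟨y, hy, fun s hs => ?_⟩
  have hδ : 1 - (kphi M a ψ Kb KN ((s : ℂ) * Complex.I)).re ≤
      2 * Real.pi * Real.cosh Real.pi ^ 2 * h * kap M a ψ Kb KN := by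
    rcases hs with rfl | rfl
    · have := hre (-s)
      linarith
    · have := hre y
      linarith
  refine (kflow_of_overlap hψ hKb hKN s _ hδ).trans (le_of_eq ?_)
  ring

end kappa

end Vale.Agent.P356.GA.K1
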