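import Vale.Agent.P356.GA.RefFam677

/-!
# GA (helper677): conjugation bounds for the noisy modular Hamiltonians in 228's form
-/

set_option linter.all false

namespace Vale.Agent.P356.GA

open Matrix Finset Vale.Agent.P356 Vale.Agent.P356.SV Vale.Agent.P356.Path Vale.Agent.P356.PH
open scoped BigOperators ComplexOrder Kronecker Matrix.Norms.L2Operator MatrixOrder

variable {V : Type*} [Fintype V] [DecidableEq V] {q : ℕ}

theorem exp_Kt_eq_SF (ε : ℝ) (Ω : Conf V q → ℂ) (b : Finset V) (z : ℂ) :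
    NormedSpace.exp (z • Kt ε Ω b) = SF ε Ω b (-z) := by
  rw [SF, smul_neg, neg_smul, neg_neg]

/-- the conjugation bound, general `|Re z| ≤ 1/2` -/
theorem Kt_conj_le {ε : ℝ} (h0 : 0 < ε) (h1 : ε ≤ 1) {Ω : Conf V q → ℂ} (hΩ : nsq Ω = 1)
    {a b : Finset V} (hab : a ⊆ b) {X : Op V q} (hX : ActsOn a X) {z : ℂ} (hz : |z.re| ≤ 1 / 2) :
    ‖NormedSpace.exp (z • Kt ε Ω b) * X * NormedSpace.exp ((-z) • Kt ε Ω b)‖ ≤
      Real.exp (|z.re| * Real.log ((q : ℝ) ^ 2 / ε) * a.card) * ‖X‖ := by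
  have hd : Disjoint (b \ a) a := Finset.sdiff_disjoint
  have hX' : ActsOn (b \ a)ᶜ X := by
    refine ph_acts_mono ?_ hX
    intro x hx
    rw [Finset.mem_compl, Finset.mem_sdiff, not_and_not_right]
    exact fun _ => hx
  have hz' : |(-z).re| ≤ 1 / 2 := by rw [Complex.neg_re, abs_neg]; exact hz
  have h := SF_sandwich h0 h1 hΩ hd hX' hz'
  rw [Finset.sdiff_union_of_subset hab, neg_neg] at h
  rw [exp_Kt_eq_SF, exp_Kt_eq_SF, neg_neg]
  refine h.trans (mul_le_mul_of_nonneg_right ?_ (norm_nonneg _))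
  rcases a.eq_empty_or_nonempty with rfl | ⟨x, hx⟩
  · simp
  · have hq : (0 : ℝ) < q := by exact_mod_cast q_pos_of_unit hΩ (x := x)
    have hp : 0 < (q : ℝ) ^ 2 / ε := by positivity
    rw [Complex.neg_re, abs_neg, Real.rpow_def_of_pos (pow_pos hp _), Real.log_pow]
    refine le_of_eq ?_
    congr 1
    ring

/-- the conjugation bound on the lines `|Re z| = 1/4` (hypothesis `hκ` of 228's `line_theta`, with
`Lam = log (q ^ 2 / ε) / 4`) -/
theorem Kt_conj_quarter {ε : ℝ} (h0 : 0 < ε) (h1 : ε ≤ 1) {Ω : Conf V q → ℂ} (hΩ : nsq Ω = 1)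
    {a b : Finset V} (hab : a ⊆ b) {X : Op V q} (hX : ActsOn a X) {z : ℂ} (hz : |z.re| = 1 / 4) :
    ‖NormedSpace.exp (z • Kt ε Ω b) * X * NormedSpace.exp ((-z) • Kt ε Ω b)‖ ≤
      Real.exp (Real.log ((q : ℝ) ^ 2 / ε) / 4 * a.card) * ‖X‖ := by
  have h := Kt_conj_le h0 h1 hΩ hab hX (z := z) (by rw [hz]; norm_num)
  rw [hz] at h
  refine h.trans (le_of_eq ?_)
  congr 2
  ring

theorem Lam_nonneg {ε : ℝ} (h0 : 0 < ε) (h1 : ε ≤ 1) (hq : 1 ≤ q) :
    0 ≤ Real.log ((q : ℝ) ^ 2 / ε) / 4 := by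
  have hq' : (1 : ℝ) ≤ q := by exact_mod_cast hq
  have : 1 ≤ (q : ℝ) ^ 2 / ε := by
    rw [le_div_iff₀ h0]
    nlinarith
  have := Real.log_nonneg this
  linarith

end Vale.Agent.P356.GA
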