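import Vale.Agent.P356.GA.Defs341
import Vale.Agent.P356.GA.Glue980
import Vale.Agent.P356.GA.NoiseB677
import Vale.Agent.P356.GA.DblGap932
import Vale.Agent.P356.SA.DblEnt

/-!
# GA, block KTDBL (helper932): the noisy modular Hamiltonians of a product state

* `rh_dbl_one / rh_dbl_two`, `nz_dbl_one / nz_dbl_two`, `Kt_dbl_one / Kt_dbl_two`: the reduced state,
  the noisy reduced state and its modular Hamiltonian of a region of one of the two copies.
* `GI`, `gReg`, `gK`: the index of the tiles of the healing generator, their regions and operators;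
  `Gm_eq_GamK`: the healing generator of `Defs341` is `GamK` of these.
-/

set_option linter.all false

namespace Vale.Agent.P356.GA.KtDbl932

open Matrix Finset Vale.Agent.P356 Vale.Agent.P356.SV Vale.Agent.P356.Path Vale.Agent.P356.NA
open Vale.Agent.P356.SA Vale.Agent.P356.PH Vale.Agent.P356.GA
open scoped BigOperators ComplexOrder Kronecker Matrix.Norms.L2Operator MatrixOrder

section copies
variable {V W : Type} [Fintype V] [DecidableEq V] [Fintype W] [DecidableEq W] {q : ℕ}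

/-- the first copy as a star algebra homomorphism -/
noncomputable def cpS1 (V W : Type) [Fintype V] [DecidableEq V] [Fintype W] [DecidableEq W]
    (q : ℕ) : Op V q →⋆ₐ[ℂ] Op (V ⊕ W) q where
  toFun := cp1
  map_one' := cp1_one
  map_mul' := cp1_mul
  map_zero' := cp1_zero
  map_add' := cp1_add
  commutes' := fun c => by
    rw [Algebra.algebraMap_eq_smul_one, Algebra.algebraMap_eq_smul_one, cp1_smul, cp1_one]
  map_star' := fun A => (cp1_ct A).symm

/-- the second copy as a star algebra homomorphism -/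
noncomputable def cpS2 (V W : Type) [Fintype V] [DecidableEq V] [Fintype W] [DecidableEq W]
    (q : ℕ) : Op W q →⋆ₐ[ℂ] Op (V ⊕ W) q where
  toFun := cp2
  map_one' := cp2_one
  map_mul' := cp2_mul
  map_zero' := cp2_zero
  map_add' := cp2_add
  commutes' := fun c => by
    rw [Algebra.algebraMap_eq_smul_one, Algebra.algebraMap_eq_smul_one, cp2_smul, cp2_one]
  map_star' := fun A => (cp2_ct A).symm

theorem cp1_rsmul (c : ℝ) (A : Op V q) : (cp1 (c • A) : Op (V ⊕ W) q) = c • cp1 A := by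
  ext s t
  exact smul_mul_assoc c _ _

theorem cp2_rsmul (c : ℝ) (A : Op W q) : (cp2 (c • A) : Op (V ⊕ W) q) = c • cp2 A := by
  ext s t
  exact mul_smul_comm c _ _

/-- the reduced state on the empty region -/
theorem rdm_empty {Ω : Conf V q → ℂ} (hΩ : nsq Ω = 1) (a b : {x // x ∈ (∅ : Finset V)} → Fin q) :
    rdm (∅ : Finset V) Ω a b = 1 := by
  obtain ⟨s⟩ := nz_conf_nonempty hΩ
  have h1 := congrFun (congrFun (rh_empty hΩ) s) s
  rw [rh, opOn_apply, Matrix.one_apply_eq, if_pos (fun _ _ => rfl), mul_one] at h1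
  rw [← h1]
  congr 1 <;>
  · funext x
    exact absurd x.2 (Finset.notMem_empty _)

theorem rh_disjSum_one (A : Finset V) (Ω : Conf V q → ℂ) {Ω' : Conf W q → ℂ} (h' : nsq Ω' = 1) :
    rh (A.disjSum (∅ : Finset W)) (dbl Ω Ω') = cp1 (rh A Ω) := by
  ext s t
  have h1 := congrFun (congrFun (sa2b_rdm A (∅ : Finset W) Ω Ω')
    (sa2b_in A (∅ : Finset W) q fun x => s x)) (sa2b_in A (∅ : Finset W) q fun x => t x)
  rw [Matrix.reindex_apply, Matrix.submatrix_apply, kronecker_apply, rdm_empty h', mul_one,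
    Equiv.symm_apply_apply, Equiv.symm_apply_apply] at h1
  rw [rh, opOn_apply, h1]
  change _ = opOn A (rdm A Ω) (s ∘ Sum.inl) (t ∘ Sum.inl) *
    (if s ∘ Sum.inr = t ∘ Sum.inr then 1 else 0)
  rw [opOn_apply, mul_assoc]
  congr 1
  by_cases h2 : ∀ x, x ∉ A → (s ∘ Sum.inl) x = (t ∘ Sum.inl) x
  · by_cases h3 : s ∘ Sum.inr = t ∘ Sum.inr
    · rw [if_pos h2, if_pos h3, mul_one, if_pos]
      rintro (v | w) hv
      · exact h2 v fun h => hv (Finset.inl_mem_disjSum.2 h)
      · exact congrFun h3 w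
    · rw [if_neg h3, mul_zero, if_neg]
      intro h4
      refine h3 (funext fun w => h4 (Sum.inr w) fun h => ?_)
      exact Finset.notMem_empty _ (Finset.inr_mem_disjSum.1 h)
  · rw [if_neg h2, zero_mul, if_neg]
    intro h4
    exact h2 fun x hx => h4 (Sum.inl x) fun h => hx (Finset.inl_mem_disjSum.1 h)

theorem rh_disjSum_two (B : Finset W) {Ω : Conf V q → ℂ} (Ω' : Conf W q → ℂ) (h : nsq Ω = 1) :
    rh ((∅ : Finset V).disjSum B) (dbl Ω Ω') = cp2 (rh B Ω') := by
  ext s t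
  have h1 := congrFun (congrFun (sa2b_rdm (∅ : Finset V) B Ω Ω')
    (sa2b_in (∅ : Finset V) B q fun x => s x)) (sa2b_in (∅ : Finset V) B q fun x => t x)
  rw [Matrix.reindex_apply, Matrix.submatrix_apply, kronecker_apply, rdm_empty h, one_mul,
    Equiv.symm_apply_apply, Equiv.symm_apply_apply] at h1
  rw [rh, opOn_apply, h1]
  change _ = (if s ∘ Sum.inl = t ∘ Sum.inl then 1 else 0) *
    opOn B (rdm B Ω') (s ∘ Sum.inr) (t ∘ Sum.inr)
  rw [opOn_apply, mul_comm (ite _ _ _), mul_assoc]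
  congr 1
  by_cases h2 : ∀ x, x ∉ B → (s ∘ Sum.inr) x = (t ∘ Sum.inr) x
  · by_cases h3 : s ∘ Sum.inl = t ∘ Sum.inl
    · rw [if_pos h2, if_pos h3, mul_one, if_pos]
      rintro (v | w) hv
      · exact congrFun h3 v
      · exact h2 w fun h => hv (Finset.inr_mem_disjSum.2 h)
    · rw [if_neg h3, mul_zero, if_neg]
      intro h4
      refine h3 (funext fun w => h4 (Sum.inl w) fun h => ?_)
      exact Finset.notMem_empty _ (Finset.inl_mem_disjSum.1 h)
  · rw [if_neg h2, zero_mul, if_neg]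
    intro h4
    exact h2 fun x hx => h4 (Sum.inr x) fun h => hx (Finset.inr_mem_disjSum.1 h)

theorem disjSum_empty_map (A : Finset V) :
    A.disjSum (∅ : Finset W) = A.map Function.Embedding.inl := Finset.disjSum_empty _

theorem empty_disjSum_map (B : Finset W) :
    (∅ : Finset V).disjSum B = B.map Function.Embedding.inr := Finset.empty_disjSum _

/-- reduced states of the first copy -/
theorem rh_dbl_one (A : Finset V) (Ω : Conf V q → ℂ) {Ω' : Conf W q → ℂ} (h' : nsq Ω' = 1) :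
    rh (A.map Function.Embedding.inl) (dbl Ω Ω') = cp1 (rh A Ω) := by
  rw [← disjSum_empty_map, rh_disjSum_one A Ω h']

/-- reduced states of the second copy -/
theorem rh_dbl_two (B : Finset W) {Ω : Conf V q → ℂ} (Ω' : Conf W q → ℂ) (h : nsq Ω = 1) :
    rh (B.map Function.Embedding.inr) (dbl Ω Ω') = cp2 (rh B Ω') := by
  rw [← empty_disjSum_map, rh_disjSum_two B Ω' h]

theorem powerset_map {α β : Type*} [DecidableEq α] [DecidableEq β] (f : α ↪ β) (b : Finset α) :
    (b.map f).powerset = b.powerset.map ⟨Finset.map f, Finset.map_injective f⟩ := by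
  ext C
  rw [Finset.mem_powerset, Finset.mem_map]
  constructor
  · intro h
    obtain ⟨u, hu, e⟩ := Finset.subset_map_iff.1 h
    exact ⟨u, Finset.mem_powerset.2 hu, e.symm⟩
  · rintro ⟨u, hu, rfl⟩
    exact Finset.map_subset_map.2 (Finset.mem_powerset.1 hu)

/-- noisy reduced states of the first copy -/
theorem nz_dbl_one (ε : ℝ) (b : Finset V) (Ω : Conf V q → ℂ) {Ω' : Conf W q → ℂ}
    (h' : nsq Ω' = 1) :
    nz ε (dbl Ω Ω') (b.map Function.Embedding.inl) = cp1 (nz ε Ω b) := by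
  rw [nz, nz, powerset_map, Finset.sum_map, cp1_sum]
  refine Finset.sum_congr rfl fun B _ => ?_
  rw [Function.Embedding.coeFn_mk, rh_dbl_one B Ω h', cp1_rsmul, nzw, nzw, Finset.card_map,
    Finset.card_map]

/-- noisy reduced states of the second copy -/
theorem nz_dbl_two (ε : ℝ) (b : Finset W) {Ω : Conf V q → ℂ} (Ω' : Conf W q → ℂ)
    (h : nsq Ω = 1) :
    nz ε (dbl Ω Ω') (b.map Function.Embedding.inr) = cp2 (nz ε Ω' b) := by
  rw [nz, nz, powerset_map, Finset.sum_map, cp2_sum]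
  refine Finset.sum_congr rfl fun B _ => ?_
  rw [Function.Embedding.coeFn_mk, rh_dbl_two B Ω' h, cp2_rsmul, nzw, nzw, Finset.card_map,
    Finset.card_map]

/-- logarithm of an operator on the first copy -/
theorem cp1_log {A : Op V q} (hA : IsStrictlyPositive A) :
    (CFC.log (cp1 A) : Op (V ⊕ W) q) = cp1 (CFC.log A) := by
  have hsa : IsSelfAdjoint A := hA.isSelfAdjoint
  have h := StarAlgHom.map_cfc (cpS1 V W q) Real.log A ?_ ?_ hsa ?_
  · exact h.symm
  · refine Real.continuousOn_log.mono ?_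
    intro x hx
    exact (hA.spectrum_pos hx).ne'
  · exact (cpS1 V W q).toLinearMap.continuous_of_finiteDimensional
  · exact hsa.map (cpS1 V W q)

/-- logarithm of an operator on the second copy -/
theorem cp2_log {A : Op W q} (hA : IsStrictlyPositive A) :
    (CFC.log (cp2 A) : Op (V ⊕ W) q) = cp2 (CFC.log A) := by
  have hsa : IsSelfAdjoint A := hA.isSelfAdjoint
  have h := StarAlgHom.map_cfc (cpS2 V W q) Real.log A ?_ ?_ hsa ?_
  · exact h.symm
  · refine Real.continuousOn_log.mono ?_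
    intro x hx
    exact (hA.spectrum_pos hx).ne'
  · exact (cpS2 V W q).toLinearMap.continuous_of_finiteDimensional
  · exact hsa.map (cpS2 V W q)

/-- **noisy modular Hamiltonians of the first copy** -/
theorem Kt_dbl_one {ε : ℝ} (h0 : 0 < ε) (h1 : ε ≤ 1) {Ω : Conf V q → ℂ} {Ω' : Conf W q → ℂ}
    (h : nsq Ω = 1) (h' : nsq Ω' = 1) (b : Finset V) :
    Kt ε (dbl Ω Ω') (b.map Function.Embedding.inl) = cp1 (Kt ε Ω b) := by
  rw [Kt, Kt, nz_dbl_one ε b Ω h', cp1_log (nz_strict h0 h1 h b), cp1_neg]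

/-- **noisy modular Hamiltonians of the second copy** -/
theorem Kt_dbl_two {ε : ℝ} (h0 : 0 < ε) (h1 : ε ≤ 1) {Ω : Conf V q → ℂ} {Ω' : Conf W q → ℂ}
    (h : nsq Ω = 1) (h' : nsq Ω' = 1) (b : Finset W) :
    Kt ε (dbl Ω Ω') (b.map Function.Embedding.inr) = cp2 (Kt ε Ω' b) := by
  rw [Kt, Kt, nz_dbl_two ε b Ω' h, cp2_log (nz_strict h0 h1 h' b), cp2_neg]

end copies

section gd
variable {L : ℕ} {q : ℕ}

/-- index of the windows of the healing generator: layer, line, tile -/
abbrev GI (n L : ℕ) : Type := (Fin n × Site L) ⊕ (Fin n × Site L)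

/-- the tile of a window -/
def gU {n L : ℕ} : GI n L → Site L ⊕ Site L := Sum.map Prod.snd Prod.snd

/-- the tiles of the two-layer lattice -/
def gTile (L M : ℕ) : Site L ⊕ Site L → Finset (Site L ⊕ Site L)
  | Sum.inl j => (tileB L M j).map Function.Embedding.inl
  | Sum.inr j => (tileB L M j).map Function.Embedding.inr

/-- the region of a window in its own layer -/
noncomputable def gBase (g : Gd L) : GI g.n L → Finset (Site L)
  | Sum.inl p => g.s1 p.1 ∩ tileB L g.tl p.2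
  | Sum.inr p => g.s2 p.1 ∩ tileB L g.tl p.2

/-- the region of a window -/
noncomputable def gReg (g : Gd L) : GI g.n L → Finset (Site L ⊕ Site L)
  | Sum.inl p => (g.s1 p.1 ∩ tileB L g.tl p.2).map Function.Embedding.inl
  | Sum.inr p => (g.s2 p.1 ∩ tileB L g.tl p.2).map Function.Embedding.inr

/-- the operator of a window -/
noncomputable def gK (g : Gd L) (Kt : Finset (Site L) → Op (Site L) q) :
    GI g.n L → Op (Site L ⊕ Site L) q
  | Sum.inl p => cp1 (Kt (g.s1 p.1 ∩ tileB L g.tl p.2))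
  | Sum.inr p => cp2 (Kt (g.s2 p.1 ∩ tileB L g.tl p.2))

theorem card_gReg (g : Gd L) (i : GI g.n L) : (gReg g i).card = (gBase g i).card := by
  rcases i with p | p <;> exact Finset.card_map _

theorem mem_tileB {M : ℕ} {x j : Site L} :
    x ∈ tileB L M j ↔ x.1.val / M = j.1.val ∧ x.2.val / M = j.2.val := by
  rw [tileB, Finset.mem_filter]
  exact and_iff_right (Finset.mem_univ _)

theorem tileB_disj {M : ℕ} {j j' : Site L} (h : j ≠ j') :
    Disjoint (tileB L M j) (tileB L M j') := by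
  rw [Finset.disjoint_left]
  intro x hx hx'
  rw [mem_tileB] at hx hx'
  exact h (Prod.ext (Fin.ext (hx.1.symm.trans hx'.1)) (Fin.ext (hx.2.symm.trans hx'.2)))

theorem tileB_cover {M : ℕ} (x : Site L) : ∃ j, x ∈ tileB L M j :=
  ⟨(⟨x.1.val / M, (Nat.div_le_self _ _).trans_lt x.1.isLt⟩,
    ⟨x.2.val / M, (Nat.div_le_self _ _).trans_lt x.2.isLt⟩), mem_tileB.2 ⟨rfl, rfl⟩⟩

theorem gTile_disj {M : ℕ} {j j' : Site L ⊕ Site L} (h : j ≠ j') :
    Disjoint (gTile L M j) (gTile L M j') := by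
  rw [Finset.disjoint_left]
  rcases j with j | j <;> rcases j' with j' | j' <;> intro x hx hx'
  · obtain ⟨y, hy, rfl⟩ := Finset.mem_map.1 hx
    obtain ⟨y', hy', e⟩ := Finset.mem_map.1 hx'
    have e' : y' = y := Sum.inl_injective e
    subst e'
    exact Finset.disjoint_left.1 (tileB_disj fun hj => h (by rw [hj])) hy hy'
  · obtain ⟨y, hy, rfl⟩ := Finset.mem_map.1 hx
    obtain ⟨y', hy', e⟩ := Finset.mem_map.1 hx'
    exact Sum.inr_ne_inl e
  · obtain ⟨y, hy, rfl⟩ := Finset.mem_map.1 hx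
    obtain ⟨y', hy', e⟩ := Finset.mem_map.1 hx'
    exact Sum.inl_ne_inr e
  · obtain ⟨y, hy, rfl⟩ := Finset.mem_map.1 hx
    obtain ⟨y', hy', e⟩ := Finset.mem_map.1 hx'
    have e' : y' = y := Sum.inr_injective e
    subst e'
    exact Finset.disjoint_left.1 (tileB_disj fun hj => h (by rw [hj])) hy hy'

theorem gTile_cover {M : ℕ} (v : Site L ⊕ Site L) : ∃ j, v ∈ gTile L M j := by
  rcases v with x | x
  · obtain ⟨j, hj⟩ := tileB_cover (M := M) x
    exact ⟨Sum.inl j, Finset.mem_map_of_mem _ hj⟩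
  · obtain ⟨j, hj⟩ := tileB_cover (M := M) x
    exact ⟨Sum.inr j, Finset.mem_map_of_mem _ hj⟩

/-- the tile of a site -/
def gOf (L M : ℕ) : Site L ⊕ Site L → Site L ⊕ Site L :=
  Sum.map
    (fun x => (⟨x.1.val / M, (Nat.div_le_self _ _).trans_lt x.1.isLt⟩,
      ⟨x.2.val / M, (Nat.div_le_self _ _).trans_lt x.2.isLt⟩))
    (fun x => (⟨x.1.val / M, (Nat.div_le_self _ _).trans_lt x.1.isLt⟩,
      ⟨x.2.val / M, (Nat.div_le_self _ _).trans_lt x.2.isLt⟩))

theorem mem_gTile_gOf {M : ℕ} (v : Site L ⊕ Site L) : v ∈ gTile L M (gOf L M v) := by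
  rcases v with x | x
  · exact Finset.mem_map_of_mem _ (mem_tileB.2 ⟨rfl, rfl⟩)
  · exact Finset.mem_map_of_mem _ (mem_tileB.2 ⟨rfl, rfl⟩)

theorem mem_gTile {M : ℕ} {v j : Site L ⊕ Site L} : v ∈ gTile L M j ↔ gOf L M v = j := by
  constructor
  · intro h
    by_contra hne
    exact Finset.disjoint_left.1 (gTile_disj hne) (mem_gTile_gOf v) h
  · rintro rfl
    exact mem_gTile_gOf v

theorem gReg_sub (g : Gd L) (i : GI g.n L) : gReg g i ⊆ gTile L g.tl (gU i) := by
  rcases i with p | p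
  · exact Finset.map_subset_map.2 Finset.inter_subset_right
  · exact Finset.map_subset_map.2 Finset.inter_subset_right

theorem gK_herm (g : Gd L) {Kt : Finset (Site L) → Op (Site L) q}
    (hK : ∀ b, (Kt b).IsHermitian) (i : GI g.n L) : (gK g Kt i).IsHermitian := by
  rcases i with p | p
  · exact (cp1_ct _).trans (by rw [(hK _).eq]; rfl)
  · exact (cp2_ct _).trans (by rw [(hK _).eq]; rfl)

theorem gK_acts (g : Gd L) {Kt : Finset (Site L) → Op (Site L) q}
    (hK : ∀ b, ActsOn b (Kt b)) (i : GI g.n L) : ActsOn (gReg g i) (gK g Kt i) := by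
  rcases i with p | p
  · have h := cp1_acts (W := Site L) (hK (g.s1 p.1 ∩ tileB L g.tl p.2))
    rw [disjSum_empty_map] at h
    exact h
  · have h := cp2_acts (V := Site L) (hK (g.s2 p.1 ∩ tileB L g.tl p.2))
    rw [empty_disjSum_map] at h
    exact h

theorem gK_acts_tile (g : Gd L) {Kt : Finset (Site L) → Op (Site L) q}
    (hK : ∀ b, ActsOn b (Kt b)) (i : GI g.n L) :
    ActsOn (gTile L g.tl (gU i)) (gK g Kt i) :=
  ph_acts_mono (gReg_sub g i) (gK_acts g hK i)

/-- **the healing generator is a combination of window operators** -/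
theorem Gm_eq_GamK (g : Gd L) (θ : ℝ) (Kt : Finset (Site L) → Op (Site L) q) :
    g.Gm θ Kt = GamK (gK g Kt) (fun _ => θ / 2) := by
  rw [GamK, Fintype.sum_sum_type, Gd.Gm, Gd.Gm1, Gd.Gm2, cp1_sum, cp2_sum, Finset.sum_range,
    Finset.sum_range, Fintype.sum_prod_type, Fintype.sum_prod_type]
  congr 1
  · refine Finset.sum_congr rfl fun k _ => ?_
    rw [cp1_sum]
    refine Finset.sum_congr rfl fun j _ => ?_
    rw [cp1_smul, Complex.coe_smul]
    rfl
  · refine Finset.sum_congr rfl fun k _ => ?_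
    rw [cp2_sum]
    refine Finset.sum_congr rfl fun j _ => ?_
    rw [cp2_smul, Complex.coe_smul]
    rfl

/-- **the window operators are the noisy modular Hamiltonians of the product state** -/
theorem gK_eq_Kt (g : Gd L) {ε : ℝ} (h0 : 0 < ε) (h1 : ε ≤ 1) {Ω : Conf (Site L) q → ℂ}
    (h : nsq Ω = 1) (i : GI g.n L) : gK g (Kt ε Ω) i = Kt ε (dbl Ω Ω) (gReg g i) := by
  rcases i with p | p
  · exact (Kt_dbl_one h0 h1 h h _).symm
  · exact (Kt_dbl_two h0 h1 h h _).symm

/-- the states of `Defs341` as tilted states with the windows as generators -/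
theorem St_iff (g : Gd L) (θ M : ℝ) (Kt : Finset (Site L) → Op (Site L) q)
    (Ω : Conf (Site L) q → ℂ) (τ t : ℝ) (ψ : Conf (Site L ⊕ Site L) q → ℂ) :
    g.St θ M Kt Ω τ t ψ ↔ TState (fun k => cut (g.R k) q) (fun _ => θ) M
      (GamK (gK g Kt) (fun _ => θ / 2)) (dbl Ω Ω) (1 + τ * Complex.I) g.n t ψ := by
  rw [Gd.St, Gm_eq_GamK]

theorem gK_norm (g : Gd L) {Kt : Finset (Site L) → Op (Site L) q} (i : GI g.n L) :
    ‖gK g Kt i‖ ≤ ‖Kt (gBase g i)‖ := by
  rcases i with p | p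
  · exact dg_norm_one _
  · exact dg_norm_two _

section noisy
variable (g : Gd L) {ε : ℝ} (h0 : 0 < ε) (h1 : ε ≤ 1) {Ω : Conf (Site L) q → ℂ} (h : nsq Ω = 1)
include h0 h1 h

theorem gKt_norm (i : GI g.n L) :
    ‖gK g (Kt ε Ω) i‖ ≤ ((gReg g i).card : ℝ) * Real.log (q / ε) := by
  rw [card_gReg]
  exact (gK_norm g i).trans (Kt_norm h0 h1 h _)

theorem gKt_acts (i : GI g.n L) : ActsOn (gReg g i) (gK g (Kt ε Ω) i) :=
  gK_acts g (fun b => Kt_acts h0 h1 h b) i

theorem gKt_acts_tile (i : GI g.n L) : ActsOn (gTile L g.tl (gU i)) (gK g (Kt ε Ω) i) :=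
  gK_acts_tile g (fun b => Kt_acts h0 h1 h b) i

end noisy

theorem gKt_herm (g : Gd L) (ε : ℝ) (Ω : Conf (Site L) q → ℂ) (i : GI g.n L) :
    (gK g (Kt ε Ω) i).IsHermitian := gK_herm g (fun b => Kt_herm ε Ω b) i

theorem gKt_empty (g : Gd L) (ε : ℝ) {Ω : Conf (Site L) q → ℂ} (h : nsq Ω = 1) {i : GI g.n L}
    (hi : gReg g i = ∅) : gK g (Kt ε Ω) i = 0 := by
  rcases i with p | p
  · have e : g.s1 p.1 ∩ tileB L g.tl p.2 = ∅ := Finset.map_eq_empty.1 hi
    show cp1 (Kt ε Ω (g.s1 p.1 ∩ tileB L g.tl p.2)) = 0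
    rw [e, Kt_empty ε h, cp1_zero]
  · have e : g.s2 p.1 ∩ tileB L g.tl p.2 = ∅ := Finset.map_eq_empty.1 hi
    show cp2 (Kt ε Ω (g.s2 p.1 ∩ tileB L g.tl p.2)) = 0
    rw [e, Kt_empty ε h, cp2_zero]

end gd

end Vale.Agent.P356.GA.KtDbl932
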