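import Vale.Agent.P356.GA.Slab225
import Vale.Agent.P356.GA.KtConj677

/-!
# GA, block SLAB (helper225), part b: the noisy modular Hamiltonians `Kt ε Ω b`
-/

set_option linter.all false

namespace Vale.Agent.P356.GA.Slab

open Matrix Finset Vale.Agent.P356 Vale.Agent.P356.SV Vale.Agent.P356.Path Vale.Agent.P356.PH
open Vale.Agent.P356.GA Vale.Agent.P356.GA.K1
open scoped BigOperators ComplexOrder Kronecker Matrix.Norms.L2Operator

theorem kt_scal {u δ c h L : ℝ} (hL : 0 ≤ L) :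
    4 * u / h ^ 2 + 2 * 2 * h ^ 2 / (1 / (2 * (1 + L))) ^ 4 =
      4 * u / h ^ 2 + 64 * (1 + L) ^ 4 * h ^ 2 := by
  have h1 : (0 : ℝ) < 1 + L := by linarith
  congr 1
  field_simp
  ring

/-- **SLAB for `Kt`** : the core inside the slab tile `b`. -/
theorem slab_Kt {V : Type*} [Fintype V] [DecidableEq V] {q : ℕ} {α β : ℕ → Type*}
    [∀ k, Fintype (α k)] [∀ k, DecidableEq (α k)] [∀ k, Fintype (β k)] [∀ k, DecidableEq (β k)]
    {ι : Type*} [Fintype ι] [DecidableEq ι]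
    (e : ∀ k, Conf V q ≃ α k × β k) {ψ Ω : Conf V q → ℂ} (g : ∀ k, α k → ℝ)
    (n : ℕ) {K : ι → Op V q} (hΩ : nsq Ω = 1) (hψ : nsq ψ = 1) {ε : ℝ} (h0 : 0 < ε)
    (h1 : ε ≤ 1 / 2) {a b : Finset V} (hab : a ⊆ b) {γ : ι → ℝ}
    (hγ : GamK K γ = Kt ε Ω b ∨ GamK K γ = -Kt ε Ω b)
    {P : Op V q} (hP : P.PosSemidef) (hPa : ActsOn a P) (hP1 : ‖P‖ ≤ 1) {δ : ℝ}
    (hcl : ∀ X : Op V q, ActsOn b X →
      ‖star ψ ⬝ᵥ (X *ᵥ ψ) - star Ω ⬝ᵥ (X *ᵥ Ω)‖ ≤ δ * ‖X‖) (hδ : 0 ≤ δ) {L h : ℝ} (hL : 0 ≤ L)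
    (hLa : Real.log ((q : ℝ) ^ 2 / ε) * a.card ≤ L) (hh : 0 < h) (hhL : h * (4 * (1 + L)) ≤ 1) :
    QF ψ (Gen e ψ g n K) (n + 1) P ((0 : ℕ → ℝ), γ) ≤
      4 * (2 * (star Ω ⬝ᵥ (P *ᵥ Ω)).re + (δ + 64 * Real.pi * Real.cosh Real.pi ^ 2 * h *
        (ε * b.card))) / h ^ 2 + 64 * (1 + L) ^ 4 * h ^ 2 := by
  have hε1 : ε ≤ 1 := by linarith
  have hT : (Kt ε Ω b).IsHermitian := Kt_herm ε Ω b
  have hfam := Kt_refFam h0 hε1 hΩ
  have hκ : (star Ω ⬝ᵥ (Kt ε Ω b *ᵥ Ω)).re - entropyOf b Ω ≤ 2 * ε * b.card := by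
    have := Kt_hup_two h0 h1 hΩ b
    have h3 : expv Ω (Kt ε Ω b) = (star Ω ⬝ᵥ (Kt ε Ω b *ᵥ Ω)).re := rfl
    rw [h3] at this
    linarith
  have hR : (0 : ℝ) < 1 / (2 * (1 + L)) := by positivity
  have hRh : (1 : ℝ) / (2 * (1 + L)) ≤ 1 / 2 := by
    rw [div_le_div_iff₀ (by positivity) (by norm_num)]
    linarith
  have hB : ∀ z : ℂ, ‖z‖ ≤ 1 / (2 * (1 + L)) →
      ‖NormedSpace.exp (z • Kt ε Ω b) * P * NormedSpace.exp ((-z) • Kt ε Ω b)‖ ≤ 2 := by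
    intro z hz
    have hz1 : |z.re| ≤ 1 / (2 * (1 + L)) := (Complex.abs_re_le_norm z).trans hz
    have hz2 : |z.re| ≤ 1 / 2 := hz1.trans hRh
    refine (Kt_conj_le h0 hε1 hΩ hab hPa hz2).trans ?_
    have h3 : |z.re| * Real.log ((q : ℝ) ^ 2 / ε) * a.card ≤ 1 / 2 := by
      calc |z.re| * Real.log ((q : ℝ) ^ 2 / ε) * a.card =
            |z.re| * (Real.log ((q : ℝ) ^ 2 / ε) * a.card) := by ring
        _ ≤ |z.re| * L := mul_le_mul_of_nonneg_left hLa (abs_nonneg _)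
        _ ≤ 1 / (2 * (1 + L)) * L := mul_le_mul_of_nonneg_right hz1 hL
        _ ≤ 1 / 2 := by
            rw [div_mul_eq_mul_div, div_le_div_iff₀ (by positivity) (by norm_num)]
            linarith
    have h4 : Real.exp (|z.re| * Real.log ((q : ℝ) ^ 2 / ε) * a.card) ≤ 2 := by
      refine (Real.exp_le_exp.2 h3).trans ?_
      have h5 : Real.exp (1 / 2) ^ 2 = Real.exp 1 := by
        rw [← Real.exp_nat_mul]; norm_num
      have h6 := Real.exp_one_lt_d9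
      by_contra hcon
      push Not at hcon
      nlinarith [Real.exp_pos (1 / 2 : ℝ)]
    calc _ ≤ 2 * 1 := mul_le_mul h4 hP1 (norm_nonneg _) (by norm_num)
      _ = 2 := by norm_num
  have hh1 : h ≤ 1 := by nlinarith
  have hh2 : h ≤ 1 / (2 * (1 + L)) / 2 := by
    rw [div_div, le_div_iff₀ (by positivity)]
    linarith
  have hmain := slab_in_gen e (ψ := ψ) (Ω := Ω) g n hΩ hT hγ (Kt_acts h0 hε1 hΩ b) (hfam.norm b) hP
    (ph_acts_mono hab hPa) hcl hδ hκ hR hB hψ hh hh1 hh2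
  refine hmain.trans ?_
  rw [kt_scal (δ := δ) (c := ε) hL]
  refine add_le_add_left ?_ _
  refine div_le_div_of_nonneg_right ?_ (by positivity)
  have hC : 0 ≤ δ + 32 * Real.pi * Real.cosh Real.pi ^ 2 * h * (2 * ε * b.card) := by
    have := Real.pi_pos
    positivity
  have h7 := mul_le_mul_of_nonneg_right hP1 hC
  have h8 : δ + 32 * Real.pi * Real.cosh Real.pi ^ 2 * h * (2 * ε * b.card) =
      δ + 64 * Real.pi * Real.cosh Real.pi ^ 2 * h * (ε * b.card) := by ring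
  rw [h8, one_mul] at h7
  rw [h8]
  linarith

end Vale.Agent.P356.GA.Slab
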