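import Vale.Agent.P356.GA.EnDefs394
import Vale.Agent.P356.GA.SlabKt225
import Vale.Agent.P356.GA.Crude87
import Vale.Agent.P356.GA.ENa87

/-!
# GA, EN (helper770): the structure `Sum.LF` for the second order form of one local observable

`Gd.lf_inst`: for `P ≥ 0`, `‖P‖ ≤ 1`, acting on the core `a`, the form `g.QV ψ M (Kt ε Ω) P` of a
tilted state satisfies all the hypotheses `Sum.LF` of `Sum.sum_terms`.
-/

set_option linter.all false

namespace Vale.Agent.P356.GA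

open Matrix Finset Vale.Agent.P356 Vale.Agent.P356.SV Vale.Agent.P356.Path Vale.Agent.P356.NA
open Vale.Agent.P356.SA Vale.Agent.P356.PH
open scoped BigOperators ComplexOrder Kronecker Matrix.Norms.L2Operator

namespace Gd
variable {L q : ℕ} (g : Gd L)

theorem toC_fst (c : Sum.Gn (SS L) → ℝ) (k : ℕ) : (g.toC c).1 k = c (Sum.inl k) := rfl

theorem toC_snd (c : Sum.Gn (SS L) → ℝ) (p : Fin g.n × SS L) :
    (g.toC c).2 p = c (Sum.inr ((p.1 : ℕ), p.2)) := rfl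

theorem GamK_zero770 {ι : Type*} [Fintype ι] (K : ι → Op (SS L) q) : GamK K (0 : ι → ℝ) = 0 := by
  simp only [GamK, Pi.zero_apply, zero_smul, Finset.sum_const_zero]

/-- no slab: the tile generator vanishes -/
theorem GamK_lines (K : Finset (SS L) → Op (SS L) q) {c : Sum.Gn (SS L) → ℝ}
    (hc : ∀ p, c (Sum.inr p) = 0) : GamK (g.KV K) (g.toC c).2 = 0 := by
  have e : (g.toC c).2 = 0 := by
    funext p
    rw [toC_snd, hc]; rfl
  rw [e, GamK_zero770]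

/-- one slab -/
theorem GamK_sl (K : Finset (SS L) → Op (SS L) q) {p : ℕ × SS L} (hp : p.1 < g.n) :
    GamK (g.KV K) (g.toC (-Sum.sl p)).2 = K (g.Wd p) := by
  classical
  rw [GamK]
  rw [Finset.sum_eq_single ((⟨p.1, hp⟩ : Fin g.n), p.2)]
  · rw [toC_snd, Pi.neg_apply, Sum.sl_inr, if_pos rfl, KV]
    simp
  · intro b _ hb
    rw [toC_snd, Pi.neg_apply, Sum.sl_inr, if_neg, neg_zero, zero_smul]
    intro h
    apply hb
    have h1 : p.1 = (b.1 : ℕ) := congrArg Prod.fst h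
    have h2 : p.2 = b.2 := congrArg Prod.snd h
    ext1
    · ext1
      exact h1.symm
    · exact h2.symm
  · intro h
    exact absurd (mem_univ _) h


/-- the window generators in a tile which does not meet `a` drop out -/
theorem QV_restrict (ψ : Conf (SS L) q → ℂ) (M : ℝ) {K : Finset (SS L) → Op (SS L) q}
    (hK : ∀ b, ActsOn b (K b)) {P : Op (SS L) q} {a : Finset (SS L)} (hP : ActsOn a P)
    (c : Sum.Gn (SS L) → ℝ) :
    g.QV ψ M K P c = QF ψ (g.GN ψ M K) (g.n + 1) P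
      ((g.toC c).1, fun p => open Classical in if Disjoint (g.tB p.2) a then 0 else (g.toC c).2 p) := by
  classical
  set γ₀ : Fin g.n × SS L → ℝ := fun p => if Disjoint (g.tB p.2) a then 0 else (g.toC c).2 p with hγ₀
  set γ₁ : Fin g.n × SS L → ℝ := fun p => if Disjoint (g.tB p.2) a then (g.toC c).2 p else 0 with hγ₁
  have e : g.toC c = ((g.toC c).1, γ₀ + γ₁) := by
    refine Prod.ext rfl ?_
    funext p
    simp only [hγ₀, hγ₁, Pi.add_apply]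
    split_ifs <;> simp
  have hcom : ∀ p r : Fin g.n × SS L, p.2 ≠ r.2 → Commute (g.KV K p) (g.KV K r) := fun p r h =>
    PH.ph_acts_comm (g.tB_disj h) (g.KV_acts hK p) (g.KV_acts hK r)
  have h1 : Commute (GamK (g.KV K) γ₁) (GamK (g.KV K) γ₀) := by
    refine Commute.sum_left _ _ _ fun p _ => Commute.sum_right _ _ _ fun r _ => ?_
    by_cases hp : Disjoint (g.tB p.2) a
    · by_cases hr : Disjoint (g.tB r.2) a
      · have : γ₀ r = 0 := by simp only [hγ₀, if_pos hr]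
        rw [this, zero_smul]
        exact Commute.zero_right _
      · have hne : p.2 ≠ r.2 := fun h => hr (h ▸ hp)
        exact ((hcom p r hne).smul_left _).smul_right _
    · have : γ₁ p = 0 := by simp only [hγ₁, if_neg hp]
      rw [this, zero_smul]
      exact Commute.zero_left _
  have h2 : Commute (GamK (g.KV K) γ₁) P := by
    refine Commute.sum_left _ _ _ fun p _ => ?_
    by_cases hp : Disjoint (g.tB p.2) a
    · exact (PH.ph_acts_comm hp (g.KV_acts hK p) hP).smul_left _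
    · have : γ₁ p = 0 := by simp only [hγ₁, if_neg hp]
      rw [this, zero_smul]
      exact Commute.zero_left _
  rw [QV, e]
  exact ENa.QF_slab_irr _ ψ _ g.n (g.KV K) ((g.toC c).1, γ₀) h1 h2

/-- only the lines and the window operator count -/
theorem QF_congr_Gam (ψ : Conf (SS L) q → ℂ) (M : ℝ) (K : Finset (SS L) → Op (SS L) q)
    (P : Op (SS L) q) {c c' : (ℕ → ℝ) × (Fin g.n × SS L → ℝ)} (h1 : ∀ k, c.1 k = c'.1 k)
    (h2 : GamK (g.KV K) c.2 = GamK (g.KV K) c'.2) :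
    QF ψ (g.GN ψ M K) (g.n + 1) P c = QF ψ (g.GN ψ M K) (g.n + 1) P c' := by
  refine QF_congr fun ζ => ?_
  rw [fQ_GenR, fQ_GenR, h2]
  congr 1
  funext k
  rw [h1 k]

/-- **(irr)** the form depends only on the lines and on the relevant windows -/
theorem QV_irr (ψ : Conf (SS L) q → ℂ) (M : ℝ) {K : Finset (SS L) → Op (SS L) q}
    (hK : ∀ b, ActsOn b (K b)) (hK0 : K ∅ = 0) {P : Op (SS L) q} {a : Finset (SS L)}
    (hP : ActsOn a P) {Rel : Finset (ℕ × SS L)}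
    (hRel : ∀ p : ℕ × SS L, p.1 < g.n → ¬ Disjoint (g.tB p.2) a → (g.Wd p).Nonempty → p ∈ Rel)
    (c c' : Sum.Gn (SS L) → ℝ) (h1 : ∀ k, c (Sum.inl k) = c' (Sum.inl k))
    (h2 : ∀ p ∈ Rel, c (Sum.inr p) = c' (Sum.inr p)) : g.QV ψ M K P c = g.QV ψ M K P c' := by
  classical
  rw [g.QV_restrict ψ M hK hP c, g.QV_restrict ψ M hK hP c']
  refine g.QF_congr_Gam ψ M K P (fun k => h1 k) ?_
  refine Finset.sum_congr rfl fun p _ => ?_
  by_cases hd : Disjoint (g.tB p.2) a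
  · simp only [if_pos hd]
  · simp only [if_neg hd]
    by_cases hne : (g.Wd ((p.1 : ℕ), p.2)).Nonempty
    · rw [toC_snd, toC_snd, h2 _ (hRel _ p.1.2 hd hne)]
    · have h0 : g.KV K p = 0 := by
        rw [KV, Finset.not_nonempty_iff_eq_empty.1 hne, hK0, neg_zero]
      rw [h0, smul_zero, smul_zero]

/-- **(non)** lines which do not cut the core -/
theorem QV_non (ψ : Conf (SS L) q → ℂ) (M : ℝ) (K : Finset (SS L) → Op (SS L) q)
    {P : Op (SS L) q} {a : Finset (SS L)} (hP : ActsOn a P) (s : Finset ℕ)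
    (hs : ∀ k ∈ s, k < g.n ∧ ¬ Sum.Cuts g.R a k) :
    g.QV ψ M K P (∑ k ∈ s, Sum.ln k) = 0 := by
  rw [QV]
  refine ENa.QF_lines_free g.R_anti394 ψ _ g.n (g.KV K) hP
    (g.GamK_lines K fun p => Sum.sum_ln_inr s p) fun k hk => ?_
  rw [toC_fst, Sum.sum_ln_inl, if_neg]
  intro hks
  simp only [crs107, Finset.mem_filter] at hk
  exact (hs k hks).2 hk.2

/-- **(lnC)** one line, crude -/
theorem QV_ln (hq : 1 ≤ q) {ψ : Conf (SS L) q → ℂ} (hψ : nsq ψ = 1) {M : ℝ}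
    (hM : Fintype.card (SS L) * Real.log q ≤ M) (K : Finset (SS L) → Op (SS L) q)
    {P : Op (SS L) q} {a : Finset (SS L)} (hP : ActsOn a P) (k : ℕ) :
    |g.QV ψ M K P (Sum.ln k)| ≤ Real.exp 1 * ‖P‖ * (4 * a.card * Real.log q + 2) ^ 2 := by
  rw [QV]
  refine ENa.QF_line_crude g.R_anti394 hψ hq hM g.n (g.KV K) hP
    (g.GamK_lines K fun p => Sum.ln_inr k p) (s := k) (fun j _ hj => ?_) ?_
  · rw [toC_fst, Sum.ln_inl, if_neg hj.symm]
  · rw [toC_fst, Sum.ln_inl, if_pos rfl, abs_one]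

/-- **(slC)** one slab, crude -/
theorem QV_sl (hq : 1 ≤ q) {ψ : Conf (SS L) q → ℂ} (hψ : nsq ψ = 1) (M : ℝ) {ε : ℝ}
    (h0 : 0 < ε) (h1 : ε ≤ 1) {Ω : Conf (SS L) q → ℂ} (hΩ : nsq Ω = 1) {P : Op (SS L) q}
    {a : Finset (SS L)} (hP : ActsOn a P) {p : ℕ × SS L} (hp : p.1 < g.n) :
    |g.QV ψ M (Kt ε Ω) P (-Sum.sl p)| ≤
      Real.exp 1 * ‖P‖ * (2 + (g.Wd p ∩ a).card * Real.log ((q : ℝ) ^ 2 / ε)) ^ 2 := by
  rw [QV]
  refine ENa.QF_slab_crude g.R hψ hq M g.n (g.KV (Kt ε Ω)) h0 h1 hΩ hP (g.Wd p) (x := 1)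
    (by simp) ?_ (fun k _ => ?_)
  · rw [g.GamK_sl _ hp, Complex.ofReal_one, one_smul]
  · rw [toC_fst, Pi.neg_apply, Sum.sl_inl, neg_zero]

/-- a slab off the core -/
theorem QV_sl_off (ψ : Conf (SS L) q → ℂ) (M : ℝ) {K : Finset (SS L) → Op (SS L) q}
    (hK : ∀ b, ActsOn b (K b)) {P : Op (SS L) q} {a : Finset (SS L)} (hP : ActsOn a P)
    {p : ℕ × SS L} (hp : p.1 < g.n) (hd : Disjoint a (g.Wd p)) :
    g.QV ψ M K P (-Sum.sl p) = 0 := by
  rw [QV]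
  refine QF_const (a := star ψ ⬝ᵥ (P *ᵥ ψ)) fun ζ => ?_
  rw [fQ_GenR, g.GamK_sl _ hp]
  have hc : Commute (K (g.Wd p)) P := (PH.ph_acts_comm hd hP (hK _)).symm
  have e1 : dr (K (g.Wd p)) P ζ = P := by
    have h := dr_add (Γ := (0 : Op (SS L) q)) (Γ' := K (g.Wd p)) (X := P)
      (Commute.zero_left _) hc ζ
    rw [zero_add] at h
    rw [h, dr, smul_zero, smul_zero, NormedSpace.exp_zero, Matrix.mul_one, Matrix.one_mul]
  rw [e1]
  have e2 : (fun k => ζ * (((g.toC (-Sum.sl p)).1 k : ℝ) : ℂ)) = fun _ => 0 := by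
    funext k
    rw [toC_fst, Pi.neg_apply, Sum.sl_inl, neg_zero, Complex.ofReal_zero, mul_zero]
  rw [e2]
  exact ENa.FT_none _ ψ _ g.n P (fun _ _ => rfl)

/-- a slab which contains the core -/
theorem QV_sl_in {ψ Ω : Conf (SS L) q → ℂ} (hψ : nsq ψ = 1) (M : ℝ) {ε : ℝ}
    (h0 : 0 < ε) (h1 : ε ≤ 1 / 2) (hΩ : nsq Ω = 1) {P : Op (SS L) q} (hPs : P.PosSemidef)
    {a : Finset (SS L)} (hP : ActsOn a P) (hP1 : ‖P‖ ≤ 1) {p : ℕ × SS L} (hp : p.1 < g.n)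
    (hab : a ⊆ g.Wd p) {δ : ℝ} (hcl : ∀ X : Op (SS L) q, ActsOn (g.Wd p) X →
      ‖star ψ ⬝ᵥ (X *ᵥ ψ) - star Ω ⬝ᵥ (X *ᵥ Ω)‖ ≤ δ * ‖X‖) (hδ : 0 ≤ δ) {Λ h : ℝ} (hL : 0 ≤ Λ)
    (hLa : Real.log ((q : ℝ) ^ 2 / ε) * a.card ≤ Λ) (hh : 0 < h) (hhL : h * (4 * (1 + Λ)) ≤ 1) :
    g.QV ψ M (Kt ε Ω) P (-Sum.sl p) ≤
      4 * (2 * (star Ω ⬝ᵥ (P *ᵥ Ω)).re + (δ + 64 * Real.pi * Real.cosh Real.pi ^ 2 * h *
        (ε * (g.Wd p).card))) / h ^ 2 + 64 * (1 + Λ) ^ 4 * h ^ 2 := by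
  have hk := Slab.slab_Kt (fun k => cut (g.R k) q) (gC (fun k => cut (g.R k) q) ψ M) g.n
    (K := g.KV (Kt ε Ω)) hΩ hψ h0 h1 hab (γ := (g.toC (-Sum.sl p)).2)
    (Or.inl (g.GamK_sl (Kt ε Ω) hp)) hPs hP hP1 hcl hδ hL hLa hh hhL
  refine le_trans (le_of_eq ?_) hk
  rw [QV]
  refine g.QF_congr_Gam ψ M _ P (fun k => ?_) rfl
  rw [toC_fst, Pi.neg_apply, Sum.sl_inl, neg_zero]
  rfl

/-- **(conv)** almost convexity -/
theorem QV_conv (hq : 1 ≤ q) {ψ : Conf (SS L) q → ℂ} (hψ : nsq ψ = 1) {M : ℝ}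
    (hM : Fintype.card (SS L) * Real.log q ≤ M) {K : Finset (SS L) → Op (SS L) q}
    (hK : ∀ b, ActsOn b (K b)) (hKH : ∀ b, (K b).IsHermitian) {P : Op (SS L) q}
    (hPs : P.PosSemidef) {a : Finset (SS L)} (hP : ActsOn a P) (hP1 : ‖P‖ ≤ 1) {b₀ r y π : ℝ}
    (hb : ∑ w : Fin g.n × SS L with ¬ Disjoint (g.tB w.2) a, ‖g.KV K w‖ ≤ b₀)
    (hr0 : 0 < r)
    (hr : r * (2 * (crs107 (star1 univ g.tB a) g.R g.n).card *
      (4 * (star1 univ g.tB a).card * Real.log q + 2) + 4 * b₀) ≤ 1)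
    (hy : 0 < y) (hyr : y ≤ r / 2) (hπ : (star ψ ⬝ᵥ (P *ᵥ ψ)).re ≤ π) :
    Sum.ConvE (g.QV ψ M K P) (1 / 2 * psdErr π 8 r y) := by
  intro n w c hw hc
  have hsum : g.toC (∑ i, w i • c i) = ∑ i, w i • g.toC (c i) := by
    rw [map_sum]
    exact Finset.sum_congr rfl fun i _ => map_smul _ _ _
  have h := QF_sum_le (ψ := ψ) (G := g.GN ψ M K) (n := g.n + 1) hPs (Finset.univ : Finset (Fin n))
    (w := w) (fun i _ => hw i) (c := fun i => g.toC (c i))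
    (fun k _ c => Gen_herm _ ψ _ g.n (g.KV_herm hKH) k c) (R := r) (K := 8) (h := y) (π := π) hr0
    (fun i _ j _ z hz => ?_) hy hyr hπ
  · rw [QV, hsum]
    refine h.trans (le_of_eq ?_)
    simp only [QV]
    ring
  · have e : g.toC (c i) - g.toC (c j) = g.toC (c i - c j) := (map_sub _ _ _).symm
    have h2 : ∀ x, |(c i - c j) x| ≤ 2 := fun x => by
      rw [Pi.sub_apply]
      have h3 := hc i x
      have h4 := hc j x
      rw [abs_le] at *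
      constructor <;> linarith [h3.1, h3.2, h4.1, h4.2]
    rw [e]
    refine (gen_radius (s := univ) (B := g.tB) (υ := fun w : Fin g.n × SS L => w.2)
      g.R_anti394 hψ hq hM (fun i _ j _ h => g.tB_disj h) (fun _ => mem_univ _)
      (g.KV_acts hK) (g.KV_herm hKH) (g.toC (c i - c j)) hP (b := 2 * b₀)
      (Θ := 2 * (crs107 (star1 univ g.tB a) g.R g.n).card) ?_ ?_ hr0.le ?_ hz).trans ?_
    · refine le_trans (Finset.sum_le_sum fun w _ => ?_) (le_of_eq (Finset.mul_sum _ _ _).symm |>.trans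
        (mul_le_mul_of_nonneg_left hb (by norm_num : (0:ℝ) ≤ 2)))
      exact mul_le_mul_of_nonneg_right (h2 _) (norm_nonneg _)
    · refine (Finset.sum_le_sum fun k _ => h2 (Sum.inl k)).trans (le_of_eq ?_)
      rw [Finset.sum_const, nsmul_eq_mul, mul_comm]
    · refine le_trans (le_of_eq ?_) hr
      ring
    · linarith

/-- the error of a slab which contains the core -/
noncomputable def slErr (π' δ ε bm Λ h₁ : ℝ) : ℝ :=
  4 * (2 * π' + (δ + 64 * Real.pi * Real.cosh Real.pi ^ 2 * h₁ * (ε * bm))) / h₁ ^ 2 +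
    64 * (1 + Λ) ^ 4 * h₁ ^ 2

/-- **The hypotheses of SUM-A** for one observable `P ≥ 0` on the core `a`: `win` is a window which
contains the slabs around the core, `δ` the deviation of the marginals of `ψ` and `Ω` on it. -/
theorem lf_inst (hq : 1 ≤ q) {ψ Ω : Conf (SS L) q → ℂ} (hψ : nsq ψ = 1) {M : ℝ}
    (hM : Fintype.card (SS L) * Real.log q ≤ M) {ε : ℝ} (h0 : 0 < ε) (h1 : ε ≤ 1 / 2)
    (hΩ : nsq Ω = 1) {P : Op (SS L) q} (hPs : P.PosSemidef) {a : Finset (SS L)} (hP : ActsOn a P)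
    (hP1 : ‖P‖ ≤ 1) {b₀ r y π : ℝ}
    (hb : ∑ w : Fin g.n × SS L with ¬ Disjoint (g.tB w.2) a, ‖g.KV (Kt ε Ω) w‖ ≤ b₀)
    (hr0 : 0 < r)
    (hr : r * (2 * (crs107 (star1 univ g.tB a) g.R g.n).card *
      (4 * (star1 univ g.tB a).card * Real.log q + 2) + 4 * b₀) ≤ 1)
    (hy : 0 < y) (hyr : y ≤ r / 2) (hπ : (star ψ ⬝ᵥ (P *ᵥ ψ)).re ≤ π)
    {Rel : Finset (ℕ × SS L)}
    (hRel : ∀ p : ℕ × SS L, p.1 < g.n → ¬ Disjoint (g.tB p.2) a → (g.Wd p).Nonempty → p ∈ Rel)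
    (hRel' : ∀ p ∈ Rel, p.1 < g.n) {win : Finset (SS L)}
    (hwin : ∀ p ∈ Rel, a ⊆ g.Wd p → g.Wd p ⊆ win) {δ π' bm Λ h₁ C₂ : ℝ}
    (hcl : ∀ X : Op (SS L) q, ActsOn win X →
      ‖star ψ ⬝ᵥ (X *ᵥ ψ) - star Ω ⬝ᵥ (X *ᵥ Ω)‖ ≤ δ * ‖X‖) (hδ : 0 ≤ δ)
    (hπ0 : 0 ≤ π') (hπ' : (star Ω ⬝ᵥ (P *ᵥ Ω)).re ≤ π') (hbm : (win.card : ℝ) ≤ bm)
    (hL : 0 ≤ Λ) (hLa : Real.log ((q : ℝ) ^ 2 / ε) * a.card ≤ Λ) (hh : 0 < h₁)
    (hhL : h₁ * (4 * (1 + Λ)) ≤ 1)
    (hC1 : Real.exp 1 * (4 * a.card * Real.log q + 2) ^ 2 ≤ C₂)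
    (hC2 : Real.exp 1 * (2 + Λ) ^ 2 ≤ C₂) :
    Sum.LF (g.QV ψ M (Kt ε Ω) P) g.R g.tB g.mp g.n a Rel (1 / 2 * psdErr π 8 r y)
      (slErr π' δ ε bm Λ h₁) C₂ := by
  have hε1 : ε ≤ 1 := by linarith
  have hbm0 : 0 ≤ bm := (Nat.cast_nonneg _).trans hbm
  have hcosh : 0 ≤ 64 * Real.pi * Real.cosh Real.pi ^ 2 * h₁ := by
    have := Real.pi_pos
    positivity
  have hsl0 : 0 ≤ slErr π' δ ε bm Λ h₁ := by
    unfold slErr
    have e1 : 0 ≤ 64 * Real.pi * Real.cosh Real.pi ^ 2 * h₁ * (ε * bm) :=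
      mul_nonneg hcosh (mul_nonneg h0.le hbm0)
    have e2 : 0 ≤ 4 * (2 * π' + (δ + 64 * Real.pi * Real.cosh Real.pi ^ 2 * h₁ * (ε * bm))) /
        h₁ ^ 2 := div_nonneg (by linarith) (by positivity)
    have e3 : 0 ≤ 64 * (1 + Λ) ^ 4 * h₁ ^ 2 := by positivity
    linarith
  have hq1 : (1 : ℝ) ≤ (q : ℝ) ^ 2 / ε := by
    rw [le_div_iff₀ h0, one_mul]
    have : (1 : ℝ) ≤ q := by exact_mod_cast hq
    nlinarith
  have hlog : 0 ≤ Real.log ((q : ℝ) ^ 2 / ε) := Real.log_nonneg hq1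
  refine ⟨?_, ?_, ?_, ?_, ?_, ?_⟩
  · exact g.QV_conv hq hψ hM (fun b => Kt_acts h0 hε1 hΩ b) (fun b => Kt_herm ε Ω b) hPs hP hP1 hb hr0 hr
      hy hyr hπ
  · intro s hs
    exact (g.QV_non ψ M _ hP s hs).le
  · intro p hp hcase
    rcases hcase with hin | hoff
    · have hsub := hwin p hp hin
      refine (g.QV_sl_in hψ M h0 h1 hΩ hPs hP hP1 (hRel' p hp) hin (δ := δ)
        (fun X hX => hcl X (PH.ph_acts_mono hsub hX)) hδ hL hLa hh hhL).trans ?_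
      unfold slErr
      have hc : ((g.Wd p).card : ℝ) ≤ bm :=
        le_trans (by exact_mod_cast Finset.card_le_card hsub) hbm
      have hh2 : 0 < h₁ ^ 2 := by positivity
      refine add_le_add ?_ le_rfl
      rw [div_le_div_iff_of_pos_right hh2]
      have e1 : 64 * Real.pi * Real.cosh Real.pi ^ 2 * h₁ * (ε * (g.Wd p).card) ≤
          64 * Real.pi * Real.cosh Real.pi ^ 2 * h₁ * (ε * bm) :=
        mul_le_mul_of_nonneg_left (mul_le_mul_of_nonneg_left hc h0.le) hcosh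
      linarith
    · rw [g.QV_sl_off ψ M (fun b => Kt_acts h0 hε1 hΩ b) hP (hRel' p hp) hoff]
      exact hsl0
  · intro c c' hc1 hc2
    exact g.QV_irr ψ M (fun b => Kt_acts h0 hε1 hΩ b) (Kt_empty ε hΩ) hP hRel c c' hc1 hc2
  · intro k _
    refine (le_abs_self _).trans ((g.QV_ln hq hψ hM _ hP k).trans (le_trans ?_ hC1))
    refine mul_le_mul_of_nonneg_right ?_ (sq_nonneg _)
    have := Real.exp_pos 1
    nlinarith
  · intro p hp
    refine (le_abs_self _).trans ((g.QV_sl hq hψ M h0 hε1 hΩ hP (hRel' p hp)).trans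
      (le_trans ?_ hC2))
    have hc : ((g.Wd p ∩ a).card : ℝ) ≤ a.card := by
      exact_mod_cast Finset.card_le_card inter_subset_right
    have e1 : 0 ≤ ((g.Wd p ∩ a).card : ℝ) * Real.log ((q : ℝ) ^ 2 / ε) :=
      mul_nonneg (Nat.cast_nonneg _) hlog
    have e2 : ((g.Wd p ∩ a).card : ℝ) * Real.log ((q : ℝ) ^ 2 / ε) ≤ Λ := by
      refine le_trans (mul_le_mul_of_nonneg_right hc hlog) ?_
      rw [mul_comm]
      exact hLa
    have e3 : (2 + ((g.Wd p ∩ a).card : ℝ) * Real.log ((q : ℝ) ^ 2 / ε)) ^ 2 ≤ (2 + Λ) ^ 2 :=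
      pow_le_pow_left₀ (by linarith) (by linarith) 2
    have he := Real.exp_pos 1
    calc Real.exp 1 * ‖P‖ * (2 + ((g.Wd p ∩ a).card : ℝ) * Real.log ((q : ℝ) ^ 2 / ε)) ^ 2 ≤
          Real.exp 1 * 1 * (2 + Λ) ^ 2 :=
        mul_le_mul (mul_le_mul_of_nonneg_left hP1 he.le) e3 (by positivity) (by positivity)
      _ = _ := by ring

end Gd

end Vale.Agent.P356.GA
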