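import Vale.Agent.P356.GA.EnDefs394
import Vale.Agent.P356.GA.Edge795

/-!
# GA, LF instance (helper225), part a: radii of the local terms on the two-layer lattice

For a core `Z` inside a ball of radius `D ≤ tl` of one layer: the lines which cross the tiles around
`Z`, the number of sites of these tiles and the sum of the norms of the window operators there;
`QV_radius`: the flow of every observable on `Z` is bounded for `|z| ≤ 2 rad / ν`, for all coefficient
vectors bounded by `ν`.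
-/

set_option linter.all false

namespace Vale.Agent.P356.GA.LFi

open Matrix Finset Vale.Agent.P356 Vale.Agent.P356.SV Vale.Agent.P356.Path Vale.Agent.P356.PH
open Vale.Agent.P356.SA Vale.Agent.P356.GA Vale.Agent.P356.GA.Level Vale.Agent.P356.GA.Edge795
open scoped BigOperators ComplexOrder Kronecker Matrix.Norms.L2Operator

variable {L q : ℕ}

/-- the lines which cross a set in a ball of radius `D` of one layer -/
theorem card_crs (g : Gd L) (hT : ∀ x y, |g.T x - g.T y| ≤ 2 * dist1 x y) {v : SS L} {D : ℕ}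
    {Z : Finset (SS L)} (hZ : Z ⊆ lay v fun z => bal z D) : (crs107 Z g.R g.n).card ≤ 8 * D + 1 := by
  classical
  rcases v with z | z
  · have hZ' : Z ⊆ inL (bal z D) := hZ
    refine (card_le_card ?_).trans (card_lines hT g.t0 g.n D z)
    intro k hk
    rw [crs107, mem_filter] at hk
    obtain ⟨hk0, hk1, hk2⟩ := hk
    rw [Finset.not_subset] at hk1
    rw [Finset.not_disjoint_iff] at hk2
    obtain ⟨x, hx, hxR⟩ := hk1
    obtain ⟨y, hy, hyR⟩ := hk2
    rw [mem_filter]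
    refine ⟨hk0, ?_, ?_⟩
    · have hx' := hZ' hx
      rcases x with x | x
      · rw [Gd.mem_R_inl, not_lt] at hxR
        exact ⟨x, mem_inL_inl.1 hx', hxR⟩
      · exact absurd hx' mem_inL_inr
    · have hy' := hZ' hy
      rcases y with y | y
      · rw [Gd.mem_R_inl] at hyR
        exact ⟨y, mem_inL_inl.1 hy', hyR⟩
      · exact absurd hy' mem_inL_inr
  · have hZ' : Z ⊆ inR (bal z D) := hZ
    have hsub : crs107 Z g.R g.n ⊆ (range g.n).filter fun k : ℕ =>
        -g.T z - 4 * D ≤ -(g.t0 + g.N) + k ∧ -(g.t0 + g.N) + (k : ℝ) ≤ -g.T z + 4 * D := by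
      intro k hk
      rw [crs107, mem_filter] at hk
      obtain ⟨hk0, hk1, hk2⟩ := hk
      rw [Finset.not_subset] at hk1
      rw [Finset.not_disjoint_iff] at hk2
      obtain ⟨x, hx, hxR⟩ := hk1
      obtain ⟨y, hy, hyR⟩ := hk2
      rw [mem_filter]
      refine ⟨hk0, ?_⟩
      have hx' := hZ' hx
      have hy' := hZ' hy
      rcases x with x | x
      · exact absurd hx' mem_inR_inl
      rcases y with y | y
      · exact absurd hy' mem_inR_inl
      rw [mem_inR_inr] at hx' hy'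
      rw [Gd.mem_R_inr, not_le] at hxR
      rw [Gd.mem_R_inr] at hyR
      have a1 := hT x z
      have a2 := hT y z
      have b1 : ((dist1 x z : ℕ) : ℝ) ≤ ((2 * D : ℕ) : ℝ) := by exact_mod_cast dist1_self_le hx'
      have b2 : ((dist1 y z : ℕ) : ℝ) ≤ ((2 * D : ℕ) : ℝ) := by exact_mod_cast dist1_self_le hy'
      rw [abs_le] at a1 a2
      push_cast at b1 b2
      constructor
      · linarith [a1.2]
      · linarith [a2.1]
    refine (card_le_card hsub).trans ?_
    refine card_levels g.n _ _ _ (8 * D) ?_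
    push_cast
    linarith

theorem bal_of_tile {M D : ℕ} (hM : 0 < M) {z j x y : Site L} (hx : x ∈ tileB L M j)
    (hxz : x ∈ bal z D) (hy : y ∈ tileB L M j) : y ∈ bal z (D + M) := by
  rw [mem_tileB] at hx hy
  rw [mem_bal] at hxz ⊢
  have a1 := Nat.div_add_mod (x.1 : ℕ) M
  have a2 := Nat.div_add_mod (y.1 : ℕ) M
  have a3 := Nat.mod_lt (x.1 : ℕ) hM
  have a4 := Nat.mod_lt (y.1 : ℕ) hM
  have b1 := Nat.div_add_mod (x.2 : ℕ) M
  have b2 := Nat.div_add_mod (y.2 : ℕ) M
  have b3 := Nat.mod_lt (x.2 : ℕ) hM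
  have b4 := Nat.mod_lt (y.2 : ℕ) hM
  rw [hx.1, ← hy.1] at a1
  rw [hx.2, ← hy.2] at b1
  omega

/-- the tiles around a core in a ball -/
theorem star1_sub (g : Gd L) (htl : 0 < g.tl) {v : SS L} {D : ℕ} {Z : Finset (SS L)}
    (hZ : Z ⊆ lay v fun z => bal z D) :
    star1 univ g.tB Z ⊆ lay v fun z => bal z (D + g.tl) := by
  intro x hx
  rw [star1, mem_union, mem_biUnion] at hx
  rcases hx with hx | ⟨j, hj, hx⟩
  · have h := hZ hx
    rcases v with v | v
    · rcases x with x | x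
      · simp only [lay, Sum.elim_inl, mem_inL_inl] at h ⊢
        exact bal_mono _ (Nat.le_add_right _ _) h
      · simp only [lay, Sum.elim_inl, mem_inL_inr] at h
    · rcases x with x | x
      · simp only [lay, Sum.elim_inr, mem_inR_inl] at h
      · simp only [lay, Sum.elim_inr, mem_inR_inr] at h ⊢
        exact bal_mono _ (Nat.le_add_right _ _) h
  · rw [meet, mem_filter, Finset.not_disjoint_iff] at hj
    obtain ⟨-, y, hy, hyZ⟩ := hj
    have h := hZ hyZ
    rcases v with v | v <;> rcases y with y | y <;> rcases j with j | j <;>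
      rcases x with x | x <;>
      simp only [Gd.tB, lay, Sum.elim_inl, Sum.elim_inr, mem_inL_inl, mem_inR_inr, mem_inL_inr,
        mem_inR_inl] at hx hy h ⊢
    · exact bal_of_tile htl hy h hx
    · exact bal_of_tile htl hy h hx

theorem card_lay (v : SS L) (A : Site L → Finset (Site L)) {m : ℕ} (h : ∀ z, (A z).card ≤ m) :
    (lay v A).card ≤ m := by
  rcases v with z | z
  · show (inL (A z)).card ≤ m
    rw [inL, card_map]
    exact h z
  · show (inR (A z)).card ≤ m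
    rw [inR, card_map]
    exact h z

theorem card_star1 (g : Gd L) (htl : 0 < g.tl) {v : SS L} {D : ℕ} {Z : Finset (SS L)}
    (hZ : Z ⊆ lay v fun z => bal z D) :
    (star1 univ g.tB Z).card ≤ (2 * (D + g.tl) + 1) ^ 2 :=
  (card_le_card (star1_sub g htl hZ)).trans (card_lay v _ fun z => card_bal z _)

theorem card_tileB225 {M : ℕ} (hM : 0 < M) (j : Site L) : (tileB L M j).card ≤ M ^ 2 := by
  have h : (tileB L M j).card ≤ (range M ×ˢ range M).card := by
    refine Finset.card_le_card_of_injOn (fun p => ((p.1 : ℕ) % M, (p.2 : ℕ) % M)) ?_ ?_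
    · intro x _
      rw [Finset.mem_coe, mem_product, mem_range, mem_range]
      exact ⟨Nat.mod_lt _ hM, Nat.mod_lt _ hM⟩
    · intro x hx y hy h
      rw [Finset.mem_coe, mem_tileB] at hx hy
      have h1 := congrArg Prod.fst h
      have h2 := congrArg Prod.snd h
      simp only at h1 h2
      refine Prod.ext (Fin.ext ?_) (Fin.ext ?_)
      · rw [← Nat.div_add_mod (x.1 : ℕ) M, ← Nat.div_add_mod (y.1 : ℕ) M, hx.1, hy.1, h1]
      · rw [← Nat.div_add_mod (x.2 : ℕ) M, ← Nat.div_add_mod (y.2 : ℕ) M, hx.2, hy.2, h2]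
  refine h.trans (le_of_eq ?_)
  rw [card_product, card_range]
  ring

/-- every site is in at most `m` slabs of thickness `m` -/
theorem card_slab_of {V : Type*} [DecidableEq V] {R : ℕ → Finset V}
    (hR : ∀ j k, j ≤ k → R k ⊆ R j) (n m : ℕ) (x : V) :
    ((range n).filter fun k => x ∈ R k \ R (k + m)).card ≤ m := by
  classical
  by_cases hne : ((range n).filter fun k => x ∈ R k \ R (k + m)).Nonempty
  · obtain ⟨k0, hk0, hmin⟩ := exists_min_image _ (fun k : ℕ => k) hne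
    have hsub : ((range n).filter fun k => x ∈ R k \ R (k + m)) ⊆ Finset.Ico k0 (k0 + m) := by
      intro k hk
      rw [mem_Ico]
      refine ⟨hmin k hk, ?_⟩
      by_contra hc
      rw [not_lt] at hc
      rw [mem_filter, mem_sdiff] at hk hk0
      exact hk0.2.2 (hR _ _ hc hk.2.1)
    refine (card_le_card hsub).trans ?_
    rw [Nat.card_Ico]
    omega
  · rw [not_nonempty_iff_eq_empty] at hne
    rw [hne]
    simp

/-- the sizes of all windows in the tiles which meet `Z` -/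
theorem sum_card_Wd (g : Gd L) (Z : Finset (SS L)) :
    ∑ p : Fin g.n × SS L with ¬ Disjoint (g.tB p.2) Z, (g.Wd ((p.1 : ℕ), p.2)).card ≤
      g.mp * (star1 univ g.tB Z).card := by
  classical
  have h1 : ∑ p : Fin g.n × SS L with ¬ Disjoint (g.tB p.2) Z, (g.Wd ((p.1 : ℕ), p.2)).card =
      ∑ j ∈ meet univ g.tB Z, ∑ k : Fin g.n, (g.Wd ((k : ℕ), j)).card := by
    have e : (univ.filter fun p : Fin g.n × SS L => ¬ Disjoint (g.tB p.2) Z) =
        (univ : Finset (Fin g.n)) ×ˢ (meet univ g.tB Z) := by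
      ext p
      simp only [mem_filter, mem_univ, true_and, mem_product, meet]
    rw [e, Finset.sum_product_right]
  have h2 : ∀ j : SS L, ∑ k : Fin g.n, (g.Wd ((k : ℕ), j)).card ≤ g.mp * (g.tB j).card := by
    intro j
    have e1 : ∀ k : Fin g.n, (g.Wd ((k : ℕ), j)).card =
        ∑ x ∈ g.tB j, if x ∈ g.R k \ g.R (k + g.mp) then 1 else 0 := by
      intro k
      rw [Finset.sum_ite, Finset.sum_const_zero, add_zero, Finset.sum_const, smul_eq_mul, mul_one]
      congr 1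
      ext x
      rw [Gd.Wd, Sum.slab, mem_inter, mem_filter]
      exact and_comm
    rw [Finset.sum_congr rfl fun k _ => e1 k, Finset.sum_comm]
    have e2 : ∀ x ∈ g.tB j, (∑ k : Fin g.n, if x ∈ g.R k \ g.R (k + g.mp) then 1 else 0) ≤
        g.mp := by
      intro x _
      rw [Finset.sum_ite, Finset.sum_const_zero, add_zero, Finset.sum_const, smul_eq_mul, mul_one]
      refine le_trans ?_ (card_slab_of g.R_anti394 g.n g.mp x)
      refine Finset.card_le_card_of_injOn (fun k : Fin g.n => (k : ℕ)) ?_ ?_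
      · intro k hk
        rw [Finset.mem_coe, mem_filter] at hk ⊢
        exact ⟨mem_range.2 k.2, hk.2⟩
      · intro a _ b _ h
        exact Fin.ext h
    refine (Finset.sum_le_sum e2).trans ?_
    rw [Finset.sum_const, smul_eq_mul, mul_comm]
  rw [h1]
  refine (Finset.sum_le_sum fun j _ => h2 j).trans ?_
  rw [← Finset.mul_sum]
  refine Nat.mul_le_mul_left _ ?_
  rw [← Finset.card_biUnion]
  · exact card_le_card Finset.subset_union_right
  · intro i _ j _ hij
    exact g.tB_disj hij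

/-- the sum of the norms of the window operators in the tiles which meet `Z` -/
theorem sum_norm_KV (g : Gd L) {ε : ℝ} (h0 : 0 < ε) (h1 : ε ≤ 1) {Ω : Conf (SS L) q → ℂ}
    (hΩ : nsq Ω = 1) (hq : 1 ≤ q) (Z : Finset (SS L)) (c : Fin g.n × SS L → ℝ) {ν : ℝ}
    (hν0 : 0 ≤ ν) (hν : ∀ p, |c p| ≤ ν) :
    ∑ p : Fin g.n × SS L with ¬ Disjoint (g.tB p.2) Z, |c p| * ‖g.KV (Kt ε Ω) p‖ ≤
      ν * (g.mp * (star1 univ g.tB Z).card * Real.log (q / ε)) := by
  classical
  have hq1 : (1 : ℝ) ≤ (q : ℝ) / ε := by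
    rw [le_div_iff₀ h0, one_mul]
    have : (1 : ℝ) ≤ q := by exact_mod_cast hq
    linarith
  have hl := Real.log_nonneg hq1
  have hpt : ∀ p ∈ univ.filter (fun p : Fin g.n × SS L => ¬ Disjoint (g.tB p.2) Z),
      |c p| * ‖g.KV (Kt ε Ω) p‖ ≤ ν * (((g.Wd ((p.1 : ℕ), p.2)).card : ℝ) * Real.log (q / ε)) := by
    intro p _
    have h2 : ‖g.KV (Kt ε Ω) p‖ ≤ ((g.Wd ((p.1 : ℕ), p.2)).card : ℝ) * Real.log (q / ε) := by
      rw [Gd.KV, norm_neg]
      exact Kt_norm_card h0 h1 hΩ le_rfl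
    exact mul_le_mul (hν p) h2 (norm_nonneg _) hν0
  refine (Finset.sum_le_sum hpt).trans ?_
  rw [← Finset.mul_sum, ← Finset.sum_mul]
  have h4 : ((∑ p : Fin g.n × SS L with ¬ Disjoint (g.tB p.2) Z,
      (g.Wd ((p.1 : ℕ), p.2)).card : ℕ) : ℝ) ≤ ((g.mp * (star1 univ g.tB Z).card : ℕ) : ℝ) := by
    exact_mod_cast sum_card_Wd g Z
  push_cast at h4
  exact mul_le_mul_of_nonneg_left (mul_le_mul_of_nonneg_right h4 hl) hν0

/-- the standard radius -/
noncomputable def rad (g : Gd L) (q : ℕ) (ε : ℝ) : ℝ :=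
  1 / (1750 * ((g.tl : ℝ) + g.mp) ^ 3 * (1 + Real.log (q / ε)))

theorem log_q_div {ε : ℝ} (h0 : 0 < ε) (h1 : ε ≤ 1) (hq : 1 ≤ q) :
    0 ≤ Real.log q ∧ Real.log q ≤ Real.log (q / ε) := by
  have hq' : (1 : ℝ) ≤ q := by exact_mod_cast hq
  have hq0 : (0 : ℝ) < q := by linarith
  have hle : 0 ≤ -Real.log ε := by
    have := Real.log_nonpos h0.le h1
    linarith
  refine ⟨Real.log_nonneg hq', ?_⟩
  rw [Real.log_div hq0.ne' h0.ne']
  linarith

theorem rad_pos (g : Gd L) (htl : 0 < g.tl) {ε : ℝ} (h0 : 0 < ε) (h1 : ε ≤ 1) (hq : 1 ≤ q) :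
    0 < rad g q ε := by
  obtain ⟨h2, h3⟩ := log_q_div h0 h1 hq
  have h4 : (0 : ℝ) < g.tl := by exact_mod_cast htl
  have h5 : (0 : ℝ) ≤ g.mp := Nat.cast_nonneg _
  unfold rad
  have h6 : 0 < 1 + Real.log (q / ε) := by linarith
  positivity

/-- the numerical inequality for the radius -/
theorem rad_num {t m lq l S Θ D : ℝ} (ht : 1 ≤ t) (hm : 0 ≤ m) (hlq : 0 ≤ lq) (hl : lq ≤ l)
    (hD0 : 0 ≤ D) (hD : D ≤ t) (hS0 : 0 ≤ S) (hS : S ≤ (2 * (D + t) + 1) ^ 2) (hΘ0 : 0 ≤ Θ)
    (hΘ : Θ ≤ 8 * (D + t) + 1) :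
    Θ * (4 * S * lq + 2) + 2 * (m * S * l) ≤ 1750 * (t + m) ^ 3 * (1 + l) := by
  have hl0 : 0 ≤ l := hlq.trans hl
  have hS1 : S ≤ 25 * t ^ 2 := by
    refine hS.trans ?_
    have : (2 * (D + t) + 1) ≤ 5 * t := by linarith
    calc (2 * (D + t) + 1) ^ 2 ≤ (5 * t) ^ 2 := pow_le_pow_left₀ (by linarith) this 2
      _ = 25 * t ^ 2 := by ring
  have hΘ1 : Θ ≤ 17 * t := by linarith
  have h1 : Θ * (4 * S * lq + 2) ≤ 17 * t * (4 * (25 * t ^ 2) * l + 2) := by
    refine mul_le_mul hΘ1 ?_ (by positivity) (by linarith)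
    have : 4 * S * lq ≤ 4 * (25 * t ^ 2) * l :=
      mul_le_mul (by linarith) hl hlq (by positivity)
    linarith
  have h2 : m * S * l ≤ m * (25 * t ^ 2) * l :=
    mul_le_mul_of_nonneg_right (mul_le_mul_of_nonneg_left hS1 hm) hl0
  have e3 : (t + m) ^ 3 = t ^ 3 + 3 * t ^ 2 * m + 3 * t * m ^ 2 + m ^ 3 := by ring
  have h4 : t ≤ t ^ 3 := by
    have : 1 ≤ t ^ 2 := one_le_pow₀ ht
    calc t = t * 1 := (mul_one t).symm
      _ ≤ t * t ^ 2 := mul_le_mul_of_nonneg_left this (by linarith)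
      _ = t ^ 3 := by ring
  have h5 : 0 ≤ 3 * t ^ 2 * m + 3 * t * m ^ 2 + m ^ 3 := by positivity
  have h6 : 0 ≤ t ^ 3 * l := by positivity
  have h7 : 0 ≤ t ^ 2 * m * l := by positivity
  have h8 : 0 ≤ (3 * t * m ^ 2 + m ^ 3) * l := by positivity
  rw [e3]
  nlinarith

/-- **Radius of a local observable** on the two-layer lattice, for all coefficient vectors bounded
by `ν`. -/
theorem QV_radius (g : Gd L) (htl : 0 < g.tl) (hT : ∀ x y, |g.T x - g.T y| ≤ 2 * dist1 x y)
    {ψ Ω : Conf (SS L) q → ℂ} (hψ : nsq ψ = 1) (hΩ : nsq Ω = 1) (hq : 1 ≤ q) {M : ℝ}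
    (hM : Fintype.card (SS L) * Real.log q ≤ M) {ε : ℝ} (h0 : 0 < ε) (h1 : ε ≤ 1) {v : SS L}
    {D : ℕ} (hD : D ≤ g.tl) {Z : Finset (SS L)} (hZ : Z ⊆ lay v fun z => bal z D)
    {X : Op (SS L) q} (hX : ActsOn Z X) {ν : ℝ} (hν : 0 < ν)
    {c : (ℕ → ℝ) × (Fin g.n × SS L → ℝ)} (hc1 : ∀ k < g.n, |c.1 k| ≤ ν) (hc2 : ∀ p, |c.2 p| ≤ ν)
    {z : ℂ} (hz : ‖z‖ ≤ rad g q ε / ν) :
    ‖fQ ψ (g.GN ψ M (Kt ε Ω)) (g.n + 1) X c z‖ ≤ 8 * ‖X‖ := by
  have hrad := rad_pos g htl h0 h1 hq
  obtain ⟨hlq, hl⟩ := log_q_div h0 h1 hq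
  have hsub := star1_sub g htl hZ
  have hcs := card_star1 g htl hZ
  have hcc := card_crs g hT hsub
  have hν' := hν.le
  refine gen_radius (s := univ) (B := g.tB) (υ := fun p : Fin g.n × SS L => p.2)
    (b := ν * (g.mp * (star1 univ g.tB Z).card * Real.log (q / ε)))
    (Θ := ν * (crs107 (star1 univ g.tB Z) g.R g.n).card) (r := rad g q ε / ν)
    g.R_anti394 hψ hq hM (fun i _ j _ hij => g.tB_disj hij)
    (fun w => mem_univ _) (fun w => g.KV_acts (fun b => Kt_acts h0 h1 hΩ b) w)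
    (fun w => g.KV_herm (fun b => Kt_herm ε Ω b) w) c hX ?_ ?_ (div_nonneg hrad.le hν') ?_ hz
  · exact sum_norm_KV g h0 h1 hΩ hq Z c.2 hν' hc2
  · have hc1' : ∀ k ∈ crs107 (star1 univ g.tB Z) g.R g.n, |c.1 k| ≤ ν := fun k hk => by
      classical
      rw [crs107, mem_filter, mem_range] at hk
      exact hc1 k hk.1
    refine (Finset.sum_le_sum hc1').trans (le_of_eq ?_)
    rw [Finset.sum_const, nsmul_eq_mul, mul_comm]
  · have ht : (1 : ℝ) ≤ g.tl := by exact_mod_cast htl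
    have hnum := rad_num (t := g.tl) (m := g.mp) (lq := Real.log q) (l := Real.log (q / ε))
      (S := (star1 univ g.tB Z).card) (Θ := (crs107 (star1 univ g.tB Z) g.R g.n).card) (D := D)
      ht (Nat.cast_nonneg _) hlq hl (Nat.cast_nonneg _) (by exact_mod_cast hD)
      (Nat.cast_nonneg _) (by exact_mod_cast hcs) (Nat.cast_nonneg _) (by exact_mod_cast hcc)
    have hpos : (0 : ℝ) < 1750 * ((g.tl : ℝ) + g.mp) ^ 3 * (1 + Real.log (q / ε)) := by
      have h5 : (0 : ℝ) ≤ g.mp := Nat.cast_nonneg _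
      have h6 : 0 < 1 + Real.log (q / ε) := by linarith
      positivity
    have e : rad g q ε / ν * (ν * ((crs107 (star1 univ g.tB Z) g.R g.n).card : ℝ) *
        (4 * ((star1 univ g.tB Z).card : ℝ) * Real.log q + 2) +
        2 * (ν * (g.mp * (star1 univ g.tB Z).card * Real.log (q / ε)))) =
        rad g q ε * (((crs107 (star1 univ g.tB Z) g.R g.n).card : ℝ) *
        (4 * ((star1 univ g.tB Z).card : ℝ) * Real.log q + 2) +
        2 * (g.mp * (star1 univ g.tB Z).card * Real.log (q / ε))) := by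
      field_simp
    rw [e, rad, one_div, inv_mul_le_iff₀ hpos, mul_one]
    exact hnum

end Vale.Agent.P356.GA.LFi
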