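import Vale.Agent.P356.GA.SlabKt225
import Vale.Agent.P356.GA.EnDefs394

/-!
# GA, block SLAB (helper225), part c: the fields `good` and `irr` of helper770's `LF` for the forms
`g.QV` of EnDefs394.
-/

set_option linter.all false

namespace Vale.Agent.P356.GA.Slab

open Matrix Finset Vale.Agent.P356 Vale.Agent.P356.SV Vale.Agent.P356.Path Vale.Agent.P356.PH
open Vale.Agent.P356.GA Vale.Agent.P356.GA.K1
open scoped BigOperators ComplexOrder Kronecker Matrix.Norms.L2Operator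

variable {L q : ℕ}

theorem toC_sl (g : Gd L) {k : ℕ} (hk : k < g.n) (j : SS L) :
    g.toC (-Sum.sl (k, j)) = ((0 : ℕ → ℝ), -Pi.single ((⟨k, hk⟩ : Fin g.n), j) (1 : ℝ)) := by
  refine Prod.ext ?_ ?_
  · funext i
    show (-Sum.sl (k, j) : Sum.Gn (SS L) → ℝ) (Sum.inl i) = (0 : ℕ → ℝ) i
    rw [Pi.neg_apply, Sum.sl_inl, neg_zero, Pi.zero_apply]
  · funext p
    show (-Sum.sl (k, j) : Sum.Gn (SS L) → ℝ) (Sum.inr ((p.1 : ℕ), p.2)) =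
      (-Pi.single ((⟨k, hk⟩ : Fin g.n), j) (1 : ℝ) : Fin g.n × SS L → ℝ) p
    rw [Pi.neg_apply, Pi.neg_apply, Sum.sl_inr, Pi.single_apply]
    congr 1
    by_cases h : (k, j) = ((p.1 : ℕ), p.2)
    · rw [if_pos h, if_pos]
      rw [Prod.mk.injEq] at h
      exact Prod.ext (Fin.ext h.1.symm) h.2.symm
    · rw [if_neg h, if_neg]
      intro h'
      apply h
      rw [h']

theorem toC_sl_ge (g : Gd L) {k : ℕ} (hk : g.n ≤ k) (j : SS L) :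
    g.toC (-Sum.sl (k, j)) = ((0 : ℕ → ℝ), 0) := by
  refine Prod.ext ?_ ?_
  · funext i
    show (-Sum.sl (k, j) : Sum.Gn (SS L) → ℝ) (Sum.inl i) = (0 : ℕ → ℝ) i
    rw [Pi.neg_apply, Sum.sl_inl, neg_zero, Pi.zero_apply]
  · funext p
    show (-Sum.sl (k, j) : Sum.Gn (SS L) → ℝ) (Sum.inr ((p.1 : ℕ), p.2)) = (0 : ℝ)
    rw [Pi.neg_apply, Sum.sl_inr, if_neg, neg_zero]
    intro h
    rw [Prod.mk.injEq] at h
    have := p.1.2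
    omega

theorem GamK_neg_single {N : Type*} [Fintype N] [DecidableEq N] {ι : Type*} [Fintype ι]
    [DecidableEq ι] (K : ι → Matrix N N ℂ) (j : ι) :
    GamK K (-Pi.single j (1 : ℝ)) = -K j := by
  have h := GamK_sub K 0 (Pi.single j (1 : ℝ))
  have h4 : GamK K (0 : ι → ℝ) = 0 := by
    simp only [GamK, Pi.zero_apply, zero_smul, Finset.sum_const_zero]
  rw [zero_sub, h4, GamK_single, zero_sub] at h
  exact h

/-- a slab which misses the core -/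
theorem QV_slab_out (g : Gd L) (ψ : Conf (SS L) q → ℂ) (M : ℝ) {K : Finset (SS L) → Op (SS L) q}
    (hK : ∀ b, ActsOn b (K b)) {a : Finset (SS L)} {P : Op (SS L) q} (hPa : ActsOn a P)
    {p : ℕ × SS L} (hd : Disjoint a (g.Wd p)) : g.QV ψ M K P (-Sum.sl p) = 0 := by
  obtain ⟨k, j⟩ := p
  rcases lt_or_ge k g.n with hk | hk
  · rw [Gd.QV, toC_sl g hk]
    refine slab_out _ ψ _ g.n (g.KV K) P _ ?_
    rw [GamK_neg_single, Gd.KV, neg_neg]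
    exact ph_acts_comm hd.symm (hK _) hPa
  · rw [Gd.QV, toC_sl_ge g hk]
    refine slab_out _ ψ _ g.n (g.KV K) P _ ?_
    have h4 : GamK (g.KV K) (0 : Fin g.n × SS L → ℝ) = 0 := by
      simp only [GamK, Pi.zero_apply, zero_smul, Finset.sum_const_zero]
    rw [h4]
    exact Commute.zero_left _

/-- the error term of the slabs which contain the core -/
noncomputable def slabErr (π δ ε m Λ h : ℝ) : ℝ :=
  4 * (2 * π + (δ + 64 * Real.pi * Real.cosh Real.pi ^ 2 * h * (ε * m))) / h ^ 2 +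
    64 * (1 + Λ) ^ 4 * h ^ 2

theorem slabErr_nonneg {π δ ε m Λ h : ℝ} (hπ : 0 ≤ π) (hδ : 0 ≤ δ) (hε : 0 ≤ ε) (hm : 0 ≤ m)
    (hΛ : 0 ≤ Λ) (hh : 0 ≤ h) : 0 ≤ slabErr π δ ε m Λ h := by
  have := Real.pi_pos
  unfold slabErr
  positivity

/-- a slab which contains the core -/
theorem QV_slab_in (g : Gd L) {ψ Ω : Conf (SS L) q → ℂ} (M : ℝ) (hΩ : nsq Ω = 1) (hψ : nsq ψ = 1)
    {ε : ℝ} (h0 : 0 < ε) (h1 : ε ≤ 1 / 2) {a : Finset (SS L)} {P : Op (SS L) q}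
    (hP : P.PosSemidef) (hPa : ActsOn a P) (hP1 : ‖P‖ ≤ 1) {p : ℕ × SS L} (hp : a ⊆ g.Wd p)
    {δ : ℝ} (hcl : ∀ X : Op (SS L) q, ActsOn (g.Wd p) X →
      ‖star ψ ⬝ᵥ (X *ᵥ ψ) - star Ω ⬝ᵥ (X *ᵥ Ω)‖ ≤ δ * ‖X‖) (hδ : 0 ≤ δ) {π m Λ h : ℝ}
    (hπ : (star Ω ⬝ᵥ (P *ᵥ Ω)).re ≤ π) (hm : ((g.Wd p).card : ℝ) ≤ m) (hΛ : 0 ≤ Λ)
    (hΛa : Real.log ((q : ℝ) ^ 2 / ε) * a.card ≤ Λ) (hh : 0 < h) (hhΛ : h * (4 * (1 + Λ)) ≤ 1) :
    g.QV ψ M (Kt ε Ω) P (-Sum.sl p) ≤ slabErr π δ ε m Λ h := by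
  obtain ⟨k, j⟩ := p
  have hm0 : 0 ≤ m := (Nat.cast_nonneg _).trans hm
  have hπ0 : 0 ≤ π := (psd_re_nonneg hP Ω).trans hπ
  rcases lt_or_ge k g.n with hk | hk
  · rw [Gd.QV, toC_sl g hk]
    have hmain := slab_Kt (fun k => cut (g.R k) q) (ψ := ψ) (Ω := Ω)
      (gC (fun k => cut (g.R k) q) ψ M) g.n (K := g.KV (Kt ε Ω)) hΩ hψ h0 h1 hp
      (γ := -Pi.single ((⟨k, hk⟩ : Fin g.n), j) (1 : ℝ))
      (Or.inl (by rw [GamK_neg_single, Gd.KV, neg_neg])) hP hPa hP1 hcl hδ hΛ hΛa hh hhΛ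
    refine hmain.trans ?_
    unfold slabErr
    refine add_le_add_left (div_le_div_of_nonneg_right ?_ (by positivity)) _
    have h3 : 64 * Real.pi * Real.cosh Real.pi ^ 2 * h * (ε * (g.Wd (k, j)).card) ≤
        64 * Real.pi * Real.cosh Real.pi ^ 2 * h * (ε * m) := by
      have := Real.pi_pos
      exact mul_le_mul_of_nonneg_left (mul_le_mul_of_nonneg_left hm h0.le) (by positivity)
    linarith
  · have hz : g.QV ψ M (Kt ε Ω) P (-Sum.sl (k, j)) = 0 := by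
      rw [Gd.QV, toC_sl_ge g hk]
      refine slab_out _ ψ _ g.n (g.KV (Kt ε Ω)) P _ ?_
      have h4 : GamK (g.KV (Kt ε Ω)) (0 : Fin g.n × SS L → ℝ) = 0 := by
        simp only [GamK, Pi.zero_apply, zero_smul, Finset.sum_const_zero]
      rw [h4]
      exact Commute.zero_left _
    rw [hz]
    exact slabErr_nonneg hπ0 hδ h0.le hm0 hΛ hh.le

/-- **field `good` of `LF`** -/
theorem LF_good (g : Gd L) {ψ Ω : Conf (SS L) q → ℂ} (M : ℝ) (hΩ : nsq Ω = 1) (hψ : nsq ψ = 1)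
    {ε : ℝ} (h0 : 0 < ε) (h1 : ε ≤ 1 / 2) {a : Finset (SS L)} {P : Op (SS L) q}
    (hP : P.PosSemidef) (hPa : ActsOn a P) (hP1 : ‖P‖ ≤ 1) {Rel : Finset (ℕ × SS L)} {δ : ℝ}
    (hcl : ∀ p ∈ Rel, a ⊆ g.Wd p → ∀ X : Op (SS L) q, ActsOn (g.Wd p) X →
      ‖star ψ ⬝ᵥ (X *ᵥ ψ) - star Ω ⬝ᵥ (X *ᵥ Ω)‖ ≤ δ * ‖X‖) (hδ : 0 ≤ δ) {π m Λ h : ℝ}
    (hπ : (star Ω ⬝ᵥ (P *ᵥ Ω)).re ≤ π) (hm : ∀ p, ((g.Wd p).card : ℝ) ≤ m) (hΛ : 0 ≤ Λ)
    (hΛa : Real.log ((q : ℝ) ^ 2 / ε) * a.card ≤ Λ) (hh : 0 < h) (hhΛ : h * (4 * (1 + Λ)) ≤ 1) :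
    ∀ p ∈ Rel, (a ⊆ Sum.slab g.R g.tB g.mp p ∨ Disjoint a (Sum.slab g.R g.tB g.mp p)) →
      g.QV ψ M (Kt ε Ω) P (-Sum.sl p) ≤ slabErr π δ ε m Λ h := by
  intro p hp hor
  have hm0 : 0 ≤ m := (Nat.cast_nonneg _).trans (hm p)
  have hπ0 : 0 ≤ π := (psd_re_nonneg hP Ω).trans hπ
  rcases hor with hin | hout
  · exact QV_slab_in g M hΩ hψ h0 h1 hP hPa hP1 (p := p) hin (hcl p hp hin) hδ hπ (hm p) hΛ hΛa hh
      hhΛ
  · rw [QV_slab_out g ψ M (fun b => Kt_acts h0 (by linarith) hΩ b) hPa (p := p) hout]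
    exact slabErr_nonneg hπ0 hδ h0.le hm0 hΛ hh.le

/-- **field `irr` of `LF`** -/
theorem LF_irr (g : Gd L) (ψ : Conf (SS L) q → ℂ) (M : ℝ) {K : Finset (SS L) → Op (SS L) q}
    (hK : ∀ b, ActsOn b (K b)) {a : Finset (SS L)} {P : Op (SS L) q} (hPa : ActsOn a P)
    {Rel : Finset (ℕ × SS L)}
    (hRel : ∀ p : ℕ × SS L, p.1 < g.n → ¬ Disjoint a (g.tB p.2) → p ∈ Rel) :
    ∀ c c' : Sum.Gn (SS L) → ℝ, (∀ k, c (Sum.inl k) = c' (Sum.inl k)) →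
      (∀ p ∈ Rel, c (Sum.inr p) = c' (Sum.inr p)) → g.QV ψ M K P c = g.QV ψ M K P c' := by
  intro c c' h1 h2
  refine slab_irr _ ψ _ g.n (K := g.KV K) (X := P)
    (rel := fun p : Fin g.n × SS L => ¬ Disjoint a (g.tB p.2)) ?_ ?_ (funext h1) ?_
  · intro i j hi hj
    have hij : i.2 ≠ j.2 := by
      intro h
      rw [h] at hi
      exact hi (not_not.1 hj)
    exact ph_acts_comm (g.tB_disj hij) (g.KV_acts hK i) (g.KV_acts hK j)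
  · intro j hj
    exact ph_acts_comm (not_not.1 hj).symm (g.KV_acts hK j) hPa
  · intro i hi
    exact h2 ((i.1 : ℕ), i.2) (hRel _ i.1.2 hi)

end Vale.Agent.P356.GA.Slab
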