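import Vale.Agent.P356.GA.LFgeo225
import Vale.Agent.P356.GA.SlabEn225
import Vale.Agent.P356.GA.E3_87

/-!
# GA, LF instance (helper225), part b: helper770's `LF` for the forms `g.QV`

`lf_inst`: all fields of `LF (g.QV ψ M (Kt ε Ω) P) g.R g.tB g.mp g.n a Rel τ τ₁ C₂` for a positive
contraction `P` on a core `a` inside a ball of radius `D ≤ tl` of one layer; `Rel` any set of windows
which contains `RelW g a`, the nonempty windows in the tiles which meet `a`.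
-/

set_option linter.all false

namespace Vale.Agent.P356.GA.LFi

open Matrix Finset Vale.Agent.P356 Vale.Agent.P356.SV Vale.Agent.P356.Path Vale.Agent.P356.PH
open Vale.Agent.P356.SA Vale.Agent.P356.GA Vale.Agent.P356.GA.Level Vale.Agent.P356.GA.Edge795
open Vale.Agent.P356.GA.Slab Vale.Agent.P356.GA.ENa
open scoped BigOperators ComplexOrder Kronecker Matrix.Norms.L2Operator Topology

variable {L q : ℕ}

/-- the windows with an influence on the core `a` -/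
noncomputable def RelW (g : Gd L) (a : Finset (SS L)) : Finset (ℕ × SS L) :=
  open Classical in (range g.n ×ˢ (univ : Finset (SS L))).filter
    fun p => ¬ Disjoint a (g.tB p.2) ∧ (g.Wd p).Nonempty

theorem mem_RelW {g : Gd L} {a : Finset (SS L)} {p : ℕ × SS L} :
    p ∈ RelW g a ↔ p.1 < g.n ∧ ¬ Disjoint a (g.tB p.2) ∧ (g.Wd p).Nonempty := by
  classical
  rw [RelW, mem_filter, mem_product, mem_range]
  simp only [mem_univ, and_true]

theorem RelW_sub (g : Gd L) (a : Finset (SS L)) :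
    RelW g a ⊆ range g.n ×ˢ (univ : Finset (SS L)) := by
  classical
  rw [RelW]
  exact Finset.filter_subset _ _

/-! ### `irr` -/

/-- the flow depends only on the line coefficients and the combination of the windows -/
theorem QF_GenR_congr {V : Type} [Fintype V] [DecidableEq V] {W : Type*} [Fintype W]
    (R : ℕ → Finset V) (ψ : Conf V q → ℂ) (M : ℝ) (n : ℕ) (K : W → Op V q) (X : Op V q)
    {c c' : (ℕ → ℝ) × (W → ℝ)} (h1 : c.1 = c'.1) (h2 : GamK K c.2 = GamK K c'.2) :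
    QF ψ (GenR R ψ M n K) (n + 1) X c = QF ψ (GenR R ψ M n K) (n + 1) X c' :=
  QF_congr fun z => by rw [fQ_GenR, fQ_GenR, h1, h2]

theorem irr_W (g : Gd L) (ψ : Conf (SS L) q → ℂ) (M : ℝ) {ε : ℝ} (h0 : 0 < ε) (h1 : ε ≤ 1)
    {Ω : Conf (SS L) q → ℂ} (hΩ : nsq Ω = 1) {a : Finset (SS L)} {P : Op (SS L) q}
    (hPa : ActsOn a P) {Rel : Finset (ℕ × SS L)} (hRel : RelW g a ⊆ Rel) :
    ∀ c c' : Sum.Gn (SS L) → ℝ, (∀ k, c (Sum.inl k) = c' (Sum.inl k)) →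
      (∀ p ∈ Rel, c (Sum.inr p) = c' (Sum.inr p)) →
      g.QV ψ M (Kt ε Ω) P c = g.QV ψ M (Kt ε Ω) P c' := by
  classical
  intro c c' h2 h3
  -- change `c` on the empty windows
  set d : Sum.Gn (SS L) → ℝ := fun i => Sum.elim (fun k => c (Sum.inl k))
    (fun p => if (g.Wd p).Nonempty then c (Sum.inr p) else c' (Sum.inr p)) i with hd
  have e1 : g.QV ψ M (Kt ε Ω) P c = g.QV ψ M (Kt ε Ω) P d := by
    rw [Gd.QV, Gd.QV]
    refine QF_GenR_congr g.R ψ M g.n _ P rfl ?_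
    rw [GamK, GamK]
    refine Finset.sum_congr rfl fun p _ => ?_
    show c (Sum.inr ((p.1 : ℕ), p.2)) • _ = d (Sum.inr ((p.1 : ℕ), p.2)) • _
    by_cases hW : (g.Wd ((p.1 : ℕ), p.2)).Nonempty
    · simp only [hd, Sum.elim_inr, if_pos hW]
    · have hz : g.KV (Kt ε Ω) p = 0 := by
        rw [Gd.KV, Finset.not_nonempty_iff_eq_empty.1 hW, Kt_empty ε hΩ, neg_zero]
      rw [hz, smul_zero, smul_zero]
  rw [e1]
  refine LF_irr g ψ M (fun b => Kt_acts h0 h1 hΩ b) hPa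
    (Rel := (range g.n ×ˢ (univ : Finset (SS L))).filter fun p => ¬ Disjoint a (g.tB p.2))
    (fun p hp hp' => ?_) d c' (fun k => h2 k) (fun p hp => ?_)
  · rw [mem_filter, mem_product, mem_range]
    exact ⟨⟨hp, mem_univ _⟩, hp'⟩
  · rw [mem_filter, mem_product, mem_range] at hp
    by_cases hW : (g.Wd p).Nonempty
    · simp only [hd, Sum.elim_inr, if_pos hW]
      exact h3 p (hRel (mem_RelW.2 ⟨hp.1.1, hp.2, hW⟩))
    · simp only [hd, Sum.elim_inr, if_neg hW]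

/-! ### `conv` -/

/-- the error of convexity -/
noncomputable def tauE (g : Gd L) (q : ℕ) (ε π : ℝ) : ℝ := 16 * Real.sqrt π / rad g q ε ^ 2

theorem psd_num {r π K : ℝ} (hr : 0 < r) (hπ : 0 < π) (hK : K ≤ 8) :
    1 / 2 * psdErr π K (r / 2) (r / 4 * Real.sqrt (Real.sqrt π)) ≤ 16 * Real.sqrt π / r ^ 2 := by
  have h1 : 0 < Real.sqrt π := Real.sqrt_pos.2 hπ
  have h2 : Real.sqrt (Real.sqrt π) ^ 2 = Real.sqrt π := Real.sq_sqrt h1.le
  have h3 : Real.sqrt π * Real.sqrt π = π := Real.mul_self_sqrt hπ.le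
  set s := Real.sqrt π with hs
  have e1 : (r / 4 * Real.sqrt s) ^ 2 = r ^ 2 * s / 16 := by
    rw [mul_pow, h2]; ring
  unfold psdErr
  rw [e1]
  have e2 : π / (r ^ 2 * s / 16) = 16 * s / r ^ 2 := by
    rw [← h3]
    field_simp
  have e3 : 2 * K * (r ^ 2 * s / 16) / (r / 2) ^ 4 = 2 * K * s / r ^ 2 := by
    field_simp
    ring
  rw [e2, e3, ← add_div, ← mul_div_assoc]
  refine div_le_div_of_nonneg_right ?_ (by positivity)
  nlinarith

/-- **`conv`** -/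
theorem conv_W (g : Gd L) (htl : 0 < g.tl) (hT : ∀ x y, |g.T x - g.T y| ≤ 2 * dist1 x y)
    {ψ Ω : Conf (SS L) q → ℂ} (hψ : nsq ψ = 1) (hΩ : nsq Ω = 1) (hq : 1 ≤ q) {M : ℝ}
    (hM : Fintype.card (SS L) * Real.log q ≤ M) {ε : ℝ} (h0 : 0 < ε) (h1 : ε ≤ 1) {v : SS L}
    {D : ℕ} (hD : D ≤ g.tl) {a : Finset (SS L)} (ha : a ⊆ lay v fun z => bal z D)
    {P : Op (SS L) q} (hP : P.PosSemidef) (hPa : ActsOn a P) (hP1 : ‖P‖ ≤ 1) {π : ℝ}
    (hπ : expv ψ P ≤ π) : Sum.ConvE (g.QV ψ M (Kt ε Ω) P) (tauE g q ε π) := by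
  classical
  have hrad := rad_pos g htl h0 h1 hq
  have hpsi : 0 ≤ expv ψ P := psd_re_nonneg hP ψ
  have hψ1 : expv ψ P ≤ 1 := by
    refine (Complex.abs_re_le_norm _).trans' (le_abs_self _) |>.trans ((nrm_ip_le _ _).trans ?_)
    have h2 := nrm_mulVec_le P ψ
    have h3 : nrm ψ = 1 := by rw [nrm, hψ, Real.sqrt_one]
    rw [h3] at h2 ⊢
    linarith
  -- strictly positive bound below one
  have key : ∀ π' : ℝ, 0 < π' → π' ≤ 1 → expv ψ P ≤ π' →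
      Sum.ConvE (g.QV ψ M (Kt ε Ω) P) (tauE g q ε π') := by
    intro π' hp0 hp1 hp n w c hw hc
    have hQ : ∀ c : Sum.Gn (SS L) → ℝ, g.QV ψ M (Kt ε Ω) P c =
        QF ψ (g.GN ψ M (Kt ε Ω)) (g.n + 1) P (g.toC c) := fun _ => rfl
    have hs1 : Real.sqrt (Real.sqrt π') ≤ 1 := by
      rw [Real.sqrt_le_one, Real.sqrt_le_one]
      exact hp1
    have hs0 : 0 < Real.sqrt (Real.sqrt π') := Real.sqrt_pos.2 (Real.sqrt_pos.2 hp0)
    have hmain := QF_sum_le (ψ := ψ) (G := g.GN ψ M (Kt ε Ω)) (n := g.n + 1) hP univ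
      (w := w) (fun i _ => hw i) (c := fun i => g.toC (c i))
      (fun k _ c => Gen_herm _ ψ _ g.n (fun w => g.KV_herm (fun b => Kt_herm ε Ω b) w) k c)
      (R := rad g q ε / 2) (K := 8 * ‖P‖) (h := rad g q ε / 4 * Real.sqrt (Real.sqrt π'))
      (π := π') (by positivity) ?_ (by positivity) ?_ hp
    · have e1 : g.toC (∑ i, w i • c i) = ∑ i, w i • g.toC (c i) := by
        rw [map_sum]
        exact Finset.sum_congr rfl fun i _ => map_smul _ _ _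
      rw [hQ, e1]
      refine hmain.trans ?_
      have h4 := psd_num hrad hp0 (K := 8 * ‖P‖) (by linarith)
      have h5 : 1 / 2 * (∑ i, w i) ^ 2 * psdErr π' (8 * ‖P‖) (rad g q ε / 2)
          (rad g q ε / 4 * Real.sqrt (Real.sqrt π')) ≤ (∑ i, w i) ^ 2 * tauE g q ε π' := by
        calc 1 / 2 * (∑ i, w i) ^ 2 * psdErr π' (8 * ‖P‖) (rad g q ε / 2)
              (rad g q ε / 4 * Real.sqrt (Real.sqrt π')) =
            (∑ i, w i) ^ 2 * (1 / 2 * psdErr π' (8 * ‖P‖) (rad g q ε / 2)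
              (rad g q ε / 4 * Real.sqrt (Real.sqrt π'))) := by ring
          _ ≤ _ := mul_le_mul_of_nonneg_left h4 (sq_nonneg _)
      exact add_le_add le_rfl h5
    · intro i _ j _ z hz
      refine QV_radius g htl hT hψ hΩ hq hM h0 h1 hD ha hPa (ν := 2) (by norm_num)
        (fun k _ => ?_) (fun p => ?_) hz
      · show |c i (Sum.inl k) - c j (Sum.inl k)| ≤ 2
        have a1 := abs_le.1 (hc i (Sum.inl k))
        have a2 := abs_le.1 (hc j (Sum.inl k))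
        rw [abs_le]
        constructor <;> linarith [a1.1, a1.2, a2.1, a2.2]
      · show |c i (Sum.inr ((p.1 : ℕ), p.2)) - c j (Sum.inr ((p.1 : ℕ), p.2))| ≤ 2
        have a1 := abs_le.1 (hc i (Sum.inr ((p.1 : ℕ), p.2)))
        have a2 := abs_le.1 (hc j (Sum.inr ((p.1 : ℕ), p.2)))
        rw [abs_le]
        constructor <;> linarith [a1.1, a1.2, a2.1, a2.2]
    · nlinarith
  intro n w c hw hc
  by_cases hπ1 : 1 ≤ π
  · refine (key 1 one_pos le_rfl hψ1 n w c hw hc).trans (add_le_add le_rfl ?_)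
    refine mul_le_mul_of_nonneg_left ?_ (sq_nonneg _)
    unfold tauE
    refine div_le_div_of_nonneg_right ?_ (by positivity)
    exact mul_le_mul_of_nonneg_left (Real.sqrt_le_sqrt hπ1) (by norm_num)
  · rw [not_le] at hπ1
    have hcont : Filter.Tendsto (fun η : ℝ => (∑ i, w i) * ∑ i, w i *
        g.QV ψ M (Kt ε Ω) P (c i) + (∑ i, w i) ^ 2 * (16 * Real.sqrt (π + η) / rad g q ε ^ 2))
        (𝓝[>] 0) (𝓝 ((∑ i, w i) * ∑ i, w i * g.QV ψ M (Kt ε Ω) P (c i) +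
          (∑ i, w i) ^ 2 * (16 * Real.sqrt (π + 0) / rad g q ε ^ 2))) := by
      refine Filter.Tendsto.mono_left ?_ nhdsWithin_le_nhds
      refine Continuous.tendsto ?_ 0
      fun_prop
    rw [add_zero] at hcont
    refine ge_of_tendsto hcont ?_
    have hlt : Set.Ioo (0 : ℝ) (1 - π) ∈ 𝓝[>] (0 : ℝ) := Ioo_mem_nhdsGT (by linarith)
    filter_upwards [hlt] with η hη
    exact key (π + η) (by linarith [hη.1]) (by linarith [hη.2]) (by linarith [hη.1]) n w c hw hc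

/-! ### `good` -/

/-- the error of the slabs which contain the core -/
noncomputable def tau1E (q : ℕ) (ε : ℝ) (m : ℕ) (x : ℝ) : ℝ :=
  68 * (1 + m * Real.log ((q : ℝ) ^ 2 / ε)) ^ 2 * Real.sqrt x

theorem slabErr_opt {π δ ε m Λ x : ℝ} (hΛ : 0 ≤ Λ) (hε : 0 ≤ ε) (hm : 0 ≤ m) (hx0 : 0 < x)
    (hx1 : x ≤ 1) (hx : 2 * π + (δ + 64 * Real.pi * Real.cosh Real.pi ^ 2 * (ε * m)) ≤ x) :
    slabErr π δ ε m Λ (Real.sqrt (Real.sqrt x) / (4 * (1 + Λ))) ≤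
      68 * (1 + Λ) ^ 2 * Real.sqrt x := by
  have h1 : 0 < Real.sqrt x := Real.sqrt_pos.2 hx0
  have h2 : Real.sqrt (Real.sqrt x) ^ 2 = Real.sqrt x := Real.sq_sqrt h1.le
  have h3 : Real.sqrt x * Real.sqrt x = x := Real.mul_self_sqrt hx0.le
  have h4 : 0 < Real.sqrt (Real.sqrt x) := Real.sqrt_pos.2 h1
  have h5 : Real.sqrt (Real.sqrt x) ≤ 1 := Real.sqrt_le_one.2 (Real.sqrt_le_one.2 hx1)
  set s := Real.sqrt x with hs
  set r := Real.sqrt s with hr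
  have hΛ1 : 0 < 4 * (1 + Λ) := by linarith
  have hh1 : r / (4 * (1 + Λ)) ≤ 1 := by
    rw [div_le_one hΛ1]
    linarith
  have hh0 : 0 < r / (4 * (1 + Λ)) := by positivity
  have e1 : (r / (4 * (1 + Λ))) ^ 2 = s / (16 * (1 + Λ) ^ 2) := by
    rw [div_pow, h2]
    congr 1
    ring
  unfold slabErr
  have h6 : 64 * Real.pi * Real.cosh Real.pi ^ 2 * (r / (4 * (1 + Λ))) * (ε * m) ≤
      64 * Real.pi * Real.cosh Real.pi ^ 2 * (ε * m) := by
    have hpi := Real.pi_pos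
    have : 64 * Real.pi * Real.cosh Real.pi ^ 2 * (r / (4 * (1 + Λ))) ≤
        64 * Real.pi * Real.cosh Real.pi ^ 2 := mul_le_of_le_one_right (by positivity) hh1
    exact mul_le_mul_of_nonneg_right this (by positivity)
  have h7 : 4 * (2 * π + (δ + 64 * Real.pi * Real.cosh Real.pi ^ 2 * (r / (4 * (1 + Λ))) *
      (ε * m))) / (r / (4 * (1 + Λ))) ^ 2 ≤ 4 * x / (r / (4 * (1 + Λ))) ^ 2 := by
    refine div_le_div_of_nonneg_right ?_ (by positivity)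
    linarith
  have e2 : 4 * x / (r / (4 * (1 + Λ))) ^ 2 = 64 * (1 + Λ) ^ 2 * s := by
    rw [e1, ← h3]
    field_simp
    ring
  have e3 : 64 * (1 + Λ) ^ 4 * (r / (4 * (1 + Λ))) ^ 2 = 4 * (1 + Λ) ^ 2 * s := by
    rw [e1]
    field_simp
    ring
  rw [e2] at h7
  rw [e3]
  linarith

/-- **The instance of `LF`.** -/
theorem lf_inst (g : Gd L) (htl : 0 < g.tl) (hT : ∀ x y, |g.T x - g.T y| ≤ 2 * dist1 x y)
    {ψ Ω : Conf (SS L) q → ℂ} (hψ : nsq ψ = 1) (hΩ : nsq Ω = 1) (hq : 1 ≤ q) {M : ℝ}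
    (hM : Fintype.card (SS L) * Real.log q ≤ M) {ε : ℝ} (h0 : 0 < ε) (h1 : ε ≤ 1 / 2) {v : SS L}
    {D : ℕ} (hD : D ≤ g.tl) {a : Finset (SS L)} (ha : a ⊆ lay v fun z => bal z D) {m : ℕ}
    (hm : a.card ≤ m) {P : Op (SS L) q} (hP : P.PosSemidef) (hPa : ActsOn a P) (hP1 : ‖P‖ ≤ 1)
    {Rel : Finset (ℕ × SS L)} (hRel : RelW g a ⊆ Rel) {δ : ℝ} (hδ : 0 ≤ δ)
    (hdev : ∀ p ∈ Rel, a ⊆ g.Wd p → ∀ X : Op (SS L) q, ActsOn (g.Wd p) X →
      ‖star ψ ⬝ᵥ (X *ᵥ ψ) - star Ω ⬝ᵥ (X *ᵥ Ω)‖ ≤ δ * ‖X‖) {π x : ℝ} (hπ : expv ψ P ≤ π)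
    (hx : 2 * expv Ω P + δ + 64 * Real.pi * Real.cosh Real.pi ^ 2 * ε * g.tl ^ 2 ≤ x) :
    Sum.LF (g.QV ψ M (Kt ε Ω) P) g.R g.tB g.mp g.n a Rel (tauE g q ε π) (tau1E q ε m x)
      (C2e q ε 1 m) := by
  have h1' : ε ≤ 1 := by linarith
  have hC2 := QV_C2 g hψ hq hM h0 h1' hΩ hPa hP1 hm
  have hΩ0 : 0 ≤ expv Ω P := psd_re_nonneg hP Ω
  have hpi := Real.pi_pos
  have htl' : (0 : ℝ) < g.tl := by exact_mod_cast htl
  have hxe : 0 < 64 * Real.pi * Real.cosh Real.pi ^ 2 * ε * (g.tl : ℝ) ^ 2 := by positivity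
  have hx0 : 0 < x := by linarith
  have hq' : (1 : ℝ) ≤ q := by exact_mod_cast hq
  have hlog : 0 ≤ Real.log ((q : ℝ) ^ 2 / ε) := by
    refine Real.log_nonneg ?_
    rw [le_div_iff₀ h0, one_mul]
    nlinarith
  have hΛ : 0 ≤ (m : ℝ) * Real.log ((q : ℝ) ^ 2 / ε) := by positivity
  refine ⟨conv_W g htl hT hψ hΩ hq hM h0 h1' hD ha hP hPa hP1 hπ,
    fun s hs => (QV_non g ψ M _ hPa s hs).le, ?_, irr_W g ψ M h0 h1' hΩ hPa hRel,
    fun k _ => hC2.1 k, fun p _ => hC2.2 p⟩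
  by_cases hx1 : x ≤ 1
  · intro p hp hor
    have hs0 : 0 < Real.sqrt (Real.sqrt x) := Real.sqrt_pos.2 (Real.sqrt_pos.2 hx0)
    have hs1 : Real.sqrt (Real.sqrt x) ≤ 1 := Real.sqrt_le_one.2 (Real.sqrt_le_one.2 hx1)
    have hcard : ∀ p, ((g.Wd p).card : ℝ) ≤ (g.tl : ℝ) ^ 2 := by
      intro p
      have h2 : (g.Wd p).card ≤ g.tl ^ 2 := by
        refine (card_le_card (g.Wd_sub p)).trans ?_
        exact card_lay p.2 (tileB L g.tl) fun z => card_tileB225 htl z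
      exact_mod_cast h2
    have hmain := LF_good g M hΩ hψ h0 h1 hP hPa hP1 (Rel := Rel) (δ := δ) hdev hδ
      (π := expv Ω P) (m := (g.tl : ℝ) ^ 2) (Λ := m * Real.log ((q : ℝ) ^ 2 / ε))
      (h := Real.sqrt (Real.sqrt x) / (4 * (1 + m * Real.log ((q : ℝ) ^ 2 / ε)))) le_rfl hcard hΛ
      ?_ (by positivity) ?_ p hp hor
    · refine hmain.trans (slabErr_opt hΛ h0.le (by positivity) hx0 hx1 ?_)
      linarith
    · rw [mul_comm]
      refine mul_le_mul_of_nonneg_right ?_ hlog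
      exact_mod_cast hm
    · rw [div_mul_cancel₀ _ (by positivity)]
      exact hs1
  · intro p hp _
    refine (hC2.2 p).trans ?_
    rw [not_le] at hx1
    have hsx : 1 ≤ Real.sqrt x := Real.one_le_sqrt.2 hx1.le
    have he := Real.exp_one_lt_d9
    unfold C2e tau1E
    have e1 : Real.exp 1 * 1 * (2 + 2 * (m : ℝ) * Real.log ((q : ℝ) ^ 2 / ε)) ^ 2 =
        (4 * Real.exp 1) * (1 + m * Real.log ((q : ℝ) ^ 2 / ε)) ^ 2 := by ring
    rw [e1]
    have h3 : 0 ≤ (1 + m * Real.log ((q : ℝ) ^ 2 / ε)) ^ 2 := sq_nonneg _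
    calc (4 * Real.exp 1) * (1 + m * Real.log ((q : ℝ) ^ 2 / ε)) ^ 2 ≤
          68 * (1 + m * Real.log ((q : ℝ) ^ 2 / ε)) ^ 2 :=
          mul_le_mul_of_nonneg_right (by linarith) h3
      _ ≤ 68 * (1 + m * Real.log ((q : ℝ) ^ 2 / ε)) ^ 2 * Real.sqrt x :=
          le_mul_of_one_le_right (by positivity) hsx

/-- the windows which contain a nonempty core are near the core -/
theorem Wd_sub_ball (g : Gd L) (htl : 0 < g.tl) {v : SS L} {D : ℕ} {a : Finset (SS L)}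
    (ha : a ⊆ lay v fun z => bal z D) (hne : a.Nonempty) {p : ℕ × SS L} (hp : a ⊆ g.Wd p) :
    g.Wd p ⊆ lay v fun z => bal z (D + g.tl) := by
  refine subset_trans ?_ (star1_sub g htl ha)
  intro x hx
  rw [star1, mem_union, mem_biUnion]
  right
  obtain ⟨y, hy⟩ := hne
  refine ⟨p.2, ?_, g.Wd_sub p hx⟩
  rw [meet, mem_filter, Finset.not_disjoint_iff]
  exact ⟨mem_univ _, y, g.Wd_sub p (hp hy), hy⟩

/-- the instance of `LF`, with the deviation on a region `A` around the core -/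
theorem lf_inst_ball (g : Gd L) (htl : 0 < g.tl) (hT : ∀ x y, |g.T x - g.T y| ≤ 2 * dist1 x y)
    {ψ Ω : Conf (SS L) q → ℂ} (hψ : nsq ψ = 1) (hΩ : nsq Ω = 1) (hq : 1 ≤ q) {M : ℝ}
    (hM : Fintype.card (SS L) * Real.log q ≤ M) {ε : ℝ} (h0 : 0 < ε) (h1 : ε ≤ 1 / 2) {v : SS L}
    {D : ℕ} (hD : D ≤ g.tl) {a : Finset (SS L)} (ha : a ⊆ lay v fun z => bal z D)
    (hne : a.Nonempty) {m : ℕ}
    (hm : a.card ≤ m) {P : Op (SS L) q} (hP : P.PosSemidef) (hPa : ActsOn a P) (hP1 : ‖P‖ ≤ 1)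
    {Rel : Finset (ℕ × SS L)} (hRel : RelW g a ⊆ Rel) {δ : ℝ} (hδ : 0 ≤ δ) {A : Finset (SS L)}
    (hA : (lay v fun z => bal z (D + g.tl)) ⊆ A)
    (hdev : ∀ X : Op (SS L) q, ActsOn A X →
      ‖star ψ ⬝ᵥ (X *ᵥ ψ) - star Ω ⬝ᵥ (X *ᵥ Ω)‖ ≤ δ * ‖X‖) {π x : ℝ} (hπ : expv ψ P ≤ π)
    (hx : 2 * expv Ω P + δ + 64 * Real.pi * Real.cosh Real.pi ^ 2 * ε * g.tl ^ 2 ≤ x) :
    Sum.LF (g.QV ψ M (Kt ε Ω) P) g.R g.tB g.mp g.n a Rel (tauE g q ε π) (tau1E q ε m x)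
      (C2e q ε 1 m) :=
  lf_inst g htl hT hψ hΩ hq hM h0 h1 hD ha hm hP hPa hP1 hRel hδ
    (fun p _ hp X hX => hdev X (ph_acts_mono ((Wd_sub_ball g htl ha hne hp).trans hA) hX)) hπ hx

end Vale.Agent.P356.GA.LFi
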