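import Vale.Agent.P356.GA.Notch107

/-!
# GA, block LEVEL, part 1 (helper795): the window-only form of NOTCH

The conditional mutual information of the core with the complement of the window,
`I(O ∩ c : Wᶜ | O ∩ (W \ c)) = S(O ∩ c | O ∩ (W \ c)) + S(O ∩ c | W \ O)`; same averages as in
`Notch107` (the proofs are those of helper107).
-/

set_option linter.all false

namespace Vale.Agent.P356.GA.Notch

open Finset Vale.Agent.P356 Vale.Agent.P356.SA Vale.Agent.P356.GA MeasureTheory
open scoped BigOperators ENNReal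

variable {V B : Type*} [Fintype V] [DecidableEq V] [Fintype B] [DecidableEq B]
variable {d : V → ℝ} {β : B → V → ℝ} {idx : V → ℕ} {S : Finset V → ℝ}

/-- **Pointwise Markov bound**: the order patterns of the sites of the notch are those of the
heights with the bump lowered. -/
theorem notch_pointW (hS : EntLike S) (hidx : Function.Injective idx) (hβ : ∀ b x, 0 ≤ β b x)
    {v : B → ℝ} {t : ℝ} (ht : ∀ y, hgt d β v y ≠ t) {b : B} {W : Finset V} {tl : V → Finset V}
    (hW : ∀ x, 0 < β b x → x ∈ W ∧ tl x ⊆ W) {l : ℝ} (hl : 0 ≤ l) :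
    cmiE S (notch d β v b l t) (Wᶜ) ((out d β v t ∩ W) \ notch d β v b l t) ≤
      ∑ x ∈ notch d β v b l t,
        del S d β idx tl (low v b ((hgt d β v x - t) / β b x)) x := by
  set a := notch d β v b l t with ha
  set lam : V → ℝ := fun x => (hgt d β v x - t) / β b x with hlam
  have hmem : ∀ x, x ∈ a ↔ t < hgt d β v x ∧ hgt d β v x - t ≤ l * β b x := fun x => by
    rw [ha, notch, mem_filter]
    simp
  have hpos : ∀ x ∈ a, 0 < β b x := by
    intro x hx
    obtain ⟨h1, h2⟩ := (hmem x).1 hx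
    rcases (hβ b x).lt_or_eq with h | h
    · exact h
    · rw [← h, mul_zero] at h2
      linarith
  have hlam0 : ∀ x ∈ a, 0 < lam x := fun x hx => div_pos (by linarith [((hmem x).1 hx).1]) (hpos x hx)
  have hlaml : ∀ x ∈ a, lam x ≤ l := fun x hx => (div_le_iff₀ (hpos x hx)).2 ((hmem x).1 hx).2
  have hlamx : ∀ x ∈ a, hgt d β (low v b (lam x)) x = t := by
    intro x hx
    rw [hgt_low, hlam]
    simp only
    rw [div_mul_cancel₀ _ (hpos x hx).ne']
    ring
  set κ : V → (ℝ ×ₗ ℕ)ᵒᵈ := fun x => OrderDual.toDual (toLex (lam x, idx x)) with hκ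
  have hκinj : Function.Injective κ := by
    intro x y h
    apply hidx
    have h1 : (lam x, idx x) = (lam y, idx y) := toLex.injective (OrderDual.toDual.injective h)
    exact (Prod.ext_iff.1 h1).2
  have hκlt : ∀ x y, κ y < κ x ↔ lam x < lam y ∨ lam x = lam y ∧ idx x < idx y := by
    intro x y
    rw [hκ]
    simp only
    rw [OrderDual.toDual_lt_toDual, Prod.Lex.toLex_lt_toLex]
  have hmemout : ∀ x, x ∈ out d β v t ↔ t < hgt d β v x := fun x => by
    rw [out, mem_filter]
    simp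
  refine cmi_le hκinj hS ?_ (C := fun x => above (key d β idx (low v b (lam x))) (tl x) x)
    (C' := fun x => below (key d β idx (low v b (lam x))) (tl x) x) ?_ ?_ |>.trans (le_of_eq ?_)
  · -- disjointness
    rw [Finset.disjoint_left]
    intro x hx hx'
    rcases mem_union.1 hx' with h | h
    · exact (mem_sdiff.1 h).2 hx
    · exact (mem_sdiff.1 h).2 (hW x (hpos x hx)).1
  · -- predecessors
    intro x hx y hy
    simp only [above, mem_filter] at hy
    obtain ⟨hy1, hy2⟩ := hy
    have hyW : y ∈ W := (hW x (hpos x hx)).2 hy1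
    rw [key_lt, hlamx x hx, hgt_low] at hy2
    have h0 : 0 ≤ lam x * β b y := mul_nonneg (hlam0 x hx).le (hβ b y)
    have hout : y ∈ out d β v t := by
      rw [hmemout]
      refine lt_of_le_of_ne ?_ (Ne.symm (ht y))
      rcases hy2 with h | ⟨h, -⟩ <;> linarith
    rw [mem_union]
    by_cases hya : y ∈ a
    · left
      rw [below, mem_filter]
      refine ⟨hya, (hκlt x y).2 ?_⟩
      have hby := hpos y hya
      rcases hy2 with h | ⟨h, h'⟩
      · left
        rw [hlam]
        simp only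
        rw [lt_div_iff₀ hby]
        have : lam x * β b y = (hgt d β v x - t) / β b x * β b y := rfl
        linarith
      · right
        refine ⟨?_, h'⟩
        have h3 : lam y = lam x := by
          have : lam y = (hgt d β v y - t) / β b y := rfl
          rw [this, div_eq_iff hby.ne']
          linarith
        exact h3.symm
    · right
      exact mem_sdiff.2 ⟨mem_inter.2 ⟨hout, hyW⟩, hya⟩
  · -- successors
    intro x hx
    rw [Finset.disjoint_left]
    intro y hy hy'
    simp only [below, mem_filter] at hy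
    obtain ⟨hy1, hy2⟩ := hy
    have hyW : y ∈ W := (hW x (hpos x hx)).2 hy1
    rcases mem_insert.1 hy' with rfl | hy'
    · exact lt_irrefl _ hy2
    rw [key_lt, hlamx x hx, hgt_low] at hy2
    rcases mem_union.1 hy' with hy' | hy'
    · simp only [below, mem_filter] at hy'
      obtain ⟨hya, hlt⟩ := hy'
      have hby := hpos y hya
      have hy3 : lam y * β b y = hgt d β v y - t := div_mul_cancel₀ _ hby.ne'
      rcases (hκlt x y).1 hlt with h | ⟨h, h'⟩
      · have := mul_lt_mul_of_pos_right h hby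
        rcases hy2 with h4 | ⟨h4, -⟩ <;> linarith
      · rw [← h] at hy3
        rcases hy2 with h4 | ⟨-, h4⟩
        · linarith
        · omega
    · rcases mem_union.1 hy' with hy' | hy'
      · obtain ⟨h1, hya⟩ := mem_sdiff.1 hy'
        have h2 := (hmemout y).1 (mem_inter.1 h1).1
        have h3 : l * β b y < hgt d β v y - t := by
          by_contra h
          exact hya ((hmem y).2 ⟨h2, not_lt.1 h⟩)
        have h4 : lam x * β b y ≤ l * β b y := mul_le_mul_of_nonneg_right (hlaml x hx) (hβ b y)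
        rcases hy2 with h5 | ⟨h5, -⟩ <;> linarith
      · exact (mem_sdiff.1 hy').2 hyW
  · refine Finset.sum_congr rfl fun x _ => ?_
    unfold del
    rw [add_comm]

/-- **Pointwise bound for a core.** -/
theorem core_pointW (hS : EntLike S) (hidx : Function.Injective idx) (hβ : ∀ b x, 0 ≤ β b x)
    {v : B → ℝ} {t : ℝ} (ht : ∀ y, hgt d β v y ≠ t) {b : B} {W c : Finset V} {tl : V → Finset V}
    (hW : ∀ x, 0 < β b x → x ∈ W ∧ tl x ⊆ W) {l : ℝ} (hl : 0 ≤ l)
    (hc : ∀ x ∈ c, t < hgt d β v x → hgt d β v x - t ≤ l * β b x) :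
    cmiE S (out d β v t ∩ c) (Wᶜ) (out d β v t ∩ (W \ c)) ≤
      ∑ x ∈ notch d β v b l t,
        del S d β idx tl (low v b ((hgt d β v x - t) / β b x)) x := by
  refine le_trans ?_ (notch_pointW hS hidx hβ ht hW hl)
  have hmem : ∀ x, x ∈ notch d β v b l t ↔ t < hgt d β v x ∧ hgt d β v x - t ≤ l * β b x :=
    fun x => by
      rw [notch, mem_filter]
      simp
  have hmemout : ∀ x, x ∈ out d β v t ↔ t < hgt d β v x := fun x => by
    rw [out, mem_filter]
    simp
  have haW : ∀ x ∈ notch d β v b l t, x ∈ W := by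
    intro x hx
    obtain ⟨h1, h2⟩ := (hmem x).1 hx
    rcases (hβ b x).lt_or_eq with h | h
    · exact (hW x h).1
    · rw [← h, mul_zero] at h2
      linarith
  have hsub : out d β v t ∩ c ⊆ notch d β v b l t := by
    intro x hx
    obtain ⟨h1, h2⟩ := mem_inter.1 hx
    have h3 := (hmemout x).1 h1
    exact (hmem x).2 ⟨h3, hc x h2 h3⟩
  have h1 := cmi_mono hS hsub (N := (out d β v t ∩ W) \ notch d β v b l t)
    (F := Wᶜ) disjoint_sdiff (by
      rw [Finset.disjoint_left]
      intro x hx hx'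
      exact (mem_sdiff.1 hx').2 (haW x hx)) (by
      rw [Finset.disjoint_left]
      intro x hx hx'
      exact (mem_sdiff.1 hx').2 (mem_inter.1 (mem_sdiff.1 hx).1).2)
  have e1 : (notch d β v b l t \ (out d β v t ∩ c)) ∪
      ((out d β v t ∩ W) \ notch d β v b l t) = out d β v t ∩ (W \ c) := by
    ext x
    simp only [mem_union, mem_sdiff, mem_inter]
    constructor
    · rintro (⟨h1, h2⟩ | ⟨⟨h1, h2⟩, h3⟩)
      · have h4 := (hmemout x).2 ((hmem x).1 h1).1
        exact ⟨h4, haW x h1, fun h => h2 ⟨h4, h⟩⟩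
      · exact ⟨h1, h2, fun h => h3 (hsub (mem_inter.2 ⟨h1, h⟩))⟩
    · rintro ⟨h1, h2, h3⟩
      by_cases h4 : x ∈ notch d β v b l t
      · exact Or.inl ⟨h4, fun h => h3 h.2⟩
      · exact Or.inr ⟨⟨h1, h2⟩, h4⟩
  rw [e1] at h1
  exact h1

/-- **(NOTCH), one bump**: the average over the noise (with `v b ≥ l`) and over all levels of the
conditional mutual information of the core `c`, when it is cut. -/
theorem notch_oneW (hS : EntLike S) (hidx : Function.Injective idx) (hβ : ∀ b x, 0 ≤ β b x)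
    (tl : V → Finset V) {b : B} {c W : Finset V} {l : ℝ} (hl : 0 ≤ l)
    (hW : ∀ x, 0 < β b x → x ∈ W ∧ tl x ⊆ W)
    (hosc : ∀ v ∈ cube B, ∀ x ∈ c, ∀ y ∈ c, hgt d β v x - hgt d β v y ≤ l * β b x) :
    ∫⁻ v in {v | v ∈ cube B ∧ l ≤ v b}, ∫⁻ t : ℝ, ENNReal.ofReal
      (open Classical in if (∃ x ∈ c, t < hgt d β v x) ∧ ∃ y ∈ c, hgt d β v y ≤ t then
        cmiE S (out d β v t ∩ c) Wᶜ (out d β v t ∩ (W \ c)) else 0) ≤
      ENNReal.ofReal l * ∑ x, ENNReal.ofReal (β b x) *
        ∫⁻ v in cube B, ENNReal.ofReal (del S d β idx tl v x) := by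
  classical
  have hm : MeasurableSet {v : B → ℝ | v ∈ cube B ∧ l ≤ v b} :=
    measurableSet_cube.inter (measurableSet_le measurable_const (measurable_pi_apply b))
  -- pointwise in `v`
  have h1 : ∀ v ∈ {v : B → ℝ | v ∈ cube B ∧ l ≤ v b}, ∫⁻ t : ℝ, ENNReal.ofReal
      (if (∃ x ∈ c, t < hgt d β v x) ∧ ∃ y ∈ c, hgt d β v y ≤ t then
        cmiE S (out d β v t ∩ c) Wᶜ (out d β v t ∩ (W \ c)) else 0) ≤
      ∑ x, ENNReal.ofReal (β b x) * ∫⁻ s in Set.Ioc 0 l,
        ENNReal.ofReal (del S d β idx tl (low v b s) x) := by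
    intro v hv
    rw [← lintegral_notch hβ tl v b l]
    -- the levels `T_y` are negligible
    have hnull : ∀ᵐ t : ℝ, ∀ y, hgt d β v y ≠ t := by
      rw [ae_all_iff]
      intro y
      have : ({hgt d β v y} : Set ℝ)ᶜ ∈ ae (volume : Measure ℝ) := by
        rw [mem_ae_iff, compl_compl]
        exact Real.volume_singleton
      filter_upwards [this] with t ht h
      exact ht (by rw [h]; rfl)
    refine lintegral_mono_ae ?_
    filter_upwards [hnull] with t ht
    split_ifs with hcut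
    · obtain ⟨-, y, hy, hyt⟩ := hcut
      have h2 := core_pointW (tl := tl) hS hidx hβ ht (b := b) (W := W) (c := c) hW hl
        (fun x hx hxt => by
          have := hosc v hv.1 x hx y hy
          linarith)
      refine (ENNReal.ofReal_le_ofReal h2).trans (le_of_eq ?_)
      rw [ENNReal.ofReal_sum_of_nonneg fun x _ => del_nonneg hS tl _ x]
    · rw [ENNReal.ofReal_zero]
      exact bot_le
  have hmj : ∀ x, Measurable fun p : (B → ℝ) × ℝ =>
      ENNReal.ofReal (del S d β idx tl (low p.1 b p.2) x) := by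
    intro x
    refine ENNReal.measurable_ofReal.comp (measurable_del ?_ S d β idx tl x)
    unfold low
    fun_prop
  calc _ ≤ ∫⁻ v in {v | v ∈ cube B ∧ l ≤ v b}, ∑ x, ENNReal.ofReal (β b x) *
        ∫⁻ s in Set.Ioc 0 l, ENNReal.ofReal (del S d β idx tl (low v b s) x) :=
        setLIntegral_mono' hm h1
    _ = ∑ x, ENNReal.ofReal (β b x) * ∫⁻ v in {v | v ∈ cube B ∧ l ≤ v b},
        ∫⁻ s in Set.Ioc 0 l, ENNReal.ofReal (del S d β idx tl (low v b s) x) := by
        rw [lintegral_finsetSum]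
        · refine Finset.sum_congr rfl fun x _ => ?_
          rw [lintegral_const_mul]
          exact (hmj x).lintegral_prod_right'
        · intro x _
          exact ((hmj x).lintegral_prod_right').const_mul _
    _ = ∑ x, ENNReal.ofReal (β b x) * ∫⁻ s in Set.Ioc 0 l,
        ∫⁻ v in {v | v ∈ cube B ∧ l ≤ v b}, ENNReal.ofReal (del S d β idx tl (low v b s) x) := by
        refine Finset.sum_congr rfl fun x _ => ?_
        rw [lintegral_lintegral_swap (hmj x).aemeasurable]
    _ ≤ ∑ x, ENNReal.ofReal (β b x) * ∫⁻ s in Set.Ioc 0 l,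
        ∫⁻ v in cube B, ENNReal.ofReal (del S d β idx tl v x) := by
        refine Finset.sum_le_sum fun x _ => mul_le_mul_right ?_ _
        exact setLIntegral_mono' measurableSet_Ioc fun s hs => lintegral_low tl b x hs.1 hs.2
    _ = ENNReal.ofReal l * ∑ x, ENNReal.ofReal (β b x) *
        ∫⁻ v in cube B, ENNReal.ofReal (del S d β idx tl v x) := by
        rw [Finset.mul_sum]
        refine Finset.sum_congr rfl fun x _ => ?_
        rw [setLIntegral_const, Real.volume_Ioc, sub_zero]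
        ring

/-! ### Sum over the cores -/

/-- the conditional mutual information `I(O ∩ c : O \ W | O ∩ (W \ c))` of a core `c` which is cut by
the boundary of the region `O`, else `0` -/
noncomputable def cutW (S : Finset V → ℝ) (c W O : Finset V) : ℝ :=
  open Classical in if (∃ x ∈ c, x ∈ O) ∧ ∃ y ∈ c, y ∉ O then
    cmiE S (O ∩ c) Wᶜ (O ∩ (W \ c)) else 0

theorem cutW_nonneg (hS : EntLike S) {c W : Finset V} (hcW : c ⊆ W) (O : Finset V) :
    0 ≤ cutW S c W O := by
  unfold cutW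
  split_ifs
  · refine cmi_nonneg hS ?_ ?_ ?_
    · rw [Finset.disjoint_left]
      intro x hx hx'
      exact (mem_sdiff.1 (mem_inter.1 hx').2).2 (mem_inter.1 hx).2
    · rw [Finset.disjoint_left]
      intro x hx hx'
      exact (mem_sdiff.1 hx').2 (hcW (mem_inter.1 hx).2)
    · rw [Finset.disjoint_left]
      intro x hx hx'
      exact (mem_sdiff.1 hx').2 (mem_sdiff.1 (mem_inter.1 hx).2).1
  · exact le_rfl

theorem cutW_out (S : Finset V → ℝ) (c W : Finset V) (v : B → ℝ) (t : ℝ) :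
    cutW S c W (out d β v t) =
      (open Classical in if (∃ x ∈ c, t < hgt d β v x) ∧ ∃ y ∈ c, hgt d β v y ≤ t then
        cmiE S (out d β v t ∩ c) Wᶜ (out d β v t ∩ (W \ c)) else 0) := by
  have hmem : ∀ x, x ∈ out d β v t ↔ t < hgt d β v x := fun x => by
    rw [out, mem_filter]
    simp
  unfold cutW
  congr 1
  simp only [hmem, not_lt]

/-- **(NOTCH), averaged**: cores `c k`, `k ∈ Ks`, windows `W k`, bumps `bk k`; the average over the
noise and all levels of the sum of the conditional mutual informations of the cores which are cut is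
at most `2 A` times the sum of the entropies of the tiles. -/
theorem notch_avgW (hS : EntLike S) (hidx : Function.Injective idx) (hβ : ∀ b x, 0 ≤ β b x)
    (tl : V → Finset V) {K : Type*} (Ks : Finset K) (bk : K → B) (c W : K → Finset V) {l : K → ℝ}
    (hl : ∀ k ∈ Ks, 0 ≤ l k) {A : ℝ} (hA : 0 ≤ A)
    (hW : ∀ k ∈ Ks, ∀ x, 0 < β (bk k) x → x ∈ W k ∧ tl x ⊆ W k)
    (hosc : ∀ k ∈ Ks, ∀ v ∈ cube B, ∀ x ∈ c k, ∀ y ∈ c k,
      hgt d β v x - hgt d β v y ≤ l k * β (bk k) x)
    (hsum : ∀ x, ∑ k ∈ Ks, l k * β (bk k) x ≤ A)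
    {J : Type*} (s : Finset J) (t : J → Finset V)
    (hd : ∀ i ∈ s, ∀ j ∈ s, i ≠ j → Disjoint (t i) (t j))
    (ht : ∀ i ∈ s, ∀ x ∈ t i, t i ⊆ tl x)
    (hcov : ∀ k ∈ Ks, ∀ x, 0 < β (bk k) x → x ∈ s.biUnion t) :
    ∑ k ∈ Ks, ∫⁻ v in {v | v ∈ cube B ∧ l k ≤ v (bk k)}, ∫⁻ τ : ℝ,
      ENNReal.ofReal (cutW S (c k) (W k) (out d β v τ)) ≤
      ENNReal.ofReal (A * (2 * ∑ i ∈ s, S (t i))) := by
  classical
  set U := s.biUnion t with hU
  have h0 : ∀ k ∈ Ks, ∀ x, x ∉ U → β (bk k) x = 0 := by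
    intro k hk x hx
    rcases (hβ (bk k) x).lt_or_eq with h | h
    · exact absurd (hcov k hk x h) hx
    · exact h.symm
  have hmj : ∀ x, Measurable fun v : B → ℝ => ENNReal.ofReal (del S d β idx tl v x) :=
    fun x => ENNReal.measurable_ofReal.comp (measurable_del measurable_id S d β idx tl x)
  have h1 : ∀ k ∈ Ks, ∫⁻ v in {v | v ∈ cube B ∧ l k ≤ v (bk k)}, ∫⁻ τ : ℝ,
      ENNReal.ofReal (cutW S (c k) (W k) (out d β v τ)) ≤
      ∑ x ∈ U, ENNReal.ofReal (l k * β (bk k) x) *
        ∫⁻ v in cube B, ENNReal.ofReal (del S d β idx tl v x) := by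
    intro k hk
    simp only [cutW_out]
    refine (notch_oneW hS hidx hβ tl (hl k hk) (hW k hk) (hosc k hk)).trans (le_of_eq ?_)
    rw [Finset.mul_sum]
    rw [← Finset.sum_subset (Finset.subset_univ U) (fun x _ hx => by
      rw [h0 k hk x hx, ENNReal.ofReal_zero, zero_mul, mul_zero])]
    refine Finset.sum_congr rfl fun x _ => ?_
    rw [ENNReal.ofReal_mul (hl k hk), mul_assoc]
  have htil : ∀ v : B → ℝ, ∑ x ∈ U, ENNReal.ofReal (del S d β idx tl v x) ≤
      ENNReal.ofReal (2 * ∑ i ∈ s, S (t i)) := by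
    intro v
    rw [← ENNReal.ofReal_sum_of_nonneg fun x _ => del_nonneg hS tl v x]
    refine ENNReal.ofReal_le_ofReal ?_
    have h2 := tiles_le (T := key d β idx v) (key_injective hidx v) hS s t hd (B := tl) ht
    refine le_trans (le_of_eq ?_) h2
    exact Finset.sum_congr (by rw [hU]) fun x _ => rfl
  calc _ ≤ ∑ k ∈ Ks, ∑ x ∈ U, ENNReal.ofReal (l k * β (bk k) x) *
        ∫⁻ v in cube B, ENNReal.ofReal (del S d β idx tl v x) := Finset.sum_le_sum h1
    _ = ∑ x ∈ U, (∑ k ∈ Ks, ENNReal.ofReal (l k * β (bk k) x)) *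
        ∫⁻ v in cube B, ENNReal.ofReal (del S d β idx tl v x) := by
        rw [Finset.sum_comm]
        exact Finset.sum_congr rfl fun x _ => by rw [Finset.sum_mul]
    _ ≤ ∑ x ∈ U, ENNReal.ofReal A *
        ∫⁻ v in cube B, ENNReal.ofReal (del S d β idx tl v x) := by
        refine Finset.sum_le_sum fun x _ => mul_le_mul_left ?_ _
        rw [← ENNReal.ofReal_sum_of_nonneg fun k hk => mul_nonneg (hl k hk) (hβ _ _)]
        exact ENNReal.ofReal_le_ofReal (hsum x)
    _ = ENNReal.ofReal A * ∫⁻ v in cube B, ∑ x ∈ U, ENNReal.ofReal (del S d β idx tl v x) := by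
        rw [← Finset.mul_sum, lintegral_finsetSum _ fun x _ => hmj x]
    _ ≤ ENNReal.ofReal A * ∫⁻ v in cube B, ENNReal.ofReal (2 * ∑ i ∈ s, S (t i)) := by
        refine mul_le_mul_right ?_ _
        exact setLIntegral_mono' measurableSet_cube fun v _ => htil v
    _ = ENNReal.ofReal (A * (2 * ∑ i ∈ s, S (t i))) := by
        rw [setLIntegral_const, volume_cube, mul_one, ENNReal.ofReal_mul hA]


/-! ### The window-only defect as a sum of two conditional entropies -/

/-- conditional entropy `S(A | N)` -/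
def cnd (S : Finset V → ℝ) (A N : Finset V) : ℝ := S (A ∪ N) - S N

theorem cnd_anti (hS : EntLike S) {A N N' : Finset V} (h : N ⊆ N') (hA : Disjoint A N') :
    cnd S A N' ≤ cnd S A N := by
  have h1 := hS.ssa A N (N' \ N) (hA.mono_right h) (hA.mono_right sdiff_subset) disjoint_sdiff
  rw [Finset.union_assoc, union_sdiff_of_subset h] at h1
  unfold cnd
  linarith

/-- `I(A : (A ∪ N ∪ M)ᶜ | N) = S(A | N) + S(A | M)` -/
theorem cmi_compl (hS : EntLike S) {A N M : Finset V} (hAN : Disjoint A N) (hAM : Disjoint A M)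
    (hNM : Disjoint N M) : cmiE S A (A ∪ N ∪ M)ᶜ N = cnd S A N + cnd S A M := by
  have e1 : A ∪ (N ∪ (A ∪ N ∪ M)ᶜ) = Mᶜ := by
    ext x
    simp only [mem_union, mem_compl]
    have h1 : x ∈ A → x ∉ M := fun h h' => Finset.disjoint_left.1 hAM h h'
    have h2 : x ∈ N → x ∉ M := fun h h' => Finset.disjoint_left.1 hNM h h'
    tauto
  have e2 : N ∪ (A ∪ N ∪ M)ᶜ = (A ∪ M)ᶜ := by
    ext x
    simp only [mem_union, mem_compl]
    have h1 : x ∈ N → x ∉ A := fun h h' => Finset.disjoint_left.1 hAN h' h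
    have h2 : x ∈ N → x ∉ M := fun h h' => Finset.disjoint_left.1 hNM h h'
    tauto
  unfold cmiE cnd
  rw [e1, e2, hS.compl, hS.compl]
  ring

/-- the window-only defect of a core which is cut -/
theorem cutW_eq (hS : EntLike S) {c W O : Finset V} (hcW : c ⊆ W) (h1 : ∃ x ∈ c, x ∈ O)
    (h2 : ∃ y ∈ c, y ∉ O) :
    cutW S c W O = cnd S (O ∩ c) (O ∩ (W \ c)) + cnd S (O ∩ c) (W \ O) := by
  unfold cutW
  rw [if_pos ⟨h1, h2⟩, ← cmi_compl hS]
  · congr 1
    congr 1
    ext x
    simp only [mem_union, mem_inter, mem_sdiff]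
    constructor
    · intro h
      by_cases hO : x ∈ O
      · by_cases hc : x ∈ c
        · exact Or.inl (Or.inl ⟨hO, hc⟩)
        · exact Or.inl (Or.inr ⟨hO, h, hc⟩)
      · exact Or.inr ⟨h, hO⟩
    · rintro ((⟨-, h⟩ | ⟨-, h, -⟩) | ⟨h, -⟩)
      · exact hcW h
      · exact h
      · exact h
  · rw [Finset.disjoint_left]
    intro x hx hx'
    exact (mem_sdiff.1 (mem_inter.1 hx').2).2 (mem_inter.1 hx).2
  · rw [Finset.disjoint_left]
    intro x hx hx'
    exact (mem_sdiff.1 hx').2 (mem_inter.1 hx).1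
  · rw [Finset.disjoint_left]
    intro x hx hx'
    exact (mem_sdiff.1 hx').2 (mem_inter.1 hx).1

/-- **bigger windows only help**: `N` on the side of `O`, `M` on the other side -/
theorem cnd_le_cutW (hS : EntLike S) {c W O N M : Finset V} (hcW : c ⊆ W) (h1 : ∃ x ∈ c, x ∈ O)
    (h2 : ∃ y ∈ c, y ∉ O) (hN : O ∩ (W \ c) ⊆ N) (hM : W \ O ⊆ M) (hN' : Disjoint (O ∩ c) N)
    (hM' : Disjoint (O ∩ c) M) :
    cnd S (O ∩ c) N + cnd S (O ∩ c) M ≤ cutW S c W O := by
  rw [cutW_eq hS hcW h1 h2]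
  exact add_le_add (cnd_anti hS hN hN') (cnd_anti hS hM hM')

/-- smaller cores, same window -/
theorem cutW_mono (hS : EntLike S) {c₀ c W : Finset V} (h0 : c₀ ⊆ c) (hcW : c ⊆ W) (O : Finset V) :
    cutW S c₀ W O ≤ cutW S c W O := by
  by_cases h : (∃ x ∈ c₀, x ∈ O) ∧ ∃ y ∈ c₀, y ∉ O
  · have h' : (∃ x ∈ c, x ∈ O) ∧ ∃ y ∈ c, y ∉ O := by
      obtain ⟨⟨x, hx, hx'⟩, y, hy, hy'⟩ := h
      exact ⟨⟨x, h0 hx, hx'⟩, y, h0 hy, hy'⟩
    unfold cutW
    rw [if_pos h, if_pos h']
    have h3 := cmi_mono hS (a := O ∩ c) (a0 := O ∩ c₀) (F := Wᶜ) (N := O ∩ (W \ c))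
      (inter_subset_inter_left h0) (by
        rw [Finset.disjoint_left]
        intro x hx hx'
        exact (mem_sdiff.1 (mem_inter.1 hx').2).2 (mem_inter.1 hx).2) (by
        rw [Finset.disjoint_left]
        intro x hx hx'
        exact (mem_compl.1 hx') (hcW (mem_inter.1 hx).2)) (by
        rw [Finset.disjoint_left]
        intro x hx hx'
        exact (mem_compl.1 hx') (mem_sdiff.1 (mem_inter.1 hx).2).1)
    have e1 : ((O ∩ c) \ (O ∩ c₀)) ∪ (O ∩ (W \ c)) = O ∩ (W \ c₀) := by
      ext x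
      simp only [mem_union, mem_inter, mem_sdiff]
      constructor
      · rintro (⟨⟨h4, h5⟩, h6⟩ | ⟨h4, h5, h6⟩)
        · exact ⟨h4, hcW h5, fun h => h6 ⟨h4, h⟩⟩
        · exact ⟨h4, h5, fun h => h6 (h0 h)⟩
      · rintro ⟨h4, h5, h6⟩
        by_cases h7 : x ∈ c
        · exact Or.inl ⟨⟨h4, h7⟩, fun h => h6 h.2⟩
        · exact Or.inr ⟨h4, h5, h7⟩
    rw [e1] at h3
    exact h3
  · have h3 := cutW_nonneg hS hcW O
    have h4 : cutW S c₀ W O = 0 := by
      unfold cutW
      rw [if_neg h]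
    linarith

end Vale.Agent.P356.GA.Notch
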