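import Vale.Agent.P356.GA.Kappa2_228
import Vale.Agent.P356.GA.Kappa660
import Vale.Agent.P356.GA.KapT87
import Vale.Agent.P356.GA.TiltUp412
import Vale.Agent.P356.GA.Glue107
import Vale.Agent.P356.GA.Form980

/-!
Block LINE228: the single line estimate, region form.  `KAPPA1` (660) and `KAPPA2` put together, with
the symmetric local quantity `Theta` (87).
-/

set_option linter.all false

namespace Vale.Agent.P356.GA

open Matrix Finset Vale.Agent.P356 Vale.Agent.P356.SV Vale.Agent.P356.Path Vale.Agent.P356.PH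
open Vale.Agent.P356.SA Vale.Agent.P356.GA.Kap Vale.Agent.P356.GA.Theta
open scoped BigOperators ComplexOrder Kronecker Matrix.Norms.L2Operator

section line
variable {V : Type} [Fintype V] [DecidableEq V] {q : ℕ}

/-- the expectation of the line generator -/
noncomputable def gsum (S : Finset V) (ψ : Conf V q → ℂ) (g : ℝ → ℝ) : ℝ :=
  ∑ i, eigp (ψ ∘ (cut S q).symm) i * g (eigp (ψ ∘ (cut S q).symm) i)

theorem kapM_eq (E A : Finset V) (KA KI : Op V q) (g : ℝ → ℝ) (ψ : Conf V q → ℂ) :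
    kapM E A KA KI g ψ = entropyOf E ψ + expv ψ KA - expv ψ KI + gsum (E ∪ A) ψ g := rfl

/-- the data of the mixed closeness lemma from a consistent family -/
theorem mixData_of_ref {K : Finset V → Op V q} (hK : RefFam K) {O b a : Finset V} (hb : b ⊆ O) :
    MixData (O \ a) b (K b) (K (b \ a)) := by
  have hI : (O \ a) ∩ b = b \ a := by
    ext x
    simp only [Finset.mem_inter, Finset.mem_sdiff]
    constructor
    · rintro ⟨⟨_, h2⟩, h3⟩
      exact ⟨h3, h2⟩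
    · rintro ⟨h1, h2⟩
      exact ⟨⟨hb h1, h2⟩, h1⟩
  refine ⟨hK.herm _, hK.herm _, hK.acts _, ?_, ?_⟩
  · rw [hI]
    exact hK.acts _
  · intro Y hY
    rw [hI] at hY ⊢
    have h := hK.cons (b \ a) b Finset.sdiff_subset Y hY
    rw [sz, sz, one_smul, one_smul]
    exact h

theorem line_union {O b a : Finset V} (hb : b ⊆ O) (ha : a ⊆ b) : (O \ a) ∪ b = O := by
  ext x
  simp only [Finset.mem_union, Finset.mem_sdiff]
  constructor
  · rintro (⟨h1, _⟩ | h)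
    · exact h1
    · exact hb h
  · intro h
    by_cases hx : x ∈ b
    · exact Or.inr hx
    · exact Or.inl ⟨h, fun h' => hx (ha h')⟩

/-- the defect of the mixed closeness lemma, in the form of 87 -/
theorem kapM_kap {K : Finset V → Op V q} {O b a : Finset V} (hb : b ⊆ O) (ha : a ⊆ b)
    (g : ℝ → ℝ) (ψ : Conf V q → ℂ) :
    kapM (O \ a) b (K b) (K (b \ a)) g ψ =
      Kap.kap (fun A => entropyOf A ψ) (fun A => expv ψ (K A)) O b a +
        (entropyOf O ψ + gsum O ψ g) := by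
  rw [kapM_eq, line_union hb ha, Kap.kap]
  ring

/-- **The single line estimate**, region form. -/
theorem line_le {O a a' b b' : Finset V} (hb : b ⊆ O) (hb' : b' ⊆ Oᶜ) (ha : a ⊆ b) (ha' : a' ⊆ b')
    {ψ : Conf V q → ℂ} (hψ : nsq ψ = 1) {K : Finset V → Op V q} (hK : RefFam K) {g : ℝ → ℝ}
    (hg : ∀ p, 0 ≤ p → p ≤ Real.exp (g p)) {Kc : ℝ}
    (hg2 : ∑ i, Real.exp (g (eigp (ψ ∘ (cut O q).symm) i)) ≤ Kc)
    {P : Op V q} (hP : P.PosSemidef) (hP1 : ‖P‖ ≤ 1) (hPa : ActsOn (a ∪ a') P)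
    {κ κ' : ℝ} (hκ0 : 0 ≤ κ) (hκ0' : 0 ≤ κ')
    (hκ : ∀ z : ℂ, |z.re| = 1 / 4 → ∀ X : Op V q, ActsOn a X →
      ‖NormedSpace.exp (z • K b) * X * NormedSpace.exp ((-z) • K b)‖ ≤ κ * ‖X‖)
    (hκ' : ∀ z : ℂ, |z.re| = 1 / 4 → ∀ X : Op V q, ActsOn a' X →
      ‖NormedSpace.exp (z • K b') * X * NormedSpace.exp ((-z) • K b')‖ ≤ κ' * ‖X‖)
    {L : ℝ} (hL : 0 ≤ L)
    (hLe : (q : ℝ) ^ (2 * a'.card) * (Real.sqrt Kc * (κ * κ')) ≤ Real.exp L)
    {h : ℝ} (h0 : 0 < h) (hh : h * (8 * (1 + L)) ≤ 1) :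
    -(c2 (fE ψ (k2Gen O ψ g (K b) (K b')) 3 P)).re ≤
      expv ψ P / h ^ 2 +
        32 * Real.pi * Real.cosh Real.pi ^ 2 *
          (kapM (O \ a) b (K b) (K (b \ a)) g ψ +
            kapM (Oᶜ \ a') b' (K b') (K (b' \ a')) g ψ) / h +
        128 * Real.exp 1 * (1 + L) ^ 4 * h ^ 2 := by
  have hh1 : h ≤ 1 := by
    have : h * 1 ≤ h * (8 * (1 + L)) := mul_le_mul_of_nonneg_left (by linarith) h0.le
    linarith
  have D := mixData_of_ref hK (a := a) hb
  have D' := mixData_of_ref hK (a := a') hb'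
  obtain ⟨y, ⟨hy1, hy2⟩, hy⟩ := kappa1_pair D D' hg hg hψ h0 hh1
  set κt := kapM (O \ a) b (K b) (K (b \ a)) g ψ + kapM (Oᶜ \ a') b' (K b') (K (b' \ a')) g ψ
    with hκt
  have hκt0 : 0 ≤ κt := add_nonneg (kapM_nonneg D hg hψ) (kapM_nonneg D' hg hψ)
  set η : ℝ := 4 * Real.pi * Real.cosh Real.pi ^ 2 * h * κt with hη
  have hη0 : 0 ≤ η := by
    have := Real.pi_pos
    positivity
  have hy0 : 0 < y := by linarith
  have hU : ∀ s, s = y ∨ s = -y → ActsOn (O \ a) (kV (O \ a) (K (b \ a)) ψ s) ∧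
      (kV (O \ a) (K (b \ a)) ψ s)ᴴ * kV (O \ a) (K (b \ a)) ψ s = 1 ∧
      nsq (NormedSpace.exp (-(((s : ℂ) * Complex.I) • K b)) *ᵥ
        (k2S O ψ g (-((s : ℂ) * Complex.I)) *ᵥ ψ) - kV (O \ a) (K (b \ a)) ψ s *ᵥ ψ) ≤ η := by
    intro s hs
    refine ⟨kV_acts (Finset.sdiff_subset_sdiff hb (le_refl a)) (hK.acts _) ψ s,
      kV_unit _ (hK.herm _) ψ s, ?_⟩
    have h1 := hy s hs
    rw [line_union hb ha, line_union hb' ha'] at h1
    rw [kV_mulVec]
    refine le_trans ?_ h1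
    have h2 := nsq_nonneg' (sz (K b') ((s : ℂ) * Complex.I) *ᵥ
      (eg Oᶜ ψ g (-((s : ℂ) * Complex.I)) *ᵥ ψ) -
        sz (K (b' \ a')) ((s : ℂ) * Complex.I) *ᵥ (UU (Oᶜ \ a') ψ (-s) *ᵥ ψ))
    exact le_add_of_nonneg_right h2
  have hU' : ∀ s, s = y ∨ s = -y → ActsOn (Oᶜ \ a') (kV (Oᶜ \ a') (K (b' \ a')) ψ s) ∧
      (kV (Oᶜ \ a') (K (b' \ a')) ψ s)ᴴ * kV (Oᶜ \ a') (K (b' \ a')) ψ s = 1 ∧
      nsq (NormedSpace.exp (-(((s : ℂ) * Complex.I) • K b')) *ᵥ
        (k2S Oᶜ ψ g (-((s : ℂ) * Complex.I)) *ᵥ ψ) -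
          kV (Oᶜ \ a') (K (b' \ a')) ψ s *ᵥ ψ) ≤ η := by
    intro s hs
    refine ⟨kV_acts (Finset.sdiff_subset_sdiff hb' (le_refl a')) (hK.acts _) ψ s,
      kV_unit _ (hK.herm _) ψ s, ?_⟩
    have h1 := hy s hs
    rw [line_union hb ha, line_union hb' ha'] at h1
    rw [kV_mulVec]
    refine le_trans ?_ h1
    have h2 := nsq_nonneg' (sz (K b) ((s : ℂ) * Complex.I) *ᵥ
      (eg O ψ g (-((s : ℂ) * Complex.I)) *ᵥ ψ) -
        sz (K (b \ a)) ((s : ℂ) * Complex.I) *ᵥ (UU (O \ a) ψ (-s) *ᵥ ψ))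
    exact le_add_of_nonneg_left h2
  have hyL : y * (8 * (1 + L)) ≤ 1 :=
    (mul_le_mul_of_nonneg_right hy2 (by linarith)).trans hh
  have main := kappa2 O a a' (ha.trans hb) (ha'.trans hb') hψ g
    (fun i => hg _ (eigp_nonneg _ i)) hg2 (ph_acts_mono hb (hK.acts b))
    (ph_acts_mono hb' (hK.acts b')) (hK.herm b) (hK.herm b') hP hP1 hPa hκ0 hκ0' hκ hκ' hL hLe
    hy0 hyL hU hU'
  refine main.trans ?_
  have hp0 : 0 ≤ (star ψ ⬝ᵥ (P *ᵥ ψ)).re := psd_re_nonneg hP ψ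
  have e1 : ((star ψ ⬝ᵥ (P *ᵥ ψ)).re / 4 + η + η) / y ^ 2 ≤
      expv ψ P / h ^ 2 + 32 * Real.pi * Real.cosh Real.pi ^ 2 * κt / h := by
    have hy4 : h ^ 2 / 4 ≤ y ^ 2 := by nlinarith
    have h5 : ((star ψ ⬝ᵥ (P *ᵥ ψ)).re / 4 + η + η) / y ^ 2 ≤
        ((star ψ ⬝ᵥ (P *ᵥ ψ)).re / 4 + η + η) / (h ^ 2 / 4) :=
      div_le_div_of_nonneg_left (by linarith) (by positivity) hy4
    refine h5.trans (le_of_eq ?_)
    rw [expv, hη]
    field_simp
    ring
  have e2 : 128 * Real.exp 1 * (1 + L) ^ 4 * y ^ 2 ≤ 128 * Real.exp 1 * (1 + L) ^ 4 * h ^ 2 :=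
    mul_le_mul_of_nonneg_left (pow_le_pow_left₀ hy0.le hy2 2)
      (by have := Real.exp_pos 1; positivity)
  linarith

/-- the clipping error of the line generator -/
theorem gsum_lgm_le (S : Finset V) {ψ : Conf V q → ℂ} (hψ : nsq ψ = 1) (M : ℝ) :
    entropyOf S ψ + gsum S ψ (lgm M) ≤
      Fintype.card ({x // x ∈ S} → Fin q) * Real.exp (-M) := by
  have hn : nsq (ψ ∘ (cut S q).symm) = 1 := by rw [nsq_comp, hψ]
  have h1 : entropyOf S ψ = ∑ i, Real.negMulLog (eigp (ψ ∘ (cut S q).symm) i) := by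
    have hh : (rdm S ψ).IsHermitian := redA_isHermitian (ψ ∘ (cut S q).symm)
    rw [entropyOf, vnEntropy, dif_pos hh]
    rfl
  have h2 : ∑ i, Real.exp (lgm M (eigp (ψ ∘ (cut S q).symm) i)) ≤
      1 + Fintype.card ({x // x ∈ S} → Fin q) * Real.exp (-M) := by
    refine (Finset.sum_le_sum fun i _ => exp_lgm_le (M := M) (eigp_nonneg _ i)).trans
      (le_of_eq ?_)
    rw [Finset.sum_add_distrib, eigp_sum _ hn, Finset.sum_const, Finset.card_univ, nsmul_eq_mul]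
  have h3 : gsum S ψ (lgm M) ≤ -(∑ i, Real.negMulLog (eigp (ψ ∘ (cut S q).symm) i)) - 1 +
      ∑ i, Real.exp (lgm M (eigp (ψ ∘ (cut S q).symm) i)) := by
    have h4 := Finset.sum_le_sum (s := Finset.univ) fun i _ =>
      mul_lgm_sub_exp (M := M) (eigp_nonneg (ψ ∘ (cut S q).symm) i)
    simp only [Finset.sum_sub_distrib, Finset.sum_neg_distrib] at h4
    rw [eigp_sum _ hn] at h4
    rw [gsum]
    linarith
  rw [h1]
  linarith

/-- **The single line estimate**, symmetric form, for the clipped logarithm. -/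
theorem line_theta {O c b b' : Finset V} (hb : b ⊆ O) (hb' : Disjoint b' O) (hc : c ∩ O ⊆ b)
    (hc' : c \ O ⊆ b')
    {ψ : Conf V q → ℂ} (hψ : nsq ψ = 1) {K : Finset V → Op V q} (hK : RefFam K) {M : ℝ}
    (hq : 1 ≤ q) (hM : Fintype.card V * Real.log q ≤ M)
    {P : Op V q} (hP : P.PosSemidef) (hP1 : ‖P‖ ≤ 1) (hPa : ActsOn c P)
    {Λ : ℝ} (hΛ : 0 ≤ Λ)
    (hκ : ∀ z : ℂ, |z.re| = 1 / 4 → ∀ X : Op V q, ActsOn (c ∩ O) X →
      ‖NormedSpace.exp (z • K b) * X * NormedSpace.exp ((-z) • K b)‖ ≤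
        Real.exp (Λ * (c ∩ O).card) * ‖X‖)
    (hκ' : ∀ z : ℂ, |z.re| = 1 / 4 → ∀ X : Op V q, ActsOn (c \ O) X →
      ‖NormedSpace.exp (z • K b') * X * NormedSpace.exp ((-z) • K b')‖ ≤
        Real.exp (Λ * (c \ O).card) * ‖X‖)
    {L : ℝ} (hL : (2 * Real.log q + Λ) * c.card + 1 ≤ L)
    {h : ℝ} (h0 : 0 < h) (hh : h * (8 * (1 + L)) ≤ 1) :
    -(c2 (fE ψ (k2Gen O ψ (lgm M) (K b) (K b')) 3 P)).re ≤
      expv ψ P / h ^ 2 +
        32 * Real.pi * Real.cosh Real.pi ^ 2 *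
          (expv ψ (Theta K c (b \ c) (b' \ c)) + 2 * (q : ℝ) ^ Fintype.card V * Real.exp (-M)) / h +
        128 * Real.exp 1 * (1 + L) ^ 4 * h ^ 2 := by
  have hbc : b' ⊆ Oᶜ := fun x hx => by
    rw [Finset.mem_compl]
    exact fun h' => (Finset.disjoint_left.1 hb') hx h'
  have hlq : 0 ≤ Real.log q := Real.log_natCast_nonneg q
  have hca : (c ∩ O).card + (c \ O).card = c.card := Finset.card_inter_add_card_sdiff c O
  have hcaR : ((c ∩ O).card : ℝ) + ((c \ O).card : ℝ) = c.card := by exact_mod_cast hca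
  have hcu : (c ∩ O) ∪ (c \ O) = c := by
    rw [Finset.union_comm]
    exact Finset.sdiff_union_inter c O
  have hL0 : 0 ≤ L := by
    have : 0 ≤ (2 * Real.log q + Λ) * c.card := by positivity
    linarith
  have hq0 : (0 : ℝ) < q := by exact_mod_cast hq
  have hLe : (q : ℝ) ^ (2 * (c \ O).card) * (Real.sqrt 2 *
      (Real.exp (Λ * (c ∩ O).card) * Real.exp (Λ * (c \ O).card))) ≤ Real.exp L := by
    have e1 : (q : ℝ) ^ (2 * (c \ O).card) = Real.exp (2 * Real.log q * (c \ O).card) := by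
      have : 2 * Real.log q * ((c \ O).card : ℝ) = ((2 * (c \ O).card : ℕ) : ℝ) * Real.log q := by
        push_cast; ring
      rw [this, Real.exp_nat_mul, Real.exp_log hq0]
    have e2 : Real.sqrt 2 ≤ Real.exp 1 := by
      have h1 : Real.sqrt 2 ≤ 2 := by
        rw [Real.sqrt_le_left (by norm_num)]
        norm_num
      have h2 := Real.add_one_le_exp (1 : ℝ)
      linarith
    rw [e1]
    calc Real.exp (2 * Real.log q * (c \ O).card) * (Real.sqrt 2 *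
        (Real.exp (Λ * (c ∩ O).card) * Real.exp (Λ * (c \ O).card))) ≤
        Real.exp (2 * Real.log q * (c \ O).card) * (Real.exp 1 *
        (Real.exp (Λ * (c ∩ O).card) * Real.exp (Λ * (c \ O).card))) := by gcongr
      _ = Real.exp (2 * Real.log q * (c \ O).card + (1 + (Λ * (c ∩ O).card +
          Λ * (c \ O).card))) := by rw [Real.exp_add, Real.exp_add, Real.exp_add]
      _ ≤ Real.exp L := by
          refine Real.exp_le_exp.2 ?_
          have h1 : 2 * Real.log q * ((c \ O).card : ℝ) ≤ 2 * Real.log q * c.card := by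
            refine mul_le_mul_of_nonneg_left ?_ (by positivity)
            have : (0 : ℝ) ≤ ((c ∩ O).card : ℝ) := Nat.cast_nonneg _
            linarith
          have h2 : Λ * ((c ∩ O).card : ℝ) + Λ * ((c \ O).card : ℝ) = Λ * c.card := by
            rw [← mul_add, hcaR]
          rw [h2]
          nlinarith
  have main := line_le hb hbc hc hc' hψ hK (g := lgm M) (fun p hp => by
      rw [exp_lgm]
      exact le_max_left _ _) (Kc := 2) (sum_exp_lgm_le hψ O hq hM) hP hP1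
    (by rw [hcu]; exact hPa) (Real.exp_pos _).le (Real.exp_pos _).le hκ hκ' hL0 hLe h0 hh
  refine main.trans ?_
  have hth := (kap_theta hK hψ hb hb' hc hc').2.2
  have hcard : ∀ S : Finset V, (Fintype.card ({x // x ∈ S} → Fin q) : ℝ) ≤
      (q : ℝ) ^ Fintype.card V := by
    intro S
    have : Fintype.card ({x // x ∈ S} → Fin q) = q ^ S.card := by simp
    rw [this, Nat.cast_pow]
    exact pow_le_pow_right₀ (by exact_mod_cast hq) (Finset.card_le_univ S)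
  have hs1 := (gsum_lgm_le O hψ M).trans
    (mul_le_mul_of_nonneg_right (hcard O) (Real.exp_pos _).le)
  have hs2 := (gsum_lgm_le Oᶜ hψ M).trans
    (mul_le_mul_of_nonneg_right (hcard Oᶜ) (Real.exp_pos _).le)
  have hk : kapM (O \ (c ∩ O)) b (K b) (K (b \ (c ∩ O))) (lgm M) ψ +
      kapM (Oᶜ \ (c \ O)) b' (K b') (K (b' \ (c \ O))) (lgm M) ψ ≤
      expv ψ (Theta K c (b \ c) (b' \ c)) + 2 * (q : ℝ) ^ Fintype.card V * Real.exp (-M) := by
    rw [kapM_kap hb hc, kapM_kap hbc hc']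
    linarith
  have hpi := Real.pi_pos
  have hch := Real.cosh_pos Real.pi
  have h7 : 32 * Real.pi * Real.cosh Real.pi ^ 2 *
      (kapM (O \ (c ∩ O)) b (K b) (K (b \ (c ∩ O))) (lgm M) ψ +
      kapM (Oᶜ \ (c \ O)) b' (K b') (K (b' \ (c \ O))) (lgm M) ψ) / h ≤
      32 * Real.pi * Real.cosh Real.pi ^ 2 *
      (expv ψ (Theta K c (b \ c) (b' \ c)) + 2 * (q : ℝ) ^ Fintype.card V * Real.exp (-M)) / h := by
    refine div_le_div_of_nonneg_right ?_ h0.le
    exact mul_le_mul_of_nonneg_left hk (by positivity)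
  linarith

end line

end Vale.Agent.P356.GA
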