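import Vale.Agent.P356.GA.KtConj677
import Vale.Agent.P356.GA.Line228

/-!
# GA (helper677): 228's single line bound for the noisy modular Hamiltonians
-/

set_option linter.all false

namespace Vale.Agent.P356.GA

open Matrix Finset Vale.Agent.P356 Vale.Agent.P356.SV Vale.Agent.P356.Path Vale.Agent.P356.PH
open scoped BigOperators ComplexOrder Kronecker Matrix.Norms.L2Operator MatrixOrder

variable {V : Type} [Fintype V] [DecidableEq V] {q : ℕ}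

/-- `line_theta` with `K = Kt ε Ω` -/
theorem line_theta_Kt {ε : ℝ} (hε0 : 0 < ε) (hε1 : ε ≤ 1) {Ω : Conf V q → ℂ} (hΩ : nsq Ω = 1)
    {O c b b' : Finset V} (hb : b ⊆ O) (hb' : Disjoint b' O) (hc : c ∩ O ⊆ b)
    (hc' : c \ O ⊆ b') {ψ : Conf V q → ℂ} (hψ : nsq ψ = 1) {M : ℝ}
    (hq : 1 ≤ q) (hM : Fintype.card V * Real.log q ≤ M)
    {P : Op V q} (hP : P.PosSemidef) (hP1 : ‖P‖ ≤ 1) (hPa : ActsOn c P)
    {L : ℝ} (hL : (2 * Real.log q + Real.log ((q : ℝ) ^ 2 / ε) / 4) * c.card + 1 ≤ L)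
    {h : ℝ} (h0 : 0 < h) (hh : h * (8 * (1 + L)) ≤ 1) :
    -(c2 (fE ψ (k2Gen O ψ (lgm M) (Kt ε Ω b) (Kt ε Ω b')) 3 P)).re ≤
      expv ψ P / h ^ 2 +
        32 * Real.pi * Real.cosh Real.pi ^ 2 *
          (expv ψ (Kap.Theta (Kt ε Ω) c (b \ c) (b' \ c)) +
            2 * (q : ℝ) ^ Fintype.card V * Real.exp (-M)) / h +
        128 * Real.exp 1 * (1 + L) ^ 4 * h ^ 2 :=
  line_theta hb hb' hc hc' hψ (Kt_refFam hε0 hε1 hΩ) hq hM hP hP1 hPa (Lam_nonneg hε0 hε1 hq)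
    (fun z hz X hX => Kt_conj_quarter hε0 hε1 hΩ hc hX hz)
    (fun z hz X hX => Kt_conj_quarter hε0 hε1 hΩ hc' hX hz) hL h0 hh

end Vale.Agent.P356.GA
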