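import Vale.Agent.P356.GA.FilterPlus

/-!
The Hamiltonian of a gapped system minus its ground state energy as a sum of strictly local terms
which almost annihilate the ground state.
-/

set_option linter.all false

namespace Vale.Agent.P356.GA

open Matrix Finset Vale.Agent.P356 Vale.Agent.P356.SV Vale.Agent.P356.Path Vale.Agent.P356.PH
open scoped BigOperators ComplexOrder Kronecker Matrix.Norms.L2Operator

/-- A family of conditional expectations onto the operators acting on a region. -/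
structure CondE (V : Type*) [Fintype V] [DecidableEq V] (q : ℕ) where
  E : Finset V → Op V q →ₗ[ℂ] Op V q
  sub : ∀ S T A, ActsOn T A → ActsOn T (E S A)
  acts : ∀ S A, ActsOn S (E S A)
  of_acts : ∀ S A, ActsOn S A → E S A = A
  norm : ∀ S A, ‖E S A‖ ≤ ‖A‖
  herm : ∀ S A, A.IsHermitian → (E S A).IsHermitian
  empty : ∀ A, ∃ c : ℂ, E ∅ A = c • 1
  step : ∀ S X x A, ActsOn X A → x ∉ X → E (insert x S) A = E S A

namespace CondE
section general
variable {V : Type*} [Fintype V] [DecidableEq V] {q : ℕ} (c : CondE V q)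

/-- the sites from number `k` on -/
noncomputable def up (V : Type*) [Fintype V] (k : ℕ) : Finset V :=
  (Finset.univ : Finset V).filter (fun y => k ≤ ((Fintype.equivFin V y : Fin _) : ℕ))

theorem up_zero : up V 0 = Finset.univ := by
  ext y; simp [up]

theorem up_card : up V (Fintype.card V) = ∅ := by
  ext y
  simp only [up, Finset.mem_filter, Finset.mem_univ, true_and, Finset.notMem_empty, iff_false,
    not_le]
  exact (Fintype.equivFin V y).isLt

theorem up_insert (x : V) : up V ((Fintype.equivFin V x : Fin _) : ℕ) =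
    insert x (up V (((Fintype.equivFin V x : Fin _) : ℕ) + 1)) := by
  ext y
  simp only [up, Finset.mem_filter, Finset.mem_univ, true_and, Finset.mem_insert]
  constructor
  · intro h
    rcases eq_or_lt_of_le h with h1 | h1
    · left
      exact ((Fintype.equivFin V).injective (Fin.ext h1)).symm
    · right; omega
  · rintro (rfl | h)
    · exact le_rfl
    · omega

/-- the difference of the expectations at one site -/
noncomputable def df (x : V) : Op V q →ₗ[ℂ] Op V q :=
  c.E (up V ((Fintype.equivFin V x : Fin _) : ℕ)) -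
    c.E (up V (((Fintype.equivFin V x : Fin _) : ℕ) + 1))

theorem df_apply (x : V) (A : Op V q) : c.df x A =
    c.E (up V ((Fintype.equivFin V x : Fin _) : ℕ)) A -
    c.E (up V (((Fintype.equivFin V x : Fin _) : ℕ) + 1)) A := rfl

theorem df_zero {x : V} {X : Finset V} {A : Op V q} (hA : ActsOn X A) (hx : x ∉ X) :
    c.df x A = 0 := by
  rw [df_apply, up_insert, c.step _ X x A hA hx, sub_self]

theorem df_acts (x : V) {T : Finset V} {A : Op V q} (hA : ActsOn T A) : ActsOn T (c.df x A) := by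
  rw [df_apply]
  exact ph_acts_sub (c.sub _ T A hA) (c.sub _ T A hA)

theorem df_norm (x : V) (A : Op V q) : ‖c.df x A‖ ≤ 2 * ‖A‖ := by
  rw [df_apply]
  refine (norm_sub_le _ _).trans ?_
  have h1 := c.norm (up V ((Fintype.equivFin V x : Fin _) : ℕ)) A
  have h2 := c.norm (up V (((Fintype.equivFin V x : Fin _) : ℕ) + 1)) A
  linarith

theorem df_herm (x : V) {A : Op V q} (hA : A.IsHermitian) : (c.df x A).IsHermitian := by
  rw [df_apply]
  exact (c.herm _ A hA).sub (c.herm _ A hA)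

theorem sum_df (hu : ∀ A : Op V q, ActsOn Finset.univ A) (A : Op V q) :
    ∑ x, c.df x A = A - c.E ∅ A := by
  have h1 : ∑ x, c.df x A = ∑ i : Fin (Fintype.card V),
      (c.E (up V (i : ℕ)) A - c.E (up V ((i : ℕ) + 1)) A) :=
    Equiv.sum_comp (Fintype.equivFin V) (fun i : Fin (Fintype.card V) =>
      c.E (up V (i : ℕ)) A - c.E (up V ((i : ℕ) + 1)) A)
  rw [h1, Fin.sum_univ_eq_sum_range (fun k => c.E (up V k) A - c.E (up V (k + 1)) A),
    Finset.sum_range_sub', up_zero, up_card, c.of_acts _ A (hu A)]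

end general
end CondE

section lattice
variable {L : ℕ}

theorem lo_sq (n : ℕ) : ∑ d ∈ Finset.range (n + 1), (1 : ℝ) / (1 + (d : ℝ)) ^ 2 ≤
    2 - 1 / ((n : ℝ) + 1) := by
  induction n with
  | zero => norm_num
  | succ n ih =>
    rw [Finset.sum_range_succ]
    have h : (1 : ℝ) / (1 + ((n + 1 : ℕ) : ℝ)) ^ 2 ≤ 1 / ((n : ℝ) + 1) -
        1 / (((n + 1 : ℕ) : ℝ) + 1) := by
      push_cast
      have h1 : (0 : ℝ) < n + 1 := by positivity
      have h2 : (0 : ℝ) < (n : ℝ) + 1 + 1 := by positivity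
      rw [div_sub_div _ _ h1.ne' h2.ne', div_le_div_iff₀ (by positivity) (by positivity)]
      nlinarith
    linarith

theorem lo_sum (x : Site L) : ∑ w : Site L, (1 : ℝ) / (1 + (dist1 w x : ℝ)) ^ 4 ≤ 8 := by
  classical
  set N := 2 * L with hN
  have hd : ∀ w : Site L, dist1 w x ∈ Finset.range (N + 1) := by
    intro w
    rw [Finset.mem_range]
    unfold dist1
    have h1 := w.1.isLt
    have h2 := w.2.isLt
    have h3 := x.1.isLt
    have h4 := x.2.isLt
    omega
  rw [← Finset.sum_fiberwise_of_maps_to (s := Finset.univ) (t := Finset.range (N + 1))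
    (g := fun w : Site L => dist1 w x) (fun w _ => hd w)]
  have h1 : ∀ d ∈ Finset.range (N + 1), ∑ w ∈ (Finset.univ : Finset (Site L)) with dist1 w x = d,
      (1 : ℝ) / (1 + (dist1 w x : ℝ)) ^ 4 ≤ 4 * ((1 : ℝ) / (1 + (d : ℝ)) ^ 2) := by
    intro d _
    have e1 : ∑ w ∈ (Finset.univ : Finset (Site L)) with dist1 w x = d,
        (1 : ℝ) / (1 + (dist1 w x : ℝ)) ^ 4 =
        ∑ w ∈ (Finset.univ : Finset (Site L)) with dist1 w x = d, (1 : ℝ) / (1 + (d : ℝ)) ^ 4 :=
      Finset.sum_congr rfl fun w hw => by rw [(Finset.mem_filter.1 hw).2]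
    rw [e1, Finset.sum_const, nsmul_eq_mul]
    have e2 : ((Finset.univ : Finset (Site L)).filter (fun w => dist1 w x = d)).card ≤
        (2 * d + 1) ^ 2 := by
      refine le_trans (Finset.card_le_card fun w hw => ?_) (card_ball x d)
      rw [Finset.mem_filter] at hw ⊢
      exact ⟨hw.1, hw.2.le⟩
    have e3 : (((Finset.univ : Finset (Site L)).filter (fun w => dist1 w x = d)).card : ℝ) ≤
        4 * (1 + (d : ℝ)) ^ 2 := by
      have : (((Finset.univ : Finset (Site L)).filter (fun w => dist1 w x = d)).card : ℝ) ≤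
          (2 * (d : ℝ) + 1) ^ 2 := by exact_mod_cast e2
      nlinarith [Nat.cast_nonneg (α := ℝ) d]
    have hp : (0 : ℝ) < 1 + (d : ℝ) := by positivity
    calc _ ≤ 4 * (1 + (d : ℝ)) ^ 2 * (1 / (1 + (d : ℝ)) ^ 4) :=
          mul_le_mul_of_nonneg_right e3 (by positivity)
      _ = 4 * ((1 : ℝ) / (1 + (d : ℝ)) ^ 2) := by
          field_simp
  refine (Finset.sum_le_sum h1).trans ?_
  rw [← Finset.mul_sum]
  have h2 := lo_sq N
  have h3 : (0 : ℝ) ≤ 1 / ((N : ℝ) + 1) := by positivity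
  linarith

theorem lo_ball_sub {z w : Site L} {r : ℕ} (h : z ∈ ball w r) : ball w r ⊆ ball z (2 * r) := by
  intro y hy
  rw [ball, Finset.mem_filter] at h hy ⊢
  refine ⟨hy.1, ?_⟩
  have h1 := dist1_tri y w z
  have h2 := dist1_comm w z
  omega

end lattice

section main
variable {R : ℕ} {J Δ : ℝ} {w : ℝ → ℝ}

/-- **Strictly local terms.** -/
theorem local_exact_of (ce : ∀ L q : ℕ, CondE (Site L) q) (hJ : 0 ≤ J) (hΔ : 0 < Δ)
    (hw : IsFilter Δ w) (p : ℕ) :
    ∃ C : ℝ, 0 ≤ C ∧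
    ∀ (L q : ℕ) (g : Finset (Site L) → Op (Site L) q), Terms L q R J g →
    ∀ (E : ℝ) (Ω : Conf (Site L) q → ℂ), GappedGround (∑ X, g X) Δ E Ω →
    ∀ F : ℕ, R ≤ F → 1 ≤ F →
    ∃ (T : Site L → Op (Site L) q) (e : ℝ), (∀ z, (T z).IsHermitian ∧
      ActsOn (ball z (4 * F)) (T z) ∧ ‖T z‖ ≤ C ∧
      nrm (T z *ᵥ Ω) ≤ C / (1 + (F : ℝ)) ^ p) ∧
      ∑ z, T z = ∑ X, g X - (e : ℂ) • (1 : Op (Site L) q) := by
  obtain ⟨C, hC0, hC⟩ := local_terms (R := R) hJ hΔ hw (p + 4)
  refine ⟨514 * C, by positivity, ?_⟩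
  intro L q g hg E Ω hΩ F hRF hF
  obtain ⟨M, hM, hsum, happ⟩ := hC L q g hg E Ω hΩ
  let c := ce L q
  have hu : ∀ A : Op (Site L) q, ActsOn Finset.univ A := fun A => ph_acts_univ A
  have hF0 : (0 : ℝ) < 1 + (F : ℝ) := by positivity
  -- approximation by the conditional expectations
  have apx : ∀ (v : Site L) (s : ℕ), ‖M v - c.E (ball v (R + s)) (M v)‖ ≤
      2 * C / (1 + (s : ℝ)) ^ (p + 4) := by
    intro v s
    obtain ⟨T, hT⟩ := happ (fun _ => s)
    obtain ⟨-, hTa, -, hTn, -⟩ := hT v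
    have e1 : M v - c.E (ball v (R + s)) (M v) =
        (M v - T v) - c.E (ball v (R + s)) (M v - T v) := by
      rw [map_sub, c.of_acts _ _ hTa]
      abel
    rw [e1]
    refine (norm_sub_le _ _).trans ?_
    have h2 := c.norm (ball v (R + s)) (M v - T v)
    have h3 : 2 * C / (1 + (s : ℝ)) ^ (p + 4) = C / (1 + (s : ℝ)) ^ (p + 4) +
        C / (1 + (s : ℝ)) ^ (p + 4) := by ring
    rw [h3]
    exact add_le_add hTn (h2.trans hTn)
  set MF : Site L → Op (Site L) q := fun v => c.E (ball v (R + F)) (M v) with hMF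
  have hMFa : ∀ v, ActsOn (ball v (R + F)) (MF v) := fun v => c.acts _ _
  set Rem : Op (Site L) q := ∑ X, g X - (E : ℂ) • (1 : Op (Site L) q) - ∑ v, MF v with hRem
  have hRem2 : Rem = ∑ v, (M v - MF v) := by
    rw [hRem, ← hsum, Finset.sum_sub_distrib]
  -- one term
  have hone : ∀ z v : Site L, ‖c.df z (M v - MF v)‖ ≤
      64 * C / (1 + (F : ℝ)) ^ p * (1 / (1 + (dist1 v z : ℝ)) ^ 4) := by
    intro z v
    have hkey : ∀ s : ℕ, F ≤ s → 1 + dist1 v z ≤ 2 * (1 + s) →
        4 * C / (1 + (s : ℝ)) ^ (p + 4) ≤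
        64 * C / (1 + (F : ℝ)) ^ p * (1 / (1 + (dist1 v z : ℝ)) ^ 4) := by
      intro s hs1 hs2
      have h1 : (1 + (F : ℝ)) ^ p ≤ (1 + (s : ℝ)) ^ p :=
        pow_le_pow_left₀ hF0.le (by have : (F : ℝ) ≤ s := by exact_mod_cast hs1
                                    linarith) p
      have h2 : (1 + (dist1 v z : ℝ)) ^ 4 ≤ (2 * (1 + (s : ℝ))) ^ 4 :=
        pow_le_pow_left₀ (by positivity) (by exact_mod_cast hs2) 4
      have h3 : (1 + (F : ℝ)) ^ p * (1 + (dist1 v z : ℝ)) ^ 4 ≤
          16 * (1 + (s : ℝ)) ^ (p + 4) := by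
        calc (1 + (F : ℝ)) ^ p * (1 + (dist1 v z : ℝ)) ^ 4 ≤
            (1 + (s : ℝ)) ^ p * (2 * (1 + (s : ℝ))) ^ 4 :=
              mul_le_mul h1 h2 (by positivity) (by positivity)
          _ = _ := by ring
      rw [div_mul_div_comm, mul_one, div_le_div_iff₀ (by positivity) (by positivity)]
      calc 4 * C * ((1 + (F : ℝ)) ^ p * (1 + (dist1 v z : ℝ)) ^ 4) ≤
          4 * C * (16 * (1 + (s : ℝ)) ^ (p + 4)) := mul_le_mul_of_nonneg_left h3 (by positivity)
        _ = _ := by ring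
    by_cases hd : dist1 v z ≤ R + F
    · refine (c.df_norm z _).trans ?_
      have h1 := apx v F
      refine le_trans ?_ (hkey F le_rfl (by omega))
      have h2 : 4 * C / (1 + (F : ℝ)) ^ (p + 4) = 2 * (2 * C / (1 + (F : ℝ)) ^ (p + 4)) := by ring
      rw [h2]
      exact mul_le_mul_of_nonneg_left h1 (by norm_num)
    · have hz1 : z ∉ ball v (R + F) := by
        rw [ball, Finset.mem_filter]
        rintro ⟨-, h⟩
        rw [dist1_comm] at h
        exact hd h
      obtain ⟨s, hs⟩ : ∃ s, dist1 v z = R + s + 1 := ⟨dist1 v z - R - 1, by omega⟩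
      have hz2 : z ∉ ball v (R + s) := by
        rw [ball, Finset.mem_filter]
        rintro ⟨-, h⟩
        rw [dist1_comm] at h
        omega
      have e1 : c.df z (M v - MF v) = c.df z (M v - c.E (ball v (R + s)) (M v)) := by
        rw [map_sub, map_sub, c.df_zero (hMFa v) hz1, c.df_zero (c.acts _ _) hz2]
      rw [e1]
      refine (c.df_norm z _).trans ?_
      have h1 := apx v s
      refine le_trans ?_ (hkey s (by omega) (by omega))
      have h2 : 4 * C / (1 + (s : ℝ)) ^ (p + 4) = 2 * (2 * C / (1 + (s : ℝ)) ^ (p + 4)) := by ring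
      rw [h2]
      exact mul_le_mul_of_nonneg_left h1 (by norm_num)
  have hdfn : ∀ z, ‖c.df z Rem‖ ≤ 512 * C / (1 + (F : ℝ)) ^ p := by
    intro z
    rw [hRem2, map_sum]
    refine (norm_sum_le _ _).trans ((Finset.sum_le_sum fun v _ => hone z v).trans ?_)
    rw [← Finset.mul_sum]
    have h1 := lo_sum z
    have h2 : 0 ≤ 64 * C / (1 + (F : ℝ)) ^ p := by positivity
    calc _ ≤ 64 * C / (1 + (F : ℝ)) ^ p * 8 := mul_le_mul_of_nonneg_left h1 h2
      _ = _ := by ring
  have hRemh : Rem.IsHermitian := by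
    rw [hRem2]
    unfold Matrix.IsHermitian
    rw [Matrix.conjTranspose_sum]
    exact Finset.sum_congr rfl fun v _ => ((hM v).1.sub (c.herm _ _ (hM v).1)).eq
  have hdfa : ∀ z, ActsOn (ball z (4 * F)) (c.df z Rem) := by
    intro z
    rw [hRem, map_sub, map_sub, map_sum, map_sum, map_smul]
    refine ph_acts_sub (ph_acts_sub (ph_acts_sum _ fun X _ => ?_) ?_) (ph_acts_sum _ fun v _ => ?_)
    · by_cases hX : g X = 0
      · rw [hX, map_zero]
        exact ph_acts_zero _
      · by_cases hz : z ∈ X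
        · refine ph_acts_mono (fun y hy => ?_) (c.df_acts z (hg.loc X))
          rw [ball, Finset.mem_filter]
          refine ⟨Finset.mem_univ y, ?_⟩
          have := (hg.range X hX).2 y hy z hz
          omega
        · rw [c.df_zero (hg.loc X) hz]
          exact ph_acts_zero _
    · rw [c.df_zero (ph_acts_one ∅) (Finset.notMem_empty z), smul_zero]
      exact ph_acts_zero _
    · by_cases hz : z ∈ ball v (R + F)
      · exact ph_acts_mono ((lo_ball_sub hz).trans (ball_mono z (by omega)))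
          (c.df_acts z (hMFa v))
      · rw [c.df_zero (hMFa v) hz]
        exact ph_acts_zero _
  -- the constant
  obtain ⟨c0, hc0⟩ := c.empty Rem
  have hne : Nonempty (Conf (Site L) q) := by
    by_contra h
    rw [not_nonempty_iff] at h
    have h1 := hΩ.1
    rw [nsq, Finset.univ_eq_empty, Finset.sum_empty] at h1
    exact zero_ne_one h1
  have hc0r : c0 = ((c0.re : ℝ) : ℂ) := by
    have h1 := (c.herm ∅ Rem hRemh).eq
    rw [hc0, Matrix.conjTranspose_smul, Matrix.conjTranspose_one] at h1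
    obtain ⟨i⟩ := hne
    have h2 := congrFun (congrFun h1 i) i
    rw [Matrix.smul_apply, Matrix.smul_apply, Matrix.one_apply_eq, smul_eq_mul, smul_eq_mul,
      mul_one, mul_one] at h2
    exact (Complex.conj_eq_iff_re.1 h2).symm
  refine ⟨fun z => MF z + c.df z Rem, E + c0.re, fun z => ⟨?_, ?_, ?_, ?_⟩, ?_⟩
  · exact (c.herm _ _ (hM z).1).add (c.df_herm z hRemh)
  · exact ph_acts_add (ph_acts_mono (ball_mono z (by omega)) (hMFa z)) (hdfa z)
  · refine (norm_add_le _ _).trans ?_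
    have h1 : ‖MF z‖ ≤ C := (c.norm _ _).trans (hM z).2.2
    have h2 := hdfn z
    have h3 : 512 * C / (1 + (F : ℝ)) ^ p ≤ 512 * C := by
      refine div_le_self (by positivity) (one_le_pow₀ ?_)
      have : (0 : ℝ) ≤ F := Nat.cast_nonneg F
      linarith
    linarith
  · have h1 : MF z *ᵥ Ω = -((M z - MF z) *ᵥ Ω) := by
      rw [Matrix.sub_mulVec, (hM z).2.1, zero_sub, neg_neg]
    have h2 : nrm (MF z *ᵥ Ω) ≤ 2 * C / (1 + (F : ℝ)) ^ (p + 4) := by
      have h3 := p5_nrm_mulVec (M z - MF z) Ω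
      rw [p5_nrm_one hΩ.1, mul_one] at h3
      have h4 : nrm (-((M z - MF z) *ᵥ Ω)) = nrm ((M z - MF z) *ᵥ Ω) := by
        rw [p5_nrm_eq, p5_nrm_eq, WithLp.toLp_neg, norm_neg]
      rw [h1, h4]
      exact h3.trans (apx z F)
    have h5 : nrm (c.df z Rem *ᵥ Ω) ≤ 512 * C / (1 + (F : ℝ)) ^ p := by
      have h3 := p5_nrm_mulVec (c.df z Rem) Ω
      rw [p5_nrm_one hΩ.1, mul_one] at h3
      exact h3.trans (hdfn z)
    have h6 : 2 * C / (1 + (F : ℝ)) ^ (p + 4) ≤ 2 * C / (1 + (F : ℝ)) ^ p := by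
      refine div_le_div_of_nonneg_left (by positivity) (by positivity) ?_
      refine pow_le_pow_right₀ ?_ (by omega)
      have : (0 : ℝ) ≤ F := Nat.cast_nonneg F
      linarith
    have h7 : nrm ((MF z + c.df z Rem) *ᵥ Ω) ≤ nrm (MF z *ᵥ Ω) + nrm (c.df z Rem *ᵥ Ω) := by
      rw [Matrix.add_mulVec, p5_nrm_eq, p5_nrm_eq, p5_nrm_eq, WithLp.toLp_add]
      exact norm_add_le _ _
    refine h7.trans ?_
    have h8 : 514 * C / (1 + (F : ℝ)) ^ p = 2 * C / (1 + (F : ℝ)) ^ p +
        512 * C / (1 + (F : ℝ)) ^ p := by ring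
    rw [h8]
    linarith
  · rw [Finset.sum_add_distrib, c.sum_df hu, hc0, hc0r, hRem]
    push_cast
    rw [add_smul]
    simp only [Complex.ofReal_re]
    abel

end main

end Vale.Agent.P356.GA
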