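import Vale.Agent.P356.GA.LocalEx749
import Vale.Agent.P356.GA.EnDefs394
import Vale.Agent.P356.GA.E6_412
import Vale.Agent.P356.GA.EntDbl865

/-!
The strictly local terms on the two-layer lattice, normalised, in the shape of the energy theorem.
-/

set_option linter.all false

namespace Vale.Agent.P356.GA

open Matrix Finset Vale.Agent.P356 Vale.Agent.P356.SV Vale.Agent.P356.Path Vale.Agent.P356.NA
open Vale.Agent.P356.SA Vale.Agent.P356.PH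
open scoped BigOperators ComplexOrder Kronecker Matrix.Norms.L2Operator

theorem ld_cp1_norm {V W : Type} [Fintype V] [DecidableEq V] [Fintype W] [DecidableEq W] {q : ℕ}
    (Y : Op V q) : ‖(cp1 Y : Op (V ⊕ W) q)‖ ≤ ‖Y‖ :=
  (opNormLe_iff (norm_nonneg _)).1 (cp1_norm ((opNormLe_iff (norm_nonneg _)).2 le_rfl))

theorem ld_cp2_norm {V W : Type} [Fintype V] [DecidableEq V] [Fintype W] [DecidableEq W] {q : ℕ}
    (Y : Op W q) : ‖(cp2 Y : Op (V ⊕ W) q)‖ ≤ ‖Y‖ :=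
  (opNormLe_iff (norm_nonneg _)).1 (cp2_norm ((opNormLe_iff (norm_nonneg _)).2 le_rfl))

theorem ld_smul_nrm {N : Type*} [Fintype N] [DecidableEq N] (c : ℂ) (u : N → ℂ) :
    nrm (c • u) = ‖c‖ * nrm u := by
  rw [p5_nrm_eq, p5_nrm_eq, WithLp.toLp_smul, norm_smul]

theorem ld_ball_bal {L : ℕ} (z : Site L) {r s : ℕ} (h : r ≤ s) : ball z r ⊆ Level.bal z s := by
  intro y hy
  rw [ball, Finset.mem_filter] at hy
  exact Level.mem_bal_of_dist1 (hy.2.trans h)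

/-- **E7 on the two-layer lattice.** `C (cp1 H + cp2 H - 2 e) = ∑ v, Mv v` with Hermitian
contractions on the cores of radius `D` which almost annihilate `Ω ⊗ Ω`. -/
theorem local_dbl {R : ℕ} {J Δ : ℝ} {w : ℝ → ℝ} (hJ : 0 ≤ J) (hΔ : 0 < Δ)
    (hw : IsFilter Δ w) (p : ℕ) :
    ∃ Cm : ℝ, 0 < Cm ∧
    ∀ (L q : ℕ) (h : Finset (Site L) → Op (Site L) q), PH.Terms L q R J h →
    ∀ (E : ℝ) (Ω : Conf (Site L) q → ℂ), GappedGround (∑ X, h X) Δ E Ω →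
    ∀ F D : ℕ, R ≤ F → 1 ≤ F → 4 * F ≤ D →
    ∃ (Mv : SS L → Op (SS L) q) (e : ℝ), (∀ v, (Mv v).IsHermitian ∧
      ActsOn (lay v (fun z => Level.bal z D)) (Mv v) ∧ ‖Mv v‖ ≤ 1 ∧
      nrm (Mv v *ᵥ dbl Ω Ω) ≤ 1 / (1 + (F : ℝ)) ^ p) ∧
      (Cm : ℂ) • ∑ v, Mv v = cp1 (∑ X, h X) + cp2 (∑ X, h X) -
        (((2 * e : ℝ)) : ℂ) • (1 : Op (SS L) q) := by
  obtain ⟨C, hC0, hC⟩ := local_exact (R := R) hJ hΔ hw p
  refine ⟨C + 1, by positivity, ?_⟩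
  intro L q h hh E Ω hΩ F D hRF hF hD
  obtain ⟨T, e, hT, hsum⟩ := hC L q h hh E Ω hΩ F hRF hF
  have hC1 : (0 : ℝ) < C + 1 := by positivity
  have hC1c : ((C + 1 : ℝ) : ℂ) ≠ 0 := by exact_mod_cast hC1.ne'
  have hin : ‖(((C + 1)⁻¹ : ℝ) : ℂ)‖ = (C + 1)⁻¹ := by
    rw [Complex.norm_real, Real.norm_eq_abs, abs_of_pos (by positivity)]
  have hherm : ∀ {X : Op (SS L) q}, X.IsHermitian →
      ((((C + 1)⁻¹ : ℝ) : ℂ) • X).IsHermitian := by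
    intro X hX
    unfold Matrix.IsHermitian
    rw [Matrix.conjTranspose_smul, hX.eq, RCLike.star_def, Complex.conj_ofReal]
  have hn1 : ∀ {X : Op (SS L) q}, ‖X‖ ≤ C → ‖(((C + 1)⁻¹ : ℝ) : ℂ) • X‖ ≤ 1 := by
    intro X hX
    rw [norm_smul, hin, inv_mul_le_iff₀ hC1]
    linarith
  have hn2 : ∀ {u : Conf (SS L) q → ℂ}, nrm u ≤ C / (1 + (F : ℝ)) ^ p →
      nrm ((((C + 1)⁻¹ : ℝ) : ℂ) • u) ≤ 1 / (1 + (F : ℝ)) ^ p := by
    intro u hu
    rw [ld_smul_nrm, hin, inv_mul_le_iff₀ hC1]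
    refine hu.trans ?_
    rw [mul_one_div]
    exact div_le_div_of_nonneg_right (by linarith) (by positivity)
  have hΩ1 : nrm Ω = 1 := p5_nrm_one hΩ.1
  refine ⟨Sum.elim (fun z => (((C + 1)⁻¹ : ℝ) : ℂ) • cp1 (T z))
    (fun z => (((C + 1)⁻¹ : ℝ) : ℂ) • cp2 (T z)), e, ?_, ?_⟩
  · rintro (z | z)
    · obtain ⟨t1, t2, t3, t4⟩ := hT z
      refine ⟨hherm (cp1_herm t1), ?_, hn1 ((ld_cp1_norm _).trans t3), ?_⟩
      · show ActsOn (inL (Level.bal z D)) _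
        rw [E6.inL_eq]
        exact ph_acts_smul _ (cp1_acts (ph_acts_mono (ld_ball_bal z hD) t2))
      · show nrm (((((C + 1)⁻¹ : ℝ) : ℂ) • cp1 (T z)) *ᵥ dbl Ω Ω) ≤ _
        rw [Matrix.smul_mulVec]
        refine hn2 ?_
        rw [cp1_dbl, nrm_dbl, hΩ1, mul_one]
        exact t4
    · obtain ⟨t1, t2, t3, t4⟩ := hT z
      refine ⟨hherm (cp2_herm t1), ?_, hn1 ((ld_cp2_norm _).trans t3), ?_⟩
      · show ActsOn (inR (Level.bal z D)) _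
        rw [E6.inR_eq]
        exact ph_acts_smul _ (cp2_acts (ph_acts_mono (ld_ball_bal z hD) t2))
      · show nrm (((((C + 1)⁻¹ : ℝ) : ℂ) • cp2 (T z)) *ᵥ dbl Ω Ω) ≤ _
        rw [Matrix.smul_mulVec]
        refine hn2 ?_
        rw [cp2_dbl, nrm_dbl, hΩ1, one_mul]
        exact t4
  · rw [Fintype.sum_sum_type]
    simp only [Sum.elim_inl, Sum.elim_inr]
    rw [← Finset.smul_sum, ← Finset.smul_sum, ← cp1_sum, ← cp2_sum, hsum, cp1_sub, cp2_sub,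
      cp1_smul, cp2_smul, cp1_one, cp2_one, ← smul_add, smul_smul, ← Complex.ofReal_mul,
      mul_inv_cancel₀ hC1.ne', Complex.ofReal_one, one_smul]
    push_cast
    rw [two_mul, add_smul]
    abel

end Vale.Agent.P356.GA
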