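import Vale.Agent.P356.GA.Low125a

/-!
# GA, block LOWB (helper125), part b: Step A (measured vector)

The trial operators are the clipped logarithms of the reduced states of the trial vector.
-/

set_option linter.all false

namespace Vale.Agent.P356.GA

open Matrix Finset Vale.Agent.P356 Vale.Agent.P356.SV Vale.Agent.P356.Path
open scoped BigOperators ComplexOrder Kronecker Matrix.Norms.L2Operator

section exp
variable {N α β : Type*} [Fintype N] [DecidableEq N] [Fintype α] [Fintype β] [DecidableEq α]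
  [DecidableEq β]

theorem trace_cOp (x : α × β → ℂ) (f : α → ℂ) : (cOp x f).trace = ∑ i, f i := by
  rw [cOp, Matrix.mul_assoc, Matrix.trace_mul_comm, Matrix.mul_assoc, eigU_mul' x, Matrix.mul_one,
    Matrix.trace_diagonal]

theorem redA_cOp (x : α × β → ℂ) : redA x = cOp x (fun i => (eigp x i : ℂ)) := redA_spec x

theorem cOp_expect (e : N ≃ α × β) (ψ : N → ℂ) (f : α → ℂ) :
    star ψ ⬝ᵥ (opL e (cOp (ψ ∘ e.symm) f) *ᵥ ψ) = ∑ i, (eigp (ψ ∘ e.symm) i : ℂ) * f i := by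
  rw [expect_opL, redA_cOp, cOp_mul, trace_cOp]

/-- entropy of the first factor, through the eigenvalues of the reduced state -/
noncomputable def ent (e : N ≃ α × β) (ψ : N → ℂ) : ℝ :=
  ∑ i, Real.negMulLog (eigp (ψ ∘ e.symm) i)

/-- the trial operator: clipped logarithm of the reduced state, complex exponent -/
noncomputable def trialY (e : N ≃ α × β) (ψ : N → ℂ) (M θ : ℝ) (z : ℂ) : Matrix N N ℂ :=
  opL e (eigU (ψ ∘ e.symm) * diagonal (fun i => Complex.exp (z *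
    ((θ * lgm M (eigp (ψ ∘ e.symm) i) : ℝ) : ℂ))) * (eigU (ψ ∘ e.symm))ᴴ)

/-- the generator of the trial operator -/
noncomputable def trialG (e : N ≃ α × β) (ψ : N → ℂ) (M θ : ℝ) : Matrix N N ℂ :=
  opL e (eigU (ψ ∘ e.symm) * diagonal (fun i =>
    ((θ * lgm M (eigp (ψ ∘ e.symm) i) : ℝ) : ℂ)) * (eigU (ψ ∘ e.symm))ᴴ)

theorem eigp_le_one' (x : α × β → ℂ) (h : ∑ z, ‖x z‖ ^ 2 = 1) (i : α) : eigp x i ≤ 1 := by
  rw [← eigp_sum x h]
  exact Finset.single_le_sum (fun j _ => eigp_nonneg x j) (Finset.mem_univ i)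

theorem sum_comp_one (e : N ≃ α × β) {ψ : N → ℂ} (hψ : nsq ψ = 1) :
    ∑ z, ‖(ψ ∘ e.symm) z‖ ^ 2 = 1 := by
  have := nsq_comp e ψ
  rw [hψ] at this
  exact this

theorem trial_flow (e : N ≃ α × β) {ψ : N → ℂ} (hψ : nsq ψ = 1) {M θ : ℝ} (hM : 0 ≤ M)
    (hθ : 0 ≤ θ) : Flow (trialY e ψ M θ) (trialG e ψ M θ) 0 :=
  Flow.diag e (eigU_mul _) _ fun i => mul_nonpos_of_nonneg_of_nonpos hθ
    (lgm_nonpos hM (eigp_le_one' _ (sum_comp_one e hψ) i))

theorem trialG_expect (e : N ≃ α × β) (ψ : N → ℂ) (M θ : ℝ) :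
    star ψ ⬝ᵥ (trialG e ψ M θ *ᵥ ψ) =
      ((-(θ * ∑ i, -(eigp (ψ ∘ e.symm) i * lgm M (eigp (ψ ∘ e.symm) i))) : ℝ) : ℂ) := by
  have h := cOp_expect e ψ (fun i => ((θ * lgm M (eigp (ψ ∘ e.symm) i) : ℝ) : ℂ))
  rw [cOp] at h
  rw [trialG, h]
  push_cast
  rw [Finset.mul_sum, ← Finset.sum_neg_distrib]
  refine Finset.sum_congr rfl fun i _ => ?_
  ring

theorem trial_ent_le (e : N ≃ α × β) (ψ : N → ℂ) (M : ℝ) :
    ∑ i, -(eigp (ψ ∘ e.symm) i * lgm M (eigp (ψ ∘ e.symm) i)) ≤ ent e ψ :=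
  Finset.sum_le_sum fun i _ => mul_lgm_ge (eigp_nonneg _ i)

/-- the penalty of the trial operators -/
theorem trial_pen (e : N ≃ α × β) {ψ : N → ℂ} (hψ : nsq ψ = 1) (M : ℝ) :
    ∑ i, Real.exp (lgm M (eigp (ψ ∘ e.symm) i)) ≤ 1 + Fintype.card α * Real.exp (-M) := by
  calc ∑ i, Real.exp (lgm M (eigp (ψ ∘ e.symm) i)) ≤
      ∑ i, (eigp (ψ ∘ e.symm) i + Real.exp (-M)) :=
        Finset.sum_le_sum fun i _ => exp_lgm_le (eigp_nonneg _ i)
    _ = _ := by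
        rw [Finset.sum_add_distrib, eigp_sum _ (sum_comp_one e hψ), Finset.sum_const,
          Finset.card_univ, nsmul_eq_mul]

end exp

section stepA
variable {N : Type*} [Fintype N] [DecidableEq N] {α β : ℕ → Type*} [∀ k, Fintype (α k)]
  [∀ k, DecidableEq (α k)] [∀ k, Fintype (β k)] [∀ k, DecidableEq (β k)]

theorem dot_sum_mulVec {ι : Type*} (s : Finset ι) (G : ι → Matrix N N ℂ) (ψ : N → ℂ) :
    star ψ ⬝ᵥ ((∑ k ∈ s, G k) *ᵥ ψ) = ∑ k ∈ s, star ψ ⬝ᵥ (G k *ᵥ ψ) := by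
  classical
  induction s using Finset.induction_on with
  | empty => simp
  | insert a s ha ih =>
    rw [Finset.sum_insert ha, Finset.sum_insert ha, add_mulVec, dotProduct_add, ih]

/-- the product of the trial operators and of the healing factor is a flow -/
theorem trial_prod_flow (e : ∀ k, N ≃ α k × β k) {ψ : N → ℂ} (hψ : nsq ψ = 1) {M : ℝ}
    (hM : 0 ≤ M) (θ : ℕ → ℝ) (hθ : ∀ k, 0 ≤ θ k) (n : ℕ) {Γ : Matrix N N ℂ}
    (hΓ : Γ.IsHermitian) {B : ℝ} (hB : ‖Γ‖ ≤ B) :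
    Flow (fun z => prR (fun k => trialY (e k) ψ M (θ k) z) n * NormedSpace.exp (z • Γ))
      ((∑ k ∈ range n, trialG (e k) ψ M (θ k)) + Γ) B := by
  have h1 := (Flow.prR n fun k (_ : k < n) => trial_flow (e k) hψ hM (hθ k)).mul (Flow.expm hΓ hB)
  rw [Finset.sum_const_zero, zero_add] at h1
  exact h1

theorem trial_prod_expect (e : ∀ k, N ≃ α k × β k) (ψ : N → ℂ) (M : ℝ) (θ : ℕ → ℝ) (n : ℕ)
    {Γ : Matrix N N ℂ} (hΓ : Γ.IsHermitian) :
    star ψ ⬝ᵥ (((∑ k ∈ range n, trialG (e k) ψ M (θ k)) + Γ) *ᵥ ψ) =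
      ((-((∑ k ∈ range n, θ k * ∑ i, -(eigp (ψ ∘ (e k).symm) i *
        lgm M (eigp (ψ ∘ (e k).symm) i))) - (star ψ ⬝ᵥ (Γ *ᵥ ψ)).re) : ℝ) : ℂ) := by
  set r : ℝ := (star ψ ⬝ᵥ (Γ *ᵥ ψ)).re with hr
  have hre : star ψ ⬝ᵥ (Γ *ᵥ ψ) = (r : ℂ) := by
    apply Complex.ext
    · rw [Complex.ofReal_re]
    · rw [Complex.ofReal_im]
      have h := ip_mulVec Γ ψ ψ
      rw [hΓ.eq] at h
      have h2 : star (star ψ ⬝ᵥ (Γ *ᵥ ψ)) = star (Γ *ᵥ ψ) ⬝ᵥ ψ := by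
        rw [← Matrix.star_dotProduct_star, star_star, dotProduct_comm]
      rw [h] at h2
      have h3 := congrArg Complex.im h2
      rw [RCLike.star_def, Complex.conj_im] at h3
      linarith
  rw [add_mulVec, dotProduct_add, dot_sum_mulVec, hre]
  simp only [trialG_expect]
  push_cast
  rw [Finset.sum_neg_distrib]
  ring

/-- **Step A**: lower bound for the tilt functional, with the clipped logarithms of the reduced
states of the measured vector `φ` (`A Ω = √p φ`, `A` a contraction commuting with everything). -/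
theorem low_stepA (e : ∀ k, N ≃ α k × β k) (n : ℕ) (θ : ℕ → ℝ) (hθ : ∀ k, 0 ≤ θ k) {M : ℝ}
    (hM : 0 ≤ M) {Γ : Matrix N N ℂ} (hΓ : Γ.IsHermitian) {B : ℝ} (hB : ‖Γ‖ ≤ B)
    {A : Matrix N N ℂ} (hA : ‖A‖ ≤ 1)
    (hAe : ∀ k < n, ∀ Y, A * opL (e k) Y = opL (e k) Y * A) (hAΓ : A * Γ = Γ * A)
    {Ω φ : N → ℂ} {p : ℝ} (hp : 0 < p) (hφ : nsq φ = 1)
    (hAΩ : A *ᵥ Ω = ((Real.sqrt p : ℝ) : ℂ) • φ)
    {ε T : ℝ} (hε : 0 < ε) (hε1 : ε ≤ 1) (hT : 1 + 2 / ε ≤ Real.cosh T) (hT0 : 0 ≤ T) :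
    ∃ τ : ℝ, |τ| ≤ T ∧
      Real.log p - 2 * ((1 + ε) * ((∑ k ∈ range n, θ k * ent (e k) φ) -
        (star φ ⬝ᵥ (Γ *ᵥ φ)).re) + ε * B) ≤
      Real.log (nsq ((prR (fun k => trialY (e k) φ M (θ k) (1 + τ * Complex.I)) n *
        NormedSpace.exp ((1 + τ * Complex.I : ℂ) • Γ)) *ᵥ Ω)) := by
  have hf := trial_prod_flow e hφ hM θ hθ n hΓ hB
  have hc : ∀ z : ℂ, A * (prR (fun k => trialY (e k) φ M (θ k) z) n *
      NormedSpace.exp (z • Γ)) = (prR (fun k => trialY (e k) φ M (θ k) z) n *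
      NormedSpace.exp (z • Γ)) * A := by
    intro z
    have h1 : ∀ m ≤ n, A * prR (fun k => trialY (e k) φ M (θ k) z) m =
        prR (fun k => trialY (e k) φ M (θ k) z) m * A := by
      intro m
      induction m with
      | zero => intro _; rw [prR, Matrix.mul_one, Matrix.one_mul]
      | succ m ih =>
        intro hm
        rw [prR, ← Matrix.mul_assoc, ih (by omega), Matrix.mul_assoc, trialY, hAe m (by omega),
          ← Matrix.mul_assoc]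
    have h2 : Commute A (NormedSpace.exp (z • Γ)) := by
      have h3 : Commute A Γ := hAΓ
      exact (h3.smul_right z).exp_right
    rw [← Matrix.mul_assoc, h1 n le_rfl, Matrix.mul_assoc, h2.eq, ← Matrix.mul_assoc]
  obtain ⟨τ, hτ, h⟩ := hf.low_meas hA hc hp hφ hAΩ (trial_prod_expect e φ M θ n hΓ) hε hε1 hT hT0
  refine ⟨τ, hτ, le_trans ?_ h⟩
  have h1 : ∑ k ∈ range n, θ k * ∑ i, -(eigp (φ ∘ (e k).symm) i *
      lgm M (eigp (φ ∘ (e k).symm) i)) ≤ ∑ k ∈ range n, θ k * ent (e k) φ :=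
    Finset.sum_le_sum fun k _ => mul_le_mul_of_nonneg_left (trial_ent_le (e k) φ M) (hθ k)
  set S1 := ∑ k ∈ range n, θ k * ∑ i, -(eigp (φ ∘ (e k).symm) i *
      lgm M (eigp (φ ∘ (e k).symm) i))
  set S2 := ∑ k ∈ range n, θ k * ent (e k) φ
  set g := (star φ ⬝ᵥ (Γ *ᵥ φ)).re
  nlinarith

end stepA

end Vale.Agent.P356.GA
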