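import Vale.Agent.P356.GA.Low125b
import Vale.Agent.P356.SA.Dbl

/-!
# GA, block LOWB (helper125), part c: Step B (doubling), exact lower bound

Two copies of the lattice; `X` a region. The crosswise splitting `mixE X` of the configurations of
the doubled lattice: first factor = (`X` in copy 1) ∪ (`Xᶜ` in copy 2), second factor =
(`X` in copy 2) ∪ (`Xᶜ` in copy 1).
-/

set_option linter.all false

namespace Vale.Agent.P356.GA

open Matrix Finset Vale.Agent.P356 Vale.Agent.P356.SV Vale.Agent.P356.Path Vale.Agent.P356.SA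
open scoped BigOperators ComplexOrder Kronecker Matrix.Norms.L2Operator

section supp
variable {N α β : Type*} [Fintype N] [DecidableEq N] [Fintype α] [Fintype β] [DecidableEq α]
  [DecidableEq β]

theorem nsq_opL_cOp (e : N ≃ α × β) (ψ : N → ℂ) (f : α → ℂ) :
    nsq (opL e (cOp (ψ ∘ e.symm) f) *ᵥ ψ) = ∑ i, eigp (ψ ∘ e.symm) i * ‖f i‖ ^ 2 := by
  have h : ((nsq (opL e (cOp (ψ ∘ e.symm) f) *ᵥ ψ) : ℝ) : ℂ) =
      ((∑ i, eigp (ψ ∘ e.symm) i * ‖f i‖ ^ 2 : ℝ) : ℂ) := by
    rw [← ip_self, ip_mulVec, opL_conjTranspose, cOp_conjTranspose, mulVec_mulVec, ← opL_mul,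
      cOp_mul, cOp_expect]
    push_cast
    refine Finset.sum_congr rfl fun i _ => ?_
    rw [RCLike.star_def, Complex.conj_mul']
  exact_mod_cast h

theorem opL_cOp_congr (e : N ≃ α × β) (ψ : N → ℂ) {f g : α → ℂ}
    (h : ∀ i, eigp (ψ ∘ e.symm) i ≠ 0 → f i = g i) :
    opL e (cOp (ψ ∘ e.symm) f) *ᵥ ψ = opL e (cOp (ψ ∘ e.symm) g) *ᵥ ψ := by
  have h1 : nsq (opL e (cOp (ψ ∘ e.symm) (fun i => f i - g i)) *ᵥ ψ) = 0 := by
    rw [nsq_opL_cOp]
    refine Finset.sum_eq_zero fun i _ => ?_
    by_cases hi : eigp (ψ ∘ e.symm) i = 0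
    · rw [hi, zero_mul]
    · rw [h i hi, sub_self, norm_zero]
      ring
  have h2 : opL e (cOp (ψ ∘ e.symm) (fun i => f i - g i)) *ᵥ ψ = 0 := by
    funext s
    rw [nsq, Finset.sum_eq_zero_iff_of_nonneg (fun i _ => by positivity)] at h1
    have := h1 s (Finset.mem_univ s)
    rw [Pi.zero_apply]
    simpa using this
  have h3 : cOp (ψ ∘ e.symm) (fun i => f i - g i) =
      cOp (ψ ∘ e.symm) f - cOp (ψ ∘ e.symm) g := by
    rw [cOp, cOp, cOp, ← Matrix.sub_mul, ← Matrix.mul_sub, diagonal_sub]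
  rw [h3, opL_sub, sub_mulVec, sub_eq_zero] at h2
  exact h2

end supp

section mix
variable {V : Type} [Fintype V] [DecidableEq V] {q : ℕ}

/-- the crosswise splitting of the doubled lattice -/
def mixE (X : Finset V) (q : ℕ) : Conf (V ⊕ V) q ≃ Conf V q × Conf V q where
  toFun s := (fun x => if x ∈ X then s (Sum.inl x) else s (Sum.inr x),
    fun x => if x ∈ X then s (Sum.inr x) else s (Sum.inl x))
  invFun z := Sum.elim (fun x => if x ∈ X then z.1 x else z.2 x)
    (fun x => if x ∈ X then z.2 x else z.1 x)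
  left_inv s := by
    funext y
    rcases y with x | x <;> by_cases h : x ∈ X <;> simp [h]
  right_inv z := by
    refine Prod.ext ?_ ?_ <;> funext x <;> by_cases h : x ∈ X <;> simp [h]

/-- product vector in the crosswise splitting -/
def cvec (X : Finset V) (u φ : Conf V q → ℂ) : Conf (V ⊕ V) q → ℂ :=
  fun s => u (mixE X q s).1 * φ (mixE X q s).2

theorem cvec_symm (X : Finset V) (u φ : Conf V q → ℂ) (p r : Conf V q) :
    cvec X u φ ((mixE X q).symm (p, r)) = u p * φ r := by
  rw [cvec, Equiv.apply_symm_apply]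

/-- crosswise product operator -/
noncomputable def crs (X : Finset V) (A B : Op V q) : Op (V ⊕ V) q :=
  Matrix.reindex (mixE X q).symm (mixE X q).symm (A ⊗ₖ B)

theorem crs_apply (X : Finset V) (A B : Op V q) (s t : Conf (V ⊕ V) q) :
    crs X A B s t = A (mixE X q s).1 (mixE X q t).1 * B (mixE X q s).2 (mixE X q t).2 := rfl

theorem crs_one (X : Finset V) (A : Op V q) : crs X A 1 = opL (mixE X q) A := rfl

theorem crs_mulVec (X : Finset V) (A B : Op V q) (u φ : Conf V q → ℂ) :
    crs X A B *ᵥ cvec X u φ = cvec X (A *ᵥ u) (B *ᵥ φ) := by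
  funext s
  rw [mulVec, dotProduct, sum_equiv_prod (mixE X q)]
  simp only [crs_apply, cvec_symm, Equiv.apply_symm_apply]
  rw [cvec, mulVec, mulVec, dotProduct, dotProduct, Finset.sum_mul_sum]
  refine Finset.sum_congr rfl fun a _ => Finset.sum_congr rfl fun b _ => ?_
  ring

theorem crs_conjTranspose (X : Finset V) (A B : Op V q) : (crs X A B)ᴴ = crs X Aᴴ Bᴴ := by
  rw [crs, crs, Matrix.conjTranspose_reindex, conjTranspose_kronecker]

/-- the index in copy 1 inside `X`, in copy 2 outside -/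
def ixA (X : Finset V) (x : V) : V ⊕ V := if x ∈ X then Sum.inl x else Sum.inr x

/-- the index in copy 2 inside `X`, in copy 1 outside -/
def ixB (X : Finset V) (x : V) : V ⊕ V := if x ∈ X then Sum.inr x else Sum.inl x

theorem mixE_fst (X : Finset V) (s : Conf (V ⊕ V) q) (x : V) :
    (mixE X q s).1 x = s (ixA X x) := by
  by_cases h : x ∈ X <;> simp [mixE, ixA, h]

theorem mixE_snd (X : Finset V) (s : Conf (V ⊕ V) q) (x : V) :
    (mixE X q s).2 x = s (ixB X x) := by
  by_cases h : x ∈ X <;> simp [mixE, ixB, h]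

/-- the region of the first crosswise factor inside `E` -/
def Wr (X : Finset V) (E : Finset (V ⊕ V)) : Finset V := univ.filter fun x => ixA X x ∈ E

theorem mem_Wr {X : Finset V} {E : Finset (V ⊕ V)} {x : V} : x ∈ Wr X E ↔ ixA X x ∈ E := by
  rw [Wr, Finset.mem_filter]
  exact ⟨fun h => h.2, fun h => ⟨Finset.mem_univ _, h⟩⟩

theorem ix_cases (X : Finset V) (y : V ⊕ V) : (∃ x, y = ixA X x) ∨ ∃ x, y = ixB X x := by
  rcases y with x | x <;> by_cases h : x ∈ X
  · exact Or.inl ⟨x, by rw [ixA, if_pos h]⟩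
  · exact Or.inr ⟨x, by rw [ixB, if_neg h]⟩
  · exact Or.inr ⟨x, by rw [ixB, if_pos h]⟩
  · exact Or.inl ⟨x, by rw [ixA, if_neg h]⟩

/-- `E` contains the whole second crosswise factor -/
def Ful (X : Finset V) (E : Finset (V ⊕ V)) : Prop := ∀ x, ixB X x ∈ E

/-- The configurations of the outer region `E` of the doubled cut: the region `Wr X E` in the
first crosswise factor, times everything in the second. -/
noncomputable def outE {X : Finset V} {E : Finset (V ⊕ V)} (hE : Ful X E) (q : ℕ) :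
    ({y // y ∈ E} → Fin q) ≃ ({x // x ∈ Wr X E} → Fin q) × Conf V q :=
  Equiv.ofBijective
    (fun a => (fun x => a ⟨ixA X x.1, mem_Wr.1 x.2⟩, fun x => a ⟨ixB X x, hE x⟩))
    ⟨by
      intro a b hab
      funext y
      obtain ⟨y, hy⟩ := y
      rcases ix_cases X y with ⟨x, rfl⟩ | ⟨x, rfl⟩
      · exact congrFun (congrArg Prod.fst hab) ⟨x, mem_Wr.2 hy⟩
      · exact congrFun (congrArg Prod.snd hab) x, by
      intro z
      set s : Conf (V ⊕ V) q := (mixE X q).symm
        (fun x => if h : x ∈ Wr X E then z.1 ⟨x, h⟩ else z.2 x, z.2) with hs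
      refine ⟨fun y => s y.1, ?_⟩
      have h1 := mixE_fst X s
      have h2 := mixE_snd X s
      rw [hs, Equiv.apply_symm_apply] at h1 h2
      refine Prod.ext ?_ ?_
      · funext x
        show s (ixA X x.1) = _
        rw [hs, ← h1 x.1]
        exact dif_pos x.2
      · funext x
        show s (ixB X x) = _
        rw [hs, ← h2 x]⟩

variable {X : Finset V} {E : Finset (V ⊕ V)}

theorem outE_fst (hE : Ful X E) (s : Conf (V ⊕ V) q) :
    (outE hE q (cut E q s).1).1 = (cut (Wr X E) q (mixE X q s).1).1 := by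
  funext x
  show s (ixA X x.1) = (mixE X q s).1 x.1
  rw [mixE_fst]

theorem outE_snd (hE : Ful X E) (s : Conf (V ⊕ V) q) :
    (outE hE q (cut E q s).1).2 = (mixE X q s).2 := by
  funext x
  show s (ixB X x) = (mixE X q s).2 x
  rw [mixE_snd]

theorem in_iff (hE : Ful X E) (s t : Conf (V ⊕ V) q) :
    (cut E q s).2 = (cut E q t).2 ↔
      (cut (Wr X E) q (mixE X q s).1).2 = (cut (Wr X E) q (mixE X q t).1).2 := by
  constructor
  · intro h
    funext x
    show (mixE X q s).1 x.1 = (mixE X q t).1 x.1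
    rw [mixE_fst, mixE_fst]
    exact congrFun h ⟨_, fun hy => x.2 (mem_Wr.2 hy)⟩
  · intro h
    funext y
    obtain ⟨y, hy⟩ := y
    show s y = t y
    rcases ix_cases X y with ⟨x, rfl⟩ | ⟨x, rfl⟩
    · have := congrFun h ⟨x, fun hx => hy (mem_Wr.1 hx)⟩
      rw [← mixE_fst X s x, ← mixE_fst X t x]
      exact this
    · exact absurd (hE x) hy

/-- An operator of product form on the outer region is a crosswise product operator. -/
theorem opL_outE (hE : Ful X E) (A : Op {x // x ∈ Wr X E} q) (B : Op V q) :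
    opL (cut E q) (Matrix.reindex (outE hE q).symm (outE hE q).symm (A ⊗ₖ B)) =
      crs X (opL (cut (Wr X E) q) A) B := by
  ext s t
  rw [opL_apply, crs_apply, opL_apply, Matrix.reindex_apply, Matrix.submatrix_apply,
    Equiv.symm_symm, kroneckerMap_apply, outE_fst, outE_fst, outE_snd, outE_snd]
  by_cases h : (cut E q s).2 = (cut E q t).2
  · rw [if_pos h, if_pos ((in_iff hE s t).1 h)]
    ring
  · rw [if_neg h, if_neg (fun h' => h ((in_iff hE s t).2 h'))]
    ring

end mix

section col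
variable {ι : Type*} [Fintype ι] [DecidableEq ι]

/-- a unit vector is a column of a unitary matrix -/
theorem exists_col {φ : ι → ℂ} (hφ : nsq φ = 1) :
    ∃ (B : Matrix ι ι ℂ) (c0 : ι), B * Bᴴ = 1 ∧ ∀ s, B s c0 = φ s := by
  classical
  have hne : Nonempty ι := by
    by_contra h
    rw [not_nonempty_iff] at h
    rw [nsq, Finset.univ_eq_empty, Finset.sum_empty] at hφ
    exact zero_ne_one hφ
  obtain ⟨c0⟩ := hne
  set v : ι → EuclideanSpace ℂ ι := fun _ => WithLp.toLp 2 φ with hv
  have hn : ‖(WithLp.toLp 2 φ : EuclideanSpace ℂ ι)‖ = 1 := by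
    rw [EuclideanSpace.norm_eq]
    show Real.sqrt (nsq φ) = 1
    rw [hφ, Real.sqrt_one]
  have ho : Orthonormal ℂ (({c0} : Set ι).restrict v) := by
    constructor
    · intro i
      exact hn
    · intro i j hij
      exact absurd (Subsingleton.elim i j) hij
  obtain ⟨b, hb⟩ := ho.exists_orthonormalBasis_extension_of_card_eq
    (by rw [finrank_euclideanSpace])
  refine ⟨Matrix.of fun s c => b c s, c0, ?_, fun s => ?_⟩
  · refine mul_eq_one_comm.mp ?_
    ext c c'
    rw [Matrix.mul_apply]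
    have h1 := orthonormal_iff_ite.1 b.orthonormal c c'
    rw [Matrix.one_apply, ← h1, PiLp.inner_apply]
    refine Finset.sum_congr rfl fun s _ => ?_
    rw [conjTranspose_apply]
    exact mul_comm _ _
  · show b c0 s = φ s
    rw [hb c0 rfl]

end col

end Vale.Agent.P356.GA
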