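import Vale.Agent.P356.GA.Low125c
import Vale.Agent.P356.GA.EntLow865

/-!
# GA, block LOWB (helper125), part d: Step B (doubling), exact lower bound

For every unit vector `Ω` and every region `X`: the tilt functional of the doubled system with the
start vector `Ω ⊗ Ω` is bounded from below by the entropies of the crosswise regions, the entropy
of `X` and the expectation of the healing generator.
-/

set_option linter.all false

namespace Vale.Agent.P356.GA

open Matrix Finset Vale.Agent.P356 Vale.Agent.P356.SV Vale.Agent.P356.Path Vale.Agent.P356.SA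
open scoped BigOperators ComplexOrder Kronecker Matrix.Norms.L2Operator

section overlap
variable {V : Type} [Fintype V] [DecidableEq V] {q : ℕ}

theorem mixE_symm_inl (X : Finset V) (p r : Conf V q) :
    (mixE X q).symm (p, r) ∘ Sum.inl = (cut X q).symm ((cut X q p).1, (cut X q r).2) := by
  rw [Equiv.eq_symm_apply]
  refine Prod.ext ?_ ?_
  · funext x
    show (if x.1 ∈ X then p x.1 else r x.1) = p x.1
    rw [if_pos x.2]
  · funext x
    show (if x.1 ∈ X then p x.1 else r x.1) = r x.1
    rw [if_neg x.2]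

theorem mixE_symm_inr (X : Finset V) (p r : Conf V q) :
    (mixE X q).symm (p, r) ∘ Sum.inr = (cut X q).symm ((cut X q r).1, (cut X q p).2) := by
  rw [Equiv.eq_symm_apply]
  refine Prod.ext ?_ ?_
  · funext x
    show (if x.1 ∈ X then r x.1 else p x.1) = r x.1
    rw [if_pos x.2]
  · funext x
    show (if x.1 ∈ X then r x.1 else p x.1) = p x.1
    rw [if_neg x.2]

/-- the state of `X` rotated by `f`: the second crosswise factor of the trial vector -/
noncomputable def rotv (X : Finset V) (Ω : Conf V q → ℂ)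
    (f : ({x // x ∈ X} → Fin q) → ℂ) : Conf V q → ℂ :=
  opL (cut X q) (cOp (Ω ∘ (cut X q).symm) f) *ᵥ Ω

theorem overlap_inner (X : Finset V) (Ω : Conf V q → ℂ) (f : ({x // x ∈ X} → Fin q) → ℂ)
    (p : Conf V q) :
    ∑ r, star (rotv X Ω f r) * dbl Ω Ω ((mixE X q).symm (p, r)) =
      (opL (cut X q) (redA (Ω ∘ (cut X q).symm) * (cOp (Ω ∘ (cut X q).symm) f)ᴴ) *ᵥ Ω) p := by
  obtain ⟨⟨i0, j0⟩, rfl⟩ := (cut X q).symm.surjective p
  rw [opL_mulVec_apply, sum_equiv_prod (cut X q)]
  refine Finset.sum_congr rfl fun i _ => ?_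
  rw [Matrix.mul_apply, Finset.sum_mul]
  have h1 : ∀ j, rotv X Ω f ((cut X q).symm (i, j)) =
      ∑ k, cOp (Ω ∘ (cut X q).symm) f i k * Ω ((cut X q).symm (k, j)) := by
    intro j
    rw [rotv, opL_mulVec_apply]
  have h2 : ∀ j, dbl Ω Ω ((mixE X q).symm ((cut X q).symm (i0, j0), (cut X q).symm (i, j))) =
      Ω ((cut X q).symm (i0, j)) * Ω ((cut X q).symm (i, j0)) := by
    intro j
    rw [dbl, mixE_symm_inl, mixE_symm_inr, Equiv.apply_symm_apply, Equiv.apply_symm_apply]
  simp only [h1, h2]
  simp only [star_sum, star_mul', Finset.sum_mul]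
  rw [Finset.sum_comm]
  refine Finset.sum_congr rfl fun k _ => ?_
  rw [conjTranspose_apply, redA, Finset.sum_mul, Finset.sum_mul]
  refine Finset.sum_congr rfl fun j _ => ?_
  simp only [Function.comp_apply]
  ring

/-- **overlap identity** -/
theorem overlap (X : Finset V) (Ω a : Conf V q → ℂ) (f : ({x // x ∈ X} → Fin q) → ℂ) :
    star (cvec X a (rotv X Ω f)) ⬝ᵥ dbl Ω Ω =
      star a ⬝ᵥ (opL (cut X q) (cOp (Ω ∘ (cut X q).symm)
        (fun i => (eigp (Ω ∘ (cut X q).symm) i : ℂ) * star (f i))) *ᵥ Ω) := by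
  rw [dotProduct, sum_equiv_prod (mixE X q), dotProduct]
  refine Finset.sum_congr rfl fun p _ => ?_
  rw [← cOp_mul, ← cOp_conjTranspose, ← redA_cOp, ← overlap_inner, Finset.mul_sum]
  refine Finset.sum_congr rfl fun r _ => ?_
  rw [Pi.star_apply, Pi.star_apply, cvec_symm, star_mul']
  ring

theorem nsq_rotv (X : Finset V) {Ω : Conf V q → ℂ} (hΩ : nsq Ω = 1)
    {f : ({x // x ∈ X} → Fin q) → ℂ} (hf : ∀ i, ‖f i‖ = 1) : nsq (rotv X Ω f) = 1 := by
  rw [rotv, nsq_opL_cOp]
  simp only [hf, one_pow, mul_one]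
  exact eigp_sum _ (sum_comp_one (cut X q) hΩ)

theorem nsq_cvec (X : Finset V) (u φ : Conf V q → ℂ) : nsq (cvec X u φ) = nsq u * nsq φ := by
  rw [nsq, sum_equiv_prod (mixE X q), nsq, nsq, Finset.sum_mul_sum]
  refine Finset.sum_congr rfl fun p _ => Finset.sum_congr rfl fun r _ => ?_
  rw [cvec_symm, norm_mul, mul_pow]

end overlap

section param
variable {V : Type} [Fintype V] [DecidableEq V] {q : ℕ} {X : Finset V} {E : Finset (V ⊕ V)}

theorem crs_add_left (X : Finset V) (A A' B : Op V q) :
    crs X (A + A') B = crs X A B + crs X A' B := by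
  ext s t
  rw [Matrix.add_apply, crs_apply, crs_apply, crs_apply, Matrix.add_apply, add_mul]

/-- unitary of the trial operator on the outer region -/
noncomputable def tU (hE : Ful X E) (A : Op {x // x ∈ Wr X E} q) (B : Op V q) :
    Op {y // y ∈ E} q :=
  Matrix.reindex (outE hE q).symm (outE hE q).symm (A ⊗ₖ B)

theorem tU_mul (hE : Ful X E) (A A' : Op {x // x ∈ Wr X E} q) (B B' : Op V q) :
    tU hE A B * tU hE A' B' = tU hE (A * A') (B * B') := by
  rw [tU, tU, tU, mul_kronecker_mul, reindex_mul']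

theorem tU_conjTranspose (hE : Ful X E) (A : Op {x // x ∈ Wr X E} q) (B : Op V q) :
    (tU hE A B)ᴴ = tU hE Aᴴ Bᴴ := by
  rw [tU, tU, Matrix.conjTranspose_reindex, conjTranspose_kronecker]

theorem tU_one (hE : Ful X E) : tU hE (1 : Op {x // x ∈ Wr X E} q) (1 : Op V q) = 1 := by
  rw [tU, one_kronecker_one, Matrix.reindex_apply, submatrix_one_equiv]

theorem tU_add (hE : Ful X E) (A : Op {x // x ∈ Wr X E} q) (B B' : Op V q) :
    tU hE A (B + B') = tU hE A B + tU hE A B' := by
  rw [tU, tU, tU, kronecker_add]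
  rfl

theorem tU_diag (hE : Ful X E) (F : ({x // x ∈ Wr X E} → Fin q) → ℂ) (c : ℂ) (c0 : Conf V q) :
    (diagonal (fun a => if (outE hE q a).2 = c0 then F (outE hE q a).1 else c) :
      Op {y // y ∈ E} q) =
      tU hE (diagonal F) (diagonal (fun r => if r = c0 then 1 else 0)) +
      tU hE (c • 1) (diagonal (fun r => if r = c0 then 0 else 1)) := by
  ext a b
  rw [tU, tU, Matrix.add_apply, Matrix.reindex_apply, Matrix.reindex_apply,
    Matrix.submatrix_apply, Matrix.submatrix_apply, Equiv.symm_symm, kroneckerMap_apply,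
    kroneckerMap_apply, Matrix.smul_apply]
  by_cases h : a = b
  · rw [h, diagonal_apply_eq, diagonal_apply_eq, diagonal_apply_eq, diagonal_apply_eq,
      Matrix.one_apply_eq]
    by_cases h2 : (outE hE q b).2 = c0
    · rw [if_pos h2, if_pos h2, if_pos h2]
      simp
    · rw [if_neg h2, if_neg h2, if_neg h2]
      simp
  · rw [diagonal_apply_ne _ h]
    by_cases h2 : (outE hE q a).2 = (outE hE q b).2
    · have h1 : (outE hE q a).1 ≠ (outE hE q b).1 := fun h1 =>
        h ((outE hE q).injective (Prod.ext h1 h2))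
      rw [diagonal_apply_ne _ h1, Matrix.one_apply_ne h1]
      simp
    · rw [diagonal_apply_ne _ h2, diagonal_apply_ne _ h2, mul_zero, mul_zero, add_zero]

/-- The trial operator of the doubled system, applied (adjoint) to a crosswise product vector. -/
theorem trial_adj (hE : Ful X E) {A : Op {x // x ∈ Wr X E} q} {B : Op V q} (hB : B * Bᴴ = 1)
    {c0 : Conf V q} {φ : Conf V q → ℂ} (hφ : ∀ s, B s c0 = φ s)
    (F : ({x // x ∈ Wr X E} → Fin q) → ℂ) (c : ℂ) (u : Conf V q → ℂ) :
    (opL (cut E q) (tU hE A B * diagonal (fun a => if (outE hE q a).2 = c0 then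
      F (outE hE q a).1 else c) * (tU hE A B)ᴴ))ᴴ *ᵥ cvec X u φ =
      cvec X ((opL (cut (Wr X E) q) (A * diagonal F * Aᴴ))ᴴ *ᵥ u) φ := by
  have hB' : Bᴴ * B = 1 := mul_eq_one_comm.mp hB
  have h0 : B *ᵥ (Pi.single c0 1) = φ := by
    funext s
    rw [mulVec_single_one]
    exact hφ s
  have h1 : Bᴴ *ᵥ φ = Pi.single c0 1 := by
    rw [← h0, mulVec_mulVec, hB', one_mulVec]
  have h2 : (B * diagonal (fun r => if r = c0 then (1 : ℂ) else 0) * Bᴴ)ᴴ *ᵥ φ = φ := by
    rw [conjTranspose_mul, conjTranspose_mul, conjTranspose_conjTranspose,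
      diagonal_conjTranspose, ← mulVec_mulVec, ← mulVec_mulVec, h1]
    have : diagonal (star fun r => if r = c0 then (1 : ℂ) else 0) *ᵥ Pi.single c0 1 =
        Pi.single c0 1 := by
      funext r
      rw [mulVec_diagonal, Pi.star_apply]
      by_cases h : r = c0
      · rw [if_pos h, h]; simp
      · rw [if_neg h, Pi.single_eq_of_ne h, mul_zero]
    rw [this, h0]
  have h3 : (B * diagonal (fun r => if r = c0 then (0 : ℂ) else 1) * Bᴴ)ᴴ *ᵥ φ = 0 := by
    rw [conjTranspose_mul, conjTranspose_mul, conjTranspose_conjTranspose,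
      diagonal_conjTranspose, ← mulVec_mulVec, ← mulVec_mulVec, h1]
    have : diagonal (star fun r => if r = c0 then (0 : ℂ) else 1) *ᵥ Pi.single c0 1 =
        (0 : Conf V q → ℂ) := by
      funext r
      rw [mulVec_diagonal, Pi.star_apply]
      by_cases h : r = c0
      · rw [if_pos h]; simp
      · rw [if_neg h, Pi.single_eq_of_ne h, mul_zero]; rfl
    rw [this, mulVec_zero]
  rw [tU_diag, Matrix.mul_add, Matrix.add_mul, tU_conjTranspose, tU_mul, tU_mul, tU_mul, tU_mul,
    opL_add]
  rw [tU, opL_outE, tU, opL_outE, conjTranspose_add, add_mulVec, crs_conjTranspose,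
    crs_conjTranspose, crs_mulVec, crs_mulVec, h2, h3]
  funext s
  rw [Pi.add_apply]
  show _ + _ * (0 : ℂ) = _
  rw [mul_zero, add_zero]

/-- existence of the trial parameters of one cut -/
theorem trial_param (E : Finset (V ⊕ V)) {φ Ω : Conf V q → ℂ} (hφ : nsq φ = 1)
    (hΩ : nsq Ω = 1) {M : ℝ} (hM : 0 ≤ M) (θ : ℝ) :
    ∃ (U : Op {y // y ∈ E} q) (g : ({y // y ∈ E} → Fin q) → ℝ), U * Uᴴ = 1 ∧
      (∀ a, -M ≤ g a ∧ g a ≤ 0) ∧
      ∑ a, Real.exp (g a) ≤ 1 + Fintype.card ({y // y ∈ E} → Fin q) * Real.exp (-M) ∧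
      (Ful X E → ∀ (z : ℂ) (u : Conf V q → ℂ),
        (opL (cut E q) (U * diagonal (fun a => Complex.exp (z * ((θ * g a : ℝ) : ℂ))) * Uᴴ))ᴴ *ᵥ
          cvec X u φ = cvec X ((trialY (cut (Wr X E) q) Ω M θ z)ᴴ *ᵥ u) φ) := by
  have hexp := Real.exp_pos (-M)
  by_cases hE : Ful X E
  · obtain ⟨B, c0, hB, hc⟩ := exists_col hφ
    set x := Ω ∘ (cut (Wr X E) q).symm with hx
    have hx1 := sum_comp_one (cut (Wr X E) q) hΩ
    refine ⟨tU hE (eigU x) B, fun a => if (outE hE q a).2 = c0 then
      lgm M (eigp x (outE hE q a).1) else -M, ?_, ?_, ?_, ?_⟩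
    · rw [tU_conjTranspose, tU_mul, eigU_mul, hB, tU_one]
    · intro a
      beta_reduce
      split_ifs with h
      · exact ⟨lgm_ge _ _, lgm_nonpos hM (eigp_le_one' _ hx1 _)⟩
      · exact ⟨le_refl _, by linarith⟩
    · have h1 : ∑ a : {y // y ∈ E} → Fin q, Real.exp (if (outE hE q a).2 = c0 then
          lgm M (eigp x (outE hE q a).1) else -M) =
          ∑ i, ∑ r, Real.exp (if r = c0 then lgm M (eigp x i) else -M) := by
        rw [sum_equiv_prod (outE hE q)]
        simp only [Equiv.apply_symm_apply]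
      have h2 : ∀ i, ∑ r : Conf V q, Real.exp (if r = c0 then lgm M (eigp x i) else -M) ≤
          eigp x i + Fintype.card (Conf V q) * Real.exp (-M) := by
        intro i
        have h3 : ∀ r : Conf V q, Real.exp (if r = c0 then lgm M (eigp x i) else -M) ≤
            (if r = c0 then eigp x i else 0) + Real.exp (-M) := by
          intro r
          split_ifs with h
          · exact exp_lgm_le (eigp_nonneg _ i)
          · rw [zero_add]
        refine (Finset.sum_le_sum fun r _ => h3 r).trans ?_
        rw [Finset.sum_add_distrib, Finset.sum_ite_eq' Finset.univ c0, if_pos (Finset.mem_univ _),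
          Finset.sum_const, Finset.card_univ, nsmul_eq_mul]
      rw [h1]
      refine (Finset.sum_le_sum fun i _ => h2 i).trans ?_
      rw [Finset.sum_add_distrib, eigp_sum _ hx1, Finset.sum_const, Finset.card_univ,
        nsmul_eq_mul, Fintype.card_congr (outE hE q), Fintype.card_prod, Nat.cast_mul, mul_assoc]
    · intro _ z u
      have h1 := trial_adj hE hB hc (fun i => Complex.exp (z * ((θ * lgm M (eigp x i) : ℝ) : ℂ)))
        (Complex.exp (z * ((θ * (-M) : ℝ) : ℂ))) u (A := eigU x)
      rw [trialY, ← hx, ← h1]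
      congr 6
      congr 1
      funext a
      beta_reduce
      split_ifs <;> rfl
  · refine ⟨1, fun _ => -M, by rw [conjTranspose_one, Matrix.mul_one],
      fun _ => ⟨le_refl _, by linarith⟩, ?_, fun h => absurd h hE⟩
    rw [Finset.sum_const, Finset.card_univ, nsmul_eq_mul]
    linarith

theorem prR_adj {X : Finset V} {φ : Conf V q → ℂ} {Y : ℕ → Op (V ⊕ V) q} {Y' : ℕ → Op V q}
    (n : ℕ) (h : ∀ k < n, ∀ u, (Y k)ᴴ *ᵥ cvec X u φ = cvec X ((Y' k)ᴴ *ᵥ u) φ)
    (u : Conf V q → ℂ) :
    (prR Y n)ᴴ *ᵥ cvec X u φ = cvec X ((prR Y' n)ᴴ *ᵥ u) φ := by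
  induction n with
  | zero => rw [prR, prR, conjTranspose_one, one_mulVec, conjTranspose_one, one_mulVec]
  | succ n ih =>
    rw [prR, prR, conjTranspose_mul, conjTranspose_mul, ← mulVec_mulVec, ← mulVec_mulVec,
      ih fun k hk => h k (Nat.lt_succ_of_lt hk), h n (Nat.lt_succ_self n)]

end param

section heal
variable {N α β : Type*} [Fintype N] [DecidableEq N] [Fintype α] [Fintype β] [DecidableEq α]
  [DecidableEq β]

/-- `opL` as a homomorphism of algebras -/
noncomputable def opLHom (e : N ≃ α × β) : Matrix α α ℂ →ₐ[ℂ] Matrix N N ℂ where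
  toFun := opL e
  map_one' := opL_one e
  map_mul' := opL_mul e
  map_zero' := opL_zero e
  map_add' := opL_add e
  commutes' := fun c => by
    rw [Algebra.algebraMap_eq_smul_one, Algebra.algebraMap_eq_smul_one, opL_smul, opL_one]

theorem exp_opL (e : N ≃ α × β) (A : Matrix α α ℂ) :
    NormedSpace.exp (opL e A) = opL e (NormedSpace.exp A) := by
  letI : NormedAlgebra ℚ (Matrix α α ℂ) := NormedAlgebra.restrictScalars ℚ ℝ _
  letI : Algebra ℚ (Matrix N N ℂ) := (NormedAlgebra.restrictScalars ℚ ℝ (Matrix N N ℂ)).toAlgebra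
  exact (NormedSpace.map_exp (opLHom e)
    (opLHom e).toLinearMap.continuous_of_finiteDimensional A).symm

end heal

section heal2
variable {V : Type} [Fintype V] [DecidableEq V] {q : ℕ}

theorem cp1_eq_mix {X : Finset V} {A : Op V q} (hA : ActsOn X A) :
    (cp1 A : Op (V ⊕ V) q) = opL (mixE X q) A := by
  obtain ⟨k, hk⟩ := hA
  ext s t
  rw [opL_apply]
  show A (s ∘ Sum.inl) (t ∘ Sum.inl) * _ = _
  by_cases h1 : ∀ x, x ∉ X → s (Sum.inl x) = t (Sum.inl x)
  · by_cases h2 : s ∘ Sum.inr = t ∘ Sum.inr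
    · have h3 : (mixE X q s).2 = (mixE X q t).2 := by
        funext x
        show (if x ∈ X then s (Sum.inr x) else s (Sum.inl x)) =
          (if x ∈ X then t (Sum.inr x) else t (Sum.inl x))
        split_ifs with hx
        · exact congrFun h2 x
        · exact h1 x hx
      have h4 : ∀ x, x ∉ X → (mixE X q s).1 x = (mixE X q t).1 x := by
        intro x hx
        show (if x ∈ X then s (Sum.inl x) else s (Sum.inr x)) =
          (if x ∈ X then t (Sum.inl x) else t (Sum.inr x))
        rw [if_neg hx, if_neg hx]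
        exact congrFun h2 x
      rw [if_pos h2, if_pos h3, (hk (s ∘ Sum.inl) (t ∘ Sum.inl)).1 h1, (hk _ _).1 h4]
      have h5 : ∀ s : Conf (V ⊕ V) q, (fun x : X => (mixE X q s).1 x.1) =
          fun x : X => (s ∘ Sum.inl) x.1 := by
        intro s
        funext x
        show (if x.1 ∈ X then s (Sum.inl x.1) else s (Sum.inr x.1)) = _
        rw [if_pos x.2]
        rfl
      rw [h5, h5]
    · rw [if_neg h2, mul_zero]
      by_cases h3 : (mixE X q s).2 = (mixE X q t).2
      · have h4 : ∃ x, x ∉ X ∧ (mixE X q s).1 x ≠ (mixE X q t).1 x := by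
          by_contra h
          push Not at h
          apply h2
          funext x
          by_cases hx : x ∈ X
          · have := congrFun h3 x
            change (if x ∈ X then s (Sum.inr x) else s (Sum.inl x)) =
              (if x ∈ X then t (Sum.inr x) else t (Sum.inl x)) at this
            rw [if_pos hx, if_pos hx] at this
            exact this
          · have := h x hx
            change (if x ∈ X then s (Sum.inl x) else s (Sum.inr x)) =
              (if x ∈ X then t (Sum.inl x) else t (Sum.inr x)) at this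
            rw [if_neg hx, if_neg hx] at this
            exact this
        rw [(hk _ _).2 h4]
        simp
      · rw [if_neg h3]
        simp
  · have h1' : ∃ x, x ∉ X ∧ (s ∘ Sum.inl) x ≠ (t ∘ Sum.inl) x := by
      push Not at h1
      exact h1
    rw [(hk _ _).2 h1', zero_mul]
    have h3 : ¬ (mixE X q s).2 = (mixE X q t).2 := by
      obtain ⟨x, hx, hne⟩ := h1'
      intro h
      apply hne
      have := congrFun h x
      change (if x ∈ X then s (Sum.inr x) else s (Sum.inl x)) =
        (if x ∈ X then t (Sum.inr x) else t (Sum.inl x)) at this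
      rw [if_neg hx, if_neg hx] at this
      exact this
    rw [if_neg h3]
    simp

theorem cp2_eq_mix {X : Finset V} {A : Op V q} (hA : ActsOn Xᶜ A) :
    (cp2 A : Op (V ⊕ V) q) = opL (mixE X q) A := by
  obtain ⟨k, hk⟩ := hA
  ext s t
  rw [opL_apply]
  show _ * A (s ∘ Sum.inr) (t ∘ Sum.inr) = _
  by_cases h1 : ∀ x, x ∉ Xᶜ → s (Sum.inr x) = t (Sum.inr x)
  · by_cases h2 : s ∘ Sum.inl = t ∘ Sum.inl
    · have h3 : (mixE X q s).2 = (mixE X q t).2 := by
        funext x
        show (if x ∈ X then s (Sum.inr x) else s (Sum.inl x)) =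
          (if x ∈ X then t (Sum.inr x) else t (Sum.inl x))
        split_ifs with hx
        · exact h1 x (by rw [Finset.mem_compl, not_not]; exact hx)
        · exact congrFun h2 x
      have h4 : ∀ x, x ∉ Xᶜ → (mixE X q s).1 x = (mixE X q t).1 x := by
        intro x hx
        rw [Finset.mem_compl, not_not] at hx
        show (if x ∈ X then s (Sum.inl x) else s (Sum.inr x)) =
          (if x ∈ X then t (Sum.inl x) else t (Sum.inr x))
        rw [if_pos hx, if_pos hx]
        exact congrFun h2 x
      rw [if_pos h2, if_pos h3, (hk (s ∘ Sum.inr) (t ∘ Sum.inr)).1 h1, (hk _ _).1 h4]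
      have h5 : ∀ s : Conf (V ⊕ V) q, (fun x : {x // x ∈ Xᶜ} => (mixE X q s).1 x.1) =
          fun x : {x // x ∈ Xᶜ} => (s ∘ Sum.inr) x.1 := by
        intro s
        funext x
        show (if x.1 ∈ X then s (Sum.inl x.1) else s (Sum.inr x.1)) = _
        rw [if_neg (Finset.mem_compl.1 x.2)]
        rfl
      rw [h5, h5, mul_comm]
    · rw [if_neg h2, zero_mul]
      by_cases h3 : (mixE X q s).2 = (mixE X q t).2
      · have h4 : ∃ x, x ∉ Xᶜ ∧ (mixE X q s).1 x ≠ (mixE X q t).1 x := by
          by_contra h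
          push Not at h
          apply h2
          funext x
          by_cases hx : x ∈ X
          · have := h x (by rw [Finset.mem_compl, not_not]; exact hx)
            change (if x ∈ X then s (Sum.inl x) else s (Sum.inr x)) =
              (if x ∈ X then t (Sum.inl x) else t (Sum.inr x)) at this
            rw [if_pos hx, if_pos hx] at this
            exact this
          · have := congrFun h3 x
            change (if x ∈ X then s (Sum.inr x) else s (Sum.inl x)) =
              (if x ∈ X then t (Sum.inr x) else t (Sum.inl x)) at this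
            rw [if_neg hx, if_neg hx] at this
            exact this
        rw [(hk _ _).2 h4]
        simp
      · rw [if_neg h3]
        simp
  · have h1' : ∃ x, x ∉ Xᶜ ∧ (s ∘ Sum.inr) x ≠ (t ∘ Sum.inr) x := by
      push Not at h1
      exact h1
    rw [(hk _ _).2 h1', mul_zero]
    have h3 : ¬ (mixE X q s).2 = (mixE X q t).2 := by
      obtain ⟨x, hx, hne⟩ := h1'
      rw [Finset.mem_compl, not_not] at hx
      intro h
      apply hne
      have := congrFun h x
      change (if x ∈ X then s (Sum.inr x) else s (Sum.inl x)) =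
        (if x ∈ X then t (Sum.inr x) else t (Sum.inl x)) at this
      rw [if_pos hx, if_pos hx] at this
      exact this
    rw [if_neg h3]
    simp

end heal2

end Vale.Agent.P356.GA
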