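import Vale.Agent.P356.GA.Markov795

/-!
# P356, GA: conditional mutual informations at random level sets (step 5, probabilistic part)

Heights `ht d ξ x = d x + ξ x` with independent uniform `ξ x ∈ {0, …, h - 1}`. For a window, the
conditional mutual information across the level set `{ht < k}` is bounded on the average over `ξ` and
over the levels `k` by the conditional entropies `dlt x` of the single sites, hence by the entropies
of the tiles.
-/

namespace Vale.Agent.P356.GA

open Finset Vale.Agent.P356 Vale.Agent.P356.SA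
open scoped BigOperators

section indep

variable {V : Type*} [DecidableEq V] [Fintype V] {h : ℕ}

/-- resampling of one coordinate -/
theorem sum_update (a : V) (F : (V → Fin h) → ℝ) :
    ∑ ξ, ∑ v, F (Function.update ξ a v) = h * ∑ ξ, F ξ := by
  have key : ∀ v : Fin h, ∑ ξ, F (Function.update ξ a v) =
      h * ∑ r : {j // j ≠ a} → Fin h, F ((Equiv.funSplitAt a (Fin h)).symm (v, r)) := by
    intro v
    rw [← Equiv.sum_comp (Equiv.funSplitAt a (Fin h)).symm, Fintype.sum_prod_type]
    have e : ∀ (u : Fin h) (r : {j // j ≠ a} → Fin h),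
        Function.update ((Equiv.funSplitAt a (Fin h)).symm (u, r)) a v =
          (Equiv.funSplitAt a (Fin h)).symm (v, r) := by
      intro u r
      funext j
      by_cases hj : j = a
      · subst hj
        simp [Equiv.funSplitAt, Equiv.piSplitAt]
      · simp [Equiv.funSplitAt, Equiv.piSplitAt, hj]
    simp only [e, Finset.sum_const, Finset.card_univ, Fintype.card_fin, nsmul_eq_mul]
  rw [Finset.sum_comm]
  simp only [key]
  rw [← Finset.mul_sum, ← Equiv.sum_comp (Equiv.funSplitAt a (Fin h)).symm F,
    Fintype.sum_prod_type]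

/-- one coordinate -/
theorem sum_coord (a : V) (W : Finset (Fin h)) {g : (V → Fin h) → ℝ}
    (hg : ∀ ξ v, g (Function.update ξ a v) = g ξ) :
    (∑ ξ, if ξ a ∈ W then g ξ else 0) * h = (W.card : ℝ) * ∑ ξ, g ξ := by
  have h1 := sum_update a (fun ξ => if ξ a ∈ W then g ξ else 0)
  simp only [Function.update_self, hg] at h1
  rw [mul_comm, ← h1, Finset.mul_sum]
  refine Finset.sum_congr rfl fun ξ _ => ?_
  rw [← Finset.sum_filter, Finset.sum_const, nsmul_eq_mul]
  congr 2
  simp

/-- several coordinates -/
theorem sum_indep (A : Finset V) (W : V → Finset (Fin h)) : ∀ {g : (V → Fin h) → ℝ},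
    (∀ a ∈ A, ∀ ξ v, g (Function.update ξ a v) = g ξ) →
    (∑ ξ, if ∀ y ∈ A, ξ y ∈ W y then g ξ else 0) * (h : ℝ) ^ A.card =
      (∏ y ∈ A, ((W y).card : ℝ)) * ∑ ξ, g ξ := by
  induction A using Finset.induction_on with
  | empty => intro g _; simp
  | insert a A ha ih =>
    intro g hg
    have h1 := ih (g := fun ξ => if ξ a ∈ W a then g ξ else 0) (by
      intro b hb ξ v
      have hab : a ≠ b := fun h => ha (h ▸ hb)
      rw [hg b (mem_insert_of_mem hb), Function.update_of_ne hab])
    have h2 := sum_coord a (W a) (g := g) (hg a (mem_insert_self a A))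
    have e : ∀ ξ : V → Fin h, (if ∀ y ∈ insert a A, ξ y ∈ W y then g ξ else 0) =
        if ∀ y ∈ A, ξ y ∈ W y then (if ξ a ∈ W a then g ξ else 0) else 0 := by
      intro ξ
      by_cases c1 : ∀ y ∈ A, ξ y ∈ W y
      · by_cases c2 : ξ a ∈ W a
        · rw [if_pos c1, if_pos c2, if_pos]
          intro y hy
          rcases mem_insert.1 hy with rfl | hy
          · exact c2
          · exact c1 y hy
        · rw [if_pos c1, if_neg c2, if_neg]
          exact fun h' => c2 (h' a (mem_insert_self a A))
      · rw [if_neg c1, if_neg]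
        exact fun h' => c1 fun y hy => h' y (mem_insert_of_mem hy)
    simp only [e]
    rw [card_insert_of_notMem ha, prod_insert ha, pow_succ]
    calc _ = ((∑ ξ, if ∀ y ∈ A, ξ y ∈ W y then (if ξ a ∈ W a then g ξ else 0) else 0) *
          (h : ℝ) ^ A.card) * h := by ring
      _ = (∏ y ∈ A, ((W y).card : ℝ)) * ((∑ ξ, if ξ a ∈ W a then g ξ else 0) * h) := by
          rw [h1]; ring
      _ = _ := by rw [h2]; ring

end indep

end Vale.Agent.P356.GA
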