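import Vale.Agent.P356.SV.Top
import Vale.Agent.P356.SV.Tilt5
import Vale.Agent.P356.SV.Ent
import Vale.Agent.P356.GA.EntLow865

/-!
GA / SGA: averaging over the measurement of a region in the eigenbasis of its reduced state.
-/

set_option linter.all false

namespace Vale.Agent.P356.GA

open Matrix Finset Vale.Agent.P356 Vale.Agent.P356.SV Vale.Agent.P356.Path
open scoped BigOperators ComplexOrder Kronecker

section conc
variable {ι : Type*} [Fintype ι] [DecidableEq ι]

/-- the entropy of a state through its matrix elements in an eigenbasis of another one -/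
theorem ms_klein {ρ σ : Matrix ι ι ℂ} (hρ : ρ.PosSemidef) (htr : ρ.trace = 1)
    (hσ : σ.PosSemidef) (htr' : σ.trace = 1)
    (hz : ∀ j, hσ.isHermitian.eigenvalues j = 0 →
      (((hσ.isHermitian.eigenvectorUnitary : Matrix ι ι ℂ))ᴴ * ρ *
        (hσ.isHermitian.eigenvectorUnitary : Matrix ι ι ℂ)) j j = 0) :
    vnEntropy ρ ≤ ∑ j, (-Real.log (hσ.isHermitian.eigenvalues j)) *
      ((((hσ.isHermitian.eigenvectorUnitary : Matrix ι ι ℂ))ᴴ * ρ *
        (hσ.isHermitian.eigenvectorUnitary : Matrix ι ι ℂ)) j j).re := by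
  have h := hρ.isHermitian
  have h' := hσ.isHermitian
  set R := (h'.eigenvectorUnitary : Matrix ι ι ℂ) with hR
  set W := (h.eigenvectorUnitary : Matrix ι ι ℂ) with hW
  have hRu : R * Rᴴ = 1 := b7_unitary h'
  have hWu : W * Wᴴ = 1 := b7_unitary h
  have hT : (Rᴴ * W) * (Rᴴ * W)ᴴ = 1 := by
    rw [conjTranspose_mul, conjTranspose_conjTranspose]
    calc Rᴴ * W * (Wᴴ * R) = Rᴴ * (W * Wᴴ) * R := by simp only [Matrix.mul_assoc]
      _ = 1 := by rw [hWu, Matrix.mul_one, mul_eq_one_comm.mp hRu]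
  have hent : ∀ j, ((Rᴴ * ρ * R) j j).re =
      ∑ i, h.eigenvalues i * ‖(Rᴴ * W) j i‖ ^ 2 := by
    intro j
    rw [b7_diag_entry h R j, Complex.ofReal_re]
  have hk := b7_klein (Rᴴ * W) hT h.eigenvalues h'.eigenvalues
    (fun i => hρ.eigenvalues_nonneg i) (b7_sum_eig h htr) (fun i => hσ.eigenvalues_nonneg i)
    (b7_sum_eig h' htr').le (by
      intro j hj i
      have h1 := hz j hj
      have h2 : ∑ i, h.eigenvalues i * ‖(Rᴴ * W) j i‖ ^ 2 = 0 := by
        rw [← hent j, h1]; rfl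
      exact (Finset.sum_eq_zero_iff_of_nonneg fun i _ =>
        mul_nonneg (hρ.eigenvalues_nonneg i) (sq_nonneg _)).1 h2 i (Finset.mem_univ i))
  rw [vnEntropy, dif_pos h]
  refine hk.trans (le_of_eq ?_)
  refine Finset.sum_congr rfl fun j _ => ?_
  rw [hent j]

/-- **concavity of the entropy** -/
theorem vn_concave {κ : Type*} [Fintype κ] (w : κ → ℝ) (ρ : κ → Matrix ι ι ℂ) {σ : Matrix ι ι ℂ}
    (hw : ∀ k, 0 ≤ w k) (hρ : ∀ k, 0 < w k → (ρ k).PosSemidef ∧ (ρ k).trace = 1)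
    (hσ : σ.PosSemidef) (htr : σ.trace = 1) (hsum : σ = ∑ k, (w k : ℂ) • ρ k) :
    ∑ k, w k * vnEntropy (ρ k) ≤ vnEntropy σ := by
  have h' := hσ.isHermitian
  set R := (h'.eigenvectorUnitary : Matrix ι ι ℂ) with hR
  have hRu : R * Rᴴ = 1 := b7_unitary h'
  have hnn : ∀ k, 0 < w k → ∀ j, 0 ≤ ((Rᴴ * ρ k * R) j j).re := by
    intro k hk j
    have := (hρ k hk).1.conjTranspose_mul_mul_same R
    exact (Complex.le_def.1 (this.diag_nonneg (i := j))).1
  have himz : ∀ k, 0 < w k → ∀ j, ((Rᴴ * ρ k * R) j j).im = 0 := by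
    intro k hk j
    have := (hρ k hk).1.conjTranspose_mul_mul_same R
    exact (Complex.le_def.1 (this.diag_nonneg (i := j))).2.symm
  have hdiag : ∀ j, (Rᴴ * σ * R) j j = (h'.eigenvalues j : ℂ) := by
    intro j
    have := h'.conjStarAlgAut_star_eigenvectorUnitary
    rw [Unitary.conjStarAlgAut_star_apply] at this
    have h2 : Rᴴ * σ * R = diagonal (fun i => (h'.eigenvalues i : ℂ)) := this
    rw [h2, diagonal_apply_eq]
  have hdec : ∀ j, h'.eigenvalues j = ∑ k, w k * ((Rᴴ * ρ k * R) j j).re := by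
    intro j
    have h1 : (Rᴴ * σ * R) j j = ∑ k, (w k : ℂ) * (Rᴴ * ρ k * R) j j := by
      rw [hsum, Matrix.mul_sum, Matrix.sum_mul, Matrix.sum_apply]
      refine Finset.sum_congr rfl fun k _ => ?_
      rw [Matrix.mul_smul, Matrix.smul_mul, Matrix.smul_apply, smul_eq_mul]
    rw [hdiag] at h1
    have h2 := congrArg Complex.re h1
    rw [Complex.ofReal_re, Complex.re_sum] at h2
    rw [h2]
    refine Finset.sum_congr rfl fun k _ => ?_
    rw [Complex.re_ofReal_mul]
  have hterm : ∀ k, w k * vnEntropy (ρ k) ≤ w k * ∑ j, (-Real.log (h'.eigenvalues j)) *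
      ((Rᴴ * ρ k * R) j j).re := by
    intro k
    rcases (hw k).eq_or_lt with hk | hk
    · rw [← hk, zero_mul, zero_mul]
    · refine mul_le_mul_of_nonneg_left ?_ (hw k)
      refine ms_klein (hρ k hk).1 (hρ k hk).2 hσ htr fun j hj => ?_
      have h1 := hdec j
      rw [hj] at h1
      have h2 := (Finset.sum_eq_zero_iff_of_nonneg (fun k' _ => ?_)).1 h1.symm k
        (Finset.mem_univ k)
      · have h3 : ((Rᴴ * ρ k * R) j j).re = 0 := by
          rcases mul_eq_zero.1 h2 with h4 | h4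
          · exact absurd h4 hk.ne'
          · exact h4
        exact Complex.ext h3 (himz k hk j)
      · rcases (hw k').eq_or_lt with hk' | hk'
        · rw [← hk', zero_mul]
        · exact mul_nonneg hk'.le (hnn k' hk' j)
  refine (Finset.sum_le_sum fun k _ => hterm k).trans (le_of_eq ?_)
  rw [vnEntropy, dif_pos h']
  calc ∑ k, w k * ∑ j, (-Real.log (h'.eigenvalues j)) * ((Rᴴ * ρ k * R) j j).re
      = ∑ j, (-Real.log (h'.eigenvalues j)) * ∑ k, w k * ((Rᴴ * ρ k * R) j j).re := by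
        simp only [Finset.mul_sum]
        rw [Finset.sum_comm]
        refine Finset.sum_congr rfl fun j _ => Finset.sum_congr rfl fun k _ => ?_
        ring
    _ = _ := by
        refine Finset.sum_congr rfl fun j _ => ?_
        rw [← hdec j, Real.negMulLog]
        ring

/-- the entropy of a projection vanishes -/
theorem vn_isPr {P : Matrix ι ι ℂ} (hP : IsPr P) : vnEntropy P = 0 := by
  have h : P.IsHermitian := hP.2
  rw [vnEntropy, dif_pos h]
  refine Finset.sum_eq_zero fun i _ => ?_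
  have h1 := h.mulVec_eigenvectorBasis i
  set v : ι → ℂ := (h.eigenvectorBasis i).ofLp with hv
  set l := h.eigenvalues i with hl
  have h2 : P *ᵥ (P *ᵥ v) = l • (l • v) := by
    rw [h1, Matrix.mulVec_smul, h1]
  have h3 : P *ᵥ (P *ᵥ v) = l • v := by
    rw [Matrix.mulVec_mulVec, hP.1, h1]
  have hv0 : v ≠ 0 := by
    intro h0
    have h4 : h.eigenvectorBasis i = 0 := by
      ext j
      have := congrFun h0 j
      exact this
    have h5 := h.eigenvectorBasis.orthonormal.ne_zero i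
    exact h5 h4
  have h4 : (l * l - l) • v = 0 := by
    rw [sub_smul, mul_smul, ← h2, h3, sub_self]
  rcases smul_eq_zero.1 h4 with h5 | h5
  · have h6 : l * (l - 1) = 0 := by rw [← h5]; ring
    rcases mul_eq_zero.1 h6 with h7 | h7
    · rw [h7, Real.negMulLog_zero]
    · have h8 : l = 1 := by linarith
      rw [h8, Real.negMulLog_one]
  · exact absurd h5 hv0

end conc

section regions
variable {V : Type*} [Fintype V] [DecidableEq V] {q : ℕ}

/-- the projections of the measurement of a region in the eigenbasis of its reduced state -/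
noncomputable def msP (X : Finset V) (Ω : Conf V q → ℂ) (i : {x // x ∈ X} → Fin q) :
    Op {x // x ∈ X} q := fOp (Ω ∘ (cut X q).symm) (fun j => if j = i then 1 else 0)

/-- the probabilities of the outcomes -/
noncomputable def msw (X : Finset V) (Ω : Conf V q → ℂ) (i : {x // x ∈ X} → Fin q) : ℝ :=
  eigp (Ω ∘ (cut X q).symm) i

/-- the state after the measurement -/
noncomputable def msv (X : Finset V) (Ω : Conf V q → ℂ) (i : {x // x ∈ X} → Fin q) :
    Conf V q → ℂ := (((Real.sqrt (msw X Ω i))⁻¹ : ℝ) : ℂ) • (opOn X (msP X Ω i) *ᵥ Ω)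

theorem msP_isPr (X : Finset V) (Ω : Conf V q → ℂ) (i : {x // x ∈ X} → Fin q) :
    IsPr (msP X Ω i) :=
  b6a_fOp_isPr _ _ fun j => by split_ifs <;> simp

theorem msP_trace (X : Finset V) (Ω : Conf V q → ℂ) (i : {x // x ∈ X} → Fin q) :
    (msP X Ω i).trace.re = 1 := by
  rw [msP, b6a_fOp_trace]
  simp

theorem msP_sum (X : Finset V) (Ω : Conf V q → ℂ) : ∑ i, msP X Ω i = 1 := by
  rw [← fOp_one (Ω ∘ (cut X q).symm)]
  simp only [msP, fOp]
  rw [← Finset.sum_mul, ← Finset.mul_sum]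
  congr 2
  ext a b
  rw [Matrix.sum_apply]
  by_cases hab : a = b
  · subst hab
    simp only [Matrix.diagonal_apply_eq]
    rw [Finset.sum_eq_single a]
    · simp
    · intro j _ hj
      rw [if_neg (Ne.symm hj), Complex.ofReal_zero]
    · intro h
      exact absurd (Finset.mem_univ a) h
  · simp [Matrix.diagonal_apply_ne _ hab]

theorem msw_nonneg (X : Finset V) (Ω : Conf V q → ℂ) (i : {x // x ∈ X} → Fin q) :
    0 ≤ msw X Ω i := eigp_nonneg _ i

theorem msw_sum (X : Finset V) (Ω : Conf V q → ℂ) (hΩ : nsq Ω = 1) : ∑ i, msw X Ω i = 1 :=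
  eigp_sum _ (b6a_unit X Ω hΩ)

theorem msw_entropy (X : Finset V) (Ω : Conf V q → ℂ) :
    entropyOf X Ω = ∑ i, msw X Ω i * (-Real.log (msw X Ω i)) := by
  rw [entropyOf_eq_sum]
  refine Finset.sum_congr rfl fun i _ => ?_
  rw [Real.negMulLog, msw]
  ring

theorem msP_nsq (X : Finset V) (Ω : Conf V q → ℂ) (i : {x // x ∈ X} → Fin q) :
    nsq (opOn X (msP X Ω i) *ᵥ Ω) = msw X Ω i := by
  rw [opOn, msP, b6a_nsq_fOp, Finset.sum_eq_single i]
  · simp [msw]
  · intro j _ hj
    simp [hj]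
  · intro h
    exact absurd (Finset.mem_univ i) h

theorem ms_nsq_smul (c : ℝ) (v : Conf V q → ℂ) : nsq (((c : ℝ) : ℂ) • v) = c ^ 2 * nsq v := by
  simp only [nsq, Pi.smul_apply, smul_eq_mul, norm_mul, mul_pow, Complex.norm_real,
    Real.norm_eq_abs, sq_abs, Finset.mul_sum]

theorem msv_nsq (X : Finset V) (Ω : Conf V q → ℂ) (i : {x // x ∈ X} → Fin q)
    (hi : 0 < msw X Ω i) : nsq (msv X Ω i) = 1 := by
  rw [msv, ms_nsq_smul, msP_nsq, inv_pow, Real.sq_sqrt hi.le, inv_mul_cancel₀ hi.ne']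

theorem msv_smul (X : Finset V) (Ω : Conf V q → ℂ) (i : {x // x ∈ X} → Fin q) :
    ((Real.sqrt (msw X Ω i) : ℝ) : ℂ) • msv X Ω i = opOn X (msP X Ω i) *ᵥ Ω := by
  rcases (msw_nonneg X Ω i).eq_or_lt with h | h
  · have h1 := msP_nsq X Ω i
    rw [← h] at h1
    have h2 : opOn X (msP X Ω i) *ᵥ Ω = 0 := by
      funext s
      have h3 := (Finset.sum_eq_zero_iff_of_nonneg
        (fun (s : Conf V q) _ => sq_nonneg ‖(opOn X (msP X Ω i) *ᵥ Ω) s‖)).1 h1 s
        (Finset.mem_univ s)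
      simpa using h3
    rw [h2, ← h, Real.sqrt_zero, Complex.ofReal_zero, zero_smul]
  · rw [msv, smul_smul, ← Complex.ofReal_mul, mul_inv_cancel₀ (Real.sqrt_pos.2 h).ne',
      Complex.ofReal_one, one_smul]

theorem msv_fix (X : Finset V) (Ω : Conf V q → ℂ) (i : {x // x ∈ X} → Fin q) :
    opOn X (msP X Ω i) *ᵥ msv X Ω i = msv X Ω i := by
  rw [msv, mulVec_smul, mulVec_mulVec, ← opOn_mul, (msP_isPr X Ω i).1]

/-- the reduced state after an operator of the region -/
theorem rdm_opOn (X : Finset V) (Y : Op {x // x ∈ X} q) (Ω : Conf V q → ℂ) :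
    rdm X (opOn X Y *ᵥ Ω) = Y * rdm X Ω * Yᴴ := by
  have h : b7_amp X (opOn X Y *ᵥ Ω) = Y * b7_amp X Ω := by
    ext a b
    rw [b7_amp, b6b_opOn_apply, mul_apply]
    rfl
  rw [b7_rdm_eq, b7_rdm_eq, h, conjTranspose_mul]
  simp only [Matrix.mul_assoc]

theorem rdm_smul' (X : Finset V) (c : ℂ) (Ω : Conf V q → ℂ) :
    rdm X (c • Ω) = (c * star c) • rdm X Ω := by
  ext a b
  rw [Matrix.smul_apply, rdm, rdm, Finset.smul_sum]
  refine Finset.sum_congr rfl fun z _ => ?_
  simp only [Pi.smul_apply, smul_eq_mul, star_mul']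
  ring

theorem rdm_msv (X : Finset V) (Ω : Conf V q → ℂ) (i : {x // x ∈ X} → Fin q)
    (hi : 0 < msw X Ω i) : rdm X (msv X Ω i) = msP X Ω i := by
  have h1 : rdm X (opOn X (msP X Ω i) *ᵥ Ω) = (msw X Ω i : ℂ) • msP X Ω i := by
    rw [rdm_opOn, (msP_isPr X Ω i).2, rdm_eq, b6a_fOp_redA, msP, b6a_fOp_mul, b6a_fOp_mul]
    simp only [fOp]
    rw [← Matrix.smul_mul, ← Matrix.mul_smul]
    congr 2
    ext a b
    rw [Matrix.smul_apply]
    by_cases hab : a = b
    · subst hab
      by_cases hai : a = i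
      · subst hai
        simp [msw]
      · simp [hai]
    · simp [Matrix.diagonal_apply_ne _ hab]
  rw [msv, rdm_smul', h1, smul_smul, RCLike.star_def, Complex.conj_ofReal, ← Complex.ofReal_mul,
    ← Complex.ofReal_mul]
  have h2 : (Real.sqrt (msw X Ω i))⁻¹ * (Real.sqrt (msw X Ω i))⁻¹ * msw X Ω i = 1 := by
    have h3 := Real.mul_self_sqrt hi.le
    have h4 := (Real.sqrt_pos.2 hi).ne'
    field_simp
    rw [sq, h3]
  rw [h2, Complex.ofReal_one, one_smul]

/-- after the measurement the region is in a pure state -/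
theorem msv_entropy (X : Finset V) (Ω : Conf V q → ℂ) (i : {x // x ∈ X} → Fin q)
    (hi : 0 < msw X Ω i) : entropyOf X (msv X Ω i) = 0 := by
  rw [entropyOf, rdm_msv X Ω i hi]
  exact vn_isPr (msP_isPr X Ω i)

/-- the expectation of an observable away from the region -/
theorem msv_expect (X A : Finset V) (hXA : Disjoint X A) (Ω : Conf V q → ℂ)
    (i : {x // x ∈ X} → Fin q) (Y : Op {x // x ∈ A} q) :
    star (opOn X (msP X Ω i) *ᵥ Ω) ⬝ᵥ (opOn A Y *ᵥ Ω) =
      (msw X Ω i : ℂ) * (star (msv X Ω i) ⬝ᵥ (opOn A Y *ᵥ msv X Ω i)) := by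
  have h1 : star (opOn X (msP X Ω i) *ᵥ Ω) ⬝ᵥ (opOn A Y *ᵥ Ω) =
      star (opOn X (msP X Ω i) *ᵥ Ω) ⬝ᵥ (opOn A Y *ᵥ (opOn X (msP X Ω i) *ᵥ Ω)) := by
    have h2 : opOn A Y *ᵥ (opOn X (msP X Ω i) *ᵥ Ω) =
        opOn X (msP X Ω i) *ᵥ (opOn A Y *ᵥ Ω) := by
      rw [mulVec_mulVec, mulVec_mulVec, opOn_comm X A hXA]
    have h3 : star (opOn X (msP X Ω i) *ᵥ Ω) ᵥ* opOn X (msP X Ω i) =
        star (opOn X (msP X Ω i) *ᵥ Ω) := by
      have h4 : (opOn X (msP X Ω i))ᴴ = opOn X (msP X Ω i) := by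
        rw [opOn_conjTranspose, (msP_isPr X Ω i).2]
      have h5 : opOn X (msP X Ω i) * opOn X (msP X Ω i) = opOn X (msP X Ω i) := by
        rw [← opOn_mul, (msP_isPr X Ω i).1]
      rw [star_mulVec, h4, vecMul_vecMul, h5]
    rw [h2, dotProduct_mulVec _ (opOn X (msP X Ω i)), h3]
  rw [h1, ← msv_smul X Ω i, star_smul, mulVec_smul, smul_dotProduct, dotProduct_smul,
    smul_eq_mul, smul_eq_mul, ← mul_assoc, RCLike.star_def, Complex.conj_ofReal,
    ← Complex.ofReal_mul, Real.mul_self_sqrt (msw_nonneg X Ω i)]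

/-- away from the region the state is the average of the states after the measurement -/
theorem rdm_sum (X A : Finset V) (hXA : Disjoint X A) (Ω : Conf V q → ℂ) :
    rdm A Ω = ∑ i, (msw X Ω i : ℂ) • rdm A (msv X Ω i) := by
  rw [Matrix.ext_iff_trace_mul_right]
  intro Y
  have h0 : ∑ i, opOn X (msP X Ω i) = (1 : Op V q) := by
    rw [← b6c_opOn_sum, msP_sum, opOn_one]
  have h1 : Ω = ∑ i, opOn X (msP X Ω i) *ᵥ Ω := by
    rw [← Matrix.sum_mulVec, h0, one_mulVec]
  rw [← expect_opOn, Matrix.sum_mul, Matrix.trace_sum]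
  have h2 : star Ω ⬝ᵥ (opOn A Y *ᵥ Ω) =
      ∑ i, star (opOn X (msP X Ω i) *ᵥ Ω) ⬝ᵥ (opOn A Y *ᵥ Ω) := by
    rw [← sum_dotProduct, ← star_sum, ← h1]
  rw [h2]
  refine Finset.sum_congr rfl fun i _ => ?_
  rw [msv_expect X A hXA, expect_opOn, Matrix.smul_mul, Matrix.trace_smul, smul_eq_mul]

/-- **concavity**: the average entropy of a region disjoint from the measured one -/
theorem ms_avg_disj (X A : Finset V) (hXA : Disjoint X A) (Ω : Conf V q → ℂ) (hΩ : nsq Ω = 1) :
    ∑ i, msw X Ω i * entropyOf A (msv X Ω i) ≤ entropyOf A Ω :=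
  vn_concave (fun i => msw X Ω i) (fun i => rdm A (msv X Ω i)) (msw_nonneg X Ω)
    (fun i hi => ⟨b7_rdm_psd A _, b7_rdm_trace A _ (msv_nsq X Ω i hi)⟩)
    (b7_rdm_psd A Ω) (b7_rdm_trace A Ω hΩ) (rdm_sum X A hXA Ω)

/-- a region next to a pure one -/
theorem msv_le_compl (X A : Finset V) (hXA : Disjoint X A) (Ω : Conf V q → ℂ)
    (i : {x // x ∈ X} → Fin q) (hi : 0 < msw X Ω i) :
    entropyOf A (msv X Ω i) ≤ entropyOf (A ∪ X)ᶜ (msv X Ω i) := by
  have hn := msv_nsq X Ω i hi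
  rw [← entropy_compl A _ hn]
  have h1 : Aᶜ = (A ∪ X)ᶜ ∪ X := by
    ext x
    simp only [Finset.mem_compl, Finset.mem_union, not_or]
    constructor
    · intro h
      by_cases hx : x ∈ X
      · exact Or.inr hx
      · exact Or.inl ⟨h, hx⟩
    · rintro (h | h)
      · exact h.1
      · exact fun hA => Finset.disjoint_left.mp hXA h hA
  have h2 : Disjoint (A ∪ X)ᶜ X := by
    rw [Finset.disjoint_left]
    intro x hx hx'
    exact (Finset.mem_compl.1 hx) (Finset.mem_union_right _ hx')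
  have h3 := entropy_union (A ∪ X)ᶜ X h2 (msv X Ω i) hn
  rw [← h1, msv_entropy X Ω i hi, add_zero] at h3
  exact h3

/-- **the average entropy after the measurement** of a region disjoint from the measured one is
at most the entropy of the union -/
theorem ms_avg (X A : Finset V) (hXA : Disjoint X A) (Ω : Conf V q → ℂ) (hΩ : nsq Ω = 1) :
    ∑ i, msw X Ω i * entropyOf A (msv X Ω i) ≤ entropyOf (A ∪ X) Ω := by
  have h2 : Disjoint X (A ∪ X)ᶜ := by
    rw [Finset.disjoint_left]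
    intro x hx hx'
    exact (Finset.mem_compl.1 hx') (Finset.mem_union_right _ hx)
  have h3 := ms_avg_disj X (A ∪ X)ᶜ h2 Ω hΩ
  rw [entropy_compl _ _ hΩ] at h3
  refine le_trans (Finset.sum_le_sum fun i _ => ?_) h3
  rcases (msw_nonneg X Ω i).eq_or_lt with h | h
  · rw [← h, zero_mul, zero_mul]
  · exact mul_le_mul_of_nonneg_left (msv_le_compl X A hXA Ω i h) h.le

/-- **averaging an inequality over the outcomes of the measurement** -/
theorem ms_average {κ : Type*} (s : Finset κ) (X : Finset V) (Ω : Conf V q → ℂ) (hΩ : nsq Ω = 1)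
    (a : ({x // x ∈ X} → Fin q) → ℝ) (c : ℝ) (b : κ → ℝ) (A : κ → Finset V)
    (hb : ∀ k ∈ s, 0 ≤ b k) (hA : ∀ k ∈ s, Disjoint X (A k))
    (h : ∀ i, 0 < msw X Ω i → a i ≤ c * (-Real.log (msw X Ω i)) +
      ∑ k ∈ s, b k * entropyOf (A k) (msv X Ω i)) :
    ∑ i, msw X Ω i * a i ≤ c * entropyOf X Ω + ∑ k ∈ s, b k * entropyOf (A k ∪ X) Ω := by
  calc ∑ i, msw X Ω i * a i
      ≤ ∑ i, msw X Ω i * (c * (-Real.log (msw X Ω i)) +
          ∑ k ∈ s, b k * entropyOf (A k) (msv X Ω i)) := by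
        refine Finset.sum_le_sum fun i _ => ?_
        rcases (msw_nonneg X Ω i).eq_or_lt with h1 | h1
        · rw [← h1, zero_mul, zero_mul]
        · exact mul_le_mul_of_nonneg_left (h i h1) h1.le
    _ = c * entropyOf X Ω + ∑ k ∈ s, b k * ∑ i, msw X Ω i * entropyOf (A k) (msv X Ω i) := by
        rw [msw_entropy, Finset.mul_sum]
        simp only [mul_add, Finset.sum_add_distrib, Finset.mul_sum]
        congr 1
        · refine Finset.sum_congr rfl fun i _ => ?_
          ring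
        · rw [Finset.sum_comm]
          refine Finset.sum_congr rfl fun k _ => Finset.sum_congr rfl fun i _ => ?_
          ring
    _ ≤ _ := by
        refine add_le_add le_rfl (Finset.sum_le_sum fun k hk => ?_)
        exact mul_le_mul_of_nonneg_left (ms_avg X (A k) (hA k hk) Ω hΩ) (hb k hk)

/-- the same with a constant on the left -/
theorem ms_average_const {κ : Type*} (s : Finset κ) (X : Finset V) (Ω : Conf V q → ℂ)
    (hΩ : nsq Ω = 1) (a c : ℝ) (b : κ → ℝ) (A : κ → Finset V)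
    (hb : ∀ k ∈ s, 0 ≤ b k) (hA : ∀ k ∈ s, Disjoint X (A k))
    (h : ∀ i, 0 < msw X Ω i → a ≤ c * (-Real.log (msw X Ω i)) +
      ∑ k ∈ s, b k * entropyOf (A k) (msv X Ω i)) :
    a ≤ c * entropyOf X Ω + ∑ k ∈ s, b k * entropyOf (A k ∪ X) Ω := by
  have h1 := ms_average s X Ω hΩ (fun _ => a) c b A hb hA h
  rwa [← Finset.sum_mul, msw_sum X Ω hΩ, one_mul] at h1

end regions

end Vale.Agent.P356.GA
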