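import Vale.Agent.P356.GA.Win960
import Vale.Agent.P356.GA.DIDef960
import Vale.Agent.P356.SA.Strict679

/-!
The doubled inequality gives the area law for boxes with an arbitrarily small loss in the exponent.
-/

set_option linter.all false

namespace Vale.Agent.P356.GA

open Matrix Finset Vale.Agent.P356 Vale.Agent.P356.SV Vale.Agent.P356.NA Vale.Agent.P356.SA
open scoped BigOperators

section geo
variable {L : ℕ}

theorem di_card_rect {x0 x1 y0 y1 a b : ℕ} (hx : x1 ≤ x0 + a) (hy : y1 ≤ y0 + b) :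
    (rect L x0 x1 y0 y1).card ≤ a * b := by
  have e : rect L x0 x1 y0 y1 = rect L x0 (min x1 L) y0 (min y1 L) := by
    ext p
    rw [b8_mem, b8_mem]
    have h1 := p.1.isLt
    have h2 := p.2.isLt
    omega
  rw [e, na_m_card (min_le_right _ _) (min_le_right _ _)]
  exact Nat.mul_le_mul (by omega) (by omega)

/-- the frame between two rectangles -/
theorem di_frame {x0 x1 y0 y1 l a b : ℕ} (hx : x1 ≤ x0 + l) (hy : y1 ≤ y0 + l)
    {F : Finset (Site L)}
    (hF : ∀ p ∈ F, p ∈ rect L (x0 - a) (x1 + a) (y0 - a) (y1 + a) ∧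
      p ∉ rect L (x0 + b) (x1 - b) (y0 + b) (y1 - b)) :
    F.card ≤ 4 * ((a + b) * (l + 2 * a)) := by
  have h : F ⊆ (rect L (x0 - a) (x0 + b) (y0 - a) (y1 + a) ∪
      rect L (x1 - b) (x1 + a) (y0 - a) (y1 + a)) ∪
      (rect L (x0 - a) (x1 + a) (y0 - a) (y0 + b) ∪
      rect L (x0 - a) (x1 + a) (y1 - b) (y1 + a)) := by
    intro p hp
    obtain ⟨h1, h2⟩ := hF p hp
    rw [b8_mem] at h1 h2
    simp only [Finset.mem_union, b8_mem]
    omega
  have c1 : (rect L (x0 - a) (x0 + b) (y0 - a) (y1 + a)).card ≤ (a + b) * (l + 2 * a) :=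
    di_card_rect (by omega) (by omega)
  have c2 : (rect L (x1 - b) (x1 + a) (y0 - a) (y1 + a)).card ≤ (a + b) * (l + 2 * a) :=
    di_card_rect (by omega) (by omega)
  have c3 : (rect L (x0 - a) (x1 + a) (y0 - a) (y0 + b)).card ≤ (a + b) * (l + 2 * a) := by
    rw [Nat.mul_comm (a + b)]
    exact di_card_rect (by omega) (by omega)
  have c4 : (rect L (x0 - a) (x1 + a) (y1 - b) (y1 + a)).card ≤ (a + b) * (l + 2 * a) := by
    rw [Nat.mul_comm (a + b)]
    exact di_card_rect (by omega) (by omega)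
  have d1 := Finset.card_union_le (rect L (x0 - a) (x0 + b) (y0 - a) (y1 + a))
    (rect L (x1 - b) (x1 + a) (y0 - a) (y1 + a))
  have d2 := Finset.card_union_le (rect L (x0 - a) (x1 + a) (y0 - a) (y0 + b))
    (rect L (x0 - a) (x1 + a) (y1 - b) (y1 + a))
  have d3 := Finset.card_union_le ((rect L (x0 - a) (x0 + b) (y0 - a) (y1 + a) ∪
      rect L (x1 - b) (x1 + a) (y0 - a) (y1 + a)))
      (rect L (x0 - a) (x1 + a) (y0 - a) (y0 + b) ∪
      rect L (x0 - a) (x1 + a) (y1 - b) (y1 + a))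
  have d4 := Finset.card_le_card h
  omega

theorem di_ring_card {x0 x1 y0 y1 l : ℕ} (hx : x1 ≤ x0 + l) (hy : y1 ≤ y0 + l) (w : ℕ) :
    (sa7_nb (rect L x0 x1 y0 y1) w \ rect L x0 x1 y0 y1).card ≤ 4 * (w * (l + 2 * w)) := by
  have h := di_frame (L := L) (x0 := x0) (x1 := x1) (y0 := y0) (y1 := y1) (l := l) (a := w)
    (b := 0) hx hy (F := sa7_nb (rect L x0 x1 y0 y1) w \ rect L x0 x1 y0 y1) (by
      intro p hp
      rw [Finset.mem_sdiff] at hp
      refine ⟨sa7_nb_rect (Finset.Subset.refl _) w hp.1, ?_⟩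
      simpa using hp.2)
  simpa using h

theorem di_bdry_rect {x0 x1 y0 y1 l : ℕ} (hl : 1 ≤ l) (hx : x1 ≤ x0 + l) (hy : y1 ≤ y0 + l) :
    bdry (rect L x0 x1 y0 y1) ≤ 48 * l := by
  have e : sa7_nb (rect L x0 x1 y0 y1) 0 = rect L x0 x1 y0 y1 := by
    refine Finset.Subset.antisymm ?_ (sa7_sub_nb _ _)
    have := sa7_nb_rect (Finset.Subset.refl (rect L x0 x1 y0 y1)) 0
    simpa using this
  have h := sa7_bdry_nb (rect L x0 x1 y0 y1) 0
  rw [e, zero_add] at h
  have h2 := di_ring_card (L := L) hx hy 1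
  omega

/-- number of grid boxes that meet a subset of the ring -/
theorem di_boxes {x0 x1 y0 y1 l w s : ℕ} (hx : x1 ≤ x0 + l) (hy : y1 ≤ y0 + l) (hs : 1 ≤ s)
    (hsL : s ≤ L) (hw : w ≤ 2 * s) (hsl : s ≤ l) {B : Finset (Site L)}
    (hB : B ⊆ sa7_nb (rect L x0 x1 y0 y1) w \ rect L x0 x1 y0 y1) :
    ((gT L s).filter (fun z => (B ∩ gBox L s z).Nonempty)).card * s ≤ 216 * l := by
  classical
  set T := (gT L s).filter (fun z => (B ∩ gBox L s z).Nonempty) with hT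
  have hTm : ∀ z ∈ T, z ∈ gT L s := fun z hz => (Finset.mem_filter.1 hz).1
  have hd : ∀ i ∈ T, ∀ j ∈ T, i ≠ j → Disjoint (gBox L s i) (gBox L s j) :=
    fun i hi j hj hij => gBox_disj hs hsL (hTm i hi) hij
  have hcard : T.card * (s * s) ≤ (T.biUnion (gBox L s)).card := by
    rw [Finset.card_biUnion hd, ← smul_eq_mul, ← Finset.sum_const]
    exact Finset.sum_le_sum fun z hz => ct_boxcard hs (hTm z hz)
  have hfr : (T.biUnion (gBox L s)).card ≤ 4 * ((w + 2 * s + 2 * s) * (l + 2 * (w + 2 * s))) := by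
    apply di_frame hx hy
    intro p hp
    rw [Finset.mem_biUnion] at hp
    obtain ⟨z, hz, hpz⟩ := hp
    have hz' := gT_mem.1 (hTm z hz)
    have a1 := gE_side hs hz'.1
    have a2 := gE_side hs hz'.2
    obtain ⟨r, hr⟩ := (Finset.mem_filter.1 hz).2
    rw [Finset.mem_inter] at hr
    have h1 := hB hr.1
    rw [Finset.mem_sdiff] at h1
    have h2 := sa7_nb_rect (Finset.Subset.refl _) w h1.1
    have h3 := h1.2
    have h4 := hr.2
    unfold gBox at hpz h4
    rw [b8_mem] at hpz h2 h3 h4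
    rw [b8_mem, b8_mem]
    omega
  have h5 : 4 * ((w + 2 * s + 2 * s) * (l + 2 * (w + 2 * s))) ≤ 216 * l * s := by
    have : (w + 2 * s + 2 * s) * (l + 2 * (w + 2 * s)) ≤ (6 * s) * (9 * l) :=
      Nat.mul_le_mul (by omega) (by omega)
    calc 4 * ((w + 2 * s + 2 * s) * (l + 2 * (w + 2 * s))) ≤ 4 * ((6 * s) * (9 * l)) :=
          Nat.mul_le_mul_left _ this
      _ = 216 * l * s := by ring
  have h6 : T.card * s * s ≤ 216 * l * s := by
    calc T.card * s * s = T.card * (s * s) := by ring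
      _ ≤ _ := hcard.trans (hfr.trans h5)
  exact Nat.le_of_mul_le_mul_right h6 (by omega)

theorem di_bdry_sdiff (A B : Finset (Site L)) : bdry (A \ B) ≤ bdry A + bdry B := by
  classical
  unfold bdry
  refine le_trans (Finset.card_le_card (t :=
    (Finset.univ : Finset (Site L × Site L)).filter
      (fun p => p.1 ∈ A ∧ p.2 ∉ A ∧ dist1 p.1 p.2 = 1) ∪
    ((Finset.univ : Finset (Site L × Site L)).filter
      (fun p => p.1 ∈ B ∧ p.2 ∉ B ∧ dist1 p.1 p.2 = 1)).image Prod.swap) ?_)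
    ((Finset.card_union_le _ _).trans (Nat.add_le_add_left Finset.card_image_le _))
  intro p hp
  rw [Finset.mem_filter] at hp
  obtain ⟨_, h1, h2, h3⟩ := hp
  rw [Finset.mem_sdiff] at h1 h2
  rw [Finset.mem_union]
  by_cases h : p.2 ∈ A
  · right
    have h4 : p.2 ∈ B := by
      by_contra h5
      exact h2 ⟨h, h5⟩
    rw [Finset.mem_image]
    refine ⟨(p.2, p.1), Finset.mem_filter.2 ⟨Finset.mem_univ _, h4, h1.2, ?_⟩, rfl⟩
    have : dist1 p.2 p.1 = dist1 p.1 p.2 := by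
      simp only [dist1]
      omega
    rw [this]
    exact h3
  · left
    exact Finset.mem_filter.2 ⟨Finset.mem_univ _, h1.1, h, h3⟩

end geo

section step
variable {L : ℕ} {S : Finset (Site L) → ℝ}

theorem di_sub (hS : EntLike S) (A B : Finset (Site L)) (h : Disjoint A B) :
    S (A ∪ B) ≤ S A + S B := by
  have := mi_nn hS h
  unfold mi at this
  linarith

theorem di_mono (hS : EntLike S) {X M : Finset (Site L)} (hXM : X ⊆ M) :
    S X ≤ S M + S (M \ X) := by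
  have h := di_sub hS Mᶜ (M \ X) (by
    rw [Finset.disjoint_left]
    intro p hp hq
    rw [Finset.mem_compl] at hp
    exact hp (Finset.mem_sdiff.1 hq).1)
  have e : Mᶜ ∪ (M \ X) = Xᶜ := by
    ext p
    simp only [Finset.mem_union, Finset.mem_compl, Finset.mem_sdiff]
    constructor
    · rintro (h | h)
      · exact fun h' => h (hXM h')
      · exact h.2
    · intro h
      by_cases h' : p ∈ M
      · exact Or.inr ⟨h', h⟩
      · exact Or.inl h'
  rw [e, hS.compl, hS.compl] at h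
  exact h

theorem di_mono' (hS : EntLike S) {X M : Finset (Site L)} (hXM : X ⊆ M) :
    S M ≤ S X + S (M \ X) := by
  have h := di_sub hS X (M \ X) Finset.disjoint_sdiff
  rw [Finset.union_sdiff_of_subset hXM] at h
  exact h

/-- pieces of the ring -/
theorem di_piece {κ : ℝ} {l k w : ℕ} (hS : EntLike S) (hκ : 0 ≤ κ)
    (hcard : ∀ B, S B ≤ κ * B.card) {x0 x1 y0 y1 : ℕ} (hx : x1 ≤ x0 + l) (hy : y1 ≤ y0 + l)
    (hw2 : w ≤ 2 * 2 ^ k) (hkL : 2 ^ k ≤ L) (hkl : 2 ^ k ≤ l)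
    {W : ℝ} (hW0 : 0 ≤ W)
    (hrect : ∀ l x0 x1 y0 y1 : ℕ, 1 ≤ l → l ≤ 2 ^ (k + 1) → x1 ≤ x0 + l → y1 ≤ y0 + l →
        S (rect L x0 x1 y0 y1) ≤ W * l) (Z : Finset (Site L))
    (hZ : Z ⊆ sa7_nb (rect L x0 x1 y0 y1) w \ rect L x0 x1 y0 y1) :
    S Z ≤ bdry Z * (4 * κ + 8 * W * k) + 432 * W * l := by
  have hb := di_boxes (L := L) (l := l) (w := w) (s := 2 ^ k) hx hy Nat.one_le_two_pow hkL hw2
    hkl (B := Z) hZ
  have h1 := region_win hW0 hκ (di_sub hS) hS.compl hcard k hkL hrect Z _ le_rfl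
  set m := ((gT L (2 ^ k)).filter (fun z => (Z ∩ gBox L (2 ^ k) z).Nonempty)).card with hm
  have hb' : (m : ℝ) * 2 ^ k ≤ 216 * l := by exact_mod_cast hb
  have h2 : (m : ℝ) * (W * 2 ^ (k + 1)) ≤ 432 * W * l := by
    have h3 := mul_le_mul_of_nonneg_left hb' (show 0 ≤ 2 * W by positivity)
    calc (m : ℝ) * (W * 2 ^ (k + 1)) = 2 * W * ((m : ℝ) * 2 ^ k) := by ring
      _ ≤ 2 * W * (216 * l) := h3
      _ = 432 * W * l := by ring
  linarith

/-- one pair of levels -/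
theorem di_pair {g B0 E : ℝ} (hS : EntLike S) (hg0 : 0 ≤ g) {w : ℕ} {X P M Q : Finset (Site L)}
    (hMB : (bdry M : ℝ) ≤ B0)
    (hpiece : ∀ Z : Finset (Site L), Z ⊆ sa7_nb X w \ X → S Z ≤ bdry Z * g + E)
    (a1 : X ⊆ P) (a2 : P ⊆ M) (a3 : M ⊆ Q) (a4 : Q ⊆ sa7_nb X w) :
    S (Q \ P) + (S (M \ P) + S (Q \ M)) ≤
        2 * g * ((bdry P : ℝ) + bdry Q) + (2 * g * B0 + 3 * E) ∧
      2 * S M ≤ (S P + S Q) + (S (M \ P) + S (Q \ M)) := by
  have z1 : Q \ P ⊆ sa7_nb X w \ X := fun p hp => by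
    rw [Finset.mem_sdiff] at hp ⊢
    exact ⟨a4 hp.1, fun h => hp.2 (a1 h)⟩
  have z2 : M \ P ⊆ sa7_nb X w \ X := fun p hp => by
    rw [Finset.mem_sdiff] at hp ⊢
    exact ⟨a4 (a3 hp.1), fun h => hp.2 (a1 h)⟩
  have z3 : Q \ M ⊆ sa7_nb X w \ X := fun p hp => by
    rw [Finset.mem_sdiff] at hp ⊢
    exact ⟨a4 hp.1, fun h => hp.2 (a2 (a1 h))⟩
  have s1 := hpiece _ z1
  have s2 := hpiece _ z2
  have s3 := hpiece _ z3
  have b1 : (bdry (Q \ P) : ℝ) ≤ bdry Q + bdry P := by exact_mod_cast di_bdry_sdiff Q P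
  have b2 : (bdry (M \ P) : ℝ) ≤ bdry M + bdry P := by exact_mod_cast di_bdry_sdiff M P
  have b3 : (bdry (Q \ M) : ℝ) ≤ bdry Q + bdry M := by exact_mod_cast di_bdry_sdiff Q M
  constructor
  · have c1 := mul_le_mul_of_nonneg_right b1 hg0
    have c2 := mul_le_mul_of_nonneg_right b2 hg0
    have c3 := mul_le_mul_of_nonneg_right b3 hg0
    have c4 := mul_le_mul_of_nonneg_right hMB hg0
    rw [add_mul] at c1 c2 c3
    linarith
  · have m1 := di_mono' hS a2
    have m2 := di_mono hS a3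
    linarith

theorem di_arith {n cc cu cl SM t1 t2 t3 t4 g B0 E l C : ℝ} (hn0 : 0 < n)
    (hx0 : 0 ≤ cc) (e1 : cc ≤ 1 / 4) (e2 : cu ≤ 1 / 4) (e3 : cl ≤ C * l) (ht3 : 0 ≤ t3)
    (hSM : 0 ≤ SM) (hg0 : 0 ≤ g) (hPQB : t4 ≤ n * B0)
    (hmain : (1 - cc) * t1 ≤ t2 + n * (cu * SM + cl))
    (hsum1 : t2 + t3 ≤ 2 * g * t4 + n * (2 * g * B0 + 3 * E))
    (hsum2 : n * (2 * SM) ≤ t1 + t3) : SM ≤ 4 * g * B0 + 3 * E + C * l := by
  have hf : 0 ≤ 1 - cc := by linarith
  have i1 : (1 - cc) * (n * (2 * SM) - t3) ≤ (1 - cc) * t1 :=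
    mul_le_mul_of_nonneg_left (by linarith) hf
  have h1 : 0 ≤ n * (2 * SM) := by positivity
  have i2 : (3 / 4 : ℝ) * (n * (2 * SM)) - t3 ≤ (1 - cc) * (n * (2 * SM) - t3) := by
    have h2 := mul_nonneg hx0 ht3
    have h3 := mul_le_mul_of_nonneg_right e1 h1
    linarith
  have i3 : n * (cu * SM + cl) ≤ n * (1 / 4 * SM + C * l) := by
    refine mul_le_mul_of_nonneg_left ?_ hn0.le
    have h1 := mul_le_mul_of_nonneg_right e2 hSM
    linarith
  have i4 : 2 * g * t4 ≤ 2 * g * (n * B0) := mul_le_mul_of_nonneg_left hPQB (by positivity)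
  have h5 : 0 ≤ n * SM := by positivity
  have i5 : n * SM ≤ n * (4 * g * B0 + 3 * E + C * l) := by linarith
  exact le_of_mul_le_mul_left i5 hn0

/-- one step of the recursion over scales -/
theorem di_step {κ ω u c C : ℝ} {n₀ l k : ℕ} (hS : EntLike S) (hκ : 0 ≤ κ)
    (hcard : ∀ B, S B ≤ κ * B.card) (hC : 0 ≤ C) (hD : DIS S ω u c C n₀) (hl : n₀ ≤ l)
    (hl1 : 1 ≤ l) {x0 x1 y0 y1 : ℕ} (hx : x1 ≤ x0 + l) (hy : y1 ≤ y0 + l)
    (e1 : C * (l : ℝ) ^ (-c) ≤ 1 / 4) (e2 : C * (l : ℝ) ^ (-u) ≤ 1 / 4)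
    (e3 : (l : ℝ) ^ (1 - c) ≤ l) (e4 : (l : ℝ) ^ (1 - ω) ≤ l)
    (hk2 : (l : ℝ) ^ (1 - ω) ≤ 2 ^ (k + 1)) (hkL : 2 ^ k ≤ L) (hkl : 2 ^ k ≤ l)
    {W : ℝ} (hW0 : 0 ≤ W)
    (hrect : ∀ l x0 x1 y0 y1 : ℕ, 1 ≤ l → l ≤ 2 ^ (k + 1) → x1 ≤ x0 + l → y1 ≤ y0 + l →
        S (rect L x0 x1 y0 y1) ≤ W * l) :
    S (rect L x0 x1 y0 y1) ≤
      l * ((60 * C + 48) * (4 * κ + 8 * W * k) + 1728 * W + C) := by
  classical
  set X := rect L x0 x1 y0 y1 with hX
  obtain ⟨n, w, P, Q, M, hn, hw, hch, hM, hPQ, hmain⟩ :=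
    hD.out l x0 x1 y0 y1 hl hx hy X (Finset.Subset.refl _)
  have hl0 : (0 : ℝ) < l := by exact_mod_cast hl1
  have hy0 : (0 : ℝ) < (l : ℝ) ^ (1 - ω) := Real.rpow_pos_of_pos hl0 _
  have hn0 : (0 : ℝ) < n := by exact_mod_cast hn
  have hw2 : w ≤ 2 * 2 ^ k := by
    have h1 : (w : ℝ) ≤ ((2 * 2 ^ k : ℕ) : ℝ) := by
      push_cast
      calc (w : ℝ) ≤ _ := hw
        _ ≤ 2 ^ (k + 1) := hk2
        _ = 2 * 2 ^ k := by ring
    exact_mod_cast h1
  have hwl : w ≤ l := by exact_mod_cast hw.trans e4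
  set g : ℝ := 4 * κ + 8 * W * k with hg
  have hg0 : 0 ≤ g := by positivity
  have harea : C * (((sa7_nb X w \ X).card : ℝ) / (l : ℝ) ^ (1 - ω)) ≤ 12 * C * l := by
    have h1 := di_ring_card (L := L) hx hy w
    rw [← hX] at h1
    have h2 : ((sa7_nb X w \ X).card : ℝ) ≤ 12 * l * (l : ℝ) ^ (1 - ω) := by
      have h3 : ((sa7_nb X w \ X).card : ℝ) ≤ 4 * ((w : ℝ) * (l + 2 * w)) := by exact_mod_cast h1
      have hwl' : (w : ℝ) ≤ l := by exact_mod_cast hwl
      have hw0 : (0 : ℝ) ≤ w := Nat.cast_nonneg _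
      calc ((sa7_nb X w \ X).card : ℝ) ≤ 4 * ((w : ℝ) * (l + 2 * w)) := h3
        _ ≤ 4 * ((l : ℝ) ^ (1 - ω) * (l + 2 * l)) := by
            refine mul_le_mul_of_nonneg_left ?_ (by norm_num)
            exact mul_le_mul hw (by linarith) (by positivity) hy0.le
        _ = 12 * l * (l : ℝ) ^ (1 - ω) := by ring
    have h4 : ((sa7_nb X w \ X).card : ℝ) / (l : ℝ) ^ (1 - ω) ≤ 12 * l := by
      rw [div_le_iff₀ hy0]
      exact h2
    have h5 := mul_le_mul_of_nonneg_left h4 hC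
    linarith
  have hMB : (bdry M : ℝ) ≤ 12 * C * l := hM.trans harea
  have hPQB : ∑ k ∈ range n, ((bdry (P k) : ℝ) + bdry (Q k)) ≤ n * (12 * C * l) :=
    hPQ.trans (mul_le_mul_of_nonneg_left harea hn0.le)
  have hpiece : ∀ Z : Finset (Site L), Z ⊆ sa7_nb X w \ X →
      S Z ≤ bdry Z * g + 432 * W * l :=
    di_piece hS hκ hcard hx hy hw2 hkL hkl hW0 hrect
  have hk3 := fun i (hi : i ∈ range n) =>
    di_pair (P := P i) (Q := Q i) hS hg0 hMB hpiece (hch i (Finset.mem_range.1 hi)).1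
      (hch i (Finset.mem_range.1 hi)).2.1 (hch i (Finset.mem_range.1 hi)).2.2.1
      (hch i (Finset.mem_range.1 hi)).2.2.2
  have hsum1 : ∑ i ∈ range n, (S (Q i \ P i) + (S (M \ P i) + S (Q i \ M))) ≤
      2 * g * ∑ i ∈ range n, ((bdry (P i) : ℝ) + bdry (Q i)) +
        n * (2 * g * (12 * C * l) + 3 * (432 * W * l)) := by
    have := Finset.sum_le_sum fun i hi => (hk3 i hi).1
    rw [Finset.sum_add_distrib (f := fun i => 2 * g * ((bdry (P i) : ℝ) + bdry (Q i))),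
      ← Finset.mul_sum, Finset.sum_const, Finset.card_range, nsmul_eq_mul] at this
    exact this
  have hsum2 : n * (2 * S M) ≤ ∑ i ∈ range n, (S (P i) + S (Q i)) +
      ∑ i ∈ range n, (S (M \ P i) + S (Q i \ M)) := by
    have := Finset.sum_le_sum fun i hi => (hk3 i hi).2
    rw [Finset.sum_const, Finset.card_range, nsmul_eq_mul, Finset.sum_add_distrib] at this
    exact this
  rw [Finset.sum_add_distrib (f := fun i => S (Q i \ P i))] at hsum1
  have ht3 : 0 ≤ ∑ i ∈ range n, (S (M \ P i) + S (Q i \ M)) :=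
    Finset.sum_nonneg fun i _ => add_nonneg (hS.nonneg _) (hS.nonneg _)
  have i6 := di_arith hn0 (by positivity) e1 e2 (mul_le_mul_of_nonneg_left e3 hC) ht3
    (hS.nonneg M) hg0 hPQB hmain hsum1 hsum2
  obtain ⟨a1, a2, a3, a4⟩ := hch 0 hn
  have m3 := di_mono hS (a1.trans a2)
  have z4 : M \ X ⊆ sa7_nb X w \ X := fun p hp => by
    rw [Finset.mem_sdiff] at hp ⊢
    exact ⟨a4 (a3 hp.1), hp.2⟩
  have s4 := hpiece _ z4
  have b4 : (bdry (M \ X) : ℝ) ≤ 12 * C * l + 48 * l := by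
    have h1 : (bdry (M \ X) : ℝ) ≤ bdry M + bdry X := by exact_mod_cast di_bdry_sdiff M X
    have h2 : (bdry X : ℝ) ≤ 48 * l := by exact_mod_cast di_bdry_rect hl1 hx hy
    linarith
  have c4 := mul_le_mul_of_nonneg_right b4 hg0
  calc S X ≤ (4 * g * (12 * C * l) + 3 * (432 * W * l) + C * l) +
        ((12 * C * l + 48 * l) * g + 432 * W * l) := by linarith
    _ = l * ((60 * C + 48) * g + 1728 * W + C) := by ring

end step

section final

theorem di_small {C ω c u η : ℝ} (hω : 0 < ω) (hu : 0 < u) (hc : 0 < c) (hη : 0 < η) :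
    ∃ N : ℕ, 2 ≤ N ∧ ∀ l : ℕ, N ≤ l → C * (l : ℝ) ^ (-c) ≤ 1 / 4 ∧ C * (l : ℝ) ^ (-u) ≤ 1 / 4 ∧
      2 * (l : ℝ) ^ (1 - ω) < l ∧
      ((60 * C + 48) * (8 * (Real.log l / Real.log 2)) + 1728) * 2 ^ η * (l : ℝ) ^ (-(η * ω)) ≤
        1 / 2 := by
  have key : ∀ a : ℝ, 0 < a → ∀ K : ℝ, Filter.Tendsto (fun l : ℕ => K * (l : ℝ) ^ (-a))
      Filter.atTop (nhds 0) := by
    intro a ha K
    have h1 := (tendsto_rpow_neg_atTop ha).comp tendsto_natCast_atTop_atTop
    have h2 := h1.const_mul K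
    rw [mul_zero] at h2
    exact h2
  have h1 : ∀ᶠ l : ℕ in Filter.atTop, C * (l : ℝ) ^ (-c) < 1 / 4 :=
    (key c hc C).eventually_lt_const (by norm_num)
  have h2 : ∀ᶠ l : ℕ in Filter.atTop, C * (l : ℝ) ^ (-u) < 1 / 4 :=
    (key u hu C).eventually_lt_const (by norm_num)
  have h3 : ∀ᶠ l : ℕ in Filter.atTop, 2 * (l : ℝ) ^ (-ω) < 1 :=
    (key ω hω 2).eventually_lt_const (by norm_num)
  have hηω : 0 < η * ω := mul_pos hη hω
  have h4 : Filter.Tendsto (fun l : ℕ => Real.log l * (l : ℝ) ^ (-(η * ω)))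
      Filter.atTop (nhds 0) := by
    have h5 : Filter.Tendsto (fun x : ℝ => Real.log x * x ^ (-(η * ω))) Filter.atTop (nhds 0) := by
      have h6 := (isLittleO_log_rpow_atTop hηω).tendsto_div_nhds_zero
      refine h6.congr' ?_
      filter_upwards [Filter.eventually_gt_atTop (0 : ℝ)] with x hx
      rw [Real.rpow_neg hx.le, div_eq_mul_inv]
    exact h5.comp tendsto_natCast_atTop_atTop
  have h7 : Filter.Tendsto (fun l : ℕ => ((60 * C + 48) * (8 * (Real.log l / Real.log 2)) + 1728) *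
      2 ^ η * (l : ℝ) ^ (-(η * ω))) Filter.atTop (nhds 0) := by
    have h8 := (h4.const_mul ((60 * C + 48) * 8 / Real.log 2 * 2 ^ η)).add
      (key (η * ω) hηω (1728 * 2 ^ η))
    rw [mul_zero, add_zero] at h8
    refine h8.congr ?_
    intro l
    ring
  have h9 := h7.eventually_lt_const (show (0 : ℝ) < 1 / 2 by norm_num)
  obtain ⟨N, hN⟩ := Filter.eventually_atTop.1 (h1.and (h2.and (h3.and h9)))
  refine ⟨max N 2, le_max_right _ _, ?_⟩
  intro l hl
  obtain ⟨a1, a2, a3, a4⟩ := hN l ((le_max_left _ _).trans hl)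
  have hl2 : 2 ≤ l := (le_max_right _ _).trans hl
  have hl0 : (0 : ℝ) < l := by
    have : (2 : ℝ) ≤ l := by exact_mod_cast hl2
    linarith
  refine ⟨a1.le, a2.le, ?_, a4.le⟩
  rw [show (1 : ℝ) - ω = 1 + (-ω) by ring, Real.rpow_add hl0, Real.rpow_one]
  have := mul_lt_mul_of_pos_left a3 hl0
  linarith

/-- The doubled inequality gives the area law for boxes up to an arbitrarily small power. -/
theorem near_of_DIS {ω u c C κ : ℝ} {n₀ : ℕ} (hω : 0 < ω) (hω1 : ω < 1) (hu : 0 < u)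
    (hc : 0 < c) (hC : 0 ≤ C) (hκ : 0 ≤ κ) {η : ℝ} (hη : 0 < η) :
    ∃ A : ℝ, 0 ≤ A ∧ ∀ (L : ℕ) (S : Finset (Site L) → ℝ), EntLike S →
      (∀ B, S B ≤ κ * B.card) → DIS S ω u c C n₀ →
      ∀ l x0 x1 y0 y1 : ℕ, 1 ≤ l → x1 ≤ x0 + l → y1 ≤ y0 + l →
        S (rect L x0 x1 y0 y1) ≤ A * (l : ℝ) ^ (1 + η) := by
  obtain ⟨N, hN2, hN⟩ := di_small (C := C) hω hu hc hη
  set N1 := max N n₀ with hN1
  set D : ℝ := (60 * C + 48) * (4 * κ) + C with hD
  have hD0 : 0 ≤ D := by positivity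
  set A : ℝ := κ * N1 + 2 * D with hA
  have hA0 : 0 ≤ A := by positivity
  refine ⟨A, hA0, ?_⟩
  intro L S hS hcard hDI l
  induction l using Nat.strong_induction_on with
  | _ l ih =>
  intro x0 x1 y0 y1 hl1 hx hy
  have hlR : (1 : ℝ) ≤ l := by exact_mod_cast hl1
  have hl0 : (0 : ℝ) < l := by linarith
  have hsp : (l : ℝ) ^ (1 + η) = l * (l : ℝ) ^ η := by
    rw [Real.rpow_add hl0, Real.rpow_one]
  have hlη : 1 ≤ (l : ℝ) ^ η := Real.one_le_rpow hlR hη.le
  by_cases hlN : l < N1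
  · -- small boxes
    have h1 := hcard (rect L x0 x1 y0 y1)
    have h2 : ((rect L x0 x1 y0 y1).card : ℝ) ≤ l * l := by
      exact_mod_cast di_card_rect (L := L) hx hy
    have h3 : (l : ℝ) ≤ N1 := by exact_mod_cast hlN.le
    calc S (rect L x0 x1 y0 y1) ≤ κ * (l * l) := h1.trans (mul_le_mul_of_nonneg_left h2 hκ)
      _ ≤ κ * (N1 * l) := by
          refine mul_le_mul_of_nonneg_left ?_ hκ
          exact mul_le_mul_of_nonneg_right h3 hl0.le
      _ ≤ A * l := by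
          rw [hA]
          have : 0 ≤ 2 * D * l := by positivity
          linarith
      _ ≤ A * (l * (l : ℝ) ^ η) := by
          refine mul_le_mul_of_nonneg_left ?_ hA0
          exact le_mul_of_one_le_right hl0.le hlη
      _ = A * (l : ℝ) ^ (1 + η) := by rw [hsp]
  · have hlN' : N1 ≤ l := not_lt.1 hlN
    obtain ⟨e1, e2, e5, e6⟩ := hN l ((le_max_left _ _).trans hlN')
    have hn0 : n₀ ≤ l := (le_max_right _ _).trans hlN'
    set y : ℝ := (l : ℝ) ^ (1 - ω) with hy'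
    have hy1 : 1 ≤ y := Real.one_le_rpow hlR (by linarith)
    have e4 : y ≤ l := by linarith
    have e3 : (l : ℝ) ^ (1 - c) ≤ l := by
      calc (l : ℝ) ^ (1 - c) ≤ (l : ℝ) ^ (1 : ℝ) := Real.rpow_le_rpow_of_exponent_le hlR (by linarith)
        _ = l := Real.rpow_one _
    set k := Nat.log 2 ⌊y⌋₊ with hk
    have hfl : ⌊y⌋₊ ≠ 0 := by
      have := Nat.le_floor (a := y) (n := 1) (by simpa using hy1)
      omega
    have hk1 : ((2 : ℝ) ^ k) ≤ y := by
      have h1 : 2 ^ k ≤ ⌊y⌋₊ := Nat.pow_log_le_self 2 hfl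
      have h2 : ((2 ^ k : ℕ) : ℝ) ≤ (⌊y⌋₊ : ℝ) := by exact_mod_cast h1
      push_cast at h2
      exact h2.trans (Nat.floor_le (by linarith))
    have hk2 : y ≤ 2 ^ (k + 1) := by
      have h1 : ⌊y⌋₊ < 2 ^ (k + 1) := Nat.lt_pow_succ_log_self (by norm_num) _
      have h2 : (⌊y⌋₊ : ℝ) + 1 ≤ ((2 ^ (k + 1) : ℕ) : ℝ) := by exact_mod_cast h1
      push_cast at h2
      exact (Nat.lt_floor_add_one y).le.trans h2
    have hkl : 2 ^ k ≤ l := by exact_mod_cast hk1.trans e4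
    have hk1l : (2 : ℝ) ^ (k + 1) < l := by
      rw [pow_succ]
      linarith
    have hk1l' : 2 ^ (k + 1) < l := by exact_mod_cast hk1l
    by_cases hkL : 2 ^ k ≤ L
    · set W : ℝ := A * ((2 : ℝ) ^ (k + 1)) ^ η with hW
      have hW0 : 0 ≤ W := by positivity
      have hrect : ∀ l' x0 x1 y0 y1 : ℕ, 1 ≤ l' → l' ≤ 2 ^ (k + 1) → x1 ≤ x0 + l' →
          y1 ≤ y0 + l' → S (rect L x0 x1 y0 y1) ≤ W * l' := by
        intro l' u0 u1 v0 v1 g1 g2 g3 g4
        have h1 := ih l' (lt_of_le_of_lt g2 hk1l') u0 u1 v0 v1 g1 g3 g4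
        have g0 : (0 : ℝ) < l' := by exact_mod_cast g1
        have h2 : (l' : ℝ) ^ (1 + η) ≤ ((2 : ℝ) ^ (k + 1)) ^ η * l' := by
          rw [Real.rpow_add g0, Real.rpow_one, mul_comm]
          refine mul_le_mul_of_nonneg_right ?_ g0.le
          refine Real.rpow_le_rpow g0.le ?_ hη.le
          exact_mod_cast g2
        calc S (rect L u0 u1 v0 v1) ≤ A * (l' : ℝ) ^ (1 + η) := h1
          _ ≤ A * (((2 : ℝ) ^ (k + 1)) ^ η * l') := mul_le_mul_of_nonneg_left h2 hA0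
          _ = W * l' := by rw [hW]; ring
      have hst := di_step hS hκ hcard hC hDI hn0 hl1 hx hy e1 e2 e3 e4 hk2 hkL hkl hW0 hrect
      have hkn : (k : ℝ) ≤ Real.log l / Real.log 2 := by
        have hlog2 : 0 < Real.log 2 := Real.log_pos (by norm_num)
        rw [le_div_iff₀ hlog2]
        have h1 := Real.log_le_log (by positivity) (hk1.trans e4)
        rw [Real.log_pow] at h1
        exact h1
      have hWle : W ≤ A * (2 ^ η * ((l : ℝ) ^ η * (l : ℝ) ^ (-(η * ω)))) := by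
        rw [hW]
        refine mul_le_mul_of_nonneg_left ?_ hA0
        calc ((2 : ℝ) ^ (k + 1)) ^ η ≤ (2 * y) ^ η := by
              refine Real.rpow_le_rpow (by positivity) ?_ hη.le
              rw [pow_succ]
              linarith
          _ = 2 ^ η * y ^ η := Real.mul_rpow (by norm_num) (by linarith)
          _ = 2 ^ η * ((l : ℝ) ^ η * (l : ℝ) ^ (-(η * ω))) := by
              rw [hy', ← Real.rpow_mul hl0.le, ← Real.rpow_add hl0]
              congr 2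
              ring
      set F : ℝ := (60 * C + 48) * (8 * (Real.log l / Real.log 2)) + 1728 with hF
      have hFk : (60 * C + 48) * (8 * k) + 1728 ≤ F := by
        rw [hF]
        have : (60 * C + 48) * (8 * k) ≤ (60 * C + 48) * (8 * (Real.log l / Real.log 2)) :=
          mul_le_mul_of_nonneg_left (by linarith) (by positivity)
        linarith
      have hF0 : 0 ≤ F := le_trans (by positivity) hFk
      have h9 : ((60 * C + 48) * (8 * k) + 1728) * W ≤ A * (l : ℝ) ^ η / 2 := by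
        calc ((60 * C + 48) * (8 * k) + 1728) * W ≤ F * W := mul_le_mul_of_nonneg_right hFk hW0
          _ ≤ F * (A * (2 ^ η * ((l : ℝ) ^ η * (l : ℝ) ^ (-(η * ω))))) :=
              mul_le_mul_of_nonneg_left hWle hF0
          _ = A * (l : ℝ) ^ η * (F * 2 ^ η * (l : ℝ) ^ (-(η * ω))) := by ring
          _ ≤ A * (l : ℝ) ^ η * (1 / 2) :=
              mul_le_mul_of_nonneg_left e6 (by positivity)
          _ = A * (l : ℝ) ^ η / 2 := by ring
      have h10 : D ≤ A * (l : ℝ) ^ η / 2 := by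
        have h11 : A ≤ A * (l : ℝ) ^ η := le_mul_of_one_le_right hA0 hlη
        have h12 : 2 * D ≤ A := by
          rw [hA]
          have : 0 ≤ κ * N1 := by positivity
          linarith
        linarith
      calc S (rect L x0 x1 y0 y1) ≤ l * ((60 * C + 48) * (4 * κ + 8 * W * k) + 1728 * W + C) := hst
        _ = l * (D + ((60 * C + 48) * (8 * k) + 1728) * W) := by rw [hD]; ring
        _ ≤ l * (A * (l : ℝ) ^ η / 2 + A * (l : ℝ) ^ η / 2) :=
            mul_le_mul_of_nonneg_left (add_le_add h10 h9) hl0.le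
        _ = A * (l : ℝ) ^ (1 + η) := by rw [hsp]; ring
    · -- the whole square is smaller than the box
      have hLl : L < l := by omega
      by_cases hL0 : L = 0
      · have e : rect L x0 x1 y0 y1 = ∅ := by
          rw [Finset.eq_empty_iff_forall_notMem]
          intro p _
          have := p.1.isLt
          omega
        rw [e, hS.empty]
        positivity
      · have e : rect L x0 x1 y0 y1 = rect L x0 (min x1 L) y0 (min y1 L) := by
          ext p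
          rw [b8_mem, b8_mem]
          have h1 := p.1.isLt
          have h2 := p.2.isLt
          omega
        rw [e]
        have h1 := ih L hLl x0 (min x1 L) y0 (min y1 L) (by omega) (by omega) (by omega)
        refine h1.trans (mul_le_mul_of_nonneg_left ?_ hA0)
        refine Real.rpow_le_rpow (Nat.cast_nonneg _) ?_ (by linarith)
        exact_mod_cast hLl.le

/-- The doubled inequality gives the area law for all regions up to an arbitrarily small power. -/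
theorem near_region_of_DIS {ω u c C κ : ℝ} {n₀ : ℕ} (hω : 0 < ω) (hω1 : ω < 1) (hu : 0 < u)
    (hc : 0 < c) (hC : 0 ≤ C) (hκ : 0 ≤ κ) {ε : ℝ} (hε : 0 < ε) :
    ∃ A : ℝ, 0 ≤ A ∧ ∀ (L : ℕ) (S : Finset (Site L) → ℝ), EntLike S →
      (∀ B, S B ≤ κ * B.card) → DIS S ω u c C n₀ →
      ∀ B, S B ≤ A * (bdry B : ℝ) ^ (1 + ε) := by
  obtain ⟨A, hA, h⟩ := near_of_DIS (n₀ := n₀) hω hω1 hu hc hC hκ (half_pos hε)
  obtain ⟨C', hC', h'⟩ := region_near A κ (ε / 2) hA hκ (half_pos hε)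
  refine ⟨C', hC', ?_⟩
  intro L S hS hcard hD B
  have := h' L S (di_sub hS) hS.compl hcard (h L S hS hcard hD) B
  rwa [show 1 + 2 * (ε / 2) = 1 + ε by ring] at this

end final

end Vale.Agent.P356.GA
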