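import Vale.Agent.P356.GA.Markov795
import Mathlib.MeasureTheory.Integral.Lebesgue.Basic
import Mathlib.MeasureTheory.Measure.Lebesgue.Basic
import Mathlib.Data.Prod.Lex

/-!
# GA, block NOISE (helper686), part 1: the pointwise inequality for the notches of a cut

`T : V → ℝ` a height function, `out t = {t < T}`, `β ≥ 0` a bump, `Λ ≥ 0`;
`notch t = {x : 0 < T x - t ≤ Λ β x}`.  For every level `t` outside of the range of `T`

`I(notch : out ∖ W | (out ∩ W) ∖ notch) ≤ ∑_{x ∈ notch} DW (T - λ_x β) W x`,  `λ_x = (T x - t) / β x`,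

where `DW T W x = S(x | above x in W) + S(x | below x in W)` for the order of the heights `T`
(ties are broken by a fixed enumeration).
-/

set_option linter.all false

namespace Vale.Agent.P356.GA

open Finset Vale.Agent.P356 Vale.Agent.P356.SA
open scoped BigOperators

section pointwise
variable {V : Type*} [Fintype V] [DecidableEq V]

/-- heights with ties broken by a fixed enumeration -/
noncomputable def lexT (T : V → ℝ) (x : V) : ℝ ×ₗ Fin (Fintype.card V) :=
  toLex (T x, Fintype.equivFin V x)

theorem lexT_injective (T : V → ℝ) : Function.Injective (lexT T) := by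
  intro x y h
  have h1 := congrArg (fun z => (ofLex z).2) h
  exact (Fintype.equivFin V).injective h1

theorem lexT_lt (T : V → ℝ) (x y : V) :
    lexT T x < lexT T y ↔ T x < T y ∨ (T x = T y ∧ Fintype.equivFin V x < Fintype.equivFin V y) := by
  unfold lexT
  rw [Prod.Lex.toLex_lt_toLex]

/-- the two conditional entropies of the site `x` in the window `W` with respect to the heights -/
noncomputable def DW (S : Finset V → ℝ) (T : V → ℝ) (W : Finset V) (x : V) : ℝ :=
  ce S x (below (lexT T) W x) + ce S x (above (lexT T) W x)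

theorem DW_nonneg {S : Finset V → ℝ} (hS : EntLike S) (T : V → ℝ) (W : Finset V) (x : V) :
    0 ≤ DW S T W x :=
  ce_add_nonneg hS (notMem_below _ _ _) (disjoint_below_above _ _ _ _)

theorem DW_anti {S : Finset V → ℝ} (hS : EntLike S) (T : V → ℝ) {W W' : Finset V} (h : W ⊆ W')
    (x : V) : DW S T W' x ≤ DW S T W x :=
  add_le_add (ce_anti hS (filter_subset_filter _ h) (notMem_below _ _ _))
    (ce_anti hS (filter_subset_filter _ h) (notMem_above _ _ _))

/-- superlevel set -/
noncomputable def outT (T : V → ℝ) (t : ℝ) : Finset V := univ.filter fun x => t < T x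

/-- the notch cut by the bump `β` -/
noncomputable def notch (T β : V → ℝ) (Λ t : ℝ) : Finset V :=
  univ.filter fun x => 0 < T x - t ∧ T x - t ≤ Λ * β x

theorem mem_outT {T : V → ℝ} {t : ℝ} {x : V} : x ∈ outT T t ↔ t < T x := by simp [outT]

theorem mem_notch {T β : V → ℝ} {Λ t : ℝ} {x : V} :
    x ∈ notch T β Λ t ↔ 0 < T x - t ∧ T x - t ≤ Λ * β x := by simp [notch]

theorem notch_subset_outT (T β : V → ℝ) (Λ t : ℝ) : notch T β Λ t ⊆ outT T t := by
  intro x hx
  rw [mem_notch] at hx
  rw [mem_outT]
  linarith [hx.1]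

/-- the parameter at which the level passes through `x` -/
noncomputable def lamx (T β : V → ℝ) (t : ℝ) (x : V) : ℝ := (T x - t) / β x

/-- the order in which the notch is filled -/
noncomputable def ordN (T β : V → ℝ) (t : ℝ) (x : V) : ℝ ×ₗ Fin (Fintype.card V) :=
  toLex (-(lamx T β t x), Fin.rev (Fintype.equivFin V x))

theorem ordN_injective (T β : V → ℝ) (t : ℝ) : Function.Injective (ordN T β t) := by
  intro x y h
  have h1 := congrArg (fun z => (ofLex z).2) h
  exact (Fintype.equivFin V).injective (Fin.rev_injective h1)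

theorem ordN_lt (T β : V → ℝ) (t : ℝ) (x y : V) :
    ordN T β t x < ordN T β t y ↔ lamx T β t y < lamx T β t x ∨
      (lamx T β t x = lamx T β t y ∧ Fintype.equivFin V y < Fintype.equivFin V x) := by
  unfold ordN
  rw [Prod.Lex.toLex_lt_toLex, neg_lt_neg_iff, neg_inj, Fin.rev_lt_rev]

/-- the shifted heights -/
noncomputable def shiftT (T β : V → ℝ) (lam : ℝ) (x : V) : ℝ := T x - lam * β x

/-- **Pointwise inequality.** -/
theorem notch_le {S : Finset V → ℝ} (hS : EntLike S) {T β : V → ℝ} (hβ : ∀ x, 0 ≤ β x) {Λ t : ℝ}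
    (hΛ : 0 ≤ Λ) (ht : ∀ x, T x ≠ t) {W : Finset V} (hW : ∀ x, 0 < β x → x ∈ W) :
    cmiE S (notch T β Λ t) (outT T t \ W) ((W ∩ outT T t) \ notch T β Λ t) ≤
      ∑ x ∈ notch T β Λ t, DW S (shiftT T β (lamx T β t x)) W x := by
  have hβpos : ∀ x ∈ notch T β Λ t, 0 < β x := by
    intro x hx
    rw [mem_notch] at hx
    rcases (hβ x).eq_or_lt with h | h
    · rw [← h] at hx; linarith [hx.1, hx.2]
    · exact h
  have hlam : ∀ x ∈ notch T β Λ t, 0 < lamx T β t x ∧ lamx T β t x ≤ Λ ∧
      lamx T β t x * β x = T x - t := by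
    intro x hx
    have hb := hβpos x hx
    rw [mem_notch] at hx
    refine ⟨div_pos hx.1 hb, ?_, ?_⟩
    · rw [lamx, div_le_iff₀ hb]; exact hx.2
    · rw [lamx, div_mul_cancel₀ _ hb.ne']
  -- position of a site `y` with respect to the shifted level
  have hy_out : ∀ x ∈ notch T β Λ t, ∀ y, y ∈ (W ∩ outT T t) \ notch T β Λ t →
      t < shiftT T β (lamx T β t x) y := by
    intro x hx y hy
    rw [mem_sdiff, mem_inter, mem_outT, mem_notch] at hy
    obtain ⟨_, h2, _⟩ := hlam x hx
    have h3 : Λ * β y < T y - t := by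
      by_contra hc
      exact hy.2 ⟨by linarith [hy.1.2], by linarith⟩
    have h4 := mul_le_mul_of_nonneg_right h2 (hβ y)
    unfold shiftT
    linarith
  have hy_in : ∀ x ∈ notch T β Λ t, ∀ y, y ∉ outT T t → shiftT T β (lamx T β t x) y < t := by
    intro x hx y hy
    rw [mem_outT, not_lt] at hy
    have h1 : T y < t := lt_of_le_of_ne hy (ht y)
    have h2 := mul_nonneg (hlam x hx).1.le (hβ y)
    unfold shiftT
    linarith
  have hself : ∀ x ∈ notch T β Λ t, shiftT T β (lamx T β t x) x = t := by
    intro x hx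
    have := (hlam x hx).2.2
    unfold shiftT
    linarith
  have hnot : ∀ x ∈ notch T β Λ t, ∀ y ∈ notch T β Λ t,
      shiftT T β (lamx T β t x) y = t + (lamx T β t y - lamx T β t x) * β y := by
    intro x hx y hy
    have := (hlam y hy).2.2
    unfold shiftT
    linarith
  have hsum : ∑ x ∈ notch T β Λ t, DW S (shiftT T β (lamx T β t x)) W x =
      ∑ x ∈ notch T β Λ t, (ce S x (above (lexT (shiftT T β (lamx T β t x))) W x) +
        ce S x (below (lexT (shiftT T β (lamx T β t x))) W x)) :=
    Finset.sum_congr rfl fun x _ => by rw [DW, add_comm]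
  rw [hsum]
  refine cmi_le (ordN_injective T β t) hS ?_
    (C := fun x => above (lexT (shiftT T β (lamx T β t x))) W x)
    (C' := fun x => below (lexT (shiftT T β (lamx T β t x))) W x) ?_ ?_
  · rw [Finset.disjoint_left]
    intro y h1 h2
    rcases mem_union.1 h2 with h2 | h2
    · exact (mem_sdiff.1 h2).2 h1
    · exact (mem_sdiff.1 h2).2 (hW y (hβpos y h1))
  · intro x hx y hy
    rw [above, mem_filter, lexT_lt, hself x hx] at hy
    obtain ⟨hyW, hy⟩ := hy
    rw [mem_union, below, mem_filter]
    by_cases hn : y ∈ notch T β Λ t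
    · left
      refine ⟨hn, ?_⟩
      rw [ordN_lt]
      have hb := hβpos y hn
      rw [hnot x hx y hn] at hy
      rcases hy with hy | ⟨hy, hi⟩
      · left
        by_contra hc
        push Not at hc
        have := mul_nonpos_of_nonpos_of_nonneg (sub_nonpos.mpr hc) hb.le
        linarith
      · right
        refine ⟨?_, hi⟩
        have : (lamx T β t y - lamx T β t x) * β y = 0 := by linarith
        rcases mul_eq_zero.mp this with h | h
        · linarith
        · exact absurd h hb.ne'
    · right
      rw [mem_sdiff, mem_inter]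
      refine ⟨⟨hyW, ?_⟩, hn⟩
      by_contra hc
      have := hy_in x hx y hc
      rcases hy with hy | ⟨hy, _⟩ <;> linarith
  · intro x hx
    rw [Finset.disjoint_left]
    intro y h1 h2
    rw [below, mem_filter, lexT_lt, hself x hx] at h1
    obtain ⟨hyW, h1⟩ := h1
    rcases mem_insert.1 h2 with rfl | h2
    · rcases h1 with h1 | ⟨_, h1⟩
      · rw [hself y hx] at h1; exact lt_irrefl _ h1
      · exact lt_irrefl _ h1
    rcases mem_union.1 h2 with h2 | h2
    · rw [below, mem_filter, ordN_lt] at h2
      obtain ⟨hn, h2⟩ := h2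
      have hb := hβpos y hn
      rw [hnot x hx y hn] at h1
      rcases h2 with h2 | ⟨h2, hi⟩
      · have := mul_pos (sub_pos.mpr h2) hb
        rcases h1 with h1 | ⟨h1, _⟩ <;> linarith
      · rw [h2, sub_self, zero_mul, add_zero] at h1
        rcases h1 with h1 | ⟨_, h1⟩
        · exact lt_irrefl _ h1
        · exact lt_asymm h1 hi
    · rcases mem_union.1 h2 with h2 | h2
      · have := hy_out x hx y h2
        rcases h1 with h1 | ⟨h1, _⟩ <;> linarith
      · exact (mem_sdiff.1 h2).2 hyW

/-- a smaller core -/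
theorem cmi_core {S : Finset V → ℝ} (hS : EntLike S) {a a0 F N : Finset V} (h0 : a0 ⊆ a)
    (haF : Disjoint a F) (haN : Disjoint a N) (hNF : Disjoint N F) :
    cmiE S a0 F (N ∪ (a \ a0)) ≤ cmiE S a F N := by
  have h := hS.ssa (a \ a0) N F (disjoint_of_subset_left sdiff_subset haN)
    (disjoint_of_subset_left sdiff_subset haF) hNF
  have e1 : a0 ∪ (N ∪ (a \ a0)) = a ∪ N := by
    rw [Finset.union_comm N, ← Finset.union_assoc, union_sdiff_of_subset h0]
  have e2 : a0 ∪ (N ∪ (a \ a0) ∪ F) = a ∪ (N ∪ F) := by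
    rw [Finset.union_comm N, Finset.union_assoc (a \ a0), ← Finset.union_assoc a0,
      union_sdiff_of_subset h0]
  have e3 : a \ a0 ∪ N = N ∪ (a \ a0) := Finset.union_comm _ _
  rw [e3] at h
  unfold cmiE
  rw [e1, e2]
  linarith

end pointwise

end Vale.Agent.P356.GA
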