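import Vale.Agent.P356.GA.PointU228
import Vale.Agent.P356.GA.AbsOp
import Mathlib.Analysis.SpecialFunctions.ContinuousFunctionalCalculus.ExpLog.Order

/-!
# GA, block NOISE (helper677), part a: reduced states with depolarising noise on every site

`nz ε Ω b = ∑_{B ⊆ b} (ε/q)^{|b \ B|} (1-ε)^{|B|} ρ_B`, an operator on the whole system acting
on `b`. Dimension inequalities in both directions and exact marginals.
-/

set_option linter.all false

namespace Vale.Agent.P356.GA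

open Matrix Finset Vale.Agent.P356 Vale.Agent.P356.SV Vale.Agent.P356.Path Vale.Agent.P356.PH
open scoped BigOperators ComplexOrder Kronecker Matrix.Norms.L2Operator MatrixOrder

section order
variable {N : Type*} [Fintype N] [DecidableEq N]

/-- positivity through the quadratic form -/
theorem ns_nonneg_of_form {A : Matrix N N ℂ} (hA : A.IsHermitian)
    (h : ∀ v : N → ℂ, 0 ≤ (star v ⬝ᵥ (A *ᵥ v)).re) : 0 ≤ A := by
  rw [Matrix.nonneg_iff_posSemidef]
  refine Matrix.PosSemidef.of_dotProduct_mulVec_nonneg hA fun v => ?_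
  have h1 : (star v ⬝ᵥ (A *ᵥ v)).im = 0 := by
    have h2 : star (star v ⬝ᵥ (A *ᵥ v)) = star v ⬝ᵥ (A *ᵥ v) := by
      rw [← star_dotProduct, ip_mulVec, hA.eq]
    exact Complex.conj_eq_iff_im.1 h2
  rw [Complex.nonneg_iff]
  exact ⟨h v, h1.symm⟩

theorem ns_le_of_form {A B : Matrix N N ℂ} (hA : A.IsHermitian) (hB : B.IsHermitian)
    (h : ∀ v : N → ℂ, (star v ⬝ᵥ (A *ᵥ v)).re ≤ (star v ⬝ᵥ (B *ᵥ v)).re) : A ≤ B := by
  rw [← sub_nonneg]
  refine ns_nonneg_of_form (hB.sub hA) fun v => ?_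
  rw [Matrix.sub_mulVec, dotProduct_sub, Complex.sub_re]
  linarith [h v]

theorem ns_form_le {A B : Matrix N N ℂ} (h : A ≤ B) (v : N → ℂ) :
    (star v ⬝ᵥ (A *ᵥ v)).re ≤ (star v ⬝ᵥ (B *ᵥ v)).re := by
  have h1 := (Matrix.nonneg_iff_posSemidef.1 (sub_nonneg.2 h)).dotProduct_mulVec_nonneg v
  rw [Matrix.sub_mulVec, dotProduct_sub, Complex.nonneg_iff, Complex.sub_re] at h1
  linarith [h1.1]

end order

section noise
variable {V : Type*} [Fintype V] [DecidableEq V] {q : ℕ}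

/-- the reduced state of a region as an operator on the whole system -/
noncomputable def rh (S : Finset V) (Ω : Conf V q → ℂ) : Op V q := opOn S (rdm S Ω)

theorem rh_eq_PP (S : Finset V) (Ω : Conf V q → ℂ) : rh S Ω = PP S Ω 1 := (PP_one S Ω).symm

theorem rh_acts (S : Finset V) (Ω : Conf V q → ℂ) : ActsOn S (rh S Ω) := ph_acts_opOn S _

theorem rh_nonneg (S : Finset V) (Ω : Conf V q → ℂ) : 0 ≤ rh S Ω := by
  rw [Matrix.nonneg_iff_posSemidef, rh_eq_PP, ← pu_half]
  exact Matrix.posSemidef_conjTranspose_mul_self _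

theorem rh_herm (S : Finset V) (Ω : Conf V q → ℂ) : (rh S Ω).IsHermitian :=
  (Matrix.nonneg_iff_posSemidef.1 (rh_nonneg S Ω)).isHermitian

theorem rh_form (S : Finset V) (Ω v : Conf V q → ℂ) :
    star v ⬝ᵥ (rh S Ω *ᵥ v) = ((nsq (PP S Ω (1 / 2 : ℂ) *ᵥ v) : ℝ) : ℂ) := by
  rw [rh_eq_PP, pu_nsq_half]

/-- the dimension inequality -/
theorem rh_union_le {M a : Finset V} (hd : Disjoint M a) {Ω : Conf V q → ℂ} (hΩ : nsq Ω = 1) :
    rh (M ∪ a) Ω ≤ ((q : ℝ) ^ a.card) • rh M Ω := by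
  refine ns_le_of_form (rh_herm _ _) ?_ fun v => ?_
  · exact (rh_herm M Ω).smul (IsSelfAdjoint.all _)
  · rw [Matrix.smul_mulVec, dotProduct_smul, rh_form, rh_form, Complex.real_smul, ← Complex.ofReal_mul,
      Complex.ofReal_re, Complex.ofReal_re]
    exact pu_op hd hΩ v

theorem rh_insert_le {M : Finset V} {x : V} (hx : x ∉ M) {Ω : Conf V q → ℂ} (hΩ : nsq Ω = 1) :
    rh (insert x M) Ω ≤ (q : ℝ) • rh M Ω := by
  have h := rh_union_le (M := M) (a := {x}) (Finset.disjoint_singleton_right.2 hx) hΩ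
  rwa [Finset.card_singleton, pow_one, Finset.union_comm, ← Finset.insert_eq] at h

theorem rh_empty {Ω : Conf V q → ℂ} (hΩ : nsq Ω = 1) : rh (∅ : Finset V) Ω = 1 := by
  have h1 : rdm (∅ : Finset V) Ω = 1 := by
    ext a a'
    have e : a' = a := by
      funext x
      exact absurd x.2 (Finset.notMem_empty _)
    subst e
    rw [Matrix.one_apply_eq]
    have h2 : ((nsq Ω : ℝ) : ℂ) = 1 := by rw [hΩ]; simp
    rw [← h2, nsq]
    push_cast
    unfold rdm
    have h3 : ∀ b : {x // x ∉ (∅ : Finset V)} → Fin q,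
        Ω ((Equiv.piEquivPiSubtypeProd (fun x => x ∈ (∅ : Finset V)) (fun _ => Fin q)).symm (a', b)) *
        star (Ω ((Equiv.piEquivPiSubtypeProd (fun x => x ∈ (∅ : Finset V)) (fun _ => Fin q)).symm
          (a', b))) = ((‖Ω ((Equiv.piEquivPiSubtypeProd (fun x => x ∈ (∅ : Finset V))
            (fun _ => Fin q)).symm (a', b))‖ : ℝ) : ℂ) ^ 2 := by
      intro b
      rw [RCLike.star_def, Complex.mul_conj']
    simp only [h3]
    set e := Equiv.piEquivPiSubtypeProd (fun x => x ∈ (∅ : Finset V)) (fun _ => Fin q) with he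
    rw [← Equiv.sum_comp e.symm (fun s => ((‖Ω s‖ : ℝ) : ℂ) ^ 2), Fintype.sum_prod_type]
    rw [Fintype.sum_eq_single a']
    intro b hb
    exfalso
    apply hb
    funext x
    exact absurd x.2 (Finset.notMem_empty _)
  rw [rh, h1, opOn_one]

theorem eigp_le_one {α β : Type*} [Fintype α] [Fintype β] [DecidableEq α] [DecidableEq β]
    (x : α × β → ℂ) (hx : nsq x = 1) (i : α) : eigp x i ≤ 1 := by
  have h1 : ∑ j, eigp x j = 1 := eigp_sum x hx
  rw [← h1]
  exact Finset.single_le_sum (f := fun j => eigp x j) (fun j _ => eigp_nonneg x j) (Finset.mem_univ i)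

theorem rh_le_one (S : Finset V) {Ω : Conf V q → ℂ} (hΩ : nsq Ω = 1) : rh S Ω ≤ 1 := by
  refine ns_le_of_form (rh_herm _ _) Matrix.isHermitian_one fun v => ?_
  rw [Matrix.one_mulVec, rh_form, Complex.ofReal_re, nsq_eq, Complex.ofReal_re]
  refine nsq_le_norm _ _ ?_
  refine cr_norm S Ω _ zero_le_one fun i => ?_
  have hx : nsq (Ω ∘ (cut S q).symm) = 1 := by
    rw [← hΩ, nsq, nsq]
    exact Equiv.sum_comp (cut S q).symm (fun s => ‖Ω s‖ ^ 2)
  have h0 := eigp_nonneg (Ω ∘ (cut S q).symm) i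
  have h1 := eigp_le_one (Ω ∘ (cut S q).symm) hx i
  rw [pw]
  split_ifs with h
  · simp
  · rw [Complex.norm_exp]
    have h2 : ((1 / 2 : ℂ) * (Real.log (eigp (Ω ∘ (cut S q).symm) i) : ℂ)).re =
        1 / 2 * Real.log (eigp (Ω ∘ (cut S q).symm) i) := by
      simp [Complex.mul_re]
    rw [h2, Real.exp_le_one_iff]
    have h3 := Real.log_nonpos h0 h1
    linarith

/-- weights -/
noncomputable def nzw (q : ℕ) (ε : ℝ) (b B : Finset V) : ℝ :=
  (ε / q) ^ (b.card - B.card) * (1 - ε) ^ B.card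

/-- The reduced state of `b` with depolarising noise of strength `ε` on every site. -/
noncomputable def nz (ε : ℝ) (Ω : Conf V q → ℂ) (b : Finset V) : Op V q :=
  ∑ B ∈ b.powerset, (nzw q ε b B : ℝ) • rh B Ω

/-- auxiliary sum -/
noncomputable def nzx (ε : ℝ) (Ω : Conf V q → ℂ) (x : V) (b : Finset V) : Op V q :=
  ∑ B ∈ b.powerset, (nzw q ε b B : ℝ) • rh (insert x B) Ω

theorem nz_insert (ε : ℝ) (Ω : Conf V q → ℂ) {b : Finset V} {x : V} (hx : x ∉ b) :
    nz ε Ω (insert x b) = (ε / q : ℝ) • nz ε Ω b + (1 - ε : ℝ) • nzx ε Ω x b := by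
  rw [nz, Finset.sum_powerset_insert hx, nz, nzx, Finset.smul_sum, Finset.smul_sum]
  congr 1
  · refine Finset.sum_congr rfl fun B hB => ?_
    have hc := Finset.card_le_card (Finset.mem_powerset.1 hB)
    rw [smul_smul, nzw, nzw, Finset.card_insert_of_notMem hx,
      show b.card + 1 - B.card = (b.card - B.card) + 1 by omega, pow_succ]
    congr 1
    ring
  · refine Finset.sum_congr rfl fun B hB => ?_
    have hxB : x ∉ B := fun h => hx (Finset.mem_powerset.1 hB h)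
    rw [smul_smul, nzw, nzw, Finset.card_insert_of_notMem hx, Finset.card_insert_of_notMem hxB,
      show b.card + 1 - (B.card + 1) = b.card - B.card by omega, pow_succ]
    congr 1
    ring

theorem nzw_nonneg {ε : ℝ} (h0 : 0 ≤ ε) (h1 : ε ≤ 1) (b B : Finset V) : 0 ≤ nzw q ε b B := by
  have : 0 ≤ 1 - ε := by linarith
  unfold nzw
  positivity

theorem nz_nonneg {ε : ℝ} (h0 : 0 ≤ ε) (h1 : ε ≤ 1) (Ω : Conf V q → ℂ) (b : Finset V) :
    0 ≤ nz ε Ω b :=
  Finset.sum_nonneg fun B _ => smul_nonneg (nzw_nonneg h0 h1 b B) (rh_nonneg B Ω)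

theorem nzx_nonneg {ε : ℝ} (h0 : 0 ≤ ε) (h1 : ε ≤ 1) (Ω : Conf V q → ℂ) (x : V) (b : Finset V) :
    0 ≤ nzx ε Ω x b :=
  Finset.sum_nonneg fun B _ => smul_nonneg (nzw_nonneg h0 h1 b B) (rh_nonneg _ Ω)

theorem nz_herm {ε : ℝ} (h0 : 0 ≤ ε) (h1 : ε ≤ 1) (Ω : Conf V q → ℂ) (b : Finset V) :
    (nz ε Ω b).IsHermitian :=
  (Matrix.nonneg_iff_posSemidef.1 (nz_nonneg h0 h1 Ω b)).isHermitian

theorem nz_acts (ε : ℝ) (Ω : Conf V q → ℂ) (b : Finset V) : ActsOn b (nz ε Ω b) :=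
  ph_acts_sum _ fun B hB => ph_acts_rsmul _ (ph_acts_mono (Finset.mem_powerset.1 hB) (rh_acts B Ω))

theorem nzx_le {ε : ℝ} (h0 : 0 ≤ ε) (h1 : ε ≤ 1) {Ω : Conf V q → ℂ} (hΩ : nsq Ω = 1) {x : V}
    {b : Finset V} (hx : x ∉ b) : nzx ε Ω x b ≤ (q : ℝ) • nz ε Ω b := by
  rw [nz, nzx, Finset.smul_sum]
  refine Finset.sum_le_sum fun B hB => ?_
  rw [smul_comm]
  exact smul_le_smul_of_nonneg_left (rh_insert_le (fun h => hx (Finset.mem_powerset.1 hB h)) hΩ)
    (nzw_nonneg h0 h1 b B)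

theorem q_pos_of_unit {Ω : Conf V q → ℂ} (hΩ : nsq Ω = 1) {x : V} : 1 ≤ q := by
  rcases Nat.eq_zero_or_pos q with h | h
  · subst h
    haveI : IsEmpty (Conf V 0) := ⟨fun s => (s x).elim0⟩
    rw [nsq, Finset.univ_eq_empty, Finset.sum_empty] at hΩ
    exact absurd hΩ zero_ne_one
  · exact h

theorem nz_insert_le {ε : ℝ} (h0 : 0 ≤ ε) (h1 : ε ≤ 1) {Ω : Conf V q → ℂ} (hΩ : nsq Ω = 1) {x : V}
    {b : Finset V} (hx : x ∉ b) : nz ε Ω (insert x b) ≤ (q : ℝ) • nz ε Ω b := by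
  have hq := q_pos_of_unit hΩ (x := x)
  have hq' : (1 : ℝ) ≤ q := by exact_mod_cast hq
  rw [nz_insert ε Ω hx]
  have e1 : 0 ≤ 1 - ε := by linarith
  calc (ε / q : ℝ) • nz ε Ω b + (1 - ε : ℝ) • nzx ε Ω x b
      ≤ (ε / q : ℝ) • nz ε Ω b + (1 - ε : ℝ) • ((q : ℝ) • nz ε Ω b) := by
        gcongr
        exact nzx_le h0 h1 hΩ hx
    _ = (ε / q + (1 - ε) * q : ℝ) • nz ε Ω b := by rw [smul_smul, ← add_smul]
    _ ≤ (q : ℝ) • nz ε Ω b := by
        refine smul_le_smul_of_nonneg_right ?_ (nz_nonneg h0 h1 Ω b)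
        have : ε / q ≤ ε * q := by
          rw [div_le_iff₀ (by linarith), mul_assoc]
          have h2 : (1 : ℝ) ≤ (q : ℝ) * q := by nlinarith
          nlinarith [mul_le_mul_of_nonneg_left h2 h0]
        nlinarith

theorem nz_insert_ge {ε : ℝ} (h0 : 0 ≤ ε) (h1 : ε ≤ 1) (Ω : Conf V q → ℂ) {x : V}
    {b : Finset V} (hx : x ∉ b) : (ε / q : ℝ) • nz ε Ω b ≤ nz ε Ω (insert x b) := by
  rw [nz_insert ε Ω hx]
  exact le_add_of_nonneg_right (smul_nonneg (by linarith) (nzx_nonneg h0 h1 Ω x b))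

/-- upper dimension inequality -/
theorem nz_union_le {ε : ℝ} (h0 : 0 ≤ ε) (h1 : ε ≤ 1) {Ω : Conf V q → ℂ} (hΩ : nsq Ω = 1)
    {M a : Finset V} (hd : Disjoint M a) :
    nz ε Ω (M ∪ a) ≤ ((q : ℝ) ^ a.card) • nz ε Ω M := by
  induction a using Finset.induction_on with
  | empty => simp
  | insert x a hxa ih =>
    have hxM : x ∉ M := fun h => Finset.disjoint_left.1 hd h (Finset.mem_insert_self x a)
    have hd' : Disjoint M a := Finset.disjoint_of_subset_right (Finset.subset_insert x a) hd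
    have hx : x ∉ M ∪ a := by simp [hxM, hxa]
    rw [Finset.union_insert, Finset.card_insert_of_notMem hxa, pow_succ', mul_smul]
    exact (nz_insert_le h0 h1 hΩ hx).trans (smul_le_smul_of_nonneg_left (ih hd') (by positivity))

/-- lower dimension inequality -/
theorem nz_union_ge {ε : ℝ} (h0 : 0 ≤ ε) (h1 : ε ≤ 1) (Ω : Conf V q → ℂ)
    {M a : Finset V} (hd : Disjoint M a) :
    ((ε / q : ℝ) ^ a.card) • nz ε Ω M ≤ nz ε Ω (M ∪ a) := by
  induction a using Finset.induction_on with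
  | empty => simp
  | insert x a hxa ih =>
    have hxM : x ∉ M := fun h => Finset.disjoint_left.1 hd h (Finset.mem_insert_self x a)
    have hd' : Disjoint M a := Finset.disjoint_of_subset_right (Finset.subset_insert x a) hd
    have hx : x ∉ M ∪ a := by simp [hxM, hxa]
    rw [Finset.union_insert, Finset.card_insert_of_notMem hxa, pow_succ', mul_smul]
    exact (smul_le_smul_of_nonneg_left (ih hd') (by positivity)).trans (nz_insert_ge h0 h1 Ω hx)

theorem nz_empty (ε : ℝ) {Ω : Conf V q → ℂ} (hΩ : nsq Ω = 1) : nz ε Ω (∅ : Finset V) = 1 := by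
  rw [nz, Finset.powerset_empty, Finset.sum_singleton, rh_empty hΩ, nzw]
  simp

/-- strict positivity -/
theorem nz_ge_const {ε : ℝ} (h0 : 0 ≤ ε) (h1 : ε ≤ 1) {Ω : Conf V q → ℂ} (hΩ : nsq Ω = 1)
    (b : Finset V) : ((ε / q : ℝ) ^ b.card) • (1 : Op V q) ≤ nz ε Ω b := by
  have h := nz_union_ge h0 h1 Ω (Finset.disjoint_empty_left b)
  rwa [nz_empty ε hΩ, Finset.empty_union] at h

theorem nzw_sum (ε : ℝ) (b : Finset V) : ∑ B ∈ b.powerset, nzw q ε b B = (1 - ε + ε / q) ^ b.card := by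
  rw [← Finset.sum_pow_mul_eq_add_pow]
  refine Finset.sum_congr rfl fun B _ => ?_
  rw [nzw, mul_comm]

theorem nz_le_one {ε : ℝ} (h0 : 0 ≤ ε) (h1 : ε ≤ 1) {Ω : Conf V q → ℂ} (hΩ : nsq Ω = 1)
    (b : Finset V) : nz ε Ω b ≤ 1 := by
  rcases b.eq_empty_or_nonempty with rfl | ⟨x, hx⟩
  · rw [nz_empty ε hΩ]
  have hq' : (1 : ℝ) ≤ q := by exact_mod_cast q_pos_of_unit hΩ (x := x)
  calc nz ε Ω b ≤ ∑ B ∈ b.powerset, (nzw q ε b B : ℝ) • (1 : Op V q) :=
        Finset.sum_le_sum fun B _ => smul_le_smul_of_nonneg_left (rh_le_one B hΩ)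
          (nzw_nonneg h0 h1 b B)
    _ = ((1 - ε + ε / q) ^ b.card : ℝ) • (1 : Op V q) := by rw [← Finset.sum_smul, nzw_sum]
    _ ≤ (1 : ℝ) • (1 : Op V q) := by
        refine smul_le_smul_of_nonneg_right ?_ zero_le_one
        have h2 : ε / q ≤ ε := div_le_self h0 hq'
        have h3 : 0 ≤ ε / q := by positivity
        exact pow_le_one₀ (by linarith) (by linarith)
    _ = 1 := one_smul _ _

/-- the noisy state dominates the state -/
theorem rh_le_nz {ε : ℝ} (h0 : 0 ≤ ε) (h1 : ε ≤ 1) (Ω : Conf V q → ℂ) (b : Finset V) :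
    ((1 - ε) ^ b.card : ℝ) • rh b Ω ≤ nz ε Ω b := by
  rw [nz]
  have h := Finset.single_le_sum (f := fun B => (nzw q ε b B : ℝ) • rh B Ω)
    (s := b.powerset) (fun B _ => smul_nonneg (nzw_nonneg h0 h1 b B) (rh_nonneg B Ω))
    (Finset.mem_powerset_self b)
  refine le_trans (le_of_eq ?_) h
  simp [nzw]

/-- marginals of reduced states -/
theorem rh_trace_insert {Ω : Conf V q → ℂ} (hΩ : nsq Ω = 1) {t : Finset V} {x : V} (hx : x ∉ t)
    {X : Op V q} (hX : ActsOn (Finset.univ.erase x) X) :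
    (q : ℂ) * (rh (insert x t) Ω * X).trace = (rh t Ω * X).trace := by
  have hM : t ⊆ Finset.univ.erase x := fun y hy =>
    Finset.mem_erase.2 ⟨fun h => hx (h ▸ hy), Finset.mem_univ y⟩
  have hd : Disjoint (insert x t) (Finset.univ.erase x \ t) := by
    rw [Finset.disjoint_left]
    intro y hy hy'
    rw [Finset.mem_sdiff, Finset.mem_erase] at hy'
    rcases Finset.mem_insert.1 hy with h | h
    · exact hy'.1.1 h
    · exact hy'.2 h
  have h := trace_marg (N := insert x t) (N2 := t) (M := Finset.univ.erase x)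
    (Finset.subset_insert x t) hM hd Ω hX
  obtain ⟨n, hn, hn'⟩ := dO_pos hΩ (insert x t)
  have e1 : dO q t = (q : ℂ) * dO q (insert x t) := by
    rw [dO_eq, dO_eq, Finset.card_insert_of_notMem hx, ← pow_succ']
    congr 1
    have h7 : (insert x t).card ≤ Fintype.card V := Finset.card_le_univ _
    rw [Finset.card_insert_of_notMem hx] at h7
    omega
  have hne : dO q (insert x t) ≠ 0 := by
    rw [hn']
    exact_mod_cast hn.ne'
  rw [e1] at h
  refine mul_right_cancel₀ hne ?_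
  rw [rh, rh, ← h]
  ring

theorem nz_trace_insert (ε : ℝ) {Ω : Conf V q → ℂ} (hΩ : nsq Ω = 1) {b : Finset V} {x : V}
    (hx : x ∉ b) {X : Op V q} (hX : ActsOn (Finset.univ.erase x) X) :
    (q : ℂ) * (nz ε Ω (insert x b) * X).trace = (nz ε Ω b * X).trace := by
  have hq := q_pos_of_unit hΩ (x := x)
  have hq0 : (q : ℂ) ≠ 0 := by
    have : q ≠ 0 := by omega
    exact_mod_cast this
  have h1 : (q : ℂ) * (nzx ε Ω x b * X).trace = (nz ε Ω b * X).trace := by
    rw [nzx, nz, Finset.sum_mul, Finset.sum_mul, Matrix.trace_sum, Matrix.trace_sum, Finset.mul_sum]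
    refine Finset.sum_congr rfl fun B hB => ?_
    have hxB : x ∉ B := fun h => hx (Finset.mem_powerset.1 hB h)
    rw [smul_mul_assoc, smul_mul_assoc, Matrix.trace_smul, Matrix.trace_smul,
      ← rh_trace_insert hΩ hxB hX, Complex.real_smul, Complex.real_smul]
    ring
  rw [nz_insert ε Ω hx, Matrix.add_mul, smul_mul_assoc, smul_mul_assoc, Matrix.trace_add,
    Matrix.trace_smul, Matrix.trace_smul, Complex.real_smul, Complex.real_smul]
  push_cast
  have h2 : (q : ℂ) * (((ε : ℂ) / q) * (nz ε Ω b * X).trace) = ε * (nz ε Ω b * X).trace := by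
    field_simp
  linear_combination h2 + (1 - (ε : ℂ)) * h1

/-- **marginals of the noisy states** -/
theorem nz_trace_union (ε : ℝ) {Ω : Conf V q → ℂ} (hΩ : nsq Ω = 1) {M a : Finset V}
    (hd : Disjoint M a) {X : Op V q} (hX : ActsOn aᶜ X) :
    (q : ℂ) ^ a.card * (nz ε Ω (M ∪ a) * X).trace = (nz ε Ω M * X).trace := by
  induction a using Finset.induction_on with
  | empty => simp
  | insert x a hxa ih =>
    have hxM : x ∉ M := fun h => Finset.disjoint_left.1 hd h (Finset.mem_insert_self x a)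
    have hd' : Disjoint M a := Finset.disjoint_of_subset_right (Finset.subset_insert x a) hd
    have hx : x ∉ M ∪ a := by simp [hxM, hxa]
    have hX1 : ActsOn aᶜ X := ph_acts_mono (Finset.compl_subset_compl.2
      (Finset.subset_insert x a)) hX
    have hX2 : ActsOn (Finset.univ.erase x) X := by
      refine ph_acts_mono ?_ hX
      intro y hy
      rw [Finset.mem_compl, Finset.mem_insert, not_or] at hy
      exact Finset.mem_erase.2 ⟨hy.1, Finset.mem_univ y⟩
    rw [Finset.union_insert, Finset.card_insert_of_notMem hxa, pow_succ, mul_assoc,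
      nz_trace_insert ε hΩ hx hX2]
    exact ih hd' hX1

/-- total trace -/
theorem nz_trace (ε : ℝ) {Ω : Conf V q → ℂ} (hΩ : nsq Ω = 1) (b : Finset V) :
    (nz ε Ω b).trace = dO q b := by
  have h := nz_trace_union ε hΩ (M := ∅) (a := b) (Finset.disjoint_empty_left b) (X := 1)
    (ph_acts_one _)
  rw [Finset.empty_union, Matrix.mul_one, Matrix.mul_one, nz_empty ε hΩ] at h
  have h1 : (1 : Op V q).trace = (q : ℂ) ^ (Fintype.card V) := by
    rw [Matrix.trace_one, Fintype.card_fun, Fintype.card_fin]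
    push_cast
    rfl
  obtain ⟨n, hn, hn'⟩ := dO_pos hΩ (Finset.univ : Finset V)
  rw [h1] at h
  have h2 : (q : ℂ) ^ (Fintype.card V) = (q : ℂ) ^ b.card * dO q b := by
    rw [dO_eq, ← pow_add]
    congr 1
    have h7 : b.card ≤ Fintype.card V := Finset.card_le_univ _
    omega
  rw [h2] at h
  rcases b.eq_empty_or_nonempty with rfl | ⟨x, hx⟩
  · simpa using h
  · have hq0 : (q : ℂ) ≠ 0 := by
      have := q_pos_of_unit hΩ (x := x)
      have : q ≠ 0 := by omega
      exact_mod_cast this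
    exact mul_left_cancel₀ (pow_ne_zero _ hq0) h

end noise

end Vale.Agent.P356.GA
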