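import Vale.Agent.P356.GA.Noise686
import Mathlib.MeasureTheory.Measure.Lebesgue.Basic
import Mathlib.MeasureTheory.Integral.Lebesgue.Basic
import Mathlib.MeasureTheory.Integral.Pi
import Mathlib.MeasureTheory.Group.FundamentalDomain
import Mathlib.MeasureTheory.Measure.Haar.OfBasis
import Mathlib.MeasureTheory.Measure.Haar.Unique
import Mathlib.MeasureTheory.Integral.ExpDecay
import Mathlib.MeasureTheory.Integral.IntegralEqImproper
import Mathlib.Analysis.SpecialFunctions.ImproperIntegrals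

/-!
# GA, block NOISE (helper686), part 2: the average over the noise
-/

set_option linter.all false

namespace Vale.Agent.P356.GA

open Finset MeasureTheory Vale.Agent.P356 Vale.Agent.P356.SA
open scoped BigOperators ENNReal

section meas
variable {V : Type*} [Fintype V] [DecidableEq V] {Om : Type*} [MeasurableSpace Om]

theorem meas_finset {f : Om → Finset V} (h : ∀ y, MeasurableSet {w | y ∈ f w}) :
    @Measurable Om (Finset V) _ ⊤ f := by
  letI : MeasurableSpace (Finset V) := ⊤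
  haveI : DiscreteMeasurableSpace (Finset V) := ⟨fun _ => trivial⟩
  refine measurable_to_countable' fun C => ?_
  have e : f ⁻¹' {C} = ⋂ y : V, {w | y ∈ f w ↔ y ∈ C} := by
    ext w
    simp only [Set.mem_preimage, Set.mem_singleton_iff, Set.mem_iInter, Set.mem_setOf_eq]
    exact Finset.ext_iff
  rw [e]
  refine MeasurableSet.iInter fun y => ?_
  by_cases hy : y ∈ C
  · have e1 : {w | y ∈ f w ↔ y ∈ C} = {w | y ∈ f w} := by ext w; simp [hy]
    rw [e1]; exact h y
  · have e1 : {w | y ∈ f w ↔ y ∈ C} = {w | y ∈ f w}ᶜ := by ext w; simp [hy]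
    rw [e1]; exact (h y).compl

theorem meas_lexlt {T : Om → V → ℝ} (hT : ∀ x, Measurable fun w => T w x) (x y : V) :
    MeasurableSet {w | lexT (T w) x < lexT (T w) y} := by
  simp only [lexT_lt]
  by_cases h : Fintype.equivFin V x < Fintype.equivFin V y
  · simp only [h, and_true]
    exact (measurableSet_lt (hT x) (hT y)).union (measurableSet_eq_fun (hT x) (hT y))
  · simp only [h, and_false, or_false]
    exact measurableSet_lt (hT x) (hT y)

theorem meas_DW (S : Finset V → ℝ) {T : Om → V → ℝ} (hT : ∀ x, Measurable fun w => T w x)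
    (W : Finset V) (x : V) : Measurable fun w => DW S (T w) W x := by
  have h1 : @Measurable Om (Finset V) _ ⊤ (fun w => below (lexT (T w)) W x) := by
    refine meas_finset fun y => ?_
    by_cases hy : y ∈ W
    · simpa [below, hy] using meas_lexlt hT y x
    · simp [below, hy]
  have h2 : @Measurable Om (Finset V) _ ⊤ (fun w => above (lexT (T w)) W x) := by
    refine meas_finset fun y => ?_
    by_cases hy : y ∈ W
    · simpa [above, hy] using meas_lexlt hT x y
    · simp [above, hy]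
  have h3 : @Measurable (Finset V) ℝ ⊤ _ (fun C => ce S x C) := fun _ _ => trivial
  exact (h3.comp h1).add (h3.comp h2)

end meas

section scale

theorem lint_scale {c : ℝ} (hc : 0 < c) {f : ℝ → ℝ≥0∞} (hf : Measurable f) :
    ∫⁻ u, f (u / c) = ENNReal.ofReal c * ∫⁻ u, f u := by
  have h := Real.map_volume_mul_left (a := c⁻¹) (inv_ne_zero hc.ne')
  have h1 : ∫⁻ u, f u ∂(Measure.map (fun x => c⁻¹ * x) volume) =
      ENNReal.ofReal c * ∫⁻ u, f u := by
    rw [h, lintegral_smul_measure, inv_inv, abs_of_pos hc]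
    rfl
  rw [lintegral_map hf (measurable_const_mul _)] at h1
  rw [← h1]
  refine lintegral_congr fun u => ?_
  rw [div_eq_inv_mul]

end scale

section notch
variable {V : Type*} [Fintype V] [DecidableEq V]

theorem notch_integral (T β : V → ℝ) (hβ : ∀ x, 0 ≤ β x) {Λ : ℝ} (G : V → ℝ → ℝ≥0∞)
    (hG : ∀ x, Measurable (G x)) :
    ∫⁻ t, ∑ x ∈ notch T β Λ t, G x (lamx T β t x) =
      ∑ x, ENNReal.ofReal (β x) * ∫⁻ lam in Set.Ioc 0 Λ, G x lam := by
  classical
  have h1 : ∀ t, ∑ x ∈ notch T β Λ t, G x (lamx T β t x) =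
      ∑ x, (if 0 < T x - t ∧ T x - t ≤ Λ * β x then G x ((T x - t) / β x) else 0) := by
    intro t
    rw [notch, Finset.sum_filter]
    rfl
  simp only [h1]
  have hmeas : ∀ x, Measurable fun u : ℝ =>
      (if 0 < u ∧ u ≤ Λ * β x then G x (u / β x) else 0) := by
    intro x
    refine Measurable.ite ?_ ((hG x).comp (measurable_id.div_const _)) measurable_const
    exact (measurableSet_lt measurable_const measurable_id).inter
      (measurableSet_le measurable_id measurable_const)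
  have hmeas' : ∀ x, Measurable fun t : ℝ =>
      (if 0 < T x - t ∧ T x - t ≤ Λ * β x then G x ((T x - t) / β x) else 0) := fun x =>
    (hmeas x).comp (measurable_const.sub measurable_id)
  rw [lintegral_finset_sum _ (fun x _ => hmeas' x)]
  refine Finset.sum_congr rfl fun x _ => ?_
  have h2 : ∫⁻ t, (if 0 < T x - t ∧ T x - t ≤ Λ * β x then G x ((T x - t) / β x) else 0) =
      ∫⁻ u, (if 0 < u ∧ u ≤ Λ * β x then G x (u / β x) else 0) :=
    lintegral_sub_left_eq_self (fun u => (if 0 < u ∧ u ≤ Λ * β x then G x (u / β x) else 0)) (T x)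
  rw [h2]
  rcases (hβ x).eq_or_lt with h | h
  · rw [← h]
    simp only [mul_zero, ENNReal.ofReal_zero, zero_mul]
    have : ∀ u : ℝ, (if 0 < u ∧ u ≤ 0 then G x (u / 0) else 0) = 0 := by
      intro u
      rw [if_neg]
      rintro ⟨h1, h2⟩
      linarith
    simp only [this, lintegral_zero]
  · have h3 : ∀ u : ℝ, (if 0 < u ∧ u ≤ Λ * β x then G x (u / β x) else 0) =
        (fun v => (Set.Ioc 0 Λ).indicator (G x) v) (u / β x) := by
      intro u
      simp only [Set.indicator, Set.mem_Ioc]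
      refine if_congr ?_ rfl rfl
      rw [div_le_iff₀ h, lt_div_iff₀ h, zero_mul]
    simp only [h3]
    rw [lint_scale h ((hG x).indicator measurableSet_Ioc), lintegral_indicator measurableSet_Ioc]

end notch

section law
variable {Bm : Type*} [Fintype Bm] [DecidableEq Bm]

/-- the exponential density -/
noncomputable def pE (u : ℝ) : ℝ := if 0 ≤ u then Real.exp (-u) else 0

/-- the joint density of independent exponential variables -/
noncomputable def PE (ξ : Bm → ℝ) : ℝ := ∏ b, pE (ξ b)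

theorem pE_nonneg (u : ℝ) : 0 ≤ pE u := by
  unfold pE; split_ifs <;> positivity

theorem PE_nonneg (ξ : Bm → ℝ) : 0 ≤ PE ξ := Finset.prod_nonneg fun b _ => pE_nonneg _

theorem meas_pE : Measurable pE :=
  Measurable.ite (measurableSet_le measurable_const measurable_id)
    (Real.measurable_exp.comp measurable_neg) measurable_const

theorem meas_PE : Measurable (PE : (Bm → ℝ) → ℝ) :=
  Finset.measurable_prod _ fun b _ => meas_pE.comp (measurable_pi_apply b)

theorem pE_shift {u lam : ℝ} (hl : 0 ≤ lam) : pE (u - lam) ≤ Real.exp lam * pE u := by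
  unfold pE
  split_ifs with h1 h2 h2
  · rw [← Real.exp_add]; exact Real.exp_le_exp.mpr (by linarith)
  · exact absurd (by linarith) h2
  · positivity
  · simp

/-- the shift of one coordinate -/
def sh (b : Bm) (lam : ℝ) : Bm → ℝ := Pi.single b lam

theorem sh_same (b : Bm) (lam : ℝ) : sh b lam b = lam := Pi.single_eq_same _ _

theorem sh_ne {b x : Bm} (h : x ≠ b) (lam : ℝ) : sh b lam x = 0 := Pi.single_eq_of_ne h _

theorem PE_shift (ξ : Bm → ℝ) (b : Bm) {lam : ℝ} (hl : 0 ≤ lam) :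
    PE (ξ - sh b lam) ≤ Real.exp lam * PE ξ := by
  unfold PE
  rw [← Finset.mul_prod_erase _ _ (Finset.mem_univ b),
    ← Finset.mul_prod_erase _ (fun b => pE (ξ b)) (Finset.mem_univ b), ← mul_assoc]
  have h1 : ∏ x ∈ univ.erase b, pE ((ξ - sh b lam) x) = ∏ x ∈ univ.erase b, pE (ξ x) := by
    refine Finset.prod_congr rfl fun x hx => ?_
    rw [Pi.sub_apply, sh_ne (Finset.ne_of_mem_erase hx), sub_zero]
  rw [h1, Pi.sub_apply, sh_same]
  exact mul_le_mul_of_nonneg_right (pE_shift hl) (Finset.prod_nonneg fun _ _ => pE_nonneg _)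

/-- quasi-invariance under a positive shift of one coordinate -/
theorem lint_shift (b : Bm) {lam : ℝ} (hl : 0 ≤ lam) (f : (Bm → ℝ) → ℝ≥0∞) :
    ∫⁻ ξ, ENNReal.ofReal (PE ξ) * f (ξ + sh b lam) ≤
      ENNReal.ofReal (Real.exp lam) * ∫⁻ ξ, ENNReal.ofReal (PE ξ) * f ξ := by
  have h1 : ∫⁻ ξ, ENNReal.ofReal (PE ξ) * f (ξ + sh b lam) =
      ∫⁻ ξ, ENNReal.ofReal (PE (ξ - sh b lam)) * f ξ := by
    rw [← lintegral_add_right_eq_self
      (fun ξ => ENNReal.ofReal (PE (ξ - sh b lam)) * f ξ) (sh b lam)]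
    refine lintegral_congr fun ξ => ?_
    rw [add_sub_cancel_right]
  rw [h1, ← lintegral_const_mul' _ _ ENNReal.ofReal_ne_top]
  refine lintegral_mono fun ξ => ?_
  rw [← mul_assoc, ← ENNReal.ofReal_mul (Real.exp_nonneg _)]
  exact mul_le_mul_left (ENNReal.ofReal_le_ofReal (PE_shift ξ b hl)) _

theorem integral_pE_gt {R : ℝ} (hR : 0 ≤ R) :
    ∫ u, (if R ≤ u then pE u else 0) = Real.exp (-R) := by
  have h1 : (fun u => if R ≤ u then pE u else 0) =
      (Set.Ici R).indicator (fun u => Real.exp (-u)) := by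
    funext u
    by_cases h : R ≤ u
    · rw [if_pos h, Set.indicator_of_mem (Set.mem_Ici.mpr h), pE, if_pos (hR.trans h)]
    · rw [if_neg h, Set.indicator_of_notMem (by simpa using h)]
  rw [h1, integral_indicator measurableSet_Ici, integral_Ici_eq_integral_Ioi,
    integral_exp_neg_Ioi]

theorem integral_pE : ∫ u, pE u = 1 := by
  have h := integral_pE_gt (le_refl 0)
  rw [neg_zero, Real.exp_zero] at h
  rw [← h]
  refine integral_congr_ae (Filter.Eventually.of_forall fun u => ?_)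
  by_cases h : 0 ≤ u
  · simp [h]
  · simp [h, pE]

theorem integral_PE : ∫ ξ : Bm → ℝ, PE ξ = 1 := by
  have h := integral_fintype_prod_volume_eq_prod (ι := Bm) (fun _ : Bm => pE)
  unfold PE
  rw [h]
  simp [integral_pE]

theorem lint_PE : ∫⁻ ξ : Bm → ℝ, ENNReal.ofReal (PE ξ) = 1 := by
  have hint : Integrable (PE : (Bm → ℝ) → ℝ) := by
    by_contra hc
    have := integral_undef hc
    rw [integral_PE] at this
    exact one_ne_zero this
  rw [← ofReal_integral_eq_lintegral_ofReal hint (Filter.Eventually.of_forall PE_nonneg),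
    integral_PE, ENNReal.ofReal_one]

end law

section main
variable {V : Type*} [Fintype V] [DecidableEq V] {Bm : Type*} [Fintype Bm] [DecidableEq Bm]

/-- the noisy heights -/
noncomputable def hgt (d : V → ℝ) (β : Bm → V → ℝ) (ξ : Bm → ℝ) (x : V) : ℝ :=
  d x - ∑ b, ξ b * β b x

theorem hgt_shift (d : V → ℝ) (β : Bm → V → ℝ) (ξ : Bm → ℝ) (b : Bm) (lam : ℝ) :
    shiftT (hgt d β ξ) (β b) lam = hgt d β (ξ + sh b lam) := by
  funext x
  unfold shiftT hgt
  have h : ∑ c, (ξ + sh b lam) c * β c x = ∑ c, ξ c * β c x + lam * β b x := by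
    simp only [Pi.add_apply, add_mul, Finset.sum_add_distrib]
    congr 1
    rw [Finset.sum_eq_single b (fun c _ hc => by rw [sh_ne hc, zero_mul])
      (fun h => absurd (Finset.mem_univ b) h), sh_same]
  rw [h]
  ring

theorem meas_hgt (d : V → ℝ) (β : Bm → V → ℝ) (x : V) : Measurable fun ξ => hgt d β ξ x :=
  measurable_const.sub (Finset.measurable_sum _ fun b _ =>
    (measurable_pi_apply b).mul_const _)

theorem meas_sh (b : Bm) : Measurable fun lam : ℝ => (sh b lam : Bm → ℝ) := by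
  refine measurable_pi_lambda _ fun c => ?_
  by_cases h : c = b
  · subst h
    simpa only [sh_same] using measurable_id'
  · simpa only [sh_ne h] using measurable_const

/-- the mean of the two conditional entropies of `x` in the window `W` -/
noncomputable def EDW (S : Finset V → ℝ) (d : V → ℝ) (β : Bm → V → ℝ) (W : Finset V) (x : V) :
    ℝ≥0∞ := ∫⁻ ξ : Bm → ℝ, ENNReal.ofReal (PE ξ) * ENNReal.ofReal (DW S (hgt d β ξ) W x)

/-- the conditional mutual information of the notch, for the noise `ξ` and the level `t` -/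
noncomputable def cmiN (S : Finset V → ℝ) (d : V → ℝ) (β : Bm → V → ℝ) (Λ : ℝ) (b : Bm)
    (W : Finset V) (ξ : Bm → ℝ) (t : ℝ) : ℝ :=
  cmiE S (notch (hgt d β ξ) (β b) Λ t) (outT (hgt d β ξ) t \ W)
    ((W ∩ outT (hgt d β ξ) t) \ notch (hgt d β ξ) (β b) Λ t)

/-- **One bump.** -/
theorem noise_one {S : Finset V → ℝ} (hS : EntLike S) (d : V → ℝ) (β : Bm → V → ℝ)
    (hβ : ∀ b x, 0 ≤ β b x) {Λ : ℝ} (hΛ : 0 ≤ Λ) (b : Bm) {W : Finset V}
    (hW : ∀ x, 0 < β b x → x ∈ W) :
    ∫⁻ ξ : Bm → ℝ, ENNReal.ofReal (PE ξ) * ∫⁻ t, ENNReal.ofReal (cmiN S d β Λ b W ξ t) ≤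
      ENNReal.ofReal (Λ * Real.exp Λ) * ∑ x, ENNReal.ofReal (β b x) * EDW S d β W x := by
  -- the pointwise inequality, for almost every level
  have h1 : ∀ ξ : Bm → ℝ, ∫⁻ t, ENNReal.ofReal (cmiN S d β Λ b W ξ t) ≤
      ∑ x, ENNReal.ofReal (β b x) * ∫⁻ lam in Set.Ioc 0 Λ,
        ENNReal.ofReal (DW S (hgt d β (ξ + sh b lam)) W x) := by
    intro ξ
    have hG : ∀ x, Measurable fun lam : ℝ =>
        ENNReal.ofReal (DW S (shiftT (hgt d β ξ) (β b) lam) W x) := by
      intro x
      refine ENNReal.measurable_ofReal.comp (meas_DW S (fun y => ?_) W x)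
      unfold shiftT
      exact measurable_const.sub (measurable_id.mul_const _)
    have h2 := notch_integral (hgt d β ξ) (β b) (hβ b) (Λ := Λ)
      (fun x lam => ENNReal.ofReal (DW S (shiftT (hgt d β ξ) (β b) lam) W x)) hG
    simp only [hgt_shift] at h2
    rw [← h2]
    refine lintegral_mono_ae ?_
    have h3 : ∀ᵐ t : ℝ, t ∉ Set.range (hgt d β ξ) := by
      rw [ae_iff]
      simp only [not_not]
      exact (Set.finite_range (hgt d β ξ)).measure_zero volume
    filter_upwards [h3] with t ht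
    have h4 := notch_le hS (T := hgt d β ξ) (hβ b) (t := t) hΛ
      (fun x hx => ht ⟨x, hx⟩) hW
    have h5 := ENNReal.ofReal_le_ofReal h4
    rw [ENNReal.ofReal_sum_of_nonneg (fun x _ => DW_nonneg hS _ _ _)] at h5
    simp only [hgt_shift] at h5
    exact h5
  -- joint measurability
  have hF : ∀ x, Measurable fun z : (Bm → ℝ) × ℝ =>
      ENNReal.ofReal (PE z.1) * ENNReal.ofReal (DW S (hgt d β (z.1 + sh b z.2)) W x) := by
    intro x
    refine (ENNReal.measurable_ofReal.comp (meas_PE.comp measurable_fst)).mul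
      (ENNReal.measurable_ofReal.comp (meas_DW S (fun y => ?_) W x))
    exact (meas_hgt d β y).comp (measurable_fst.add ((meas_sh b).comp measurable_snd))
  have hF1 : ∀ x, Measurable fun ξ : Bm → ℝ => ∫⁻ lam in Set.Ioc 0 Λ,
      ENNReal.ofReal (PE ξ) * ENNReal.ofReal (DW S (hgt d β (ξ + sh b lam)) W x) := by
    intro x
    exact Measurable.lintegral_prod_right' (hF x)
  calc ∫⁻ ξ : Bm → ℝ, ENNReal.ofReal (PE ξ) * ∫⁻ t, ENNReal.ofReal (cmiN S d β Λ b W ξ t)
      ≤ ∫⁻ ξ : Bm → ℝ, ENNReal.ofReal (PE ξ) * ∑ x, ENNReal.ofReal (β b x) *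
          ∫⁻ lam in Set.Ioc 0 Λ, ENNReal.ofReal (DW S (hgt d β (ξ + sh b lam)) W x) :=
        lintegral_mono fun ξ => mul_le_mul_right (h1 ξ) _
    _ = ∫⁻ ξ : Bm → ℝ, ∑ x, ENNReal.ofReal (β b x) * ∫⁻ lam in Set.Ioc 0 Λ,
          ENNReal.ofReal (PE ξ) * ENNReal.ofReal (DW S (hgt d β (ξ + sh b lam)) W x) := by
        refine lintegral_congr fun ξ => ?_
        rw [Finset.mul_sum]
        refine Finset.sum_congr rfl fun x _ => ?_
        rw [lintegral_const_mul' _ _ ENNReal.ofReal_ne_top]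
        ring
    _ = ∑ x, ENNReal.ofReal (β b x) * ∫⁻ ξ : Bm → ℝ, ∫⁻ lam in Set.Ioc 0 Λ,
          ENNReal.ofReal (PE ξ) * ENNReal.ofReal (DW S (hgt d β (ξ + sh b lam)) W x) := by
        rw [lintegral_finset_sum _ fun x _ => (hF1 x).const_mul _]
        refine Finset.sum_congr rfl fun x _ => ?_
        rw [lintegral_const_mul' _ _ ENNReal.ofReal_ne_top]
    _ ≤ ∑ x, ENNReal.ofReal (β b x) * (ENNReal.ofReal (Λ * Real.exp Λ) * EDW S d β W x) := by
        refine Finset.sum_le_sum fun x _ => mul_le_mul_right ?_ _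
        rw [lintegral_lintegral_swap (hF x).aemeasurable]
        calc ∫⁻ lam in Set.Ioc 0 Λ, ∫⁻ ξ : Bm → ℝ,
              ENNReal.ofReal (PE ξ) * ENNReal.ofReal (DW S (hgt d β (ξ + sh b lam)) W x)
            ≤ ∫⁻ lam in Set.Ioc 0 Λ, ENNReal.ofReal (Real.exp Λ) * EDW S d β W x := by
              refine setLIntegral_mono' measurableSet_Ioc fun lam hlam => ?_
              refine (lint_shift b hlam.1.le
                (fun ξ => ENNReal.ofReal (DW S (hgt d β ξ) W x))).trans ?_
              exact mul_le_mul_left (ENNReal.ofReal_le_ofReal (Real.exp_le_exp.mpr hlam.2)) _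
          _ = ENNReal.ofReal (Λ * Real.exp Λ) * EDW S d β W x := by
              rw [setLIntegral_const, Real.volume_Ioc, sub_zero, ENNReal.ofReal_mul hΛ]
              ring
    _ = _ := by
        rw [Finset.mul_sum]
        exact Finset.sum_congr rfl fun x _ => by ring

/-- **All bumps.** The tiles `tl j`, `j ∈ s`, are disjoint and contain the supports of the bumps;
the windows of the bumps contain the tiles of the sites of their supports. -/
theorem noise_sum {S : Finset V → ℝ} (hS : EntLike S) (d : V → ℝ) (β : Bm → V → ℝ)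
    (hβ : ∀ b x, 0 ≤ β b x) {Λ : ℝ} (hΛ : 0 ≤ Λ) {W : Bm → Finset V}
    (hW : ∀ b x, 0 < β b x → x ∈ W b) {J : Type*} (s : Finset J) (tl : J → Finset V)
    (hd : ∀ i ∈ s, ∀ j ∈ s, i ≠ j → Disjoint (tl i) (tl j))
    (hcov : ∀ b x, 0 < β b x → ∃ j ∈ s, x ∈ tl j)
    (hsub : ∀ b x, 0 < β b x → ∀ j ∈ s, x ∈ tl j → tl j ⊆ W b)
    {h : ℝ} (hh0 : 0 ≤ h) (hh : ∀ x, ∑ b, β b x ≤ h) :
    ∑ b, ∫⁻ ξ : Bm → ℝ, ENNReal.ofReal (PE ξ) *
        ∫⁻ t, ENNReal.ofReal (cmiN S d β Λ b (W b) ξ t) ≤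
      ENNReal.ofReal (Λ * Real.exp Λ * (h * (2 * ∑ j ∈ s, S (tl j)))) := by
  classical
  -- the tile of a site
  set B : V → Finset V := fun x => (s.filter fun j => x ∈ tl j).biUnion tl with hB
  have hBt : ∀ j ∈ s, ∀ x ∈ tl j, B x = tl j := by
    intro j hj x hx
    have : (s.filter fun i => x ∈ tl i) = {j} := by
      ext i
      rw [Finset.mem_filter, Finset.mem_singleton]
      constructor
      · rintro ⟨hi, hxi⟩
        by_contra hne
        exact Finset.disjoint_left.1 (hd i hi j hj hne) hxi hx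
      · rintro rfl
        exact ⟨hj, hx⟩
    rw [hB]
    simp only [this, Finset.singleton_biUnion]
  have hmono : ∀ b x, 0 < β b x → EDW S d β (W b) x ≤ EDW S d β (B x) x := by
    intro b x hbx
    obtain ⟨j, hj, hxj⟩ := hcov b x hbx
    rw [hBt j hj x hxj]
    refine lintegral_mono fun ξ => mul_le_mul_right (ENNReal.ofReal_le_ofReal ?_) _
    exact DW_anti hS _ (hsub b x hbx j hj hxj) x
  calc ∑ b, ∫⁻ ξ : Bm → ℝ, ENNReal.ofReal (PE ξ) *
        ∫⁻ t, ENNReal.ofReal (cmiN S d β Λ b (W b) ξ t)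
      ≤ ∑ b, ENNReal.ofReal (Λ * Real.exp Λ) * ∑ x, ENNReal.ofReal (β b x) *
          EDW S d β (W b) x :=
        Finset.sum_le_sum fun b _ => noise_one hS d β hβ hΛ b (hW b)
    _ ≤ ∑ b, ENNReal.ofReal (Λ * Real.exp Λ) * ∑ x ∈ s.biUnion tl, ENNReal.ofReal (β b x) *
          EDW S d β (B x) x := by
        refine Finset.sum_le_sum fun b _ => mul_le_mul_right ?_ _
        rw [← Finset.sum_subset (Finset.subset_univ (s.biUnion tl))]
        · refine Finset.sum_le_sum fun x _ => ?_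
          rcases (hβ b x).eq_or_lt with h0 | h0
          · rw [← h0]; simp
          · exact mul_le_mul_right (hmono b x h0) _
        · intro x _ hx
          rcases (hβ b x).eq_or_lt with h0 | h0
          · rw [← h0]; simp
          · obtain ⟨j, hj, hxj⟩ := hcov b x h0
            exact absurd (Finset.mem_biUnion.2 ⟨j, hj, hxj⟩) hx
    _ = ENNReal.ofReal (Λ * Real.exp Λ) * ∑ x ∈ s.biUnion tl,
          (∑ b, ENNReal.ofReal (β b x)) * EDW S d β (B x) x := by
        rw [← Finset.mul_sum, Finset.sum_comm]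
        simp only [Finset.sum_mul]
    _ ≤ ENNReal.ofReal (Λ * Real.exp Λ) * ∑ x ∈ s.biUnion tl,
          ENNReal.ofReal h * EDW S d β (B x) x := by
        refine mul_le_mul_right (Finset.sum_le_sum fun x _ => mul_le_mul_left ?_ _) _
        rw [← ENNReal.ofReal_sum_of_nonneg fun b _ => hβ b x]
        exact ENNReal.ofReal_le_ofReal (hh x)
    _ = ENNReal.ofReal (Λ * Real.exp Λ) * (ENNReal.ofReal h * ∫⁻ ξ : Bm → ℝ,
          ENNReal.ofReal (PE ξ) * ENNReal.ofReal (∑ x ∈ s.biUnion tl,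
            DW S (hgt d β ξ) (B x) x)) := by
        rw [← Finset.mul_sum]
        congr 2
        unfold EDW
        rw [← lintegral_finset_sum]
        · refine lintegral_congr fun ξ => ?_
          rw [← Finset.mul_sum, ENNReal.ofReal_sum_of_nonneg fun x _ => DW_nonneg hS _ _ _]
        · intro x _
          exact (ENNReal.measurable_ofReal.comp meas_PE).mul
            (ENNReal.measurable_ofReal.comp (meas_DW S (meas_hgt d β) (B x) x))
    _ ≤ ENNReal.ofReal (Λ * Real.exp Λ) * (ENNReal.ofReal h * ∫⁻ ξ : Bm → ℝ,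
          ENNReal.ofReal (PE ξ) * ENNReal.ofReal (2 * ∑ j ∈ s, S (tl j))) := by
        refine mul_le_mul_right (mul_le_mul_right (lintegral_mono fun ξ =>
          mul_le_mul_right (ENNReal.ofReal_le_ofReal ?_) _) _) _
        exact tiles_le (lexT_injective (hgt d β ξ)) hS s tl hd
          (fun i hi x hx => by rw [hBt i hi x hx])
    _ = _ := by
        rw [lintegral_mul_const' _ _ ENNReal.ofReal_ne_top, lint_PE, one_mul,
          ← ENNReal.ofReal_mul hh0, ← ENNReal.ofReal_mul (by positivity)]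

end main

section select
variable {Bm : Type*} [Fintype Bm] [DecidableEq Bm]

/-- integral over the offset of the sum over the integer levels -/
theorem lint_levels {g : ℝ → ℝ≥0∞} (hg : Measurable g) (K : Finset ℤ) :
    ∫⁻ t0 in Set.Ioc 0 1, ∑ k ∈ K, g (t0 + k) ≤ ∫⁻ t, g t := by
  have h1 : ∀ k : ℤ, ∫⁻ t0 in Set.Ioc 0 1, g (t0 + k) = ∫⁻ t in Set.Ioc (k : ℝ) (k + 1), g t := by
    intro k
    rw [← lintegral_indicator measurableSet_Ioc, ← lintegral_indicator measurableSet_Ioc,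
      ← lintegral_add_right_eq_self ((Set.Ioc (k : ℝ) (k + 1)).indicator g) (k : ℝ)]
    refine lintegral_congr fun t => ?_
    by_cases h : t ∈ Set.Ioc (0 : ℝ) 1
    · rw [Set.indicator_of_mem h, Set.indicator_of_mem]
      exact ⟨by linarith [h.1], by linarith [h.2]⟩
    · rw [Set.indicator_of_notMem h, Set.indicator_of_notMem]
      intro h'
      exact h ⟨by linarith [h'.1], by linarith [h'.2]⟩
  have hm : ∀ k : ℤ, Measurable fun t0 : ℝ => g (t0 + k) := fun k =>
    hg.comp (measurable_id.add_const _)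
  rw [lintegral_finset_sum _ fun k _ => hm k]
  simp only [h1]
  rw [← lintegral_biUnion_finset]
  · exact setLIntegral_le_lintegral _ _
  · intro i _ j _ hij
    refine Set.disjoint_left.2 fun t h h' => hij ?_
    have h2 : (i : ℝ) < j + 1 := lt_of_lt_of_le h.1 h'.2
    have h3 : (j : ℝ) < i + 1 := lt_of_lt_of_le h'.1 h.2
    have h4 : i < j + 1 := by exact_mod_cast h2
    have h5 : j < i + 1 := by exact_mod_cast h3
    omega
  · exact fun _ _ => measurableSet_Ioc

theorem integral_pE_le {R : ℝ} (hR : 0 ≤ R) :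
    ∫ u, (if 0 ≤ u ∧ u ≤ R then pE u else 0) = 1 - Real.exp (-R) := by
  have hint : Integrable pE := by
    by_contra hc
    have := integral_undef hc
    rw [integral_pE] at this
    exact one_ne_zero this
  have h1 : (fun u => if 0 ≤ u ∧ u ≤ R then pE u else 0) =ᵐ[volume]
      (fun u => pE u - (if R ≤ u then pE u else 0)) := by
    have h2 : ∀ᵐ u : ℝ, u ≠ R := by
      rw [ae_iff]
      simp
    filter_upwards [h2] with u hu
    by_cases h3 : 0 ≤ u
    · by_cases h4 : u ≤ R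
      · have h5 : ¬ R ≤ u := fun h => hu (le_antisymm h4 h)
        simp [h3, h4, h5]
      · have h5 : R ≤ u := le_of_lt (not_le.mp h4)
        simp [h4, h5]
    · have h5 : ¬ R ≤ u := fun h => h3 (hR.trans h)
      simp [h3, h5, pE]
  rw [integral_congr_ae h1, integral_sub hint, integral_pE, integral_pE_gt hR]
  have h3 : (fun u => if R ≤ u then pE u else 0) = (Set.Ici R).indicator pE := by
    funext u
    simp [Set.indicator]
  rw [h3]
  exact hint.indicator measurableSet_Ici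

theorem lint_good {R : ℝ} (hR : 0 ≤ R) :
    ENNReal.ofReal (1 - Fintype.card Bm * Real.exp (-R)) ≤
      ∫⁻ ξ in {ξ : Bm → ℝ | ∀ b, 0 ≤ ξ b ∧ ξ b ≤ R}, ENNReal.ofReal (PE ξ) := by
  classical
  have hset : MeasurableSet {ξ : Bm → ℝ | ∀ b, 0 ≤ ξ b ∧ ξ b ≤ R} := by
    have : {ξ : Bm → ℝ | ∀ b, 0 ≤ ξ b ∧ ξ b ≤ R} =
        ⋂ b : Bm, {ξ | 0 ≤ ξ b ∧ ξ b ≤ R} := by ext ξ; simp
    rw [this]
    exact MeasurableSet.iInter fun b => (measurableSet_le measurable_const
      (measurable_pi_apply b)).inter (measurableSet_le (measurable_pi_apply b) measurable_const)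
  have he1 : Real.exp (-R) ≤ 1 := by rw [Real.exp_le_one_iff]; linarith
  set Q : (Bm → ℝ) → ℝ := fun ξ => ∏ b, (if 0 ≤ ξ b ∧ ξ b ≤ R then pE (ξ b) else 0) with hQ
  have hQ0 : ∀ ξ, 0 ≤ Q ξ := fun ξ => Finset.prod_nonneg fun b _ => by
    split_ifs
    · exact pE_nonneg _
    · exact le_rfl
  have h1 : ∫ ξ, Q ξ = (1 - Real.exp (-R)) ^ Fintype.card Bm := by
    have h := integral_fintype_prod_volume_eq_prod (ι := Bm)
      (fun _ : Bm => fun u : ℝ => (if 0 ≤ u ∧ u ≤ R then pE u else 0))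
    rw [hQ]
    rw [h]
    simp only [integral_pE_le hR, Finset.prod_const, Finset.card_univ]
  have h2 : 1 - Fintype.card Bm * Real.exp (-R) ≤ (1 - Real.exp (-R)) ^ Fintype.card Bm := by
    have := one_add_mul_le_pow (a := -Real.exp (-R)) (by linarith) (Fintype.card Bm)
    calc 1 - Fintype.card Bm * Real.exp (-R) = 1 + Fintype.card Bm * (-Real.exp (-R)) := by ring
      _ ≤ (1 + -Real.exp (-R)) ^ Fintype.card Bm := this
      _ = _ := by rw [← sub_eq_add_neg]
  have h3 : ENNReal.ofReal (∫ ξ, Q ξ) ≤ ∫⁻ ξ, ENNReal.ofReal (Q ξ) := by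
    by_cases hint : Integrable Q
    · rw [ofReal_integral_eq_lintegral_ofReal hint (Filter.Eventually.of_forall hQ0)]
    · rw [integral_undef hint]; simp
  have h4 : ∫⁻ ξ, ENNReal.ofReal (Q ξ) =
      ∫⁻ ξ in {ξ : Bm → ℝ | ∀ b, 0 ≤ ξ b ∧ ξ b ≤ R}, ENNReal.ofReal (PE ξ) := by
    rw [← lintegral_indicator hset]
    refine lintegral_congr fun ξ => ?_
    by_cases h : ∀ b, 0 ≤ ξ b ∧ ξ b ≤ R
    · rw [Set.indicator_of_mem (by exact h), hQ]
      simp only
      congr 1
      unfold PE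
      exact Finset.prod_congr rfl fun b _ => if_pos (h b)
    · rw [Set.indicator_of_notMem (by exact h)]
      push Not at h
      obtain ⟨b, hb⟩ := h
      rw [hQ]
      simp only
      rw [Finset.prod_eq_zero (Finset.mem_univ b), ENNReal.ofReal_zero]
      exact if_neg (fun h => absurd (hb h.1) (not_lt.mpr h.2))
  rw [← h4]
  refine le_trans ?_ h3
  rw [h1]
  exact ENNReal.ofReal_le_ofReal h2

/-- **Selection of the noise and of the offset.** -/
theorem noise_select {Φ : (Bm → ℝ) → ℝ → ℝ≥0∞} {M : ℝ} (hM : 0 < M)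
    (h : ∫⁻ ξ : Bm → ℝ, ENNReal.ofReal (PE ξ) * ∫⁻ t0 in Set.Ioc 0 1, Φ ξ t0 ≤ ENNReal.ofReal M)
    {R : ℝ} (hR : 0 ≤ R) (hR1 : Fintype.card Bm * Real.exp (-R) ≤ 1 / 2)
    {Q : (Bm → ℝ) → ℝ → Prop} (hQ : ∀ ξ, ∀ᵐ t0 : ℝ, Q ξ t0) :
    ∃ (ξ : Bm → ℝ) (t0 : ℝ), (∀ b, 0 ≤ ξ b ∧ ξ b ≤ R) ∧ 0 < t0 ∧ t0 ≤ 1 ∧ Q ξ t0 ∧
      Φ ξ t0 ≤ ENNReal.ofReal (4 * M) := by
  by_contra hc
  push Not at hc
  have h1 : ∀ ξ : Bm → ℝ, (∀ b, 0 ≤ ξ b ∧ ξ b ≤ R) →
      ENNReal.ofReal (4 * M) ≤ ∫⁻ t0 in Set.Ioc 0 1, Φ ξ t0 := by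
    intro ξ hξ
    have h2 : ∫⁻ t0 in Set.Ioc (0 : ℝ) 1, ENNReal.ofReal (4 * M) ≤
        ∫⁻ t0 in Set.Ioc 0 1, Φ ξ t0 := by
      refine lintegral_mono_ae ?_
      rw [ae_restrict_iff' measurableSet_Ioc]
      filter_upwards [hQ ξ] with t0 ht hmem
      exact (hc ξ t0 hξ hmem.1 hmem.2 ht).le
    rwa [setLIntegral_const, Real.volume_Ioc, sub_zero, ENNReal.ofReal_one, mul_one] at h2
  have h3 := lint_good (Bm := Bm) hR
  have h4 : ENNReal.ofReal (1 / 2) * ENNReal.ofReal (4 * M) ≤ ENNReal.ofReal M := by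
    calc ENNReal.ofReal (1 / 2) * ENNReal.ofReal (4 * M)
        ≤ (∫⁻ ξ in {ξ : Bm → ℝ | ∀ b, 0 ≤ ξ b ∧ ξ b ≤ R}, ENNReal.ofReal (PE ξ)) *
            ENNReal.ofReal (4 * M) :=
          mul_le_mul_left ((ENNReal.ofReal_le_ofReal (by linarith)).trans h3) _
      _ = ∫⁻ ξ in {ξ : Bm → ℝ | ∀ b, 0 ≤ ξ b ∧ ξ b ≤ R}, ENNReal.ofReal (PE ξ) *
            ENNReal.ofReal (4 * M) := by
          rw [lintegral_mul_const' _ _ ENNReal.ofReal_ne_top]
      _ ≤ ∫⁻ ξ in {ξ : Bm → ℝ | ∀ b, 0 ≤ ξ b ∧ ξ b ≤ R}, ENNReal.ofReal (PE ξ) *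
            ∫⁻ t0 in Set.Ioc 0 1, Φ ξ t0 := by
          have hset : MeasurableSet {ξ : Bm → ℝ | ∀ b, 0 ≤ ξ b ∧ ξ b ≤ R} := by
            have : {ξ : Bm → ℝ | ∀ b, 0 ≤ ξ b ∧ ξ b ≤ R} =
                ⋂ b : Bm, {ξ | 0 ≤ ξ b ∧ ξ b ≤ R} := by ext ξ; simp
            rw [this]
            exact MeasurableSet.iInter fun b => (measurableSet_le measurable_const
              (measurable_pi_apply b)).inter
                (measurableSet_le (measurable_pi_apply b) measurable_const)
          refine setLIntegral_mono' hset fun ξ hξ => mul_le_mul_right (h1 ξ hξ) _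
      _ ≤ ∫⁻ ξ : Bm → ℝ, ENNReal.ofReal (PE ξ) * ∫⁻ t0 in Set.Ioc 0 1, Φ ξ t0 :=
          setLIntegral_le_lintegral _ _
      _ ≤ _ := h
  rw [← ENNReal.ofReal_mul (by norm_num), ENNReal.ofReal_le_ofReal_iff hM.le] at h4
  linarith

end select

end Vale.Agent.P356.GA
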