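import Vale.Agent.P356.GA.PointU228
import Vale.Agent.P356.GA.Taylor107

/-!
# GA, block NORM-MARKOV (helper295): the Markov lemma in norm (note 12679 (1) of helper841)

`N M` regions, `K_S = - log psi_S` on the whole system (`KK S ψ`).

`norm_markov` : `‖(K_{N ∪ M} - K_M + K_{N ∩ M} - K_N) ψ‖² <= 270 sqrt((1 + |N \ M| log q)³ I)`,
where `I = cmi N M ψ` is the conditional mutual information of `N \ M` and `M \ N` given `N ∩ M`.
-/

set_option linter.all false

namespace Vale.Agent.P356.GA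

open Matrix Finset Vale.Agent.P356 Vale.Agent.P356.SV Vale.Agent.P356.PH Vale.Agent.P356.Path
open scoped BigOperators ComplexOrder Matrix.Norms.L2Operator

section ana
variable {φ : ℂ → ℂ} {K : ℝ}

/-- the second derivative at the origin -/
theorem second_le (hφ : Differentiable ℂ φ)
    (hb : ∀ z : ℂ, 0 ≤ z.re → z.re ≤ 1 / 2 → ‖φ z‖ ≤ 1) {L : ℝ} (hL : 0 ≤ L)
    (hl : ∀ z : ℂ, -(1 / 2) ≤ z.re → z.re ≤ 0 → ‖φ z‖ ≤ Real.exp (-(2 * L * z.re)))
    (h1 : φ 0 = 1) (hd : deriv φ 0 = ((-K : ℝ) : ℂ)) :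
    (iteratedDeriv 2 φ 0).re ≤ 30 * Real.sqrt ((1 + L) ^ 3 * K) := by
  set B : ℝ := 1 + L with hB
  have hB1 : 1 ≤ B := by linarith
  set r : ℝ := 1 / (2 * B) with hr'
  have hr0 : 0 < r := by positivity
  have hrh : r ≤ 1 / 2 := by
    rw [hr']
    exact one_div_le_one_div_of_le (by norm_num) (by linarith)
  have hrB : 2 * r * L ≤ 1 := by
    rw [hr']
    have : 2 * (1 / (2 * B)) * L = L / B := by field_simp
    rw [this, div_le_one (by linarith)]
    linarith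
  have he : Real.exp 1 ≤ 2.72 := by
    have := Real.exp_one_lt_d9
    linarith
  have hM : ∀ z : ℂ, ‖z‖ ≤ r → ‖φ z‖ ≤ 2.72 := by
    intro z hz
    have hz1 : |z.re| ≤ r := (Complex.abs_re_le_norm z).trans hz
    rw [abs_le] at hz1
    rcases le_total 0 z.re with h | h
    · exact (hb z h (by linarith)).trans (by norm_num)
    · refine (hl z (by linarith) h).trans (le_trans (Real.exp_le_exp.2 ?_) he)
      have h2 : -(2 * L * z.re) ≤ 2 * r * L := by
        have : (-z.re) * L ≤ r * L :=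
          mul_le_mul_of_nonneg_right (by linarith) hL
        linarith
      linarith
  have hd0 : iteratedDeriv 0 φ 0 = 1 := by rw [iteratedDeriv_zero, h1]
  have hd1 : iteratedDeriv 1 φ 0 = ((-K : ℝ) : ℂ) := by rw [iteratedDeriv_one, hd]
  set P : ℂ := iteratedDeriv 2 φ 0 with hP
  have hT : ∀ x : ℝ, 0 < x → x ≤ r / 2 → P.re ≤ 2 * K / x + 10.88 * x / r ^ 3 := by
    intro x hx hxr
    have hnx : ‖(x : ℂ)‖ = x := by rw [Complex.norm_real, Real.norm_of_nonneg hx.le]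
    have h := taylor_rem hφ hr0 hM 3 (ζ := (x : ℂ)) (by rw [hnx]; exact hxr)
    rw [Finset.sum_range_succ, Finset.sum_range_succ, Finset.sum_range_succ, Finset.sum_range_zero,
      hd0, hd1, ← hP, hnx] at h
    have h2 := (Complex.abs_re_le_norm _).trans h
    have h3 : ‖φ (x : ℂ)‖ ≤ 1 := hb _ (by simpa using hx.le) (by
      rw [Complex.ofReal_re]; linarith)
    have h4 : (φ (x : ℂ)).re ≤ 1 := (Complex.re_le_norm _).trans h3
    have h5 : (φ (x : ℂ) - (0 + ((Nat.factorial 0 : ℕ) : ℂ)⁻¹ * 1 * (x : ℂ) ^ 0 +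
        ((Nat.factorial 1 : ℕ) : ℂ)⁻¹ * ((-K : ℝ) : ℂ) * (x : ℂ) ^ 1 +
        ((Nat.factorial 2 : ℕ) : ℂ)⁻¹ * P * (x : ℂ) ^ 2)).re =
        (φ (x : ℂ)).re - (1 - K * x + P.re * x ^ 2 / 2) := by
      have e1 : ((Nat.factorial 0 : ℕ) : ℂ)⁻¹ * 1 * (x : ℂ) ^ 0 = 1 := by simp
      have e2 : ((Nat.factorial 1 : ℕ) : ℂ)⁻¹ * ((-K : ℝ) : ℂ) * (x : ℂ) ^ 1 =
          ((-K * x : ℝ) : ℂ) := by
        simp
      have e3 : ((Nat.factorial 2 : ℕ) : ℂ)⁻¹ * P * (x : ℂ) ^ 2 = ((x ^ 2 / 2 : ℝ) : ℂ) * P := by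
        push_cast
        simp [Nat.factorial]
        ring
      rw [e1, e2, e3, Complex.sub_re, Complex.add_re, Complex.add_re, Complex.add_re,
        Complex.re_ofReal_mul, Complex.ofReal_re, Complex.one_re, Complex.zero_re]
      ring
    rw [h5] at h2
    rw [abs_le] at h2
    have h6 := h2.1
    have h7 : P.re * x ^ 2 / 2 ≤ K * x + 2 * 2.72 * (x / r) ^ 3 := by linarith
    have hx2 : 0 < x ^ 2 := by positivity
    have h8 : P.re ≤ (K * x + 2 * 2.72 * (x / r) ^ 3) * 2 / x ^ 2 := by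
      rw [le_div_iff₀ hx2]
      linarith
    refine h8.trans (le_of_eq ?_)
    field_simp
    ring
  have hPabs : |P.re| ≤ 5.44 / r ^ 2 := by
    have h := taylor_coeff hφ hr0 hM 2
    rw [← hP] at h
    have h2 := (Complex.abs_re_le_norm _).trans h
    have h3 : (((Nat.factorial 2 : ℕ) : ℂ)⁻¹ * P).re = P.re / 2 := by
      have : ((Nat.factorial 2 : ℕ) : ℂ)⁻¹ = ((1 / 2 : ℝ) : ℂ) := by
        push_cast
        simp [Nat.factorial]
      rw [this, Complex.re_ofReal_mul]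
      ring
    rw [h3, abs_div] at h2
    have e : (5.44 : ℝ) / r ^ 2 = 2 * (2.72 / r ^ 2) := by ring
    rw [e]
    have : |(2:ℝ)| = 2 := abs_of_pos (by norm_num)
    rw [this] at h2
    linarith
  -- `K` is nonnegative
  have hI0 : 0 ≤ K := by
    by_contra hneg
    push Not at hneg
    have hPb : -(100 / r ^ 2) ≤ P.re := by
      have h4 := (abs_le.1 hPabs).1
      have h5 : (0:ℝ) < 1 / r ^ 2 := by positivity
      have h6 : (5.44 : ℝ) / r ^ 2 = 5.44 * (1 / r ^ 2) := by ring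
      have h7 : (100 : ℝ) / r ^ 2 = 100 * (1 / r ^ 2) := by ring
      rw [h6] at h4
      rw [h7]
      linarith
    set x : ℝ := min (r / 2) (-K * r ^ 2 / 200) with hx
    have hx0 : 0 < x := lt_min (by positivity) (by
      have : 0 < -K := by linarith
      positivity)
    have hxr : x ≤ r / 2 := min_le_left _ _
    have hx2 : x ≤ -K * r ^ 2 / 200 := min_le_right _ _
    have h1' := hT x hx0 hxr
    have h2' : 2 * K / x ≤ -(400 / r ^ 2) := by
      rw [div_le_iff₀ hx0]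
      have : -(400 / r ^ 2) * x ≥ -(400 / r ^ 2) * (-K * r ^ 2 / 200) := by
        apply mul_le_mul_of_nonpos_left hx2
        have : 0 < 400 / r ^ 2 := by positivity
        linarith
      have e : -(400 / r ^ 2) * (-K * r ^ 2 / 200) = 2 * K := by
        field_simp
        ring
      linarith
    have h3' : 10.88 * x / r ^ 3 ≤ 5.44 / r ^ 2 := by
      rw [div_le_div_iff₀ (by positivity) (by positivity)]
      have : x * r ^ 2 ≤ r / 2 * r ^ 2 := mul_le_mul_of_nonneg_right hxr (by positivity)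
      nlinarith
    have h4' : (0:ℝ) < 1 / r ^ 2 := by positivity
    have e1 : (400 : ℝ) / r ^ 2 = 400 * (1 / r ^ 2) := by ring
    have e2 : (5.44 : ℝ) / r ^ 2 = 5.44 * (1 / r ^ 2) := by ring
    have e3 : (100 : ℝ) / r ^ 2 = 100 * (1 / r ^ 2) := by ring
    rw [e1] at h2'
    rw [e2] at h3'
    rw [e3] at hPb
    linarith
  have hr3 : 0 < r ^ 3 := by positivity
  have hB3 : B ^ 3 = 1 / (8 * r ^ 3) := by
    rw [hr']
    field_simp
    ring
  have hsq : Real.sqrt (B ^ 3 * K) = Real.sqrt (K / (8 * r ^ 3)) := by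
    rw [hB3]
    congr 1
    ring
  rw [hsq]
  by_cases hcase : K ≤ 1 / r
  · rcases hI0.eq_or_lt with hI | hI
    · rw [← hI]
      simp only [zero_div, Real.sqrt_zero, mul_zero]
      by_contra hpos
      push Not at hpos
      set x : ℝ := min (r / 2) (P.re * r ^ 3 / 20) with hx
      have hx0 : 0 < x := lt_min (by positivity) (by positivity)
      have h1' := hT x hx0 (min_le_left _ _)
      rw [← hI] at h1'
      have h2' : 10.88 * x / r ^ 3 ≤ P.re * (10.88 / 20) := by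
        rw [div_le_iff₀ hr3]
        have : x ≤ P.re * r ^ 3 / 20 := min_le_right _ _
        linarith
      have h3' : 2 * 0 / x = (0:ℝ) := by ring
      rw [h3'] at h1'
      linarith
    · set s : ℝ := Real.sqrt (K / (8 * r ^ 3)) with hs
      have hs0 : 0 < s := Real.sqrt_pos.2 (by positivity)
      have hs2 : s ^ 2 = K / (8 * r ^ 3) := Real.sq_sqrt (by positivity)
      have hx0 : 0 < s * r ^ 3 := by positivity
      have hIe : K = 8 * r ^ 3 * s ^ 2 := by
        rw [hs2]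
        field_simp
      have hxr : s * r ^ 3 ≤ r / 2 := by
        have h1' : (s * r ^ 3) ^ 2 ≤ (r / 2) ^ 2 := by
          have : 8 * r ^ 3 * s ^ 2 ≤ 1 / r := by rw [← hIe]; exact hcase
          rw [le_div_iff₀ hr0] at this
          have h2' : s ^ 2 * r ^ 4 ≤ 1 / 8 := by nlinarith
          have h3' : (s * r ^ 3) ^ 2 = s ^ 2 * r ^ 4 * r ^ 2 := by ring
          rw [h3']
          have h4' : s ^ 2 * r ^ 4 * r ^ 2 ≤ 1 / 8 * r ^ 2 :=
            mul_le_mul_of_nonneg_right h2' (by positivity)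
          nlinarith
        exact le_trans (le_abs_self _) (abs_le_of_sq_le_sq h1' (by positivity))
      have h1' := hT _ hx0 hxr
      have h2' : 2 * K / (s * r ^ 3) = 16 * s := by
        rw [hIe]
        field_simp
        ring
      have h3' : 10.88 * (s * r ^ 3) / r ^ 3 = 10.88 * s := by
        field_simp
      rw [h2', h3'] at h1'
      linarith
  · push Not at hcase
    have h4 : P.re ≤ 5.44 / r ^ 2 := (abs_le.1 hPabs).2
    have h5 : Real.sqrt (1 / (8 * r ^ 4)) ≤ Real.sqrt (K / (8 * r ^ 3)) := by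
      apply Real.sqrt_le_sqrt
      rw [div_le_div_iff₀ (by positivity) (by positivity)]
      rw [div_lt_iff₀ hr0] at hcase
      have : r ^ 3 * 1 ≤ r ^ 3 * (K * r) := mul_le_mul_of_nonneg_left hcase.le hr3.le
      nlinarith
    have h6 : (1 / 3 : ℝ) * (1 / r ^ 2) ≤ Real.sqrt (1 / (8 * r ^ 4)) := by
      apply Real.le_sqrt_of_sq_le
      have e : ((1 / 3 : ℝ) * (1 / r ^ 2)) ^ 2 = (1 / 9) * (1 / r ^ 4) := by
        field_simp
        norm_num
      have e2 : (1 : ℝ) / (8 * r ^ 4) = (1 / 8) * (1 / r ^ 4) := by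
        field_simp
      rw [e, e2]
      have : (0:ℝ) < 1 / r ^ 4 := by positivity
      linarith
    have h7 : (0:ℝ) < 1 / r ^ 2 := by positivity
    have e5 : (5.44 : ℝ) / r ^ 2 = 5.44 * (1 / r ^ 2) := by ring
    rw [e5] at h4
    linarith

/-- expansion on the imaginary axis -/
theorem second_imag (hφ : Differentiable ℂ φ) (h1 : φ 0 = 1) (hd : deriv φ 0 = ((-K : ℝ) : ℂ)) :
    ∃ C : ℝ, ∃ ε > 0, ∀ s : ℝ, |s| ≤ ε →
      1 - (φ ((s : ℂ) * Complex.I)).re ≤ (iteratedDeriv 2 φ 0).re * s ^ 2 / 2 + C * |s| ^ 3 := by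
  obtain ⟨M, hM⟩ := (isCompact_closedBall (0 : ℂ) 1).exists_bound_of_continuousOn
    hφ.continuous.continuousOn
  have hM' : ∀ z : ℂ, ‖z‖ ≤ 1 → ‖φ z‖ ≤ M := fun z hz => hM z (by simpa using hz)
  refine ⟨2 * M, 1 / 2, by norm_num, fun s hs => ?_⟩
  have hns : ‖(s : ℂ) * Complex.I‖ = |s| := by
    rw [norm_mul, Complex.norm_I, mul_one, Complex.norm_real, Real.norm_eq_abs]
  have h := taylor_rem hφ one_pos hM' 3 (ζ := (s : ℂ) * Complex.I) (by rw [hns]; exact hs)
  have hd0 : iteratedDeriv 0 φ 0 = 1 := by rw [iteratedDeriv_zero, h1]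
  have hd1 : iteratedDeriv 1 φ 0 = ((-K : ℝ) : ℂ) := by rw [iteratedDeriv_one, hd]
  rw [Finset.sum_range_succ, Finset.sum_range_succ, Finset.sum_range_succ, Finset.sum_range_zero,
    hd0, hd1, hns, div_one] at h
  set P : ℂ := iteratedDeriv 2 φ 0 with hP
  have h2 := (Complex.abs_re_le_norm _).trans h
  have h5 : (φ ((s : ℂ) * Complex.I) - (0 + ((Nat.factorial 0 : ℕ) : ℂ)⁻¹ * 1 *
      ((s : ℂ) * Complex.I) ^ 0 +
      ((Nat.factorial 1 : ℕ) : ℂ)⁻¹ * ((-K : ℝ) : ℂ) * ((s : ℂ) * Complex.I) ^ 1 +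
      ((Nat.factorial 2 : ℕ) : ℂ)⁻¹ * P * ((s : ℂ) * Complex.I) ^ 2)).re =
      (φ ((s : ℂ) * Complex.I)).re - (1 - P.re * s ^ 2 / 2) := by
    have e1 : ((Nat.factorial 0 : ℕ) : ℂ)⁻¹ * 1 * ((s : ℂ) * Complex.I) ^ 0 = 1 := by simp
    have e2 : ((Nat.factorial 1 : ℕ) : ℂ)⁻¹ * ((-K : ℝ) : ℂ) * ((s : ℂ) * Complex.I) ^ 1 =
        ((-K * s : ℝ) : ℂ) * Complex.I := by
      push_cast
      simp
      ring
    have e3 : ((Nat.factorial 2 : ℕ) : ℂ)⁻¹ * P * ((s : ℂ) * Complex.I) ^ 2 =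
        ((-(s ^ 2 / 2) : ℝ) : ℂ) * P := by
      rw [mul_pow, Complex.I_sq]
      push_cast
      simp [Nat.factorial]
      ring
    rw [e1, e2, e3, Complex.sub_re, Complex.add_re, Complex.add_re, Complex.add_re,
      Complex.re_ofReal_mul, Complex.re_ofReal_mul, Complex.I_re, Complex.one_re, Complex.zero_re]
    ring
  rw [h5, abs_le] at h2
  linarith [h2.1]

end ana

section reg
variable {V : Type} [Fintype V] [DecidableEq V] {q : ℕ}

/-- modular Hamiltonian `- log psi_S` on the whole system -/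
noncomputable def KK (S : Finset V) (ψ : Conf V q → ℂ) : Op V q :=
  cr S ψ (fun i => ((-Real.log (eigp (ψ ∘ (cut S q).symm) i) : ℝ) : ℂ))

theorem KK_acts (S : Finset V) (ψ : Conf V q → ℂ) : ActsOn S (KK S ψ) := cr_acts S ψ _

theorem KK_conj (S : Finset V) (ψ : Conf V q → ℂ) : (KK S ψ)ᴴ = KK S ψ := by
  rw [KK, cr_conj]
  congr 1
  funext i
  rw [Complex.star_def, Complex.conj_ofReal]

theorem UU_zero (S : Finset V) (ψ : Conf V q → ℂ) : UU S ψ 0 = 1 := by
  rw [UU, ← cr_one S ψ]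
  congr 1
  funext i
  simp

theorem UU_hasDerivAt (S : Finset V) (ψ : Conf V q → ℂ) :
    HasDerivAt (fun s : ℝ => UU S ψ s) (-(Complex.I • KK S ψ)) 0 := by
  have h1 : HasDerivAt (fun s : ℝ => (fun i : {x // x ∈ S} → Fin q =>
      Complex.exp ((s * Real.log (eigp (ψ ∘ (cut S q).symm) i) : ℝ) * Complex.I)))
      (fun i => (Real.log (eigp (ψ ∘ (cut S q).symm) i) : ℂ) * Complex.I) 0 := by
    refine hasDerivAt_pi.2 fun i => ?_
    have h2 : HasDerivAt (fun s : ℝ => ((s * Real.log (eigp (ψ ∘ (cut S q).symm) i) : ℝ) : ℂ) *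
        Complex.I) ((Real.log (eigp (ψ ∘ (cut S q).symm) i) : ℂ) * Complex.I) 0 := by
      have h3 : HasDerivAt (fun s : ℝ => s * Real.log (eigp (ψ ∘ (cut S q).symm) i))
          (Real.log (eigp (ψ ∘ (cut S q).symm) i)) 0 := by
        simpa using (hasDerivAt_id (0:ℝ)).mul_const (Real.log (eigp (ψ ∘ (cut S q).symm) i))
      exact (h3.ofReal_comp).mul_const Complex.I
    have h4 := h2.cexp
    simpa using h4
  have h2 := ((crL S ψ).toContinuousLinearMap.restrictScalars ℝ).hasFDerivAt.comp_hasDerivAt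
    (0:ℝ) h1
  refine h2.congr_deriv ?_
  show crL S ψ _ = _
  rw [crL_apply, KK]
  have h5 : -(Complex.I • cr S ψ (fun i => ((-Real.log (eigp (ψ ∘ (cut S q).symm) i) : ℝ) : ℂ))) =
      crL S ψ ((-Complex.I) • (fun i => ((-Real.log (eigp (ψ ∘ (cut S q).symm) i) : ℝ) : ℂ))) := by
    rw [map_smul, crL_apply, neg_smul]
  rw [h5, crL_apply]
  congr 1
  funext i
  simp only [Pi.smul_apply, smul_eq_mul]
  push_cast
  ring

theorem UU_neg_hasDerivAt (S : Finset V) (ψ : Conf V q → ℂ) :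
    HasDerivAt (fun s : ℝ => UU S ψ (-s)) (Complex.I • KK S ψ) 0 := by
  have h0 : HasDerivAt (fun s : ℝ => UU S ψ s) (-(Complex.I • KK S ψ)) (-0 : ℝ) := by
    rw [neg_zero]; exact UU_hasDerivAt S ψ
  have h := h0.scomp (0:ℝ) (hasDerivAt_neg (0:ℝ))
  refine h.congr_deriv ?_
  rw [smul_neg, neg_smul, one_smul, neg_neg]

/-- **The Markov lemma in norm.** -/
theorem norm_markov (N M : Finset V) {ψ : Conf V q → ℂ} (hψ : nsq ψ = 1) :
    nsq ((KK (N ∪ M) ψ - KK M ψ + KK (N ∩ M) ψ - KK N ψ) *ᵥ ψ) ≤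
      270 * Real.sqrt ((1 + (N \ M).card * Real.log q) ^ 3 * cmi N M ψ) := by
  have hL : 0 ≤ ((N \ M).card : ℝ) * Real.log q :=
    mul_nonneg (Nat.cast_nonneg _) (Real.log_natCast_nonneg q)
  have hsec := second_le (vphi_diff N M ψ) (fun z a b => vphi_bound N M hψ z a b) hL
    (fun z a b => vphi_left N M hψ z a b) (vphi_zero N M hψ) (vphi_deriv N M ψ)
  obtain ⟨C, ε, hε, hexp⟩ := second_imag (vphi_diff N M ψ) (vphi_zero N M hψ) (vphi_deriv N M ψ)
  set P : ℝ := (iteratedDeriv 2 (vphi N M ψ) 0).re with hP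
  -- the difference of the flows
  set W : ℝ → Op V q := fun s => UU (N ∪ M) ψ (-s) - UU M ψ (-s) * (UU (N ∩ M) ψ s *
    UU N ψ (-s)) with hW
  set δ : Op V q := KK (N ∪ M) ψ - KK M ψ + KK (N ∩ M) ψ - KK N ψ with hδ
  have hW0 : W 0 = 0 := by
    simp only [hW, neg_zero, UU_zero, mul_one, sub_self]
  have hWd : HasDerivAt W (Complex.I • δ) 0 := by
    have h := (UU_neg_hasDerivAt (N ∪ M) ψ).sub ((UU_neg_hasDerivAt M ψ).mul
      ((UU_hasDerivAt (N ∩ M) ψ).mul (UU_neg_hasDerivAt N ψ)))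
    refine h.congr_deriv ?_
    simp only [Pi.mul_apply, neg_zero, UU_zero, mul_one, one_mul, hδ]
    rw [smul_sub, smul_add, smul_sub]
    abel
  have hWb : ∀ s : ℝ, |s| ≤ ε → nsq (W s *ᵥ ψ) ≤ 18 * (P * s ^ 2 / 2 + C * |s| ^ 3) := by
    intro s hs
    have h := flow_of_overlap N M hψ s _ (hexp s hs)
    refine le_trans (le_of_eq ?_) h
    simp only [hW, Matrix.sub_mulVec, Matrix.mulVec_mulVec]
  -- the slope
  have hslope := hasDerivAt_iff_tendsto_slope_zero.1 hWd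
  simp only [zero_add, hW0, sub_zero] at hslope
  have hcont : Continuous (fun A : Op V q => nsq (A *ᵥ ψ)) := by
    unfold nsq
    refine continuous_finset_sum _ fun i _ => ?_
    refine ((continuous_apply i).comp (Continuous.matrix_mulVec continuous_id
      continuous_const)).norm.pow 2
  have hlim := (hcont.tendsto (Complex.I • δ)).comp hslope
  have hval : nsq ((Complex.I • δ) *ᵥ ψ) = nsq (δ *ᵥ ψ) := by
    rw [Matrix.smul_mulVec, nsq_smul, Complex.norm_I]
    ring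
  rw [hval] at hlim
  have hlim2 : Filter.Tendsto (fun s : ℝ => 18 * (P / 2 + C * |s|)) (nhdsWithin 0 {0}ᶜ)
      (nhds (18 * (P / 2 + C * |0|))) := by
    refine Filter.Tendsto.mono_left ?_ nhdsWithin_le_nhds
    exact ((continuous_const.mul (continuous_const.add (continuous_const.mul
      continuous_abs))).tendsto (0:ℝ))
  have hle : nsq (δ *ᵥ ψ) ≤ 18 * (P / 2 + C * |0|) := by
    refine le_of_tendsto_of_tendsto hlim hlim2 ?_
    have hmem : Metric.closedBall (0:ℝ) ε ∈ nhds (0:ℝ) := Metric.closedBall_mem_nhds _ hε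
    filter_upwards [nhdsWithin_le_nhds hmem, self_mem_nhdsWithin] with s hs hs0
    have hs' : |s| ≤ ε := by simpa [Real.dist_eq] using hs
    have hs0' : s ≠ 0 := hs0
    have h := hWb s hs'
    have e1 : nsq ((s⁻¹ • W s) *ᵥ ψ) = (s⁻¹) ^ 2 * nsq (W s *ᵥ ψ) := by
      have e2 : (s⁻¹ • W s) *ᵥ ψ = ((s⁻¹ : ℝ) : ℂ) • (W s *ᵥ ψ) := by
        rw [← Matrix.smul_mulVec]
        congr 1
      rw [e2, nsq_smul, Complex.norm_real, Real.norm_eq_abs, sq_abs]
    show nsq ((s⁻¹ • W s) *ᵥ ψ) ≤ _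
    rw [e1]
    have hs2 : 0 < s ^ 2 := by positivity
    have e3 : (s⁻¹) ^ 2 * (18 * (P * s ^ 2 / 2 + C * |s| ^ 3)) = 18 * (P / 2 + C * |s|) := by
      have e4 : |s| ^ 3 = s ^ 2 * |s| := by
        rw [← sq_abs s]; ring
      rw [e4]
      field_simp
    rw [← e3]
    exact mul_le_mul_of_nonneg_left h (by positivity)
  rw [abs_zero, mul_zero, add_zero] at hle
  linarith

/-- consequence for an operator `X` which commutes with `K_M` and `K_{N ∩ M}` and kills `psi` -/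
theorem norm_markov_op (N M : Finset V) {ψ : Conf V q → ℂ} (hψ : nsq ψ = 1) {X : Op V q}
    (h1 : X * KK M ψ = KK M ψ * X) (h2 : X * KK (N ∩ M) ψ = KK (N ∩ M) ψ * X)
    (hX : X *ᵥ ψ = 0) :
    nsq (X *ᵥ ((KK (N ∪ M) ψ - KK N ψ) *ᵥ ψ)) ≤
      ‖X‖ ^ 2 * (270 * Real.sqrt ((1 + (N \ M).card * Real.log q) ^ 3 * cmi N M ψ)) := by
  have e : X *ᵥ ((KK (N ∪ M) ψ - KK N ψ) *ᵥ ψ) =
      X *ᵥ ((KK (N ∪ M) ψ - KK M ψ + KK (N ∩ M) ψ - KK N ψ) *ᵥ ψ) := by
    have e0 : (KK (N ∪ M) ψ - KK M ψ + KK (N ∩ M) ψ - KK N ψ) *ᵥ ψ =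
        (KK (N ∪ M) ψ - KK N ψ) *ᵥ ψ - KK M ψ *ᵥ ψ + KK (N ∩ M) ψ *ᵥ ψ := by
      simp only [Matrix.sub_mulVec, Matrix.add_mulVec]
      abel
    rw [e0, Matrix.mulVec_add, Matrix.mulVec_sub, Matrix.mulVec_mulVec ψ X (KK M ψ), h1,
      ← Matrix.mulVec_mulVec, hX, Matrix.mulVec_zero, Matrix.mulVec_mulVec ψ X (KK (N ∩ M) ψ), h2,
      ← Matrix.mulVec_mulVec, hX, Matrix.mulVec_zero, sub_zero, add_zero]
  rw [e]
  refine (ph_nsq_mulVec_le X _).trans ?_
  exact mul_le_mul_of_nonneg_left (norm_markov N M hψ) (by positivity)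

end reg

end Vale.Agent.P356.GA
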