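import Vale.Agent.P356.GA.Markov795
import Mathlib.MeasureTheory.Measure.Lebesgue.EqHaar
import Mathlib.MeasureTheory.Measure.Haar.Unique
import Mathlib.MeasureTheory.Group.LIntegral
import Mathlib.Data.Prod.Lex
import Mathlib.MeasureTheory.Integral.Average

/-!
# GA, block NOTCH (helper107): Markov averaging for Lipschitz noise

`T v x = d x + ∑ b, v b * β b x`, `v` uniform in `[0,1]^B`.  The cuts are the level sets
`out v t = {x | t < T v x}` at all real `t`.  The conditional mutual information of a core cut by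
`t` is on average at most the sum of the entropies of the tiles.
-/

set_option linter.all false

namespace Vale.Agent.P356.GA.Notch

open Finset Vale.Agent.P356 Vale.Agent.P356.SA Vale.Agent.P356.GA MeasureTheory
open scoped BigOperators ENNReal

variable {V B : Type*} [Fintype V] [DecidableEq V] [Fintype B] [DecidableEq B]

/-- the height function -/
def hgt (d : V → ℝ) (β : B → V → ℝ) (v : B → ℝ) (x : V) : ℝ := d x + ∑ b, v b * β b x

/-- the key of the total order: height, then index -/
def key (d : V → ℝ) (β : B → V → ℝ) (idx : V → ℕ) (v : B → ℝ) (x : V) : ℝ ×ₗ ℕ :=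
  toLex (hgt d β v x, idx x)

/-- the level set -/
noncomputable def out (d : V → ℝ) (β : B → V → ℝ) (v : B → ℝ) (t : ℝ) : Finset V :=
  univ.filter fun x => t < hgt d β v x

/-- the Markov defect of the site `x` in the order given by `v`, neighbourhoods `tl x` -/
noncomputable def del (S : Finset V → ℝ) (d : V → ℝ) (β : B → V → ℝ) (idx : V → ℕ)
    (tl : V → Finset V) (v : B → ℝ) (x : V) : ℝ :=
  ce S x (below (key d β idx v) (tl x) x) + ce S x (above (key d β idx v) (tl x) x)

/-- `v` with the bump `b` lowered by `l` -/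
def low (v : B → ℝ) (b : B) (l : ℝ) : B → ℝ := v - l • (Pi.single b (1:ℝ) : B → ℝ)

variable {d : V → ℝ} {β : B → V → ℝ} {idx : V → ℕ} {S : Finset V → ℝ}

theorem key_injective (hidx : Function.Injective idx) (v : B → ℝ) :
    Function.Injective (key d β idx v) := by
  intro x y h
  apply hidx
  have h1 : (hgt d β v x, idx x) = (hgt d β v y, idx y) := toLex.injective h
  exact (Prod.ext_iff.1 h1).2

theorem key_lt {v : B → ℝ} {x y : V} : key d β idx v x < key d β idx v y ↔
    hgt d β v x < hgt d β v y ∨ hgt d β v x = hgt d β v y ∧ idx x < idx y := by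
  unfold key
  rw [Prod.Lex.toLex_lt_toLex]

theorem hgt_low (v : B → ℝ) (b : B) (l : ℝ) (x : V) :
    hgt d β (low v b l) x = hgt d β v x - l * β b x := by
  unfold hgt low
  have h1 : ∑ b', (v - l • (Pi.single b (1:ℝ) : B → ℝ)) b' * β b' x =
      ∑ b', (v b' * β b' x - (if b' = b then l * β b x else 0)) := by
    refine Finset.sum_congr rfl fun b' _ => ?_
    by_cases hb : b' = b
    · subst hb
      simp only [Pi.sub_apply, Pi.smul_apply, Pi.single_eq_same, smul_eq_mul, mul_one, if_true]
      ring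
    · simp only [Pi.sub_apply, Pi.smul_apply, Pi.single_eq_of_ne hb, smul_eq_mul, mul_zero,
        sub_zero, if_neg hb]
  rw [h1, Finset.sum_sub_distrib, Finset.sum_ite_eq' Finset.univ b, if_pos (Finset.mem_univ b)]
  ring

theorem del_nonneg (hS : EntLike S) (tl : V → Finset V) (v : B → ℝ) (x : V) :
    0 ≤ del S d β idx tl v x :=
  ce_add_nonneg hS (notMem_below _ _ _) (disjoint_below_above _ _ _ _)

/-- monotonicity in the core -/
theorem cmi_mono (hS : EntLike S) {a a0 F N : Finset V} (h0 : a0 ⊆ a) (haN : Disjoint a N)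
    (haF : Disjoint a F) (hNF : Disjoint N F) :
    cmiE S a0 F ((a \ a0) ∪ N) ≤ cmiE S a F N := by
  -- `cmiE a F N = cmiE (a \ a0) F N + cmiE a0 F ((a \ a0) ∪ N)`
  have e1 : a ∪ N = a0 ∪ ((a \ a0) ∪ N) := by
    rw [← Finset.union_assoc, Finset.union_sdiff_of_subset h0]
  have e2 : a ∪ (N ∪ F) = a0 ∪ (((a \ a0) ∪ N) ∪ F) := by
    rw [← Finset.union_assoc, ← Finset.union_assoc, e1]
  have h1 : Disjoint (a \ a0) N := haN.mono_left sdiff_subset
  have h2 : Disjoint (a \ a0) F := haF.mono_left sdiff_subset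
  have h3 := hS.ssa (a \ a0) N F h1 h2 hNF
  unfold cmiE
  rw [e1, e2]
  linarith

/-- the notch of the bump `b` at the level `t` -/
noncomputable def notch (d : V → ℝ) (β : B → V → ℝ) (v : B → ℝ) (b : B) (l t : ℝ) : Finset V :=
  univ.filter fun x => t < hgt d β v x ∧ hgt d β v x - t ≤ l * β b x

/-- **Pointwise Markov bound**: the order patterns of the sites of the notch are those of the
heights with the bump lowered. -/
theorem notch_point (hS : EntLike S) (hidx : Function.Injective idx) (hβ : ∀ b x, 0 ≤ β b x)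
    {v : B → ℝ} {t : ℝ} (ht : ∀ y, hgt d β v y ≠ t) {b : B} {W : Finset V} {tl : V → Finset V}
    (hW : ∀ x, 0 < β b x → x ∈ W ∧ tl x ⊆ W) {l : ℝ} (hl : 0 ≤ l) :
    cmiE S (notch d β v b l t) (out d β v t \ W) ((out d β v t ∩ W) \ notch d β v b l t) ≤
      ∑ x ∈ notch d β v b l t,
        del S d β idx tl (low v b ((hgt d β v x - t) / β b x)) x := by
  set a := notch d β v b l t with ha
  set lam : V → ℝ := fun x => (hgt d β v x - t) / β b x with hlam
  have hmem : ∀ x, x ∈ a ↔ t < hgt d β v x ∧ hgt d β v x - t ≤ l * β b x := fun x => by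
    rw [ha, notch, mem_filter]
    simp
  have hpos : ∀ x ∈ a, 0 < β b x := by
    intro x hx
    obtain ⟨h1, h2⟩ := (hmem x).1 hx
    rcases (hβ b x).lt_or_eq with h | h
    · exact h
    · rw [← h, mul_zero] at h2
      linarith
  have hlam0 : ∀ x ∈ a, 0 < lam x := fun x hx => div_pos (by linarith [((hmem x).1 hx).1]) (hpos x hx)
  have hlaml : ∀ x ∈ a, lam x ≤ l := fun x hx => (div_le_iff₀ (hpos x hx)).2 ((hmem x).1 hx).2
  have hlamx : ∀ x ∈ a, hgt d β (low v b (lam x)) x = t := by
    intro x hx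
    rw [hgt_low, hlam]
    simp only
    rw [div_mul_cancel₀ _ (hpos x hx).ne']
    ring
  set κ : V → (ℝ ×ₗ ℕ)ᵒᵈ := fun x => OrderDual.toDual (toLex (lam x, idx x)) with hκ
  have hκinj : Function.Injective κ := by
    intro x y h
    apply hidx
    have h1 : (lam x, idx x) = (lam y, idx y) := toLex.injective (OrderDual.toDual.injective h)
    exact (Prod.ext_iff.1 h1).2
  have hκlt : ∀ x y, κ y < κ x ↔ lam x < lam y ∨ lam x = lam y ∧ idx x < idx y := by
    intro x y
    rw [hκ]
    simp only
    rw [OrderDual.toDual_lt_toDual, Prod.Lex.toLex_lt_toLex]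
  have hmemout : ∀ x, x ∈ out d β v t ↔ t < hgt d β v x := fun x => by
    rw [out, mem_filter]
    simp
  refine cmi_le hκinj hS ?_ (C := fun x => above (key d β idx (low v b (lam x))) (tl x) x)
    (C' := fun x => below (key d β idx (low v b (lam x))) (tl x) x) ?_ ?_ |>.trans (le_of_eq ?_)
  · -- disjointness
    rw [Finset.disjoint_left]
    intro x hx hx'
    rcases mem_union.1 hx' with h | h
    · exact (mem_sdiff.1 h).2 hx
    · exact (mem_sdiff.1 h).2 (hW x (hpos x hx)).1
  · -- predecessors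
    intro x hx y hy
    simp only [above, mem_filter] at hy
    obtain ⟨hy1, hy2⟩ := hy
    have hyW : y ∈ W := (hW x (hpos x hx)).2 hy1
    rw [key_lt, hlamx x hx, hgt_low] at hy2
    have h0 : 0 ≤ lam x * β b y := mul_nonneg (hlam0 x hx).le (hβ b y)
    have hout : y ∈ out d β v t := by
      rw [hmemout]
      refine lt_of_le_of_ne ?_ (Ne.symm (ht y))
      rcases hy2 with h | ⟨h, -⟩ <;> linarith
    rw [mem_union]
    by_cases hya : y ∈ a
    · left
      rw [below, mem_filter]
      refine ⟨hya, (hκlt x y).2 ?_⟩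
      have hby := hpos y hya
      rcases hy2 with h | ⟨h, h'⟩
      · left
        rw [hlam]
        simp only
        rw [lt_div_iff₀ hby]
        have : lam x * β b y = (hgt d β v x - t) / β b x * β b y := rfl
        linarith
      · right
        refine ⟨?_, h'⟩
        have h3 : lam y = lam x := by
          have : lam y = (hgt d β v y - t) / β b y := rfl
          rw [this, div_eq_iff hby.ne']
          linarith
        exact h3.symm
    · right
      exact mem_sdiff.2 ⟨mem_inter.2 ⟨hout, hyW⟩, hya⟩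
  · -- successors
    intro x hx
    rw [Finset.disjoint_left]
    intro y hy hy'
    simp only [below, mem_filter] at hy
    obtain ⟨hy1, hy2⟩ := hy
    have hyW : y ∈ W := (hW x (hpos x hx)).2 hy1
    rcases mem_insert.1 hy' with rfl | hy'
    · exact lt_irrefl _ hy2
    rw [key_lt, hlamx x hx, hgt_low] at hy2
    rcases mem_union.1 hy' with hy' | hy'
    · simp only [below, mem_filter] at hy'
      obtain ⟨hya, hlt⟩ := hy'
      have hby := hpos y hya
      have hy3 : lam y * β b y = hgt d β v y - t := div_mul_cancel₀ _ hby.ne'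
      rcases (hκlt x y).1 hlt with h | ⟨h, h'⟩
      · have := mul_lt_mul_of_pos_right h hby
        rcases hy2 with h4 | ⟨h4, -⟩ <;> linarith
      · rw [← h] at hy3
        rcases hy2 with h4 | ⟨-, h4⟩
        · linarith
        · omega
    · rcases mem_union.1 hy' with hy' | hy'
      · obtain ⟨h1, hya⟩ := mem_sdiff.1 hy'
        have h2 := (hmemout y).1 (mem_inter.1 h1).1
        have h3 : l * β b y < hgt d β v y - t := by
          by_contra h
          exact hya ((hmem y).2 ⟨h2, not_lt.1 h⟩)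
        have h4 : lam x * β b y ≤ l * β b y := mul_le_mul_of_nonneg_right (hlaml x hx) (hβ b y)
        rcases hy2 with h5 | ⟨h5, -⟩ <;> linarith
      · exact (mem_sdiff.1 hy').2 hyW
  · refine Finset.sum_congr rfl fun x _ => ?_
    unfold del
    rw [add_comm]

/-- **Pointwise bound for a core.** -/
theorem core_point (hS : EntLike S) (hidx : Function.Injective idx) (hβ : ∀ b x, 0 ≤ β b x)
    {v : B → ℝ} {t : ℝ} (ht : ∀ y, hgt d β v y ≠ t) {b : B} {W c : Finset V} {tl : V → Finset V}
    (hW : ∀ x, 0 < β b x → x ∈ W ∧ tl x ⊆ W) {l : ℝ} (hl : 0 ≤ l)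
    (hc : ∀ x ∈ c, t < hgt d β v x → hgt d β v x - t ≤ l * β b x) :
    cmiE S (out d β v t ∩ c) (out d β v t \ W) (out d β v t ∩ (W \ c)) ≤
      ∑ x ∈ notch d β v b l t,
        del S d β idx tl (low v b ((hgt d β v x - t) / β b x)) x := by
  refine le_trans ?_ (notch_point hS hidx hβ ht hW hl)
  have hmem : ∀ x, x ∈ notch d β v b l t ↔ t < hgt d β v x ∧ hgt d β v x - t ≤ l * β b x :=
    fun x => by
      rw [notch, mem_filter]
      simp
  have hmemout : ∀ x, x ∈ out d β v t ↔ t < hgt d β v x := fun x => by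
    rw [out, mem_filter]
    simp
  have haW : ∀ x ∈ notch d β v b l t, x ∈ W := by
    intro x hx
    obtain ⟨h1, h2⟩ := (hmem x).1 hx
    rcases (hβ b x).lt_or_eq with h | h
    · exact (hW x h).1
    · rw [← h, mul_zero] at h2
      linarith
  have hsub : out d β v t ∩ c ⊆ notch d β v b l t := by
    intro x hx
    obtain ⟨h1, h2⟩ := mem_inter.1 hx
    have h3 := (hmemout x).1 h1
    exact (hmem x).2 ⟨h3, hc x h2 h3⟩
  have h1 := cmi_mono hS hsub (N := (out d β v t ∩ W) \ notch d β v b l t)
    (F := out d β v t \ W) disjoint_sdiff (by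
      rw [Finset.disjoint_left]
      intro x hx hx'
      exact (mem_sdiff.1 hx').2 (haW x hx)) (by
      rw [Finset.disjoint_left]
      intro x hx hx'
      exact (mem_sdiff.1 hx').2 (mem_inter.1 (mem_sdiff.1 hx).1).2)
  have e1 : (notch d β v b l t \ (out d β v t ∩ c)) ∪
      ((out d β v t ∩ W) \ notch d β v b l t) = out d β v t ∩ (W \ c) := by
    ext x
    simp only [mem_union, mem_sdiff, mem_inter]
    constructor
    · rintro (⟨h1, h2⟩ | ⟨⟨h1, h2⟩, h3⟩)
      · have h4 := (hmemout x).2 ((hmem x).1 h1).1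
        exact ⟨h4, haW x h1, fun h => h2 ⟨h4, h⟩⟩
      · exact ⟨h1, h2, fun h => h3 (hsub (mem_inter.2 ⟨h1, h⟩))⟩
    · rintro ⟨h1, h2, h3⟩
      by_cases h4 : x ∈ notch d β v b l t
      · exact Or.inl ⟨h4, fun h => h3 h.2⟩
      · exact Or.inr ⟨⟨h1, h2⟩, h4⟩
  rw [e1] at h1
  exact h1

/-! ### Averages -/

/-- the cube of the noise -/
def cube (B : Type*) : Set (B → ℝ) := Set.pi Set.univ fun _ => Set.Icc (0:ℝ) 1

theorem volume_cube : volume (cube B) = 1 := by
  rw [cube, volume_pi, Measure.pi_pi]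
  simp

theorem measurableSet_cube : MeasurableSet (cube B) :=
  MeasurableSet.univ_pi fun _ => measurableSet_Icc

theorem meas_filter {Ω : Type*} [MeasurableSpace Ω] (A : Finset V) (p : Ω → V → Prop)
    [∀ ω, DecidablePred (p ω)] (hp : ∀ x, MeasurableSet {ω | p ω x}) (f : Finset V → ℝ) :
    Measurable fun ω => f (A.filter (p ω)) := by
  letI : MeasurableSpace (Finset V) := ⊤
  have h1 : Measurable (fun ω => A.filter (p ω)) := by
    refine measurable_to_countable' fun s => ?_
    have h2 : (fun ω => A.filter (p ω)) ⁻¹' {s} =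
        ⋂ x : V, {ω | (x ∈ A ∧ p ω x) ↔ x ∈ s} := by
      ext ω
      simp only [Set.mem_preimage, Set.mem_singleton_iff, Set.mem_iInter, Set.mem_setOf_eq]
      rw [Finset.ext_iff]
      exact forall_congr' fun x => by rw [mem_filter]
    rw [h2]
    refine MeasurableSet.iInter fun x => ?_
    by_cases hA : x ∈ A
    · by_cases hs : x ∈ s
      · have : {ω | (x ∈ A ∧ p ω x) ↔ x ∈ s} = {ω | p ω x} := by
          ext ω
          simp [hA, hs]
        rw [this]
        exact hp x
      · have : {ω | (x ∈ A ∧ p ω x) ↔ x ∈ s} = {ω | p ω x}ᶜ := by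
          ext ω
          simp [hA, hs]
        rw [this]
        exact (hp x).compl
    · have : {ω | (x ∈ A ∧ p ω x) ↔ x ∈ s} = {ω | x ∉ s} := by
        ext ω
        simp [hA]
      rw [this]
      exact MeasurableSet.const _
  exact (measurable_from_top (f := f)).comp h1

theorem measurable_hgt {Ω : Type*} [MeasurableSpace Ω] {v : Ω → (B → ℝ)} (hv : Measurable v)
    (d : V → ℝ) (β : B → V → ℝ) (x : V) : Measurable fun ω => hgt d β (v ω) x := by
  unfold hgt
  refine measurable_const.add (Finset.measurable_sum _ fun b _ => ?_)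
  exact ((measurable_pi_apply b).comp hv).mul_const _

theorem measurable_key_lt {Ω : Type*} [MeasurableSpace Ω] {v : Ω → (B → ℝ)} (hv : Measurable v)
    (d : V → ℝ) (β : B → V → ℝ) (idx : V → ℕ) (x y : V) :
    MeasurableSet {ω | key d β idx (v ω) x < key d β idx (v ω) y} := by
  have h1 : {ω | key d β idx (v ω) x < key d β idx (v ω) y} =
      {ω | hgt d β (v ω) x < hgt d β (v ω) y} ∪
        ({ω | hgt d β (v ω) x = hgt d β (v ω) y} ∩ {ω | idx x < idx y}) := by
    ext ω
    simp only [Set.mem_setOf_eq, Set.mem_union, Set.mem_inter_iff]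
    exact key_lt
  rw [h1]
  have hx := measurable_hgt hv d β x
  have hy := measurable_hgt hv d β y
  exact (measurableSet_lt hx hy).union ((measurableSet_eq_fun hx hy).inter (MeasurableSet.const _))

theorem measurable_del {Ω : Type*} [MeasurableSpace Ω] {v : Ω → (B → ℝ)} (hv : Measurable v)
    (S : Finset V → ℝ) (d : V → ℝ) (β : B → V → ℝ) (idx : V → ℕ) (tl : V → Finset V) (x : V) :
    Measurable fun ω => del S d β idx tl (v ω) x := by
  classical
  unfold del
  refine Measurable.add ?_ ?_
  · exact meas_filter (tl x) (fun ω y => key d β idx (v ω) y < key d β idx (v ω) x)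
      (fun y => measurable_key_lt hv d β idx y x) (fun C => ce S x C)
  · exact meas_filter (tl x) (fun ω y => key d β idx (v ω) x < key d β idx (v ω) y)
      (fun y => measurable_key_lt hv d β idx x y) (fun C => ce S x C)

/-- change of variables in the level -/
theorem lintegral_level {T b l : ℝ} (hb : 0 < b) {F : ℝ → ℝ≥0∞} (hF : Measurable F) :
    ∫⁻ t : ℝ, (if t < T ∧ T - t ≤ l * b then F ((T - t) / b) else 0) =
      ENNReal.ofReal b * ∫⁻ s in Set.Ioc 0 l, F s := by
  set K : ℝ → ℝ≥0∞ := (Set.Ioc 0 l).indicator F with hK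
  have hKm : Measurable K := hF.indicator measurableSet_Ioc
  have h1 : (fun t : ℝ => if t < T ∧ T - t ≤ l * b then F ((T - t) / b) else 0) =
      fun t => K ((T - t) / b) := by
    funext t
    rw [hK, Set.indicator_apply]
    have h2 : (t < T ∧ T - t ≤ l * b) ↔ (T - t) / b ∈ Set.Ioc 0 l := by
      rw [Set.mem_Ioc, div_le_iff₀ hb]
      refine and_congr_left fun _ => ?_
      rw [lt_div_iff₀ hb, zero_mul, sub_pos]
    simp only [h2]
  rw [h1, lintegral_sub_left_eq_self (fun s : ℝ => K (s / b)) T]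
  have h3 : ∫⁻ s : ℝ, K (s / b) = ∫⁻ s, K s ∂(Measure.map (b⁻¹ * ·) volume) := by
    rw [lintegral_map hKm (measurable_const_mul _)]
    refine lintegral_congr fun s => ?_
    rw [div_eq_inv_mul]
  rw [h3, Real.map_volume_mul_left (inv_ne_zero hb.ne'), lintegral_smul_measure, inv_inv,
    abs_of_pos hb, hK, lintegral_indicator measurableSet_Ioc, smul_eq_mul]

/-- the integral over the levels of the sum over the notch -/
theorem lintegral_notch (hβ : ∀ b x, 0 ≤ β b x) (tl : V → Finset V) (v : B → ℝ) (b : B) (l : ℝ) :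
    ∫⁻ t : ℝ, ∑ x ∈ notch d β v b l t,
        ENNReal.ofReal (del S d β idx tl (low v b ((hgt d β v x - t) / β b x)) x) =
      ∑ x, ENNReal.ofReal (β b x) * ∫⁻ s in Set.Ioc 0 l,
        ENNReal.ofReal (del S d β idx tl (low v b s) x) := by
  classical
  have hmeas : ∀ x, Measurable fun s : ℝ => ENNReal.ofReal (del S d β idx tl (low v b s) x) := by
    intro x
    refine ENNReal.measurable_ofReal.comp (measurable_del ?_ S d β idx tl x)
    unfold low
    fun_prop
  have h1 : ∀ t : ℝ, ∑ x ∈ notch d β v b l t,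
      ENNReal.ofReal (del S d β idx tl (low v b ((hgt d β v x - t) / β b x)) x) =
      ∑ x, (if t < hgt d β v x ∧ hgt d β v x - t ≤ l * β b x then
        ENNReal.ofReal (del S d β idx tl (low v b ((hgt d β v x - t) / β b x)) x) else 0) := by
    intro t
    rw [notch, Finset.sum_filter]
  simp only [h1]
  rw [lintegral_finsetSum']
  · refine Finset.sum_congr rfl fun x _ => ?_
    rcases (hβ b x).lt_or_eq with h | h
    · exact lintegral_level h (hmeas x)
    · rw [← h, ENNReal.ofReal_zero, zero_mul]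
      have h2 : ∀ t : ℝ, (if t < hgt d β v x ∧ hgt d β v x - t ≤ l * 0 then
          ENNReal.ofReal (del S d β idx tl (low v b ((hgt d β v x - t) / 0)) x) else 0) = 0 := by
        intro t
        rw [if_neg]
        rintro ⟨h3, h4⟩
        linarith
      simp only [h2, lintegral_zero]
  · intro x _
    refine (Measurable.ite ?_ ?_ measurable_const).aemeasurable
    · exact (measurableSet_lt measurable_id measurable_const).inter
        (measurableSet_le (measurable_const.sub measurable_id) measurable_const)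
    · exact (hmeas x).comp ((measurable_const.sub measurable_id).div_const _)

/-- lowering a bump inside of the cube -/
theorem lintegral_low (tl : V → Finset V) (b : B) (x : V) {l s : ℝ} (hs : 0 < s) (hsl : s ≤ l) :
    ∫⁻ v in {v | v ∈ cube B ∧ l ≤ v b}, ENNReal.ofReal (del S d β idx tl (low v b s) x) ≤
      ∫⁻ v in cube B, ENNReal.ofReal (del S d β idx tl v x) := by
  have hm : MeasurableSet {v : B → ℝ | v ∈ cube B ∧ l ≤ v b} :=
    measurableSet_cube.inter (measurableSet_le measurable_const (measurable_pi_apply b))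
  rw [← lintegral_indicator hm, ← lintegral_indicator measurableSet_cube]
  rw [← lintegral_sub_right_eq_self (fun v : B → ℝ => (cube B).indicator
    (fun v => ENNReal.ofReal (del S d β idx tl v x)) v) (s • (Pi.single b (1:ℝ) : B → ℝ))]
  refine lintegral_mono fun v => ?_
  show ({v : B → ℝ | v ∈ cube B ∧ l ≤ v b}).indicator _ v ≤ (cube B).indicator _ _
  by_cases hv : v ∈ {v : B → ℝ | v ∈ cube B ∧ l ≤ v b}
  · rw [Set.indicator_of_mem hv]
    have h1 : v - s • (Pi.single b (1:ℝ) : B → ℝ) ∈ cube B := by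
      intro b' _
      have h2 := hv.1 b' (Set.mem_univ _)
      by_cases hb : b' = b
      · subst hb
        have h3 := hv.2
        simp only [Pi.sub_apply, Pi.smul_apply, Pi.single_eq_same, smul_eq_mul, mul_one]
        exact ⟨by linarith, by linarith [h2.2]⟩
      · simp only [Pi.sub_apply, Pi.smul_apply, Pi.single_eq_of_ne hb, smul_eq_mul, mul_zero,
          sub_zero]
        exact h2
    rw [Set.indicator_of_mem h1]
    exact le_rfl
  · rw [Set.indicator_of_notMem hv]
    exact bot_le

/-- **(NOTCH), one bump**: the average over the noise (with `v b ≥ l`) and over all levels of the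
conditional mutual information of the core `c`, when it is cut. -/
theorem notch_one (hS : EntLike S) (hidx : Function.Injective idx) (hβ : ∀ b x, 0 ≤ β b x)
    (tl : V → Finset V) {b : B} {c W : Finset V} {l : ℝ} (hl : 0 ≤ l)
    (hW : ∀ x, 0 < β b x → x ∈ W ∧ tl x ⊆ W)
    (hosc : ∀ v ∈ cube B, ∀ x ∈ c, ∀ y ∈ c, hgt d β v x - hgt d β v y ≤ l * β b x) :
    ∫⁻ v in {v | v ∈ cube B ∧ l ≤ v b}, ∫⁻ t : ℝ, ENNReal.ofReal
      (open Classical in if (∃ x ∈ c, t < hgt d β v x) ∧ ∃ y ∈ c, hgt d β v y ≤ t then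
        cmiE S (out d β v t ∩ c) (out d β v t \ W) (out d β v t ∩ (W \ c)) else 0) ≤
      ENNReal.ofReal l * ∑ x, ENNReal.ofReal (β b x) *
        ∫⁻ v in cube B, ENNReal.ofReal (del S d β idx tl v x) := by
  classical
  have hm : MeasurableSet {v : B → ℝ | v ∈ cube B ∧ l ≤ v b} :=
    measurableSet_cube.inter (measurableSet_le measurable_const (measurable_pi_apply b))
  -- pointwise in `v`
  have h1 : ∀ v ∈ {v : B → ℝ | v ∈ cube B ∧ l ≤ v b}, ∫⁻ t : ℝ, ENNReal.ofReal
      (if (∃ x ∈ c, t < hgt d β v x) ∧ ∃ y ∈ c, hgt d β v y ≤ t then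
        cmiE S (out d β v t ∩ c) (out d β v t \ W) (out d β v t ∩ (W \ c)) else 0) ≤
      ∑ x, ENNReal.ofReal (β b x) * ∫⁻ s in Set.Ioc 0 l,
        ENNReal.ofReal (del S d β idx tl (low v b s) x) := by
    intro v hv
    rw [← lintegral_notch hβ tl v b l]
    -- the levels `T_y` are negligible
    have hnull : ∀ᵐ t : ℝ, ∀ y, hgt d β v y ≠ t := by
      rw [ae_all_iff]
      intro y
      have : ({hgt d β v y} : Set ℝ)ᶜ ∈ ae (volume : Measure ℝ) := by
        rw [mem_ae_iff, compl_compl]
        exact Real.volume_singleton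
      filter_upwards [this] with t ht h
      exact ht (by rw [h]; rfl)
    refine lintegral_mono_ae ?_
    filter_upwards [hnull] with t ht
    split_ifs with hcut
    · obtain ⟨-, y, hy, hyt⟩ := hcut
      have h2 := core_point (tl := tl) hS hidx hβ ht (b := b) (W := W) (c := c) hW hl
        (fun x hx hxt => by
          have := hosc v hv.1 x hx y hy
          linarith)
      refine (ENNReal.ofReal_le_ofReal h2).trans (le_of_eq ?_)
      rw [ENNReal.ofReal_sum_of_nonneg fun x _ => del_nonneg hS tl _ x]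
    · rw [ENNReal.ofReal_zero]
      exact bot_le
  have hmj : ∀ x, Measurable fun p : (B → ℝ) × ℝ =>
      ENNReal.ofReal (del S d β idx tl (low p.1 b p.2) x) := by
    intro x
    refine ENNReal.measurable_ofReal.comp (measurable_del ?_ S d β idx tl x)
    unfold low
    fun_prop
  calc _ ≤ ∫⁻ v in {v | v ∈ cube B ∧ l ≤ v b}, ∑ x, ENNReal.ofReal (β b x) *
        ∫⁻ s in Set.Ioc 0 l, ENNReal.ofReal (del S d β idx tl (low v b s) x) :=
        setLIntegral_mono' hm h1
    _ = ∑ x, ENNReal.ofReal (β b x) * ∫⁻ v in {v | v ∈ cube B ∧ l ≤ v b},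
        ∫⁻ s in Set.Ioc 0 l, ENNReal.ofReal (del S d β idx tl (low v b s) x) := by
        rw [lintegral_finsetSum]
        · refine Finset.sum_congr rfl fun x _ => ?_
          rw [lintegral_const_mul]
          exact (hmj x).lintegral_prod_right'
        · intro x _
          exact ((hmj x).lintegral_prod_right').const_mul _
    _ = ∑ x, ENNReal.ofReal (β b x) * ∫⁻ s in Set.Ioc 0 l,
        ∫⁻ v in {v | v ∈ cube B ∧ l ≤ v b}, ENNReal.ofReal (del S d β idx tl (low v b s) x) := by
        refine Finset.sum_congr rfl fun x _ => ?_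
        rw [lintegral_lintegral_swap (hmj x).aemeasurable]
    _ ≤ ∑ x, ENNReal.ofReal (β b x) * ∫⁻ s in Set.Ioc 0 l,
        ∫⁻ v in cube B, ENNReal.ofReal (del S d β idx tl v x) := by
        refine Finset.sum_le_sum fun x _ => mul_le_mul_right ?_ _
        exact setLIntegral_mono' measurableSet_Ioc fun s hs => lintegral_low tl b x hs.1 hs.2
    _ = ENNReal.ofReal l * ∑ x, ENNReal.ofReal (β b x) *
        ∫⁻ v in cube B, ENNReal.ofReal (del S d β idx tl v x) := by
        rw [Finset.mul_sum]
        refine Finset.sum_congr rfl fun x _ => ?_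
        rw [setLIntegral_const, Real.volume_Ioc, sub_zero]
        ring

/-! ### Sum over the cores -/

/-- the conditional mutual information `I(O ∩ c : O \ W | O ∩ (W \ c))` of a core `c` which is cut by
the boundary of the region `O`, else `0` -/
noncomputable def cutC (S : Finset V → ℝ) (c W O : Finset V) : ℝ :=
  open Classical in if (∃ x ∈ c, x ∈ O) ∧ ∃ y ∈ c, y ∉ O then
    cmiE S (O ∩ c) (O \ W) (O ∩ (W \ c)) else 0

theorem cmi_nonneg (hS : EntLike S) {a N F : Finset V} (h1 : Disjoint a N) (h2 : Disjoint a F)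
    (h3 : Disjoint N F) : 0 ≤ cmiE S a F N := by
  have := hS.ssa a N F h1 h2 h3
  unfold cmiE
  rw [← Finset.union_assoc]
  linarith

theorem cutC_nonneg (hS : EntLike S) {c W : Finset V} (hcW : c ⊆ W) (O : Finset V) :
    0 ≤ cutC S c W O := by
  unfold cutC
  split_ifs
  · refine cmi_nonneg hS ?_ ?_ ?_
    · rw [Finset.disjoint_left]
      intro x hx hx'
      exact (mem_sdiff.1 (mem_inter.1 hx').2).2 (mem_inter.1 hx).2
    · rw [Finset.disjoint_left]
      intro x hx hx'
      exact (mem_sdiff.1 hx').2 (hcW (mem_inter.1 hx).2)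
    · rw [Finset.disjoint_left]
      intro x hx hx'
      exact (mem_sdiff.1 hx').2 (mem_sdiff.1 (mem_inter.1 hx).2).1
  · exact le_rfl

theorem cutC_out (S : Finset V → ℝ) (c W : Finset V) (v : B → ℝ) (t : ℝ) :
    cutC S c W (out d β v t) =
      (open Classical in if (∃ x ∈ c, t < hgt d β v x) ∧ ∃ y ∈ c, hgt d β v y ≤ t then
        cmiE S (out d β v t ∩ c) (out d β v t \ W) (out d β v t ∩ (W \ c)) else 0) := by
  have hmem : ∀ x, x ∈ out d β v t ↔ t < hgt d β v x := fun x => by
    rw [out, mem_filter]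
    simp
  unfold cutC
  congr 1
  simp only [hmem, not_lt]

/-- every function of the level set is measurable in the noise and the level -/
theorem measurable_out (d : V → ℝ) (β : B → V → ℝ) (f : Finset V → ℝ) :
    Measurable fun p : (B → ℝ) × ℝ => f (out d β p.1 p.2) := by
  classical
  unfold out
  exact meas_filter univ (fun (p : (B → ℝ) × ℝ) x => p.2 < hgt d β p.1 x)
    (fun x => measurableSet_lt measurable_snd (measurable_hgt measurable_fst d β x)) f

/-- **(NOTCH), averaged**: cores `c k`, `k ∈ Ks`, windows `W k`, bumps `bk k`; the average over the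
noise and all levels of the sum of the conditional mutual informations of the cores which are cut is
at most `2 A` times the sum of the entropies of the tiles. -/
theorem notch_avg (hS : EntLike S) (hidx : Function.Injective idx) (hβ : ∀ b x, 0 ≤ β b x)
    (tl : V → Finset V) {K : Type*} (Ks : Finset K) (bk : K → B) (c W : K → Finset V) {l : K → ℝ}
    (hl : ∀ k ∈ Ks, 0 ≤ l k) {A : ℝ} (hA : 0 ≤ A)
    (hW : ∀ k ∈ Ks, ∀ x, 0 < β (bk k) x → x ∈ W k ∧ tl x ⊆ W k)
    (hosc : ∀ k ∈ Ks, ∀ v ∈ cube B, ∀ x ∈ c k, ∀ y ∈ c k,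
      hgt d β v x - hgt d β v y ≤ l k * β (bk k) x)
    (hsum : ∀ x, ∑ k ∈ Ks, l k * β (bk k) x ≤ A)
    {J : Type*} (s : Finset J) (t : J → Finset V)
    (hd : ∀ i ∈ s, ∀ j ∈ s, i ≠ j → Disjoint (t i) (t j))
    (ht : ∀ i ∈ s, ∀ x ∈ t i, t i ⊆ tl x)
    (hcov : ∀ k ∈ Ks, ∀ x, 0 < β (bk k) x → x ∈ s.biUnion t) :
    ∑ k ∈ Ks, ∫⁻ v in {v | v ∈ cube B ∧ l k ≤ v (bk k)}, ∫⁻ τ : ℝ,
      ENNReal.ofReal (cutC S (c k) (W k) (out d β v τ)) ≤
      ENNReal.ofReal (A * (2 * ∑ i ∈ s, S (t i))) := by
  classical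
  set U := s.biUnion t with hU
  have h0 : ∀ k ∈ Ks, ∀ x, x ∉ U → β (bk k) x = 0 := by
    intro k hk x hx
    rcases (hβ (bk k) x).lt_or_eq with h | h
    · exact absurd (hcov k hk x h) hx
    · exact h.symm
  have hmj : ∀ x, Measurable fun v : B → ℝ => ENNReal.ofReal (del S d β idx tl v x) :=
    fun x => ENNReal.measurable_ofReal.comp (measurable_del measurable_id S d β idx tl x)
  have h1 : ∀ k ∈ Ks, ∫⁻ v in {v | v ∈ cube B ∧ l k ≤ v (bk k)}, ∫⁻ τ : ℝ,
      ENNReal.ofReal (cutC S (c k) (W k) (out d β v τ)) ≤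
      ∑ x ∈ U, ENNReal.ofReal (l k * β (bk k) x) *
        ∫⁻ v in cube B, ENNReal.ofReal (del S d β idx tl v x) := by
    intro k hk
    simp only [cutC_out]
    refine (notch_one hS hidx hβ tl (hl k hk) (hW k hk) (hosc k hk)).trans (le_of_eq ?_)
    rw [Finset.mul_sum]
    rw [← Finset.sum_subset (Finset.subset_univ U) (fun x _ hx => by
      rw [h0 k hk x hx, ENNReal.ofReal_zero, zero_mul, mul_zero])]
    refine Finset.sum_congr rfl fun x _ => ?_
    rw [ENNReal.ofReal_mul (hl k hk), mul_assoc]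
  have htil : ∀ v : B → ℝ, ∑ x ∈ U, ENNReal.ofReal (del S d β idx tl v x) ≤
      ENNReal.ofReal (2 * ∑ i ∈ s, S (t i)) := by
    intro v
    rw [← ENNReal.ofReal_sum_of_nonneg fun x _ => del_nonneg hS tl v x]
    refine ENNReal.ofReal_le_ofReal ?_
    have h2 := tiles_le (T := key d β idx v) (key_injective hidx v) hS s t hd (B := tl) ht
    refine le_trans (le_of_eq ?_) h2
    exact Finset.sum_congr (by rw [hU]) fun x _ => rfl
  calc _ ≤ ∑ k ∈ Ks, ∑ x ∈ U, ENNReal.ofReal (l k * β (bk k) x) *
        ∫⁻ v in cube B, ENNReal.ofReal (del S d β idx tl v x) := Finset.sum_le_sum h1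
    _ = ∑ x ∈ U, (∑ k ∈ Ks, ENNReal.ofReal (l k * β (bk k) x)) *
        ∫⁻ v in cube B, ENNReal.ofReal (del S d β idx tl v x) := by
        rw [Finset.sum_comm]
        exact Finset.sum_congr rfl fun x _ => by rw [Finset.sum_mul]
    _ ≤ ∑ x ∈ U, ENNReal.ofReal A *
        ∫⁻ v in cube B, ENNReal.ofReal (del S d β idx tl v x) := by
        refine Finset.sum_le_sum fun x _ => mul_le_mul_left ?_ _
        rw [← ENNReal.ofReal_sum_of_nonneg fun k hk => mul_nonneg (hl k hk) (hβ _ _)]
        exact ENNReal.ofReal_le_ofReal (hsum x)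
    _ = ENNReal.ofReal A * ∫⁻ v in cube B, ∑ x ∈ U, ENNReal.ofReal (del S d β idx tl v x) := by
        rw [← Finset.mul_sum, lintegral_finsetSum _ fun x _ => hmj x]
    _ ≤ ENNReal.ofReal A * ∫⁻ v in cube B, ENNReal.ofReal (2 * ∑ i ∈ s, S (t i)) := by
        refine mul_le_mul_right ?_ _
        exact setLIntegral_mono' measurableSet_cube fun v _ => htil v
    _ = ENNReal.ofReal (A * (2 * ∑ i ∈ s, S (t i))) := by
        rw [setLIntegral_const, volume_cube, mul_one, ENNReal.ofReal_mul hA]

/-! ### Combs of levels, exceptional noise, selection -/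

/-- a comb of levels with a random offset -/
theorem lintegral_comb {F : ℝ → ℝ≥0∞} (n : ℕ) {a w : ℝ} (hw : 0 < w) :
    ∑ k ∈ range n, ∫⁻ t in Set.Ioc a (a + w), F (t + k * w) ≤ ∫⁻ t, F t := by
  have h1 : ∀ k : ℕ, ∫⁻ t in Set.Ioc a (a + w), F (t + k * w) =
      ∫⁻ t in Set.Ioc (a + k * w) (a + k * w + w), F t := by
    intro k
    rw [← lintegral_indicator measurableSet_Ioc, ← lintegral_indicator measurableSet_Ioc,
      ← lintegral_add_right_eq_self
        (fun t => (Set.Ioc (a + k * w) (a + k * w + w)).indicator F t) ((k : ℝ) * w)]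
    refine lintegral_congr fun t => ?_
    by_cases ht : t ∈ Set.Ioc a (a + w)
    · rw [Set.indicator_of_mem ht, Set.indicator_of_mem]
      exact ⟨by linarith [ht.1], by linarith [ht.2]⟩
    · rw [Set.indicator_of_notMem ht, Set.indicator_of_notMem]
      rintro ⟨h2, h3⟩
      exact ht ⟨by linarith, by linarith⟩
  simp only [h1]
  have hd : Set.PairwiseDisjoint (↑(range n) : Set ℕ)
      fun k : ℕ => Set.Ioc (a + k * w) (a + k * w + w) := by
    intro i _ j _ hij
    have key : ∀ i j : ℕ, i < j →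
        Disjoint (Set.Ioc (a + i * w) (a + i * w + w)) (Set.Ioc (a + j * w) (a + j * w + w)) := by
      intro i j h
      rw [Set.disjoint_left]
      rintro x ⟨-, h2⟩ ⟨h3, -⟩
      have h4 : (i : ℝ) + 1 ≤ j := by exact_mod_cast h
      nlinarith
    rcases lt_or_gt_of_ne hij with h | h
    · exact key i j h
    · exact (key j i h).symm
  rw [← lintegral_biUnion_finset hd fun k _ => measurableSet_Ioc]
  exact setLIntegral_le_lintegral _ _

theorem volume_exc (b : B) {l : ℝ} (hl : 0 ≤ l) :
    volume {v : B → ℝ | v ∈ cube B ∧ v b < l} ≤ ENNReal.ofReal l := by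
  classical
  have h1 : {v : B → ℝ | v ∈ cube B ∧ v b < l} ⊆
      Set.pi Set.univ fun b' => if b' = b then Set.Icc (0:ℝ) l else Set.Icc (0:ℝ) 1 := by
    rintro v ⟨h2, h3⟩ b' _
    have h4 := h2 b' (Set.mem_univ _)
    show v b' ∈ if b' = b then Set.Icc (0:ℝ) l else Set.Icc (0:ℝ) 1
    by_cases hb : b' = b
    · rw [if_pos hb]
      exact ⟨h4.1, by rw [hb]; exact h3.le⟩
    · rw [if_neg hb]
      exact h4
  refine (measure_mono h1).trans ?_
  rw [volume_pi, Measure.pi_pi]
  have h2 : ∀ b', volume (if b' = b then Set.Icc (0:ℝ) l else Set.Icc (0:ℝ) 1) =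
      if b' = b then ENNReal.ofReal l else 1 := by
    intro b'
    split_ifs
    · rw [Real.volume_Icc, sub_zero]
    · rw [Real.volume_Icc, sub_zero, ENNReal.ofReal_one]
  simp only [h2]
  rw [Finset.prod_ite_eq' Finset.univ b, if_pos (Finset.mem_univ b)]

/-- selection: finitely many averages, all at most `m` times their mean at one point of the cube -/
theorem exists_good {Ω : Type*} [MeasurableSpace Ω] (μ : Measure Ω) [IsProbabilityMeasure μ]
    {N : Set Ω} (hN : μ N = 0) {I : Type*} (Is : Finset I) (F : I → Ω → ℝ≥0∞)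
    (hF : ∀ i ∈ Is, Measurable (F i)) (a : I → ℝ) (ha : ∀ i ∈ Is, 0 < a i)
    (h : ∀ i ∈ Is, ∫⁻ ω, F i ω ∂μ ≤ ENNReal.ofReal (a i)) :
    ∃ ω, ω ∉ N ∧ ∀ i ∈ Is, F i ω ≤ ENNReal.ofReal (Is.card * a i) := by
  have hm : Measurable fun ω => ∑ i ∈ Is, (ENNReal.ofReal (a i))⁻¹ * F i ω :=
    Finset.measurable_sum _ fun i hi => (hF i hi).const_mul _
  obtain ⟨ω, h1, h2⟩ := exists_notMem_null_le_lintegral hm.aemeasurable hN
  refine ⟨ω, h1, fun i hi => ?_⟩
  have hne : ENNReal.ofReal (a i) ≠ 0 := by
    rw [Ne, ENNReal.ofReal_eq_zero, not_le]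
    exact ha i hi
  have h3 : ∫⁻ ω, ∑ i ∈ Is, (ENNReal.ofReal (a i))⁻¹ * F i ω ∂μ ≤ Is.card := by
    rw [lintegral_finsetSum _ fun i hi => (hF i hi).const_mul _]
    calc _ ≤ ∑ i ∈ Is, (1 : ℝ≥0∞) := by
          refine Finset.sum_le_sum fun j hj => ?_
          rw [lintegral_const_mul _ (hF j hj)]
          calc _ ≤ (ENNReal.ofReal (a j))⁻¹ * ENNReal.ofReal (a j) := by gcongr; exact h j hj
            _ ≤ 1 := ENNReal.inv_mul_le_one _
      _ = Is.card := by simp
  have h4 : (ENNReal.ofReal (a i))⁻¹ * F i ω ≤ Is.card :=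
    (Finset.single_le_sum (f := fun j => (ENNReal.ofReal (a j))⁻¹ * F j ω)
      (fun _ _ => bot_le) hi).trans (h2.trans h3)
  calc F i ω = ENNReal.ofReal (a i) * ((ENNReal.ofReal (a i))⁻¹ * F i ω) := by
        rw [← mul_assoc, ENNReal.mul_inv_cancel hne ENNReal.ofReal_ne_top, one_mul]
    _ ≤ ENNReal.ofReal (a i) * Is.card := by gcongr
    _ = ENNReal.ofReal (Is.card * a i) := by
        rw [ENNReal.ofReal_mul (Nat.cast_nonneg _), ENNReal.ofReal_natCast, mul_comm]

end Vale.Agent.P356.GA.Notch
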