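import Vale.Agent.P356.GA.Up960
import Vale.Agent.P356.GA.SumZ778

/-!
# The energy expression is small (helper960)

For every family of parameters `p : EP` whose fields satisfy uniform power bounds with the
exponents of the construction, `p.tot ≤ l ^ (-(2 c))` for all large `l`.
-/

set_option linter.all false

namespace Vale.Agent.P356.GA.Par

open Filter Asymptotics

/-- uniform power bounds of all parameters -/
structure UpEP (a : ℝ) {ι : ℕ → Type*} (p : ∀ l, ι l → EP) : Prop where
  θ : UpD (fun l i => (p l i).θ) (xu a + xom a - 1)
  k1 : UpD (fun l i => (p l i).k1) (xd a)
  k2 : UpD (fun l i => (p l i).k2) xr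
  k3 : UpD (fun l i => (p l i).k3) xm
  C2 : UpD (fun l i => (p l i).C2) (6 * xd a)
  Th : UpD (fun l i => (p l i).Th) (2 + xd a + 2 * xs a - a * xr)
  nx : UpD (fun l i => (p l i).nx) (2 + xd a - xs a)
  ne : UpD (fun l i => (p l i).ne) (2 + xd a - xm)
  nZ : UpD (fun l i => (p l i).nZ) 2
  p₀ : UpD (fun l i => (p l i).p₀) (-20)
  ε : UpD (fun l i => (p l i).ε) (-20)
  m : UpD (fun l i => (p l i).m) (2 * xm)
  lq : UpD (fun l i => (p l i).lq) (xd a)
  eM : UpD (fun l i => (p l i).eM) (-20)
  Lc : UpD (fun l i => (p l i).Lc) (3 * xd a)
  h : UpD (fun l i => (p l i).h) (-(xy a))
  h' : UpD (fun l i => ((p l i).h)⁻¹) (xy a)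
  ms : UpD (fun l i => (p l i).ms) (2 * xm)
  Ls : UpD (fun l i => (p l i).Ls) (3 * xd a)
  hs : UpD (fun l i => (p l i).hs) (-(1 / 100))
  hs' : UpD (fun l i => ((p l i).hs)⁻¹) (1 / 100)
  r : UpD (fun l i => ((p l i).r)⁻¹) (11 / 10 ^ 8)
  rθ : UpD (fun l i => ((p l i).rθ)⁻¹) (-1 + 38 / 10 ^ 8)
  Cm : UpD (fun l i => (p l i).Cm) 0
  Λ : UpD (fun l i => (p l i).Λ) (-xlam)
  Λ' : UpD (fun l i => ((p l i).Λ)⁻¹) xlam
  z : UpD (fun l i => (p l i).z) 2
  Nn : UpD (fun l i => (p l i).Nn) 2
  τ : UpD (fun l i => (p l i).τ) (xd a)
  de : UpD (fun l i => (p l i).de) (-20)

variable {a : ℝ} {ι : ℕ → Type*} {p : ∀ l, ι l → EP}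

theorem UpEP.K (ha : 0 < a) (ha1 : a ≤ 1) (h : UpEP a p) :
    UpD (fun l i => (p l i).K) (77 / 10 ^ 8) := by
  have h0 := e0_pos ha
  have h1 := e0_le ha1
  have h2 := h.τ
  have h3 := h.Nn
  have h4 := h.rθ
  unfold EP.K
  refine UpD.mono (by
    repeat' (first
          | with_reducible exact UpD.const _
          | with_reducible assumption
          | with_reducible exact UpD.of (Up.self)
          | with_reducible exact UpD.of (Up.inv_self)
          | with_reducible exact UpD.of (Up.pow_self _)
          | with_reducible exact UpD.of (Up.pow_self_nat _)
          | with_reducible exact UpD.of (Up.inv_pow_self _)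
          | with_reducible exact UpD.of (up_cF ha)
          | with_reducible exact UpD.of (up_cD ha)
          | with_reducible exact UpD.of (up_cS ha)
          | with_reducible exact UpD.of (up_cS_inv _)
          | with_reducible exact UpD.of (up_cR)
          | with_reducible exact UpD.of (up_cR_inv)
          | with_reducible exact UpD.of (up_cP)
          | with_reducible exact UpD.of (up_cM)
          | with_reducible exact UpD.of (up_cM_inv)
          | with_reducible exact UpD.of (up_cB)
          | with_reducible exact UpD.of (up_cN)
          | with_reducible exact UpD.of (up_cLam)
          | with_reducible exact UpD.of (up_cLam_inv)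
          | with_reducible exact UpD.of (up_cY _)
          | with_reducible exact UpD.of (up_cY_inv _)
          | with_reducible exact UpD.of (up_cE)
          | with_reducible exact UpD.of (up_cE_inv)
          | with_reducible exact UpD.of (up_log_xd ha)
          | with_reducible exact UpD.of (up_logE_xd ha (by positivity))
          | with_reducible apply UpD.sub'
          | with_reducible apply UpD.neg
          | with_reducible apply UpD.add'
          | with_reducible apply UpD.inv_mul
          | with_reducible apply UpD.mul
          | with_reducible apply UpD.inv_div
          | with_reducible apply UpD.inv_pow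
          | with_reducible apply UpD.pow
          | with_reducible apply UpD.inv_inv
          | with_reducible apply UpD.div
          | with_reducible apply UpD.sqrt
          | with_reducible apply UpD.abs
          | with_reducible apply UpD.max)) (by
    (
          try simp only [mul_add, add_mul, Nat.cast_ofNat,
            mul_max_of_nonneg _ _ (show (0:ℝ) ≤ 2 by norm_num),
            mul_max_of_nonneg _ _ (show (0:ℝ) ≤ 3 by norm_num),
            mul_max_of_nonneg _ _ (show (0:ℝ) ≤ 4 by norm_num),
            ← max_add_add_right, ← max_add_add_left, max_lt_iff, max_le_iff,
            ← max_div_div_right (show (0:ℝ) ≤ 2 by norm_num), max_self]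
          try and_intros
          all_goals (
            try simp only [xd, xs, xr, xm, xn, xlam, xy, xom, xu, xc]
            first | linarith | (norm_num; done) | (norm_num; linarith))))

theorem UpEP.S (ha : 0 < a) (ha1 : a ≤ 1) (h : UpEP a p) :
    UpD (fun l i => (p l i).S) (1 / 500) := by
  have h0 := e0_pos ha
  have h1 := e0_le ha1
  have h2 := h.K ha ha1
  have h3 := h.Λ'
  have h4 := h.z
  have h5 := h.de
  unfold EP.S
  refine UpD.mono (by
    repeat' (first
          | with_reducible exact UpD.const _
          | with_reducible assumption
          | with_reducible exact UpD.of (Up.self)
          | with_reducible exact UpD.of (Up.inv_self)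
          | with_reducible exact UpD.of (Up.pow_self _)
          | with_reducible exact UpD.of (Up.pow_self_nat _)
          | with_reducible exact UpD.of (Up.inv_pow_self _)
          | with_reducible exact UpD.of (up_cF ha)
          | with_reducible exact UpD.of (up_cD ha)
          | with_reducible exact UpD.of (up_cS ha)
          | with_reducible exact UpD.of (up_cS_inv _)
          | with_reducible exact UpD.of (up_cR)
          | with_reducible exact UpD.of (up_cR_inv)
          | with_reducible exact UpD.of (up_cP)
          | with_reducible exact UpD.of (up_cM)
          | with_reducible exact UpD.of (up_cM_inv)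
          | with_reducible exact UpD.of (up_cB)
          | with_reducible exact UpD.of (up_cN)
          | with_reducible exact UpD.of (up_cLam)
          | with_reducible exact UpD.of (up_cLam_inv)
          | with_reducible exact UpD.of (up_cY _)
          | with_reducible exact UpD.of (up_cY_inv _)
          | with_reducible exact UpD.of (up_cE)
          | with_reducible exact UpD.of (up_cE_inv)
          | with_reducible exact UpD.of (up_log_xd ha)
          | with_reducible exact UpD.of (up_logE_xd ha (by positivity))
          | with_reducible apply UpD.sub'
          | with_reducible apply UpD.neg
          | with_reducible apply UpD.add'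
          | with_reducible apply UpD.inv_mul
          | with_reducible apply UpD.mul
          | with_reducible apply UpD.inv_div
          | with_reducible apply UpD.inv_pow
          | with_reducible apply UpD.pow
          | with_reducible apply UpD.inv_inv
          | with_reducible apply UpD.div
          | with_reducible apply UpD.sqrt
          | with_reducible apply UpD.abs
          | with_reducible apply UpD.max)) (by
    (
          try simp only [mul_add, add_mul, Nat.cast_ofNat,
            mul_max_of_nonneg _ _ (show (0:ℝ) ≤ 2 by norm_num),
            mul_max_of_nonneg _ _ (show (0:ℝ) ≤ 3 by norm_num),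
            mul_max_of_nonneg _ _ (show (0:ℝ) ≤ 4 by norm_num),
            ← max_add_add_right, ← max_add_add_left, max_lt_iff, max_le_iff,
            ← max_div_div_right (show (0:ℝ) ≤ 2 by norm_num), max_self]
          try and_intros
          all_goals (
            try simp only [xd, xs, xr, xm, xn, xlam, xy, xom, xu, xc]
            first | linarith | (norm_num; done) | (norm_num; linarith))))

theorem UpEP.D (ha : 0 < a) (ha1 : a ≤ 1) (h : UpEP a p) :
    UpD (fun l i => (p l i).D) (1 + 1 / 1000) := by
  have h0 := e0_pos ha
  have h1 := e0_le ha1
  have h2 := h.S ha ha1
  have h4 := h.z
  unfold EP.D
  refine UpD.mono (by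
    repeat' (first
          | with_reducible exact UpD.const _
          | with_reducible assumption
          | with_reducible exact UpD.of (Up.self)
          | with_reducible exact UpD.of (Up.inv_self)
          | with_reducible exact UpD.of (Up.pow_self _)
          | with_reducible exact UpD.of (Up.pow_self_nat _)
          | with_reducible exact UpD.of (Up.inv_pow_self _)
          | with_reducible exact UpD.of (up_cF ha)
          | with_reducible exact UpD.of (up_cD ha)
          | with_reducible exact UpD.of (up_cS ha)
          | with_reducible exact UpD.of (up_cS_inv _)
          | with_reducible exact UpD.of (up_cR)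
          | with_reducible exact UpD.of (up_cR_inv)
          | with_reducible exact UpD.of (up_cP)
          | with_reducible exact UpD.of (up_cM)
          | with_reducible exact UpD.of (up_cM_inv)
          | with_reducible exact UpD.of (up_cB)
          | with_reducible exact UpD.of (up_cN)
          | with_reducible exact UpD.of (up_cLam)
          | with_reducible exact UpD.of (up_cLam_inv)
          | with_reducible exact UpD.of (up_cY _)
          | with_reducible exact UpD.of (up_cY_inv _)
          | with_reducible exact UpD.of (up_cE)
          | with_reducible exact UpD.of (up_cE_inv)
          | with_reducible exact UpD.of (up_log_xd ha)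
          | with_reducible exact UpD.of (up_logE_xd ha (by positivity))
          | with_reducible apply UpD.sub'
          | with_reducible apply UpD.neg
          | with_reducible apply UpD.add'
          | with_reducible apply UpD.inv_mul
          | with_reducible apply UpD.mul
          | with_reducible apply UpD.inv_div
          | with_reducible apply UpD.inv_pow
          | with_reducible apply UpD.pow
          | with_reducible apply UpD.inv_inv
          | with_reducible apply UpD.div
          | with_reducible apply UpD.sqrt
          | with_reducible apply UpD.abs
          | with_reducible apply UpD.max)) (by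
    (
          try simp only [mul_add, add_mul, Nat.cast_ofNat,
            mul_max_of_nonneg _ _ (show (0:ℝ) ≤ 2 by norm_num),
            mul_max_of_nonneg _ _ (show (0:ℝ) ≤ 3 by norm_num),
            mul_max_of_nonneg _ _ (show (0:ℝ) ≤ 4 by norm_num),
            ← max_add_add_right, ← max_add_add_left, max_lt_iff, max_le_iff,
            ← max_div_div_right (show (0:ℝ) ≤ 2 by norm_num), max_self]
          try and_intros
          all_goals (
            try simp only [xd, xs, xr, xm, xn, xlam, xy, xom, xu, xc]
            first | linarith | (norm_num; done) | (norm_num; linarith))))

theorem UpEP.Q (ha : 0 < a) (ha1 : a ≤ 1) (h : UpEP a p) :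
    UpD (fun l i => (p l i).Q) (3 / 2 + 1 / 2000) := by
  have h0 := e0_pos ha
  have h1 := e0_le ha1
  have h2 := h.D ha ha1
  have h4 := h.nZ
  have h5 := h.p₀
  unfold EP.Q
  refine UpD.mono (by
    repeat' (first
          | with_reducible exact UpD.const _
          | with_reducible assumption
          | with_reducible exact UpD.of (Up.self)
          | with_reducible exact UpD.of (Up.inv_self)
          | with_reducible exact UpD.of (Up.pow_self _)
          | with_reducible exact UpD.of (Up.pow_self_nat _)
          | with_reducible exact UpD.of (Up.inv_pow_self _)
          | with_reducible exact UpD.of (up_cF ha)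
          | with_reducible exact UpD.of (up_cD ha)
          | with_reducible exact UpD.of (up_cS ha)
          | with_reducible exact UpD.of (up_cS_inv _)
          | with_reducible exact UpD.of (up_cR)
          | with_reducible exact UpD.of (up_cR_inv)
          | with_reducible exact UpD.of (up_cP)
          | with_reducible exact UpD.of (up_cM)
          | with_reducible exact UpD.of (up_cM_inv)
          | with_reducible exact UpD.of (up_cB)
          | with_reducible exact UpD.of (up_cN)
          | with_reducible exact UpD.of (up_cLam)
          | with_reducible exact UpD.of (up_cLam_inv)
          | with_reducible exact UpD.of (up_cY _)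
          | with_reducible exact UpD.of (up_cY_inv _)
          | with_reducible exact UpD.of (up_cE)
          | with_reducible exact UpD.of (up_cE_inv)
          | with_reducible exact UpD.of (up_log_xd ha)
          | with_reducible exact UpD.of (up_logE_xd ha (by positivity))
          | with_reducible apply UpD.sub'
          | with_reducible apply UpD.neg
          | with_reducible apply UpD.add'
          | with_reducible apply UpD.inv_mul
          | with_reducible apply UpD.mul
          | with_reducible apply UpD.inv_div
          | with_reducible apply UpD.inv_pow
          | with_reducible apply UpD.pow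
          | with_reducible apply UpD.inv_inv
          | with_reducible apply UpD.div
          | with_reducible apply UpD.sqrt
          | with_reducible apply UpD.abs
          | with_reducible apply UpD.max)) (by
    (
          try simp only [mul_add, add_mul, Nat.cast_ofNat,
            mul_max_of_nonneg _ _ (show (0:ℝ) ≤ 2 by norm_num),
            mul_max_of_nonneg _ _ (show (0:ℝ) ≤ 3 by norm_num),
            mul_max_of_nonneg _ _ (show (0:ℝ) ≤ 4 by norm_num),
            ← max_add_add_right, ← max_add_add_left, max_lt_iff, max_le_iff,
            ← max_div_div_right (show (0:ℝ) ≤ 2 by norm_num), max_self]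
          try and_intros
          all_goals (
            try simp only [xd, xs, xr, xm, xn, xlam, xy, xom, xu, xc]
            first | linarith | (norm_num; done) | (norm_num; linarith))))

theorem UpEP.A (ha : 0 < a) (ha1 : a ≤ 1) (h : UpEP a p) :
    UpD (fun l i => (p l i).A) (2 + 12 * xd a - 2 * xy a) := by
  have h0 := e0_pos ha
  have h1 := e0_le ha1
  have h2 := h.D ha ha1
  have h4 := h.nZ
  have h5 := h.p₀
  have h6 := h.ε
  have h7 := h.m
  have h8 := h.lq
  have h9 := h.eM
  have h10 := h.Lc
  have h11 := h.h
  have h12 := h.h'
  unfold EP.A
  refine UpD.mono (by
    repeat' (first
          | with_reducible exact UpD.const _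
          | with_reducible assumption
          | with_reducible exact UpD.of (Up.self)
          | with_reducible exact UpD.of (Up.inv_self)
          | with_reducible exact UpD.of (Up.pow_self _)
          | with_reducible exact UpD.of (Up.pow_self_nat _)
          | with_reducible exact UpD.of (Up.inv_pow_self _)
          | with_reducible exact UpD.of (up_cF ha)
          | with_reducible exact UpD.of (up_cD ha)
          | with_reducible exact UpD.of (up_cS ha)
          | with_reducible exact UpD.of (up_cS_inv _)
          | with_reducible exact UpD.of (up_cR)
          | with_reducible exact UpD.of (up_cR_inv)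
          | with_reducible exact UpD.of (up_cP)
          | with_reducible exact UpD.of (up_cM)
          | with_reducible exact UpD.of (up_cM_inv)
          | with_reducible exact UpD.of (up_cB)
          | with_reducible exact UpD.of (up_cN)
          | with_reducible exact UpD.of (up_cLam)
          | with_reducible exact UpD.of (up_cLam_inv)
          | with_reducible exact UpD.of (up_cY _)
          | with_reducible exact UpD.of (up_cY_inv _)
          | with_reducible exact UpD.of (up_cE)
          | with_reducible exact UpD.of (up_cE_inv)
          | with_reducible exact UpD.of (up_log_xd ha)
          | with_reducible exact UpD.of (up_logE_xd ha (by positivity))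
          | with_reducible apply UpD.sub'
          | with_reducible apply UpD.neg
          | with_reducible apply UpD.add'
          | with_reducible apply UpD.inv_mul
          | with_reducible apply UpD.mul
          | with_reducible apply UpD.inv_div
          | with_reducible apply UpD.inv_pow
          | with_reducible apply UpD.pow
          | with_reducible apply UpD.inv_inv
          | with_reducible apply UpD.div
          | with_reducible apply UpD.sqrt
          | with_reducible apply UpD.abs
          | with_reducible apply UpD.max)) (by
    (
          try simp only [mul_add, add_mul, Nat.cast_ofNat,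
            mul_max_of_nonneg _ _ (show (0:ℝ) ≤ 2 by norm_num),
            mul_max_of_nonneg _ _ (show (0:ℝ) ≤ 3 by norm_num),
            mul_max_of_nonneg _ _ (show (0:ℝ) ≤ 4 by norm_num),
            ← max_add_add_right, ← max_add_add_left, max_lt_iff, max_le_iff,
            ← max_div_div_right (show (0:ℝ) ≤ 2 by norm_num), max_self]
          try and_intros
          all_goals (
            try simp only [xd, xs, xr, xm, xn, xlam, xy, xom, xu, xc]
            first | linarith | (norm_num; done) | (norm_num; linarith))))

theorem UpEP.T1 (ha : 0 < a) (ha1 : a ≤ 1) (h : UpEP a p) :
    UpD (fun l i => (p l i).T1) (2 - 1 / 50 + 12 * xd a) := by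
  have h0 := e0_pos ha
  have h1 := e0_le ha1
  have h2 := h.D ha ha1
  have h4 := h.nZ
  have h5 := h.p₀
  have h6 := h.ε
  have h7 := h.ms
  have h10 := h.Ls
  have h11 := h.hs
  have h12 := h.hs'
  unfold EP.T1
  refine UpD.mono (by
    repeat' (first
          | with_reducible exact UpD.const _
          | with_reducible assumption
          | with_reducible exact UpD.of (Up.self)
          | with_reducible exact UpD.of (Up.inv_self)
          | with_reducible exact UpD.of (Up.pow_self _)
          | with_reducible exact UpD.of (Up.pow_self_nat _)
          | with_reducible exact UpD.of (Up.inv_pow_self _)
          | with_reducible exact UpD.of (up_cF ha)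
          | with_reducible exact UpD.of (up_cD ha)
          | with_reducible exact UpD.of (up_cS ha)
          | with_reducible exact UpD.of (up_cS_inv _)
          | with_reducible exact UpD.of (up_cR)
          | with_reducible exact UpD.of (up_cR_inv)
          | with_reducible exact UpD.of (up_cP)
          | with_reducible exact UpD.of (up_cM)
          | with_reducible exact UpD.of (up_cM_inv)
          | with_reducible exact UpD.of (up_cB)
          | with_reducible exact UpD.of (up_cN)
          | with_reducible exact UpD.of (up_cLam)
          | with_reducible exact UpD.of (up_cLam_inv)
          | with_reducible exact UpD.of (up_cY _)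
          | with_reducible exact UpD.of (up_cY_inv _)
          | with_reducible exact UpD.of (up_cE)
          | with_reducible exact UpD.of (up_cE_inv)
          | with_reducible exact UpD.of (up_log_xd ha)
          | with_reducible exact UpD.of (up_logE_xd ha (by positivity))
          | with_reducible apply UpD.sub'
          | with_reducible apply UpD.neg
          | with_reducible apply UpD.add'
          | with_reducible apply UpD.inv_mul
          | with_reducible apply UpD.mul
          | with_reducible apply UpD.inv_div
          | with_reducible apply UpD.inv_pow
          | with_reducible apply UpD.pow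
          | with_reducible apply UpD.inv_inv
          | with_reducible apply UpD.div
          | with_reducible apply UpD.sqrt
          | with_reducible apply UpD.abs
          | with_reducible apply UpD.max)) (by
    (
          try simp only [mul_add, add_mul, Nat.cast_ofNat,
            mul_max_of_nonneg _ _ (show (0:ℝ) ≤ 2 by norm_num),
            mul_max_of_nonneg _ _ (show (0:ℝ) ≤ 3 by norm_num),
            mul_max_of_nonneg _ _ (show (0:ℝ) ≤ 4 by norm_num),
            ← max_add_add_right, ← max_add_add_left, max_lt_iff, max_le_iff,
            ← max_div_div_right (show (0:ℝ) ≤ 2 by norm_num), max_self]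
          try and_intros
          all_goals (
            try simp only [xd, xs, xr, xm, xn, xlam, xy, xom, xu, xc]
            first | linarith | (norm_num; done) | (norm_num; linarith))))

theorem UpEP.S1 (ha : 0 < a) (ha1 : a ≤ 1) (h : UpEP a p) :
    UpD (fun l i => (p l i).S1) (-(7 * e0 a)) := by
  have h0 := e0_pos ha
  have h1 := e0_le ha1
  have h1' := e0_mul a
  have h2 := h.A ha ha1
  have h3 := h.T1 ha ha1
  have h4 := h.Q ha ha1
  have h5 := h.θ
  have h6 := h.k1
  have h7 := h.k2
  have h8 := h.k3
  have h9 := h.C2
  have h10 := h.Th
  have h11 := h.nx
  have h11' := h.ne
  have h12 := h.h'
  have h13 := h.r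
  unfold EP.S1
  refine UpD.mono (by
    repeat' (first
          | with_reducible exact UpD.const _
          | with_reducible assumption
          | with_reducible exact UpD.of (Up.self)
          | with_reducible exact UpD.of (Up.inv_self)
          | with_reducible exact UpD.of (Up.pow_self _)
          | with_reducible exact UpD.of (Up.pow_self_nat _)
          | with_reducible exact UpD.of (Up.inv_pow_self _)
          | with_reducible exact UpD.of (up_cF ha)
          | with_reducible exact UpD.of (up_cD ha)
          | with_reducible exact UpD.of (up_cS ha)
          | with_reducible exact UpD.of (up_cS_inv _)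
          | with_reducible exact UpD.of (up_cR)
          | with_reducible exact UpD.of (up_cR_inv)
          | with_reducible exact UpD.of (up_cP)
          | with_reducible exact UpD.of (up_cM)
          | with_reducible exact UpD.of (up_cM_inv)
          | with_reducible exact UpD.of (up_cB)
          | with_reducible exact UpD.of (up_cN)
          | with_reducible exact UpD.of (up_cLam)
          | with_reducible exact UpD.of (up_cLam_inv)
          | with_reducible exact UpD.of (up_cY _)
          | with_reducible exact UpD.of (up_cY_inv _)
          | with_reducible exact UpD.of (up_cE)
          | with_reducible exact UpD.of (up_cE_inv)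
          | with_reducible exact UpD.of (up_log_xd ha)
          | with_reducible exact UpD.of (up_logE_xd ha (by positivity))
          | with_reducible apply UpD.sub'
          | with_reducible apply UpD.neg
          | with_reducible apply UpD.add'
          | with_reducible apply UpD.inv_mul
          | with_reducible apply UpD.mul
          | with_reducible apply UpD.inv_div
          | with_reducible apply UpD.inv_pow
          | with_reducible apply UpD.pow
          | with_reducible apply UpD.inv_inv
          | with_reducible apply UpD.div
          | with_reducible apply UpD.sqrt
          | with_reducible apply UpD.abs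
          | with_reducible apply UpD.max)) (by
    (
          try simp only [mul_add, add_mul, Nat.cast_ofNat,
            mul_max_of_nonneg _ _ (show (0:ℝ) ≤ 2 by norm_num),
            mul_max_of_nonneg _ _ (show (0:ℝ) ≤ 3 by norm_num),
            mul_max_of_nonneg _ _ (show (0:ℝ) ≤ 4 by norm_num),
            ← max_add_add_right, ← max_add_add_left, max_lt_iff, max_le_iff,
            ← max_div_div_right (show (0:ℝ) ≤ 2 by norm_num), max_self]
          try and_intros
          all_goals (
            try simp only [xd, xs, xr, xm, xn, xlam, xy, xom, xu, xc]
            first | linarith | (norm_num; done) | (norm_num; linarith))))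

/-- **The energy expression**: exponent. -/
theorem UpEP.tot (ha : 0 < a) (ha1 : a ≤ 1) (h : UpEP a p) :
    UpD (fun l i => (p l i).tot) (-(13 / 2 * e0 a)) := by
  have h0 := e0_pos ha
  have h1 := e0_le ha1
  have h1' := e0_mul a
  have h2 := h.S1 ha ha1
  have h3 := h.Q ha ha1
  have h4 := h.τ
  have h5 := h.Cm
  have h6 := h.rθ
  have h7 := h.Λ
  have h8 := h.z
  have h9 := h.Nn
  unfold EP.tot
  refine UpD.mono (by
    repeat' (first
          | with_reducible exact UpD.const _
          | with_reducible assumption
          | with_reducible exact UpD.of (Up.self)
          | with_reducible exact UpD.of (Up.inv_self)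
          | with_reducible exact UpD.of (Up.pow_self _)
          | with_reducible exact UpD.of (Up.pow_self_nat _)
          | with_reducible exact UpD.of (Up.inv_pow_self _)
          | with_reducible exact UpD.of (up_cF ha)
          | with_reducible exact UpD.of (up_cD ha)
          | with_reducible exact UpD.of (up_cS ha)
          | with_reducible exact UpD.of (up_cS_inv _)
          | with_reducible exact UpD.of (up_cR)
          | with_reducible exact UpD.of (up_cR_inv)
          | with_reducible exact UpD.of (up_cP)
          | with_reducible exact UpD.of (up_cM)
          | with_reducible exact UpD.of (up_cM_inv)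
          | with_reducible exact UpD.of (up_cB)
          | with_reducible exact UpD.of (up_cN)
          | with_reducible exact UpD.of (up_cLam)
          | with_reducible exact UpD.of (up_cLam_inv)
          | with_reducible exact UpD.of (up_cY _)
          | with_reducible exact UpD.of (up_cY_inv _)
          | with_reducible exact UpD.of (up_cE)
          | with_reducible exact UpD.of (up_cE_inv)
          | with_reducible exact UpD.of (up_log_xd ha)
          | with_reducible exact UpD.of (up_logE_xd ha (by positivity))
          | with_reducible apply UpD.sub'
          | with_reducible apply UpD.neg
          | with_reducible apply UpD.add'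
          | with_reducible apply UpD.inv_mul
          | with_reducible apply UpD.mul
          | with_reducible apply UpD.inv_div
          | with_reducible apply UpD.inv_pow
          | with_reducible apply UpD.pow
          | with_reducible apply UpD.inv_inv
          | with_reducible apply UpD.div
          | with_reducible apply UpD.sqrt
          | with_reducible apply UpD.abs
          | with_reducible apply UpD.max)) (by
    (
          try simp only [mul_add, add_mul, Nat.cast_ofNat,
            mul_max_of_nonneg _ _ (show (0:ℝ) ≤ 2 by norm_num),
            mul_max_of_nonneg _ _ (show (0:ℝ) ≤ 3 by norm_num),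
            mul_max_of_nonneg _ _ (show (0:ℝ) ≤ 4 by norm_num),
            ← max_add_add_right, ← max_add_add_left, max_lt_iff, max_le_iff,
            ← max_div_div_right (show (0:ℝ) ≤ 2 by norm_num), max_self]
          try and_intros
          all_goals (
            try simp only [xd, xs, xr, xm, xn, xlam, xy, xom, xu, xc]
            first | linarith | (norm_num; done) | (norm_num; linarith))))

/-- the same for the expression without the detectors and the third order -/
theorem UpEP.tot2 (ha : 0 < a) (ha1 : a ≤ 1) (h : UpEP a p) :
    UpD (fun l i => (p l i).tot2) (-(13 / 2 * e0 a)) := by
  have h0 := e0_pos ha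
  have h1 := e0_le ha1
  have h1' := e0_mul a
  have h2 := h.S1 ha ha1
  have h3 := h.Q ha ha1
  have h4 := h.τ
  have h5 := h.Cm
  have h6 := h.rθ
  unfold EP.tot2
  refine UpD.mono (by
    repeat' (first
          | with_reducible exact UpD.const _
          | with_reducible assumption
          | with_reducible exact UpD.of (Up.self)
          | with_reducible exact UpD.of (Up.inv_self)
          | with_reducible exact UpD.of (Up.pow_self _)
          | with_reducible exact UpD.of (Up.pow_self_nat _)
          | with_reducible exact UpD.of (Up.inv_pow_self _)
          | with_reducible exact UpD.of (up_cF ha)
          | with_reducible exact UpD.of (up_cD ha)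
          | with_reducible exact UpD.of (up_cS ha)
          | with_reducible exact UpD.of (up_cS_inv _)
          | with_reducible exact UpD.of (up_cR)
          | with_reducible exact UpD.of (up_cR_inv)
          | with_reducible exact UpD.of (up_cP)
          | with_reducible exact UpD.of (up_cM)
          | with_reducible exact UpD.of (up_cM_inv)
          | with_reducible exact UpD.of (up_cB)
          | with_reducible exact UpD.of (up_cN)
          | with_reducible exact UpD.of (up_cLam)
          | with_reducible exact UpD.of (up_cLam_inv)
          | with_reducible exact UpD.of (up_cY _)
          | with_reducible exact UpD.of (up_cY_inv _)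
          | with_reducible exact UpD.of (up_cE)
          | with_reducible exact UpD.of (up_cE_inv)
          | with_reducible exact UpD.of (up_log_xd ha)
          | with_reducible exact UpD.of (up_logE_xd ha (by positivity))
          | with_reducible apply UpD.sub'
          | with_reducible apply UpD.neg
          | with_reducible apply UpD.add'
          | with_reducible apply UpD.inv_mul
          | with_reducible apply UpD.mul
          | with_reducible apply UpD.inv_div
          | with_reducible apply UpD.inv_pow
          | with_reducible apply UpD.pow
          | with_reducible apply UpD.inv_inv
          | with_reducible apply UpD.div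
          | with_reducible apply UpD.sqrt
          | with_reducible apply UpD.abs
          | with_reducible apply UpD.max)) (by
    (
          try simp only [mul_add, add_mul, Nat.cast_ofNat,
            mul_max_of_nonneg _ _ (show (0:ℝ) ≤ 2 by norm_num),
            mul_max_of_nonneg _ _ (show (0:ℝ) ≤ 3 by norm_num),
            mul_max_of_nonneg _ _ (show (0:ℝ) ≤ 4 by norm_num),
            ← max_add_add_right, ← max_add_add_left, max_lt_iff, max_le_iff,
            ← max_div_div_right (show (0:ℝ) ≤ 2 by norm_num), max_self]
          try and_intros
          all_goals (
            try simp only [xd, xs, xr, xm, xn, xlam, xy, xom, xu, xc]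
            first | linarith | (norm_num; done) | (norm_num; linarith))))

/-- **The energy expression is small.** -/
theorem UpEP.ev2 (ha : 0 < a) (ha1 : a ≤ 1) (h : UpEP a p) {err : ∀ l, ι l → ℝ}
    (he : UpD err (-(1 / 2000))) :
    ∀ᶠ l : ℕ in atTop, ∀ i : ι l, (p l i).tot2 + err l i ≤ (l : ℝ) ^ (-(2 * xc a)) := by
  have h0 := e0_pos ha
  have h1 := e0_le ha1
  have h2 := h.tot2 ha ha1
  exact UpD.ev_one (by
    repeat' (first
          | with_reducible exact UpD.const _
          | with_reducible assumption
          | with_reducible exact UpD.of (Up.self)
          | with_reducible exact UpD.of (Up.inv_self)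
          | with_reducible exact UpD.of (Up.pow_self _)
          | with_reducible exact UpD.of (Up.pow_self_nat _)
          | with_reducible exact UpD.of (Up.inv_pow_self _)
          | with_reducible exact UpD.of (up_cF ha)
          | with_reducible exact UpD.of (up_cD ha)
          | with_reducible exact UpD.of (up_cS ha)
          | with_reducible exact UpD.of (up_cS_inv _)
          | with_reducible exact UpD.of (up_cR)
          | with_reducible exact UpD.of (up_cR_inv)
          | with_reducible exact UpD.of (up_cP)
          | with_reducible exact UpD.of (up_cM)
          | with_reducible exact UpD.of (up_cM_inv)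
          | with_reducible exact UpD.of (up_cB)
          | with_reducible exact UpD.of (up_cN)
          | with_reducible exact UpD.of (up_cLam)
          | with_reducible exact UpD.of (up_cLam_inv)
          | with_reducible exact UpD.of (up_cY _)
          | with_reducible exact UpD.of (up_cY_inv _)
          | with_reducible exact UpD.of (up_cE)
          | with_reducible exact UpD.of (up_cE_inv)
          | with_reducible exact UpD.of (up_log_xd ha)
          | with_reducible exact UpD.of (up_logE_xd ha (by positivity))
          | with_reducible apply UpD.sub'
          | with_reducible apply UpD.neg
          | with_reducible apply UpD.add'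
          | with_reducible apply UpD.inv_mul
          | with_reducible apply UpD.mul
          | with_reducible apply UpD.inv_div
          | with_reducible apply UpD.inv_pow
          | with_reducible apply UpD.pow
          | with_reducible apply UpD.inv_inv
          | with_reducible apply UpD.div
          | with_reducible apply UpD.sqrt
          | with_reducible apply UpD.abs
          | with_reducible apply UpD.max)) (by
    (
          try simp only [mul_add, add_mul, Nat.cast_ofNat,
            mul_max_of_nonneg _ _ (show (0:ℝ) ≤ 2 by norm_num),
            mul_max_of_nonneg _ _ (show (0:ℝ) ≤ 3 by norm_num),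
            mul_max_of_nonneg _ _ (show (0:ℝ) ≤ 4 by norm_num),
            ← max_add_add_right, ← max_add_add_left, max_lt_iff, max_le_iff,
            ← max_div_div_right (show (0:ℝ) ≤ 2 by norm_num), max_self]
          try and_intros
          all_goals (
            try simp only [xd, xs, xr, xm, xn, xlam, xy, xom, xu, xc]
            first | linarith | (norm_num; done) | (norm_num; linarith))))

theorem UpEP.ev (ha : 0 < a) (ha1 : a ≤ 1) (h : UpEP a p) :
    ∀ᶠ l : ℕ in atTop, ∀ i : ι l, (p l i).tot ≤ (l : ℝ) ^ (-(2 * xc a)) :=
  (h.tot ha ha1).ev_one (by
    have h0 := e0_pos ha
    unfold xc
    linarith)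

end Vale.Agent.P356.GA.Par
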