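import Vale.Agent.P356.GA.Close749
import Mathlib.LinearAlgebra.Lagrange

/-!
Two modular flows across nested cuts, applied to a local observable: transport of a flow to the
complement and reduction to windows.
-/

set_option linter.all false

namespace Vale.Agent.P356.GA

open Matrix Finset Vale.Agent.P356 Vale.Agent.P356.SV Vale.Agent.P356.Path Vale.Agent.P356.PH
open scoped BigOperators ComplexOrder Kronecker Matrix.Norms.L2Operator

section transport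
variable {V : Type*} [Fintype V] [DecidableEq V] {q : ℕ}

theorem rho_compl_mulVec (S : Finset V) (ψ : Conf V q → ℂ) :
    opOn Sᶜ (rdm Sᶜ ψ) *ᵥ ψ = opOn S (rdm S ψ) *ᵥ ψ := by
  let e1 : {x // x ∈ Sᶜ} ≃ {x // ¬ x ∈ S} := Equiv.subtypeEquivRight (fun x => by simp)
  let e2 : {x // ¬ x ∈ Sᶜ} ≃ {x // x ∈ S} := Equiv.subtypeEquivRight (fun x => by simp)
  let E1 : ({x // x ∈ Sᶜ} → Fin q) ≃ ({x // ¬ x ∈ S} → Fin q) := Equiv.arrowCongr e1 (Equiv.refl _)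
  let E2 : ({x // ¬ x ∈ Sᶜ} → Fin q) ≃ ({x // x ∈ S} → Fin q) :=
    Equiv.arrowCongr e2 (Equiv.refl _)
  have hglue : ∀ a b, (cut Sᶜ q).symm (a, b) = (cut S q).symm (E2 b, E1 a) := by
    intro a b
    rw [b6b_cut_compl]
    rfl
  funext σ
  obtain ⟨⟨a, b⟩, rfl⟩ := (cut S q).symm.surjective σ
  rw [b6b_opOn_apply]
  have h1 : (cut S q).symm (a, b) = (cut Sᶜ q).symm (E1.symm b, E2.symm a) := by
    rw [hglue, Equiv.apply_symm_apply, Equiv.apply_symm_apply]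
  rw [h1, b6b_opOn_apply]
  simp only [hglue, Equiv.apply_symm_apply]
  rw [← E1.symm.sum_comp]
  have h2 : ∀ b', rdm Sᶜ ψ (E1.symm b) (E1.symm b') =
      ∑ a', ψ ((cut S q).symm (a', b)) * star (ψ ((cut S q).symm (a', b'))) := by
    intro b'
    have h3 : rdm Sᶜ ψ (E1.symm b) (E1.symm b') =
      ∑ c, ψ ((cut Sᶜ q).symm (E1.symm b, c)) * star (ψ ((cut Sᶜ q).symm (E1.symm b', c))) := rfl
    rw [h3]
    simp only [hglue, Equiv.apply_symm_apply]
    exact E2.sum_comp (fun a' => ψ ((cut S q).symm (a', b)) * star (ψ ((cut S q).symm (a', b'))))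
  have h4 : ∀ a', rdm S ψ a a' =
      ∑ b', ψ ((cut S q).symm (a, b')) * star (ψ ((cut S q).symm (a', b'))) := fun a' => rfl
  simp only [h2, h4, Equiv.apply_symm_apply, Finset.sum_mul]
  rw [Finset.sum_comm]
  refine Finset.sum_congr rfl fun a' _ => Finset.sum_congr rfl fun b' _ => ?_
  ring

/-- function of the reduced state -/
noncomputable def crF (S : Finset V) (ψ : Conf V q → ℂ) (F : ℝ → ℂ) : Op V q :=
  cr S ψ (fun i => F (eigp (ψ ∘ (cut S q).symm) i))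

theorem UU_crF (S : Finset V) (ψ : Conf V q → ℂ) (s : ℝ) :
    UU S ψ s = crF S ψ (fun p => Complex.exp ((s * Real.log p : ℝ) * Complex.I)) := rfl

theorem crF_acts (S : Finset V) (ψ : Conf V q → ℂ) (F : ℝ → ℂ) : ActsOn S (crF S ψ F) :=
  cr_acts S ψ _

theorem crF_mul (S : Finset V) (ψ : Conf V q → ℂ) (F G : ℝ → ℂ) :
    crF S ψ F * crF S ψ G = crF S ψ (fun p => F p * G p) := by
  rw [crF, crF, cr_mul, crF]

theorem crF_add (S : Finset V) (ψ : Conf V q → ℂ) (F G : ℝ → ℂ) :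
    crF S ψ F + crF S ψ G = crF S ψ (fun p => F p + G p) := by
  rw [crF, crF, cr_add, crF]

theorem crF_mulVec_congr (S : Finset V) (ψ : Conf V q → ℂ) (F G : ℝ → ℂ)
    (h : ∀ i, F (eigp (ψ ∘ (cut S q).symm) i) = G (eigp (ψ ∘ (cut S q).symm) i)) :
    crF S ψ F = crF S ψ G := by
  rw [crF, crF]
  congr 1
  funext i
  exact h i

theorem crF_poly_transport (S : Finset V) (ψ : Conf V q → ℂ) (P : Polynomial ℂ) :
    crF Sᶜ ψ (fun p => P.eval (p : ℂ)) *ᵥ ψ = crF S ψ (fun p => P.eval (p : ℂ)) *ᵥ ψ := by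
  induction P using Polynomial.induction_on' with
  | add P Q hP hQ =>
    simp only [Polynomial.eval_add]
    rw [← crF_add, ← crF_add, Matrix.add_mulVec, Matrix.add_mulVec, hP, hQ]
  | monomial n c =>
    simp only [Polynomial.eval_monomial]
    induction n with
    | zero =>
      have h : ∀ T : Finset V, crF T ψ (fun p => c * (p : ℂ) ^ 0) = c • (1 : Op V q) := by
        intro T
        rw [← cr_one T ψ, crF]
        have := (crL T ψ).map_smul c (fun _ => 1)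
        rw [crL_apply, crL_apply] at this
        rw [← this]
        congr 1
      rw [h, h]
    | succ n ih =>
      have h : ∀ T : Finset V, crF T ψ (fun p => c * (p : ℂ) ^ (n + 1)) =
          crF T ψ (fun p => c * (p : ℂ) ^ n) * opOn T (rdm T ψ) := by
        intro T
        rw [← cr_rho]
        change _ = _ * crF T ψ (fun p => (p : ℂ))
        rw [crF_mul]
        congr 1
        funext p
        rw [pow_succ, mul_assoc]
      have h' : ∀ T : Finset V, crF T ψ (fun p => c * (p : ℂ) ^ (n + 1)) =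
          opOn T (rdm T ψ) * crF T ψ (fun p => c * (p : ℂ) ^ n) := by
        intro T
        rw [← cr_rho]
        change _ = crF T ψ (fun p => (p : ℂ)) * _
        rw [crF_mul]
        congr 1
        funext p
        rw [pow_succ]
        ring
      have hc : crF Sᶜ ψ (fun p => c * (p : ℂ) ^ n) * opOn S (rdm S ψ) =
          opOn S (rdm S ψ) * crF Sᶜ ψ (fun p => c * (p : ℂ) ^ n) :=
        ph_acts_comm disjoint_compl_left (crF_acts _ _ _) (ph_acts_opOn S _)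
      rw [h Sᶜ, ← Matrix.mulVec_mulVec, rho_compl_mulVec, Matrix.mulVec_mulVec, hc,
        ← Matrix.mulVec_mulVec, ih, Matrix.mulVec_mulVec, ← h' S]

/-- **Transport.**  A function of the reduced state of `S` acts on the state as the same function
of the reduced state of the complement. -/
theorem crF_transport (S : Finset V) (ψ : Conf V q → ℂ) (F : ℝ → ℂ) :
    crF Sᶜ ψ F *ᵥ ψ = crF S ψ F *ᵥ ψ := by
  classical
  set s : Finset ℝ := (Finset.univ.image (fun i => eigp (ψ ∘ (cut S q).symm) i)) ∪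
    (Finset.univ.image (fun i => eigp (ψ ∘ (cut Sᶜ q).symm) i)) with hs
  set P : Polynomial ℂ := Lagrange.interpolate s (fun p : ℝ => (p : ℂ)) F with hP
  have hinj : Set.InjOn (fun p : ℝ => (p : ℂ)) s := fun a _ b _ h => Complex.ofReal_injective h
  have hev : ∀ p ∈ s, P.eval (p : ℂ) = F p := fun p hp =>
    Lagrange.eval_interpolate_at_node F hinj hp
  have h1 : crF S ψ F = crF S ψ (fun p => P.eval (p : ℂ)) :=
    crF_mulVec_congr S ψ _ _ fun i => (hev _ (by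
      rw [hs, Finset.mem_union]
      exact Or.inl (Finset.mem_image_of_mem _ (Finset.mem_univ i)))).symm
  have h2 : crF Sᶜ ψ F = crF Sᶜ ψ (fun p => P.eval (p : ℂ)) :=
    crF_mulVec_congr Sᶜ ψ _ _ fun i => (hev _ (by
      rw [hs, Finset.mem_union]
      exact Or.inr (Finset.mem_image_of_mem _ (Finset.mem_univ i)))).symm
  rw [h1, h2, crF_poly_transport]

theorem UU_transport (S : Finset V) (ψ : Conf V q → ℂ) (s : ℝ) :
    UU Sᶜ ψ s *ᵥ ψ = UU S ψ s *ᵥ ψ := by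
  rw [UU_crF, UU_crF, crF_transport]

/-- `exp (z g(ρ_S))` on the whole system -/
noncomputable def EE (S : Finset V) (ψ : Conf V q → ℂ) (g : ℝ → ℝ) (z : ℂ) : Op V q :=
  crF S ψ (fun p => Complex.exp (z * (g p : ℂ)))

/-- `g(ρ_S)` on the whole system -/
noncomputable def GG (S : Finset V) (ψ : Conf V q → ℂ) (g : ℝ → ℝ) : Op V q :=
  crF S ψ (fun p => (g p : ℂ))

theorem EE_add (S : Finset V) (ψ : Conf V q → ℂ) (g : ℝ → ℝ) (z w : ℂ) :
    EE S ψ g z * EE S ψ g w = EE S ψ g (z + w) := by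
  rw [EE, EE, crF_mul, EE]
  congr 1
  funext p
  rw [← Complex.exp_add]
  congr 1
  ring

theorem EE_zero (S : Finset V) (ψ : Conf V q → ℂ) (g : ℝ → ℝ) : EE S ψ g 0 = 1 := by
  rw [EE, ← cr_one S ψ, crF]
  congr 1
  funext i
  simp

theorem EE_star (S : Finset V) (ψ : Conf V q → ℂ) (g : ℝ → ℝ) (z : ℂ) :
    (EE S ψ g z)ᴴ = EE S ψ g (star z) := by
  rw [EE, crF, cr_conj, EE, crF]
  congr 1
  funext i
  rw [Complex.star_def, ← Complex.exp_conj, map_mul, Complex.conj_ofReal]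

theorem EE_acts (S : Finset V) (ψ : Conf V q → ℂ) (g : ℝ → ℝ) (z : ℂ) :
    ActsOn S (EE S ψ g z) := crF_acts _ _ _

theorem GG_acts (S : Finset V) (ψ : Conf V q → ℂ) (g : ℝ → ℝ) : ActsOn S (GG S ψ g) :=
  crF_acts _ _ _

theorem GG_conj (S : Finset V) (ψ : Conf V q → ℂ) (g : ℝ → ℝ) : (GG S ψ g)ᴴ = GG S ψ g := by
  rw [GG, crF, cr_conj]
  congr 1
  funext i
  simp

theorem EE_transport (S : Finset V) (ψ : Conf V q → ℂ) (g : ℝ → ℝ) (z : ℂ) :
    EE Sᶜ ψ g z *ᵥ ψ = EE S ψ g z *ᵥ ψ := crF_transport _ _ _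

theorem EE_unit (S : Finset V) (ψ : Conf V q → ℂ) (g : ℝ → ℝ) {z : ℂ} (hz : z.re = 0) :
    (EE S ψ g z)ᴴ * EE S ψ g z = 1 := by
  rw [EE_star, EE_add, ← EE_zero S ψ g]
  congr 1
  apply Complex.ext <;> simp [hz]

theorem nsq_of_unit {A : Op V q} (h : Aᴴ * A = 1) (w : Conf V q → ℂ) :
    nsq (A *ᵥ w) = nsq w := by
  have h1 := nsq_mulVec_eq A w
  rw [h, Matrix.one_mulVec, NA.na_spow_nsq_star] at h1
  exact_mod_cast h1

theorem nrm_of_unit {A : Op V q} (h : Aᴴ * A = 1) (w : Conf V q → ℂ) :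
    nrm (A *ᵥ w) = nrm w := by
  rw [nrm, nsq_of_unit h, nrm]

theorem UU_eq_EE (S : Finset V) (ψ : Conf V q → ℂ) (s : ℝ) :
    UU S ψ s = EE S ψ Real.log ((s : ℂ) * Complex.I) := by
  rw [UU_crF, EE]
  congr 1
  funext p
  congr 1
  push_cast
  ring

theorem UU_acts (S : Finset V) (ψ : Conf V q → ℂ) (s : ℝ) : ActsOn S (UU S ψ s) := by
  rw [UU_eq_EE]
  exact EE_acts _ _ _ _

theorem EE_hasDerivAt (S : Finset V) (ψ : Conf V q → ℂ) (g : ℝ → ℝ) (z : ℂ) :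
    HasDerivAt (fun z => EE S ψ g z) (GG S ψ g * EE S ψ g z) z := by
  have h1 : HasDerivAt (fun z : ℂ => (fun i => Complex.exp (z *
      (g (eigp (ψ ∘ (cut S q).symm) i) : ℂ))))
      (fun i => (g (eigp (ψ ∘ (cut S q).symm) i) : ℂ) *
        Complex.exp (z * (g (eigp (ψ ∘ (cut S q).symm) i) : ℂ))) z := by
    refine hasDerivAt_pi.2 fun i => ?_
    have h2 : HasDerivAt (fun z : ℂ => z * (g (eigp (ψ ∘ (cut S q).symm) i) : ℂ))
        (g (eigp (ψ ∘ (cut S q).symm) i) : ℂ) z := by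
      simpa using (hasDerivAt_id z).mul_const (g (eigp (ψ ∘ (cut S q).symm) i) : ℂ)
    refine h2.cexp.congr_deriv ?_
    ring
  have h3 := ((crL S ψ).toContinuousLinearMap).hasFDerivAt.comp_hasDerivAt z h1
  refine h3.congr_deriv ?_
  rw [GG, EE, crF_mul]
  rfl

theorem EE_GG_comm (S : Finset V) (ψ : Conf V q → ℂ) (g : ℝ → ℝ) (z : ℂ) :
    EE S ψ g z * GG S ψ g = GG S ψ g * EE S ψ g z := by
  rw [GG, EE, crF_mul, crF_mul]
  congr 1
  funext p
  ring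

/-- the conjugation and its derivative -/
theorem conj_hasDerivAt (S : Finset V) (ψ : Conf V q → ℂ) (g : ℝ → ℝ) (X : Op V q) (z : ℂ) :
    HasDerivAt (fun z => EE S ψ g z * X * EE S ψ g (-z))
      (EE S ψ g z * (GG S ψ g * X - X * GG S ψ g) * EE S ψ g (-z)) z := by
  have h1 := EE_hasDerivAt S ψ g z
  have h2 : HasDerivAt (fun z => EE S ψ g (-z)) (-(GG S ψ g * EE S ψ g (-z))) z := by
    have h := (EE_hasDerivAt S ψ g (-z)).scomp z (hasDerivAt_neg z)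
    exact h.congr_deriv (by rw [neg_smul, one_smul])
  refine ((h1.mul_const X).mul h2).congr_deriv ?_
  rw [← EE_GG_comm S ψ g z, Matrix.mul_sub, Matrix.sub_mul]
  simp only [Matrix.mul_assoc, Matrix.mul_neg]
  abel

/-- expectation as a linear map -/
theorem ex_hasDerivAt (φ : Conf V q → ℂ) {F : ℂ → Op V q} {F' : Op V q} {z : ℂ}
    (h : HasDerivAt F F' z) :
    HasDerivAt (fun z => star φ ⬝ᵥ (F z *ᵥ φ)) (star φ ⬝ᵥ (F' *ᵥ φ)) z := by
  have h3 := ((exL φ).toContinuousLinearMap).hasFDerivAt.comp_hasDerivAt z h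
  exact h3

end transport

section pair
variable {V : Type*} [Fintype V] [DecidableEq V] {q : ℕ}

/-- expectation of `X` -/
noncomputable def ex (φ : Conf V q → ℂ) (X : Op V q) : ℂ := star φ ⬝ᵥ (X *ᵥ φ)

theorem ex_conj (φ : Conf V q → ℂ) (A X : Op V q) :
    ex (A *ᵥ φ) X = ex φ (Aᴴ * X * A) := by
  rw [ex, ex, Matrix.star_mulVec, ← Matrix.dotProduct_mulVec, Matrix.mulVec_mulVec,
    Matrix.mulVec_mulVec, Matrix.mul_assoc]

theorem nrm_mulVec_le' (A : Op V q) (w : Conf V q → ℂ) : nrm (A *ᵥ w) ≤ ‖A‖ * nrm w := by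
  unfold nrm
  refine Real.sqrt_le_iff.2 ⟨by have := norm_nonneg A; positivity, ?_⟩
  rw [mul_pow, Real.sq_sqrt (nsq_nonneg' w)]
  exact ph_nsq_mulVec_le A w

theorem nrm_one {ψ : Conf V q → ℂ} (h : nsq ψ = 1) : nrm ψ = 1 := by
  rw [nrm, h, Real.sqrt_one]

theorem ex_close {u v : Conf V q → ℂ} (hu : nrm u = 1) (hv : nrm v = 1) (X : Op V q) :
    ‖ex u X - ex v X‖ ≤ 2 * ‖X‖ * nrm (u - v) := by
  have e1 : ex u X - ex v X = star (u - v) ⬝ᵥ (X *ᵥ u) + star v ⬝ᵥ (X *ᵥ (u - v)) := by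
    rw [ex, ex, star_sub, sub_dotProduct, mulVec_sub, dotProduct_sub]
    ring
  have h1 := nrm_ip_le (u - v) (X *ᵥ u)
  have h2 := nrm_ip_le v (X *ᵥ (u - v))
  have h3 := nrm_mulVec_le' X u
  have h4 := nrm_mulVec_le' X (u - v)
  rw [hu, mul_one] at h3
  rw [hv, one_mul] at h2
  rw [e1]
  refine (norm_add_le _ _).trans ?_
  have h5 : nrm (u - v) * nrm (X *ᵥ u) ≤ nrm (u - v) * ‖X‖ :=
    mul_le_mul_of_nonneg_left h3 (nrm_nonneg _)
  linarith

/-- the closeness error of the flow of `N ∪ M` -/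
noncomputable def eW (N M : Finset V) (ψ : Conf V q → ℂ) (s : ℝ) : ℝ :=
  nrm (UU (N ∪ M) ψ (-s) *ᵥ ψ - UU M ψ (-s) *ᵥ (UU (N ∩ M) ψ s *ᵥ (UU N ψ (-s) *ᵥ ψ)))

/-- the clipping error -/
noncomputable def eC (S : Finset V) (ψ : Conf V q → ℂ) (g : ℝ → ℝ) (s : ℝ) : ℝ :=
  nrm (EE S ψ g (((-s : ℝ) : ℂ) * Complex.I) *ᵥ ψ - UU S ψ (-s) *ᵥ ψ)

theorem UU_unit (S : Finset V) (ψ : Conf V q → ℂ) (s : ℝ) : (UU S ψ s)ᴴ * UU S ψ s = 1 :=
  UU_norm_one S ψ s

/-- **Two nested lines.**  `A = NA ∪ MA` is the inner region, `B = NB ∪ MB` the complement of the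
outer one.  The observable does not meet `MA` and `MB`. -/
theorem pair_window {NA MA NB MB Z : Finset V} (hd : Disjoint (NA ∪ MA) (NB ∪ MB))
    (hA : Disjoint Z MA) (hB : Disjoint Z MB) {T : Op V q} (hT : ActsOn Z T)
    {ψ : Conf V q → ℂ} (hψ : nsq ψ = 1) (g : ℝ → ℝ) (s t : ℝ) :
    ‖ex (EE (NA ∪ MA) ψ g (((-t : ℝ) : ℂ) * Complex.I) *ᵥ
        (EE (NB ∪ MB)ᶜ ψ g (((-s : ℝ) : ℂ) * Complex.I) *ᵥ ψ)) T -
      ex (UU NA ψ (-t) *ᵥ (UU NB ψ (-s) *ᵥ ψ)) T‖ ≤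
      2 * ‖T‖ * (eW NA MA ψ t + eC (NA ∪ MA) ψ g t + (eW NB MB ψ s + eC (NB ∪ MB) ψ g s)) := by
  set EA := EE (NA ∪ MA) ψ g (((-t : ℝ) : ℂ) * Complex.I) with hEA
  set EB := EE (NB ∪ MB) ψ g (((-s : ℝ) : ℂ) * Complex.I) with hEB
  have hEAa : ActsOn (NA ∪ MA) EA := EE_acts _ _ _ _
  have hEBa : ActsOn (NB ∪ MB) EB := EE_acts _ _ _ _
  have hEAu : EAᴴ * EA = 1 := EE_unit _ _ _ (by simp)
  have hEBu : EBᴴ * EB = 1 := EE_unit _ _ _ (by simp)
  rw [EE_transport, ← hEB]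
  set WA := UU MA ψ (-t) * UU (NA ∩ MA) ψ t with hWA
  set WB := UU MB ψ (-s) * UU (NB ∩ MB) ψ s with hWB
  have hWAa : ActsOn MA WA :=
    ph_acts_mul (UU_acts _ _ _) (ph_acts_mono Finset.inter_subset_right (UU_acts _ _ _))
  have hWBa : ActsOn MB WB :=
    ph_acts_mul (UU_acts _ _ _) (ph_acts_mono Finset.inter_subset_right (UU_acts _ _ _))
  have unit_mul : ∀ {X Y : Op V q}, Xᴴ * X = 1 → Yᴴ * Y = 1 → (X * Y)ᴴ * (X * Y) = 1 := by
    intro X Y hX hY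
    rw [conjTranspose_mul]
    calc Yᴴ * Xᴴ * (X * Y) = Yᴴ * (Xᴴ * X) * Y := by simp only [Matrix.mul_assoc]
      _ = 1 := by rw [hX, Matrix.mul_one, hY]
  have hWAu : WAᴴ * WA = 1 := unit_mul (UU_unit _ _ _) (UU_unit _ _ _)
  have hWBu : WBᴴ * WB = 1 := unit_mul (UU_unit _ _ _) (UU_unit _ _ _)
  set nA := UU NA ψ (-t) with hnA
  set nB := UU NB ψ (-s) with hnB
  have hnAa : ActsOn (NA ∪ MA) nA := ph_acts_mono Finset.subset_union_left (UU_acts _ _ _)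
  have hnBa : ActsOn (NB ∪ MB) nB := ph_acts_mono Finset.subset_union_left (UU_acts _ _ _)
  have hnAu : nAᴴ * nA = 1 := UU_unit _ _ _
  have hnBu : nBᴴ * nB = 1 := UU_unit _ _ _
  have hWAa' : ActsOn (NA ∪ MA) WA := ph_acts_mono Finset.subset_union_right hWAa
  have hWBa' : ActsOn (NB ∪ MB) WB := ph_acts_mono Finset.subset_union_right hWBa
  have c1 : EA * EB = EB * EA := ph_acts_comm hd hEAa hEBa
  have c2 : EB * (WA * nA) = (WA * nA) * EB :=
    (ph_acts_comm hd (ph_acts_mul hWAa' hnAa) hEBa).symm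
  have c3 : nA * WB = WB * nA := ph_acts_comm hd hnAa hWBa'
  have hψn := nrm_one hψ
  -- the errors
  have dA : nrm (EA *ᵥ ψ - (WA * nA) *ᵥ ψ) ≤ eW NA MA ψ t + eC (NA ∪ MA) ψ g t := by
    have e : EA *ᵥ ψ - (WA * nA) *ᵥ ψ =
        (EA *ᵥ ψ - UU (NA ∪ MA) ψ (-t) *ᵥ ψ) + (UU (NA ∪ MA) ψ (-t) *ᵥ ψ -
          UU MA ψ (-t) *ᵥ (UU (NA ∩ MA) ψ t *ᵥ (UU NA ψ (-t) *ᵥ ψ))) := by
      rw [hWA, hnA, Matrix.mulVec_mulVec, Matrix.mulVec_mulVec, Matrix.mul_assoc]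
      abel
    rw [e]
    refine (nrm_add_le _ _).trans ?_
    rw [eW, eC, ← hEA]
    linarith
  have dB : nrm (EB *ᵥ ψ - (WB * nB) *ᵥ ψ) ≤ eW NB MB ψ s + eC (NB ∪ MB) ψ g s := by
    have e : EB *ᵥ ψ - (WB * nB) *ᵥ ψ =
        (EB *ᵥ ψ - UU (NB ∪ MB) ψ (-s) *ᵥ ψ) + (UU (NB ∪ MB) ψ (-s) *ᵥ ψ -
          UU MB ψ (-s) *ᵥ (UU (NB ∩ MB) ψ s *ᵥ (UU NB ψ (-s) *ᵥ ψ))) := by
      rw [hWB, hnB, Matrix.mulVec_mulVec, Matrix.mulVec_mulVec, Matrix.mul_assoc]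
      abel
    rw [e]
    refine (nrm_add_le _ _).trans ?_
    rw [eW, eC, ← hEB]
    linarith
  set W := WA * WB with hW
  have hWu : Wᴴ * W = 1 := unit_mul hWAu hWBu
  have hdec : EA *ᵥ (EB *ᵥ ψ) - W *ᵥ (nA *ᵥ (nB *ᵥ ψ)) =
      EB *ᵥ (EA *ᵥ ψ - (WA * nA) *ᵥ ψ) + (WA * nA) *ᵥ (EB *ᵥ ψ - (WB * nB) *ᵥ ψ) := by
    have e1 : W * (nA * nB) = (WA * nA) * (WB * nB) := by
      calc WA * WB * (nA * nB) = WA * (WB * nA) * nB := by simp only [Matrix.mul_assoc]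
        _ = WA * (nA * WB) * nB := by rw [c3]
        _ = WA * nA * (WB * nB) := by simp only [Matrix.mul_assoc]
    simp only [Matrix.mulVec_sub, Matrix.mulVec_mulVec]
    rw [e1, ← c2, c1]
    abel
  have hdist : nrm (EA *ᵥ (EB *ᵥ ψ) - W *ᵥ (nA *ᵥ (nB *ᵥ ψ))) ≤
      eW NA MA ψ t + eC (NA ∪ MA) ψ g t + (eW NB MB ψ s + eC (NB ∪ MB) ψ g s) := by
    rw [hdec]
    refine (nrm_add_le _ _).trans ?_
    rw [nrm_of_unit hEBu, nrm_of_unit (unit_mul hWAu hnAu)]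
    linarith
  have hTW : Wᴴ * T * W = T := by
    have h1 : T * WA = WA * T := ph_acts_comm hA hT hWAa
    have h2 : T * WB = WB * T := ph_acts_comm hB hT hWBa
    have h3 : T * W = W * T := by
      calc T * (WA * WB) = (T * WA) * WB := by simp only [Matrix.mul_assoc]
        _ = WA * (T * WB) := by rw [h1, Matrix.mul_assoc]
        _ = WA * WB * T := by rw [h2, ← Matrix.mul_assoc]
    rw [Matrix.mul_assoc, h3, ← Matrix.mul_assoc, hWu, Matrix.one_mul]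
  have hex : ex (W *ᵥ (nA *ᵥ (nB *ᵥ ψ))) T = ex (nA *ᵥ (nB *ᵥ ψ)) T := by
    rw [ex_conj, hTW]
  rw [← hex]
  refine (ex_close ?_ ?_ T).trans (mul_le_mul_of_nonneg_left hdist (by positivity))
  · rw [nrm_of_unit hEAu, nrm_of_unit hEBu, hψn]
  · rw [nrm_of_unit hWu, nrm_of_unit hnAu, nrm_of_unit hnBu, hψn]

end pair

end Vale.Agent.P356.GA
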