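import Mathlib

/-!
# Power scales (helper227)

`sc e l = ⌈l^e⌉` and a small calculus of power bounds for functions of the scale `l : ℕ`:
`Up f e` says `f l = O(l^e)` as `l → ∞`. Every inequality between the scales of the construction
is obtained from one linear inequality between exponents.
-/

set_option linter.all false

namespace Vale.Agent.P356.GA.Par

open Filter Asymptotics

/-- the natural scale `⌈l^e⌉` -/
noncomputable def sc (e : ℝ) (l : ℕ) : ℕ := ⌈(l : ℝ) ^ e⌉₊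

theorem sc_ge (e : ℝ) (l : ℕ) : (l : ℝ) ^ e ≤ sc e l := Nat.le_ceil _

theorem one_le_rpow' {e : ℝ} (he : 0 ≤ e) {l : ℕ} (hl : 1 ≤ l) : (1 : ℝ) ≤ (l : ℝ) ^ e :=
  Real.one_le_rpow (by exact_mod_cast hl) he

theorem sc_le {e : ℝ} (he : 0 ≤ e) {l : ℕ} (hl : 1 ≤ l) : (sc e l : ℝ) ≤ 2 * (l : ℝ) ^ e := by
  have h0 := one_le_rpow' he hl
  have h1 : (sc e l : ℝ) < (l : ℝ) ^ e + 1 := Nat.ceil_lt_add_one (by linarith)
  linarith

theorem one_le_sc {e : ℝ} {l : ℕ} (hl : 1 ≤ l) : 1 ≤ sc e l := by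
  have h0 : (0 : ℝ) < (l : ℝ) ^ e := Real.rpow_pos_of_pos (by exact_mod_cast hl) e
  exact Nat.ceil_pos.2 h0

theorem sc_pos {e : ℝ} {l : ℕ} (hl : 1 ≤ l) : (0 : ℝ) < sc e l := by
  have := one_le_sc (e := e) hl
  exact_mod_cast this

theorem sc_mono {e e' : ℝ} (h : e ≤ e') {l : ℕ} (hl : 1 ≤ l) : sc e l ≤ sc e' l :=
  Nat.ceil_mono (Real.rpow_le_rpow_of_exponent_le (by exact_mod_cast hl) h)

/-- `f l = O(l^e)` -/
def Up (f : ℕ → ℝ) (e : ℝ) : Prop := f =O[atTop] fun l : ℕ => (l : ℝ) ^ e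

theorem ev_one : ∀ᶠ l : ℕ in atTop, 1 ≤ l := eventually_ge_atTop 1

theorem Up.intro {f : ℕ → ℝ} {e C : ℝ} (h : ∀ᶠ l : ℕ in atTop, |f l| ≤ C * (l : ℝ) ^ e) :
    Up f e := by
  refine IsBigO.of_bound C (h.mono fun l hl => ?_)
  rw [Real.norm_eq_abs, Real.norm_eq_abs, abs_of_nonneg (Real.rpow_nonneg (Nat.cast_nonneg l) e)]
  exact hl

theorem Up.bound {f : ℕ → ℝ} {e : ℝ} (h : Up f e) :
    ∃ C : ℝ, 0 < C ∧ ∀ᶠ l : ℕ in atTop, |f l| ≤ C * (l : ℝ) ^ e := by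
  obtain ⟨C, hC, h1⟩ := h.exists_pos
  refine ⟨C, hC, h1.bound.mono fun l hl => ?_⟩
  rwa [Real.norm_eq_abs, Real.norm_eq_abs,
    abs_of_nonneg (Real.rpow_nonneg (Nat.cast_nonneg l) e)] at hl

theorem Up.mono {f : ℕ → ℝ} {e e' : ℝ} (h : Up f e) (he : e ≤ e') : Up f e' := by
  obtain ⟨C, hC, h1⟩ := h.bound
  refine Up.intro (C := C) ?_
  filter_upwards [h1, ev_one] with l hl hl1
  refine hl.trans (mul_le_mul_of_nonneg_left ?_ hC.le)
  exact Real.rpow_le_rpow_of_exponent_le (by exact_mod_cast hl1) he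

theorem Up.of_le {f g : ℕ → ℝ} {e : ℝ} (hg : Up g e) (h : ∀ᶠ l : ℕ in atTop, |f l| ≤ |g l|) :
    Up f e := by
  obtain ⟨C, hC, h1⟩ := hg.bound
  refine Up.intro (C := C) ?_
  filter_upwards [h1, h] with l hl hl1
  exact hl1.trans hl

theorem Up.congr' {f g : ℕ → ℝ} {e : ℝ} (hg : Up g e) (h : ∀ᶠ l : ℕ in atTop, f l = g l) :
    Up f e := hg.of_le (h.mono fun l hl => by rw [hl])

theorem Up.add {f g : ℕ → ℝ} {e : ℝ} (hf : Up f e) (hg : Up g e) :
    Up (fun l => f l + g l) e := IsBigO.add hf hg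

theorem Up.sub {f g : ℕ → ℝ} {e : ℝ} (hf : Up f e) (hg : Up g e) :
    Up (fun l => f l - g l) e := IsBigO.sub hf hg

theorem Up.neg {f : ℕ → ℝ} {e : ℝ} (hf : Up f e) : Up (fun l => - f l) e := IsBigO.neg_left hf

theorem Up.add' {f g : ℕ → ℝ} {e e' : ℝ} (hf : Up f e) (hg : Up g e') :
    Up (fun l => f l + g l) (max e e') :=
  (hf.mono (le_max_left _ _)).add (hg.mono (le_max_right _ _))

theorem Up.mul {f g : ℕ → ℝ} {e e' : ℝ} (hf : Up f e) (hg : Up g e') :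
    Up (fun l => f l * g l) (e + e') := by
  obtain ⟨C, hC, h1⟩ := hf.bound
  obtain ⟨C', hC', h1'⟩ := hg.bound
  refine Up.intro (C := C * C') ?_
  filter_upwards [h1, h1', ev_one] with l hl hl' hl1
  have hl0 : (0 : ℝ) < l := by exact_mod_cast hl1
  rw [abs_mul, Real.rpow_add hl0]
  calc |f l| * |g l| ≤ (C * (l : ℝ) ^ e) * (C' * (l : ℝ) ^ e') :=
        mul_le_mul hl hl' (abs_nonneg _) (by positivity)
    _ = C * C' * ((l : ℝ) ^ e * (l : ℝ) ^ e') := by ring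

theorem Up.const (c : ℝ) : Up (fun _ => c) 0 := by
  refine Up.intro (C := |c|) (Eventually.of_forall fun l => ?_)
  simp

theorem Up.cmul (c : ℝ) {f : ℕ → ℝ} {e : ℝ} (hf : Up f e) : Up (fun l => c * f l) e := by
  simpa using (Up.const c).mul hf

theorem Up.mulc (c : ℝ) {f : ℕ → ℝ} {e : ℝ} (hf : Up f e) : Up (fun l => f l * c) e := by
  simpa using hf.mul (Up.const c)

theorem Up.pow {f : ℕ → ℝ} {e : ℝ} (hf : Up f e) (n : ℕ) : Up (fun l => f l ^ n) (n * e) := by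
  induction n with
  | zero => simpa using Up.const 1
  | succ n ih =>
    have := ih.mul hf
    refine (this.congr' (Eventually.of_forall fun l => pow_succ _ _)).mono (le_of_eq ?_)
    push_cast; ring

theorem Up.rpow {f : ℕ → ℝ} {e p : ℝ} (hf : Up f e) (hp : 0 ≤ p)
    (h0 : ∀ᶠ l : ℕ in atTop, 0 ≤ f l) : Up (fun l => f l ^ p) (p * e) := by
  obtain ⟨C, hC, h1⟩ := hf.bound
  refine Up.intro (C := C ^ p) ?_
  filter_upwards [h1, h0, ev_one] with l hl hl0 hl1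
  have hl' : (0 : ℝ) ≤ l := Nat.cast_nonneg l
  rw [abs_of_nonneg (Real.rpow_nonneg hl0 p), mul_comm p e, Real.rpow_mul hl',
    ← Real.mul_rpow hC.le (Real.rpow_nonneg hl' e)]
  exact Real.rpow_le_rpow hl0 ((le_abs_self _).trans hl) hp

theorem Up.sqrt {f : ℕ → ℝ} {e : ℝ} (hf : Up f e) : Up (fun l => Real.sqrt (f l)) (e / 2) := by
  obtain ⟨C, hC, h1⟩ := hf.bound
  refine Up.intro (C := Real.sqrt C) ?_
  filter_upwards [h1, ev_one] with l hl hl1
  have hl' : (0 : ℝ) ≤ l := Nat.cast_nonneg l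
  rw [abs_of_nonneg (Real.sqrt_nonneg _), div_eq_mul_inv, ← one_div, Real.rpow_mul hl',
    ← Real.sqrt_eq_rpow, ← Real.sqrt_mul hC.le]
  exact Real.sqrt_le_sqrt ((le_abs_self _).trans hl)

theorem Up.one_add_log {e : ℝ} (he : 0 < e) : Up (fun l => 1 + Real.log l) e := by
  refine Up.intro (C := 1 + e⁻¹) ?_
  filter_upwards [ev_one] with l hl
  have hl' : (0 : ℝ) ≤ l := Nat.cast_nonneg l
  have h1 := Real.log_le_rpow_div hl' he
  have h2 := one_le_rpow' he.le hl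
  have h3 : 0 ≤ Real.log l := Real.log_nonneg (by exact_mod_cast hl)
  rw [abs_of_nonneg (by linarith)]
  calc 1 + Real.log l ≤ (l : ℝ) ^ e + (l : ℝ) ^ e / e := add_le_add h2 h1
    _ = (1 + e⁻¹) * (l : ℝ) ^ e := by rw [div_eq_mul_inv]; ring

theorem Up.log {e : ℝ} (he : 0 < e) : Up (fun l => Real.log l) e := by
  refine (Up.one_add_log he).of_le ?_
  filter_upwards [ev_one] with l hl
  have h3 : 0 ≤ Real.log l := Real.log_nonneg (by exact_mod_cast hl)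
  rw [abs_of_nonneg h3, abs_of_nonneg (by linarith)]
  linarith

theorem Up.pow_self (e : ℝ) : Up (fun l => (l : ℝ) ^ e) e := by
  refine Up.intro (C := 1) (Eventually.of_forall fun l => ?_)
  rw [abs_of_nonneg (Real.rpow_nonneg (Nat.cast_nonneg l) e), one_mul]

theorem Up.self : Up (fun l => (l : ℝ)) 1 := by
  simpa using Up.pow_self 1

theorem Up.scale {e : ℝ} (he : 0 ≤ e) : Up (fun l => (sc e l : ℝ)) e := by
  refine Up.intro (C := 2) ?_
  filter_upwards [ev_one] with l hl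
  rw [abs_of_nonneg (Nat.cast_nonneg _)]
  exact sc_le he hl

/-- the inverse of something `≥ c l^e` -/
theorem Up.inv {f : ℕ → ℝ} {e c : ℝ} (hc : 0 < c)
    (h : ∀ᶠ l : ℕ in atTop, c * (l : ℝ) ^ e ≤ f l) : Up (fun l => (f l)⁻¹) (-e) := by
  refine Up.intro (C := c⁻¹) ?_
  filter_upwards [h, ev_one] with l hl hl1
  have hl0 : (0 : ℝ) < l := by exact_mod_cast hl1
  have h0 : (0 : ℝ) < (l : ℝ) ^ e := Real.rpow_pos_of_pos hl0 e
  have h1 : 0 < c * (l : ℝ) ^ e := by positivity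
  rw [abs_of_nonneg (inv_nonneg.2 (h1.trans_le hl).le), Real.rpow_neg hl0.le, ← mul_inv]
  exact inv_anti₀ h1 hl

theorem Up.scale_inv (e : ℝ) : Up (fun l => ((sc e l : ℝ))⁻¹) (-e) :=
  Up.inv (c := 1) one_pos (Eventually.of_forall fun l => by rw [one_mul]; exact sc_ge e l)

theorem Up.div_scale {f : ℕ → ℝ} {e : ℝ} (hf : Up f e) (e' : ℝ) :
    Up (fun l => f l / (sc e' l : ℝ)) (e - e') := by
  have := hf.mul (Up.scale_inv e')
  simpa [div_eq_mul_inv, sub_eq_add_neg] using this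

/-- **use of a bound**: `|f l| ≤ c l^e'` eventually, as soon as `e < e'` and `c > 0` -/
theorem Up.le {f : ℕ → ℝ} {e e' c : ℝ} (hf : Up f e) (h : e < e') (hc : 0 < c) :
    ∀ᶠ l : ℕ in atTop, |f l| ≤ c * (l : ℝ) ^ e' := by
  obtain ⟨C, hC, h1⟩ := hf.bound
  have h2 : Tendsto (fun l : ℕ => (l : ℝ) ^ (e' - e)) atTop atTop :=
    (tendsto_rpow_atTop (by linarith)).comp tendsto_natCast_atTop_atTop
  filter_upwards [h1, ev_one, h2.eventually_ge_atTop (C / c)] with l hl hl1 hl2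
  have hl0 : (0 : ℝ) < l := by exact_mod_cast hl1
  refine hl.trans ?_
  have h3 : (l : ℝ) ^ e' = (l : ℝ) ^ (e' - e) * (l : ℝ) ^ e := by
    rw [← Real.rpow_add hl0]; congr 1; ring
  rw [h3, ← mul_assoc]
  refine mul_le_mul_of_nonneg_right ?_ (Real.rpow_nonneg hl0.le e)
  rw [div_le_iff₀ hc] at hl2
  linarith

/-- a quantity with negative exponent is eventually below any positive constant -/
theorem Up.le_const {f : ℕ → ℝ} {e c : ℝ} (hf : Up f e) (h : e < 0) (hc : 0 < c) :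
    ∀ᶠ l : ℕ in atTop, |f l| ≤ c := by
  filter_upwards [hf.le h hc] with l hl
  simpa using hl

/-- stretched exponentials are smaller than all powers -/
theorem Up.exp_neg {e c : ℝ} (he : 0 < e) (hc : 0 < c) (A : ℝ) :
    Up (fun l => Real.exp (-(c * (l : ℝ) ^ e))) A := by
  refine Up.intro (C := 1) ?_
  -- `exp (-x) ≤ x^{-n} n!`
  obtain ⟨n, hn⟩ := exists_nat_gt ((-A) / e)
  have h2 : Tendsto (fun l : ℕ => (l : ℝ) ^ (n * e + A)) atTop atTop :=
    (tendsto_rpow_atTop (by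
      rw [div_lt_iff₀ he] at hn
      linarith)).comp tendsto_natCast_atTop_atTop
  filter_upwards [ev_one, h2.eventually_ge_atTop ((Nat.factorial n : ℝ) / c ^ n)] with l hl1 hl2
  have hl0 : (0 : ℝ) < l := by exact_mod_cast hl1
  have hx : 0 < c * (l : ℝ) ^ e := mul_pos hc (Real.rpow_pos_of_pos hl0 e)
  have h3 : (c * (l : ℝ) ^ e) ^ n / (Nat.factorial n : ℝ) ≤ Real.exp (c * (l : ℝ) ^ e) :=
    Real.pow_div_factorial_le_exp _ hx.le n
  have h4 : (0 : ℝ) < (Nat.factorial n : ℝ) := by exact_mod_cast Nat.factorial_pos n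
  rw [abs_of_pos (Real.exp_pos _), one_mul, Real.exp_neg]
  rw [inv_le_comm₀ (Real.exp_pos _) (Real.rpow_pos_of_pos hl0 A), ← Real.rpow_neg hl0.le]
  refine le_trans ?_ h3
  rw [le_div_iff₀ h4, mul_pow, ← Real.rpow_natCast ((l : ℝ) ^ e) n, ← Real.rpow_mul hl0.le]
  rw [div_le_iff₀ (pow_pos hc n)] at hl2
  have h5 : (l : ℝ) ^ (e * (n : ℝ)) = (l : ℝ) ^ (-A) * (l : ℝ) ^ (n * e + A) := by
    rw [← Real.rpow_add hl0]; congr 1; ring
  rw [h5]
  have h6 : 0 < (l : ℝ) ^ (-A) := Real.rpow_pos_of_pos hl0 _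
  calc (l : ℝ) ^ (-A) * (Nat.factorial n : ℝ)
      ≤ (l : ℝ) ^ (-A) * ((l : ℝ) ^ (n * e + A) * c ^ n) := mul_le_mul_of_nonneg_left hl2 h6.le
    _ = c ^ n * ((l : ℝ) ^ (-A) * (l : ℝ) ^ (n * e + A)) := by ring

/-- finite sums -/
theorem Up.sum {ι : Type*} (s : Finset ι) {f : ι → ℕ → ℝ} {e : ℝ} (h : ∀ i ∈ s, Up (f i) e) :
    Up (fun l => ∑ i ∈ s, f i l) e := by
  classical
  induction s using Finset.induction_on with
  | empty =>
    refine Up.intro (C := 0) (Eventually.of_forall fun l => ?_)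
    simp
  | insert a s ha ih =>
    have h1 := (h a (Finset.mem_insert_self a s)).add
      (ih fun i hi => h i (Finset.mem_insert_of_mem hi))
    refine h1.congr' (Eventually.of_forall fun l => ?_)
    rw [Finset.sum_insert ha]

/-- lower bounds: `c l^e' ≤ f l` for `f ≥ c' l^e`, `e' < e` -/
theorem ge_of_ge {f : ℕ → ℝ} {e e' c c' : ℝ} (hc' : 0 < c')
    (h : ∀ᶠ l : ℕ in atTop, c' * (l : ℝ) ^ e ≤ f l) (he : e' < e) :
    ∀ᶠ l : ℕ in atTop, c * (l : ℝ) ^ e' ≤ f l := by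
  have h1 : Up (fun l : ℕ => c * (l : ℝ) ^ e') e' := (Up.pow_self e').cmul c
  filter_upwards [h1.le he hc', h] with l hl hl'
  exact ((le_abs_self _).trans hl).trans hl'

/-- eventual statements give a threshold -/
theorem threshold {p : ℕ → Prop} (h : ∀ᶠ l : ℕ in atTop, p l) : ∃ l₀ : ℕ, ∀ l, l₀ ≤ l → p l :=
  eventually_atTop.1 h

end Vale.Agent.P356.GA.Par
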