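import Vale.Agent.P356.GA.Tot227

/-!
# The parameters of the energy theorem as functions of the scale (helper227)

`parF a q C l : EP` with one large constant `C`; `upF_parF`: its sizes; `pos_parF`: positivity;
`ev_side`: the side conditions between the parameters.
-/

set_option linter.all false

namespace Vale.Agent.P356.GA.Par

open Filter Asymptotics

/-- `ρ³ (log q + 1 + log (q / ε) mp)`, `ρ = cB + cN + cM` -/
noncomputable def radI (q : ℝ) (l : ℕ) : ℝ :=
  ((cB l : ℝ) + cN l + cM l) ^ 3 * (Real.log q + 1 + Real.log (q / cE l) * cP l)

/-- the parameters of the energy theorem at the scale `l` -/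
noncomputable def parF (a q C : ℝ) (l : ℕ) : EP where
  θ := C * (l : ℝ) ^ (xu a + xom a - 1)
  k1 := 8 * cD a l + 2
  k2 := 4 * (cP l + 8 * cD a l + 2)
  k3 := 4 * (cP l + 4 * cM l + 2)
  C2 := C * (1 + Real.log (q ^ 2 / cE l) * (2 * cD a l + 1) ^ 2) ^ 2
  Th := C * (cD a l * (cS a l : ℝ) ^ 2 *
    (((3 * l / cR l + 7 : ℕ) : ℝ) ^ 2 * (cR l : ℝ) ^ (2 - a)))
  nx := C * ((l : ℝ) ^ 2 * (cR l / cM l) + (l : ℝ) ^ 2 * (cD a l / cS a l))
  ne := C * ((l : ℝ) ^ 2 * (cD a l / cM l) +
    (cP l + 8 * cD a l + 8) * (l : ℝ) ^ (1 + xom a))
  nZ := C * (l : ℝ) ^ 2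
  p₀ := C * (l : ℝ) ^ (-20 : ℝ)
  ε := cE l
  m := (2 * cB l + 1) ^ 2
  lq := Real.log (q / cE l)
  eM := C * (l : ℝ) ^ (-20 : ℝ)
  Lc := 3 * Real.log (q / cE l) * (2 * cD a l + 1) ^ 2 + 1
  h := cY a l
  ms := (2 * cB l + 1) ^ 2
  Ls := Real.log (q ^ 2 / cE l) * (2 * cD a l + 1) ^ 2
  hs := (l : ℝ) ^ (-(1 / 8) : ℝ)
  r := (C * radI q l)⁻¹
  rθ := (C * (l : ℝ) ^ (xu a + xom a - 1) * (C * radI q l))⁻¹
  Cm := C
  Λ := cLam l
  z := C * (l : ℝ) ^ 2
  Nn := C * (l : ℝ) ^ 2
  τ := 10 * Real.log l
  de := C * (l : ℝ) ^ (-20 : ℝ)

section
variable {a q C : ℝ}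

theorem up_radI (hq : 0 < q) : Up (fun l => radI q l) (1 / 10 ^ 6) := by
  have h1 := up_cB
  have h2 := up_cN
  have h3 := up_cM
  have h4 := up_logE q hq (e := 1 / 10 ^ 8) (by norm_num)
  have h5 := up_cP
  unfold radI
  apply Up.mono
  · repeat' (first
      | assumption
      | exact Up.const _
      | exact Up.pow_self _
      | exact Up.self
      | apply (config := {newGoals := .nonDependentOnly}) Up.subm
      | apply (config := {newGoals := .nonDependentOnly}) Up.addm
      | apply (config := {newGoals := .nonDependentOnly}) Up.divm
      | apply (config := {newGoals := .nonDependentOnly}) Up.mulm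
      | apply (config := {newGoals := .nonDependentOnly}) Up.powm
      | apply (config := {newGoals := .nonDependentOnly}) Up.sqrtm
      | apply (config := {newGoals := .nonDependentOnly}) Up.invpow
      | apply (config := {newGoals := .nonDependentOnly}) Up.invmul
      | apply (config := {newGoals := .nonDependentOnly}) Up.invdiv
      | apply (config := {newGoals := .nonDependentOnly}) Up.invinv)
  · unfold xm xn xr
    norm_num [max_def]

theorem up_div {f : ℕ → ℝ} {e : ℝ} (K : ℕ) (hf : Up (fun l => (f l)⁻¹) e) (h : 0 ≤ 1 + e)
    {g : ℕ → ℕ} (hg : ∀ l, (g l : ℝ) = f l) :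
    Up (fun l => (((K * l / g l + 7 : ℕ)) : ℝ)) (1 + e) := by
  have h1 : Up (fun l : ℕ => (K : ℝ) * (l : ℝ) * (f l)⁻¹ + 7) (1 + e) :=
    ((Up.self.cmul (K : ℝ)).mul hf).add ((Up.const 7).mono h)
  refine h1.of_le (Eventually.of_forall fun l => ?_)
  have h2 : ((K * l / g l : ℕ) : ℝ) ≤ ((K * l : ℕ) : ℝ) / (g l : ℝ) := Nat.cast_div_le
  rw [abs_of_nonneg (Nat.cast_nonneg _)]
  refine le_trans ?_ (le_abs_self _)
  rw [hg] at h2
  push_cast at h2 ⊢
  rw [div_eq_mul_inv] at h2
  linarith

/-- **sizes of the parameters** -/
theorem upF_parF (ha : 0 < a) (ha1 : a ≤ 1) (hq : 0 < q) (hC : 0 ≤ C) : UpF a (parF a q C) := by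
  have b0 := e0_pos ha
  have b1 := e0_le ha1
  have b2 := e0_mul a
  have hD := up_cD ha
  have hS := up_cS ha
  have hS' := up_cS_inv a
  have hR := up_cR
  have hR' := up_cR_inv
  have hP := up_cP
  have hM := up_cM
  have hM' := up_cM_inv
  have hB := up_cB
  have hN := up_cN
  have hE := up_cE
  have hL1 := up_logE q hq (e := e0 a / 1000) (by positivity)
  have hL2 := up_logE (q ^ 2) (by positivity) (e := e0 a / 1000) (by positivity)
  have hrad := up_radI hq
  refine
    { θ := ?_, k1 := ?_, k2 := ?_, k3 := ?_, C2 := ?_, Th := ?_, nx := ?_, ne := ?_, nZ := ?_,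
      p₀ := ?_, ε := ?_, m := ?_, lq := ?_, eM := ?_, Lc := ?_, h := ?_, h' := ?_, ms := ?_,
      Ls := ?_, hs := ?_, hs' := ?_, r' := ?_, rθ' := ?_, Cm := ?_, Λ := ?_, Λ' := ?_, z := ?_,
      Nn := ?_, τ := ?_, de := ?_ }
  · -- θ
    show Up (fun l : ℕ => C * (l : ℝ) ^ (xu a + xom a - 1)) _
    refine ((Up.pow_self _).cmul C).mono ?_
    unfold xu xom; linarith
  · -- k1
    show Up (fun l : ℕ => 8 * (cD a l : ℝ) + 2) _
    apply Up.mono
    · repeat' (first
        | assumption
        | exact Up.const _
        | exact Up.pow_self _
        | exact Up.self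
        | apply (config := {newGoals := .nonDependentOnly}) Up.subm
        | apply (config := {newGoals := .nonDependentOnly}) Up.addm
        | apply (config := {newGoals := .nonDependentOnly}) Up.divm
        | apply (config := {newGoals := .nonDependentOnly}) Up.mulm
        | apply (config := {newGoals := .nonDependentOnly}) Up.powm
        | apply (config := {newGoals := .nonDependentOnly}) Up.sqrtm
        | apply (config := {newGoals := .nonDependentOnly}) Up.invpow
        | apply (config := {newGoals := .nonDependentOnly}) Up.invmul
        | apply (config := {newGoals := .nonDependentOnly}) Up.invdiv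
        | apply (config := {newGoals := .nonDependentOnly}) Up.invinv)
    · unfold xd; norm_num [max_def]; split_ifs <;> linarith
  · -- k2
    show Up (fun l : ℕ => 4 * ((cP l : ℝ) + 8 * (cD a l : ℝ) + 2)) _
    apply Up.mono
    · repeat' (first
        | assumption
        | exact Up.const _
        | exact Up.pow_self _
        | exact Up.self
        | apply (config := {newGoals := .nonDependentOnly}) Up.subm
        | apply (config := {newGoals := .nonDependentOnly}) Up.addm
        | apply (config := {newGoals := .nonDependentOnly}) Up.divm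
        | apply (config := {newGoals := .nonDependentOnly}) Up.mulm
        | apply (config := {newGoals := .nonDependentOnly}) Up.powm
        | apply (config := {newGoals := .nonDependentOnly}) Up.sqrtm
        | apply (config := {newGoals := .nonDependentOnly}) Up.invpow
        | apply (config := {newGoals := .nonDependentOnly}) Up.invmul
        | apply (config := {newGoals := .nonDependentOnly}) Up.invdiv
        | apply (config := {newGoals := .nonDependentOnly}) Up.invinv)
    · unfold xd xr; norm_num [max_def] at *; split_ifs <;> linarith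
  · -- k3
    show Up (fun l : ℕ => 4 * ((cP l : ℝ) + 4 * (cM l : ℝ) + 2)) _
    apply Up.mono
    · repeat' (first
        | assumption
        | exact Up.const _
        | exact Up.pow_self _
        | exact Up.self
        | apply (config := {newGoals := .nonDependentOnly}) Up.subm
        | apply (config := {newGoals := .nonDependentOnly}) Up.addm
        | apply (config := {newGoals := .nonDependentOnly}) Up.divm
        | apply (config := {newGoals := .nonDependentOnly}) Up.mulm
        | apply (config := {newGoals := .nonDependentOnly}) Up.powm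
        | apply (config := {newGoals := .nonDependentOnly}) Up.sqrtm
        | apply (config := {newGoals := .nonDependentOnly}) Up.invpow
        | apply (config := {newGoals := .nonDependentOnly}) Up.invmul
        | apply (config := {newGoals := .nonDependentOnly}) Up.invdiv
        | apply (config := {newGoals := .nonDependentOnly}) Up.invinv)
    · unfold xm xr; norm_num [max_def] at *
  · -- C2
    show Up (fun l : ℕ => C * (1 + Real.log (q ^ 2 / cE l) * (2 * (cD a l : ℝ) + 1) ^ 2) ^ 2) _
    apply Up.mono
    · repeat' (first
        | assumption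
        | exact Up.const _
        | exact Up.pow_self _
        | exact Up.self
        | apply (config := {newGoals := .nonDependentOnly}) Up.subm
        | apply (config := {newGoals := .nonDependentOnly}) Up.addm
        | apply (config := {newGoals := .nonDependentOnly}) Up.divm
        | apply (config := {newGoals := .nonDependentOnly}) Up.mulm
        | apply (config := {newGoals := .nonDependentOnly}) Up.powm
        | apply (config := {newGoals := .nonDependentOnly}) Up.sqrtm
        | apply (config := {newGoals := .nonDependentOnly}) Up.invpow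
        | apply (config := {newGoals := .nonDependentOnly}) Up.invmul
        | apply (config := {newGoals := .nonDependentOnly}) Up.invdiv
        | apply (config := {newGoals := .nonDependentOnly}) Up.invinv)
    · unfold xd; norm_num [max_def] at *; split_ifs <;> linarith
  · -- Th
    show Up (fun l : ℕ => C * ((cD a l : ℝ) * (cS a l : ℝ) ^ 2 *
      (((3 * l / cR l + 7 : ℕ) : ℝ) ^ 2 * (cR l : ℝ) ^ (2 - a)))) _
    have h1 := up_div (f := fun l => (cR l : ℝ)) (g := cR) 3 up_cR_inv
      (by unfold xr; norm_num) (fun l => rfl)
    have h2 : Up (fun l => (cR l : ℝ) ^ (2 - a)) ((2 - a) * xr) :=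
      up_cR.rpow (by linarith) (Eventually.of_forall fun l => Nat.cast_nonneg _)
    apply Up.mono
    · repeat' (first
        | assumption
        | exact Up.const _
        | exact Up.pow_self _
        | exact Up.self
        | apply (config := {newGoals := .nonDependentOnly}) Up.subm
        | apply (config := {newGoals := .nonDependentOnly}) Up.addm
        | apply (config := {newGoals := .nonDependentOnly}) Up.divm
        | apply (config := {newGoals := .nonDependentOnly}) Up.mulm
        | apply (config := {newGoals := .nonDependentOnly}) Up.powm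
        | apply (config := {newGoals := .nonDependentOnly}) Up.sqrtm
        | apply (config := {newGoals := .nonDependentOnly}) Up.invpow
        | apply (config := {newGoals := .nonDependentOnly}) Up.invmul
        | apply (config := {newGoals := .nonDependentOnly}) Up.invdiv
        | apply (config := {newGoals := .nonDependentOnly}) Up.invinv)
    · unfold xd xs xr; norm_num at *; linarith
  · -- nx
    show Up (fun l : ℕ => C * ((l : ℝ) ^ 2 * ((cR l : ℝ) / cM l) +
      (l : ℝ) ^ 2 * ((cD a l : ℝ) / cS a l))) _
    apply Up.mono
    · repeat' (first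
        | assumption
        | exact Up.const _
        | exact Up.pow_self _
        | exact Up.self
        | apply (config := {newGoals := .nonDependentOnly}) Up.subm
        | apply (config := {newGoals := .nonDependentOnly}) Up.addm
        | apply (config := {newGoals := .nonDependentOnly}) Up.divm
        | apply (config := {newGoals := .nonDependentOnly}) Up.mulm
        | apply (config := {newGoals := .nonDependentOnly}) Up.powm
        | apply (config := {newGoals := .nonDependentOnly}) Up.sqrtm
        | apply (config := {newGoals := .nonDependentOnly}) Up.invpow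
        | apply (config := {newGoals := .nonDependentOnly}) Up.invmul
        | apply (config := {newGoals := .nonDependentOnly}) Up.invdiv
        | apply (config := {newGoals := .nonDependentOnly}) Up.invinv)
    · unfold xd xs xr xm; norm_num [max_def] at *; split_ifs <;> linarith
  · -- ne
    show Up (fun l : ℕ => C * ((l : ℝ) ^ 2 * ((cD a l : ℝ) / cM l) +
      ((cP l : ℝ) + 8 * (cD a l : ℝ) + 8) * (l : ℝ) ^ (1 + xom a))) _
    apply Up.mono
    · repeat' (first
        | assumption
        | exact Up.const _
        | exact Up.pow_self _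
        | exact Up.self
        | apply (config := {newGoals := .nonDependentOnly}) Up.subm
        | apply (config := {newGoals := .nonDependentOnly}) Up.addm
        | apply (config := {newGoals := .nonDependentOnly}) Up.divm
        | apply (config := {newGoals := .nonDependentOnly}) Up.mulm
        | apply (config := {newGoals := .nonDependentOnly}) Up.powm
        | apply (config := {newGoals := .nonDependentOnly}) Up.sqrtm
        | apply (config := {newGoals := .nonDependentOnly}) Up.invpow
        | apply (config := {newGoals := .nonDependentOnly}) Up.invmul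
        | apply (config := {newGoals := .nonDependentOnly}) Up.invdiv
        | apply (config := {newGoals := .nonDependentOnly}) Up.invinv)
    · unfold xd xm xr xom; norm_num [max_def] at *; split_ifs <;> linarith
  · -- nZ
    show Up (fun l : ℕ => C * (l : ℝ) ^ 2) _
    apply Up.mono
    · repeat' (first
        | assumption
        | exact Up.const _
        | exact Up.pow_self _
        | exact Up.self
        | apply (config := {newGoals := .nonDependentOnly}) Up.subm
        | apply (config := {newGoals := .nonDependentOnly}) Up.addm
        | apply (config := {newGoals := .nonDependentOnly}) Up.divm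
        | apply (config := {newGoals := .nonDependentOnly}) Up.mulm
        | apply (config := {newGoals := .nonDependentOnly}) Up.powm
        | apply (config := {newGoals := .nonDependentOnly}) Up.sqrtm
        | apply (config := {newGoals := .nonDependentOnly}) Up.invpow
        | apply (config := {newGoals := .nonDependentOnly}) Up.invmul
        | apply (config := {newGoals := .nonDependentOnly}) Up.invdiv
        | apply (config := {newGoals := .nonDependentOnly}) Up.invinv)
    · norm_num
  · -- p₀
    show Up (fun l : ℕ => C * (l : ℝ) ^ (-20 : ℝ)) _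
    exact (Up.pow_self _).cmul C
  · -- ε
    show Up (fun l : ℕ => cE l) _
    exact hE
  · -- m
    show Up (fun l : ℕ => (2 * (cB l : ℝ) + 1) ^ 2) _
    apply Up.mono
    · repeat' (first
        | assumption
        | exact Up.const _
        | exact Up.pow_self _
        | exact Up.self
        | apply (config := {newGoals := .nonDependentOnly}) Up.subm
        | apply (config := {newGoals := .nonDependentOnly}) Up.addm
        | apply (config := {newGoals := .nonDependentOnly}) Up.divm
        | apply (config := {newGoals := .nonDependentOnly}) Up.mulm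
        | apply (config := {newGoals := .nonDependentOnly}) Up.powm
        | apply (config := {newGoals := .nonDependentOnly}) Up.sqrtm
        | apply (config := {newGoals := .nonDependentOnly}) Up.invpow
        | apply (config := {newGoals := .nonDependentOnly}) Up.invmul
        | apply (config := {newGoals := .nonDependentOnly}) Up.invdiv
        | apply (config := {newGoals := .nonDependentOnly}) Up.invinv)
    · unfold xm; norm_num
  · -- lq
    exact hL1
  · -- eM
    show Up (fun l : ℕ => C * (l : ℝ) ^ (-20 : ℝ)) _
    exact (Up.pow_self _).cmul C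
  · -- Lc
    show Up (fun l : ℕ => 3 * Real.log (q / cE l) * (2 * (cD a l : ℝ) + 1) ^ 2 + 1) _
    apply Up.mono
    · repeat' (first
        | assumption
        | exact Up.const _
        | exact Up.pow_self _
        | exact Up.self
        | apply (config := {newGoals := .nonDependentOnly}) Up.subm
        | apply (config := {newGoals := .nonDependentOnly}) Up.addm
        | apply (config := {newGoals := .nonDependentOnly}) Up.divm
        | apply (config := {newGoals := .nonDependentOnly}) Up.mulm
        | apply (config := {newGoals := .nonDependentOnly}) Up.powm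
        | apply (config := {newGoals := .nonDependentOnly}) Up.sqrtm
        | apply (config := {newGoals := .nonDependentOnly}) Up.invpow
        | apply (config := {newGoals := .nonDependentOnly}) Up.invmul
        | apply (config := {newGoals := .nonDependentOnly}) Up.invdiv
        | apply (config := {newGoals := .nonDependentOnly}) Up.invinv)
    · unfold xd; norm_num [max_def] at *; split_ifs <;> linarith
  · -- h
    show Up (fun l : ℕ => cY a l) _
    exact (up_cY a).mono (by unfold xy; linarith)
  · -- h'
    show Up (fun l : ℕ => (cY a l)⁻¹) _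
    exact (up_cY_inv a).mono (by unfold xy; linarith)
  · -- ms
    show Up (fun l : ℕ => (2 * (cB l : ℝ) + 1) ^ 2) _
    apply Up.mono
    · repeat' (first
        | assumption
        | exact Up.const _
        | exact Up.pow_self _
        | exact Up.self
        | apply (config := {newGoals := .nonDependentOnly}) Up.subm
        | apply (config := {newGoals := .nonDependentOnly}) Up.addm
        | apply (config := {newGoals := .nonDependentOnly}) Up.divm
        | apply (config := {newGoals := .nonDependentOnly}) Up.mulm
        | apply (config := {newGoals := .nonDependentOnly}) Up.powm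
        | apply (config := {newGoals := .nonDependentOnly}) Up.sqrtm
        | apply (config := {newGoals := .nonDependentOnly}) Up.invpow
        | apply (config := {newGoals := .nonDependentOnly}) Up.invmul
        | apply (config := {newGoals := .nonDependentOnly}) Up.invdiv
        | apply (config := {newGoals := .nonDependentOnly}) Up.invinv)
    · unfold xm; norm_num
  · -- Ls
    show Up (fun l : ℕ => Real.log (q ^ 2 / cE l) * (2 * (cD a l : ℝ) + 1) ^ 2) _
    apply Up.mono
    · repeat' (first
        | assumption
        | exact Up.const _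
        | exact Up.pow_self _
        | exact Up.self
        | apply (config := {newGoals := .nonDependentOnly}) Up.subm
        | apply (config := {newGoals := .nonDependentOnly}) Up.addm
        | apply (config := {newGoals := .nonDependentOnly}) Up.divm
        | apply (config := {newGoals := .nonDependentOnly}) Up.mulm
        | apply (config := {newGoals := .nonDependentOnly}) Up.powm
        | apply (config := {newGoals := .nonDependentOnly}) Up.sqrtm
        | apply (config := {newGoals := .nonDependentOnly}) Up.invpow
        | apply (config := {newGoals := .nonDependentOnly}) Up.invmul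
        | apply (config := {newGoals := .nonDependentOnly}) Up.invdiv
        | apply (config := {newGoals := .nonDependentOnly}) Up.invinv)
    · unfold xd; norm_num [max_def] at *; split_ifs <;> linarith
  · -- hs
    exact Up.pow_self _
  · -- hs'
    have h1 : Up (fun l : ℕ => ((l : ℝ) ^ (-(1 / 8) : ℝ))⁻¹) (-(-(1 / 8))) :=
      Up.inv (c := 1) one_pos (Eventually.of_forall fun l => by rw [one_mul])
    rw [neg_neg] at h1
    exact h1
  · -- r'
    show Up (fun l : ℕ => ((C * radI q l)⁻¹)⁻¹) _
    apply Up.mono
    · repeat' (first
        | assumption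
        | exact Up.const _
        | exact Up.pow_self _
        | exact Up.self
        | apply (config := {newGoals := .nonDependentOnly}) Up.subm
        | apply (config := {newGoals := .nonDependentOnly}) Up.addm
        | apply (config := {newGoals := .nonDependentOnly}) Up.divm
        | apply (config := {newGoals := .nonDependentOnly}) Up.mulm
        | apply (config := {newGoals := .nonDependentOnly}) Up.powm
        | apply (config := {newGoals := .nonDependentOnly}) Up.sqrtm
        | apply (config := {newGoals := .nonDependentOnly}) Up.invpow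
        | apply (config := {newGoals := .nonDependentOnly}) Up.invmul
        | apply (config := {newGoals := .nonDependentOnly}) Up.invdiv
        | apply (config := {newGoals := .nonDependentOnly}) Up.invinv)
    · norm_num
  · -- rθ'
    show Up (fun l : ℕ => ((C * (l : ℝ) ^ (xu a + xom a - 1) * (C * radI q l))⁻¹)⁻¹) _
    apply Up.mono
    · repeat' (first
        | assumption
        | exact Up.const _
        | exact Up.pow_self _
        | exact Up.self
        | apply (config := {newGoals := .nonDependentOnly}) Up.subm
        | apply (config := {newGoals := .nonDependentOnly}) Up.addm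
        | apply (config := {newGoals := .nonDependentOnly}) Up.divm
        | apply (config := {newGoals := .nonDependentOnly}) Up.mulm
        | apply (config := {newGoals := .nonDependentOnly}) Up.powm
        | apply (config := {newGoals := .nonDependentOnly}) Up.sqrtm
        | apply (config := {newGoals := .nonDependentOnly}) Up.invpow
        | apply (config := {newGoals := .nonDependentOnly}) Up.invmul
        | apply (config := {newGoals := .nonDependentOnly}) Up.invdiv
        | apply (config := {newGoals := .nonDependentOnly}) Up.invinv)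
    · unfold xu xom; norm_num; linarith
  · exact Up.const C
  · show Up (fun l : ℕ => cLam l) _
    exact up_cLam.mono (by unfold xlam; norm_num)
  · show Up (fun l : ℕ => (cLam l)⁻¹) _
    exact up_cLam_inv.mono (by unfold xlam; norm_num)
  · show Up (fun l : ℕ => C * (l : ℝ) ^ 2) _
    apply Up.mono
    · repeat' (first
        | assumption
        | exact Up.const _
        | exact Up.pow_self _
        | exact Up.self
        | apply (config := {newGoals := .nonDependentOnly}) Up.subm
        | apply (config := {newGoals := .nonDependentOnly}) Up.addm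
        | apply (config := {newGoals := .nonDependentOnly}) Up.divm
        | apply (config := {newGoals := .nonDependentOnly}) Up.mulm
        | apply (config := {newGoals := .nonDependentOnly}) Up.powm
        | apply (config := {newGoals := .nonDependentOnly}) Up.sqrtm
        | apply (config := {newGoals := .nonDependentOnly}) Up.invpow
        | apply (config := {newGoals := .nonDependentOnly}) Up.invmul
        | apply (config := {newGoals := .nonDependentOnly}) Up.invdiv
        | apply (config := {newGoals := .nonDependentOnly}) Up.invinv)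
    · norm_num
  · show Up (fun l : ℕ => C * (l : ℝ) ^ 2) _
    apply Up.mono
    · repeat' (first
        | assumption
        | exact Up.const _
        | exact Up.pow_self _
        | exact Up.self
        | apply (config := {newGoals := .nonDependentOnly}) Up.subm
        | apply (config := {newGoals := .nonDependentOnly}) Up.addm
        | apply (config := {newGoals := .nonDependentOnly}) Up.divm
        | apply (config := {newGoals := .nonDependentOnly}) Up.mulm
        | apply (config := {newGoals := .nonDependentOnly}) Up.powm
        | apply (config := {newGoals := .nonDependentOnly}) Up.sqrtm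
        | apply (config := {newGoals := .nonDependentOnly}) Up.invpow
        | apply (config := {newGoals := .nonDependentOnly}) Up.invmul
        | apply (config := {newGoals := .nonDependentOnly}) Up.invdiv
        | apply (config := {newGoals := .nonDependentOnly}) Up.invinv)
    · norm_num
  · show Up (fun l : ℕ => 10 * Real.log l) _
    exact (Up.log (by positivity)).cmul 10
  · show Up (fun l : ℕ => C * (l : ℝ) ^ (-20 : ℝ)) _
    exact (Up.pow_self _).cmul C

/-- **The energy expression is eventually below `l^(-2 c)`.** -/
theorem ev_parF (ha : 0 < a) (ha1 : a ≤ 1) (hq : 0 < q) (hC : 0 ≤ C) {c : ℝ} (hc : 0 < c) :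
    ∀ᶠ l : ℕ in atTop, (parF a q C l).tot ≤ c * (l : ℝ) ^ (-(2 * xc a)) :=
  (upF_parF ha ha1 hq hC).ev_tot ha ha1 hc

theorem cE_pos {l : ℕ} (hl : 1 ≤ l) : 0 < cE l := by
  unfold cE
  exact Real.rpow_pos_of_pos (by exact_mod_cast hl) _

theorem cE_le_one {l : ℕ} (hl : 1 ≤ l) : cE l ≤ 1 := by
  unfold cE
  exact Real.rpow_le_one_of_one_le_of_nonpos (by exact_mod_cast hl) (by norm_num)

theorem log_cE_nonneg (hq : 1 ≤ q) {l : ℕ} (hl : 1 ≤ l) : 0 ≤ Real.log (q / cE l) := by
  refine Real.log_nonneg ?_
  rw [le_div_iff₀ (cE_pos hl), one_mul]
  exact (cE_le_one hl).trans hq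

theorem radI_pos (hq : 1 ≤ q) {l : ℕ} (hl : 1 ≤ l) : 0 < radI q l := by
  have h1 := log_cE_nonneg hq hl
  have h2 := Real.log_nonneg hq
  have h3 : (0 : ℝ) < cN l := sc_pos hl
  unfold radI
  positivity

/-- **positivity of the parameters** -/
theorem pos_parF (hq : 1 ≤ q) (hC : 0 < C) {l : ℕ} (hl : 1 ≤ l) : (parF a q C l).Pos := by
  have h1 := log_cE_nonneg hq hl
  have h2 : 0 ≤ Real.log (q ^ 2 / cE l) :=
    log_cE_nonneg (q := q ^ 2) (by nlinarith) hl
  have h3 := radI_pos hq hl
  have hl0 : (0 : ℝ) < l := by exact_mod_cast hl
  have h4 : 0 ≤ Real.log l := Real.log_nonneg (by exact_mod_cast hl)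
  have h5 : ∀ e : ℝ, 0 < (l : ℝ) ^ e := fun e => Real.rpow_pos_of_pos hl0 e
  have h6 := cE_pos hl
  constructor
  · show 0 ≤ C * (l : ℝ) ^ (xu a + xom a - 1)
    have := h5 (xu a + xom a - 1); positivity
  · show 0 ≤ 8 * (cD a l : ℝ) + 2
    positivity
  · show 0 ≤ 4 * ((cP l : ℝ) + 8 * (cD a l : ℝ) + 2)
    positivity
  · show 0 ≤ 4 * ((cP l : ℝ) + 4 * (cM l : ℝ) + 2)
    positivity
  · show 0 ≤ C * (1 + Real.log (q ^ 2 / cE l) * (2 * (cD a l : ℝ) + 1) ^ 2) ^ 2
    positivity
  · show 0 ≤ C * ((cD a l : ℝ) * (cS a l : ℝ) ^ 2 *
      (((3 * l / cR l + 7 : ℕ) : ℝ) ^ 2 * (cR l : ℝ) ^ (2 - a)))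
    have : 0 ≤ (cR l : ℝ) ^ (2 - a) := Real.rpow_nonneg (Nat.cast_nonneg _) _
    positivity
  · show 0 ≤ C * ((l : ℝ) ^ 2 * ((cR l : ℝ) / cM l) + (l : ℝ) ^ 2 * ((cD a l : ℝ) / cS a l))
    positivity
  · show 0 ≤ C * ((l : ℝ) ^ 2 * ((cD a l : ℝ) / cM l) +
      ((cP l : ℝ) + 8 * (cD a l : ℝ) + 8) * (l : ℝ) ^ (1 + xom a))
    have := h5 (1 + xom a); positivity
  · show 0 ≤ C * (l : ℝ) ^ 2
    positivity
  · show 0 ≤ C * (l : ℝ) ^ (-20 : ℝ)
    have := h5 (-20); positivity
  · exact h6.le
  · show 0 ≤ (2 * (cB l : ℝ) + 1) ^ 2
    positivity
  · exact h1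
  · show 0 ≤ C * (l : ℝ) ^ (-20 : ℝ)
    have := h5 (-20); positivity
  · show 0 ≤ 3 * Real.log (q / cE l) * (2 * (cD a l : ℝ) + 1) ^ 2 + 1
    positivity
  · exact h5 _
  · show 0 ≤ (2 * (cB l : ℝ) + 1) ^ 2
    positivity
  · show 0 ≤ Real.log (q ^ 2 / cE l) * (2 * (cD a l : ℝ) + 1) ^ 2
    positivity
  · exact h5 _
  · show 0 < (C * radI q l)⁻¹
    positivity
  · show 0 < (C * (l : ℝ) ^ (xu a + xom a - 1) * (C * radI q l))⁻¹
    have := h5 (xu a + xom a - 1); positivity
  · exact hC.le
  · exact h5 _
  · show 0 ≤ C * (l : ℝ) ^ 2
    positivity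
  · show 0 ≤ C * (l : ℝ) ^ 2
    positivity
  · show 0 ≤ 10 * Real.log l
    positivity
  · show 0 ≤ C * (l : ℝ) ^ (-20 : ℝ)
    have := h5 (-20); positivity

/-! ### side conditions -/

/-- the geometric side conditions -/
theorem ev_geo (ha : 0 < a) (ha1 : a ≤ 1) : ∀ᶠ l : ℕ in atTop,
    1 ≤ cD a l ∧ cD a l ≤ 3 * cR l ∧ 4 * cD a l + 4 * (3 * cR l) < cP l ∧ 8 * cD a l < cP l ∧
      1 ≤ cM l ∧ 2 * cD a l ≤ cM l ∧ 3 * cR l ≤ cM l ∧ cP l ≤ cM l ∧ cM l ≤ l ∧ 2 * cM l ≤ cB l ∧
      2 * cD a l ≤ cB l ∧ 3 * cR l ≤ cB l ∧ cB l ≤ cN l := by
  have h0 : ∀ᶠ l : ℕ in atTop, 1 * cM l ≤ l := by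
    refine ev_nat (f := fun l => cM l) (g := fun l => l) up_cM (e' := 1) (by unfold xm; norm_num)
      (Eventually.of_forall fun l => ?_) 1
    rw [Real.rpow_one]
  filter_upwards [ev_one, h0, ev_cP_cM 1, ev_cR_cM 3, ev_cB_cN 1] with l hl h1 h2 h3 h4
  have h5 := one_le_cD (a := a) hl
  have h6 := cD_cS ha hl
  have h7 := cS_cR ha ha1 hl
  have h8 := cR_cP l
  have h9 : 1 ≤ cM l := one_le_sc hl
  have h10 : cB l = 8 * cM l := rfl
  refine ⟨h5, by omega, by omega, by omega, h9, by omega, h3, by omega, by omega, by omega,
    by omega, by omega, by omega⟩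

/-- the analytic side conditions: step sizes and constants -/
theorem ev_steps (ha : 0 < a) (ha1 : a ≤ 1) (hq : 1 ≤ q) (hC : 16 * Real.exp 1 ≤ C) :
    ∀ᶠ l : ℕ in atTop, 0 < cE l ∧ cE l ≤ 1 / 2 ∧ 0 < cY a l ∧
      cY a l * (8 * (1 + (3 * Real.log (q / cE l) * (2 * cD a l + 1) ^ 2 + 1))) ≤ 1 ∧
      0 < (l : ℝ) ^ (-(1 / 8) : ℝ) ∧
      (l : ℝ) ^ (-(1 / 8) : ℝ) *
        (4 * (1 + Real.log (q ^ 2 / cE l) * (2 * cD a l + 1) ^ 2)) ≤ 1 ∧
      Real.exp 1 * (2 + 4 * (Real.log (q ^ 2 / cE l) * (2 * cD a l + 1) ^ 2)) ^ 2 ≤
        (parF a q C l).C2 ∧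
      Real.exp 1 * (4 * (2 * cD a l + 1) ^ 2 * Real.log q + 2) ^ 2 ≤ (parF a q C l).C2 := by
  have b0 := e0_pos ha
  have b1 := e0_le ha1
  have hq0 : 0 < q := by linarith
  have H := upF_parF (C := 1) ha ha1 hq0 zero_le_one
  have k1 : Up (fun l => cY a l * (8 * (1 + (parF a q 1 l).Lc))) (-(11 * e0 a)) := by
    have h1 := H.Lc
    have h2 : Up (fun l => cY a l) (-(12 * e0 a)) := H.h
    apply Up.mono
    · repeat' (first
        | assumption
        | exact Up.const _
        | exact Up.pow_self _
        | exact Up.self
        | apply (config := {newGoals := .nonDependentOnly}) Up.subm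
        | apply (config := {newGoals := .nonDependentOnly}) Up.addm
        | apply (config := {newGoals := .nonDependentOnly}) Up.divm
        | apply (config := {newGoals := .nonDependentOnly}) Up.mulm
        | apply (config := {newGoals := .nonDependentOnly}) Up.powm
        | apply (config := {newGoals := .nonDependentOnly}) Up.sqrtm
        | apply (config := {newGoals := .nonDependentOnly}) Up.invpow
        | apply (config := {newGoals := .nonDependentOnly}) Up.invmul
        | apply (config := {newGoals := .nonDependentOnly}) Up.invdiv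
        | apply (config := {newGoals := .nonDependentOnly}) Up.invinv)
    · norm_num [max_def] at *; split_ifs <;> linarith
  have k2 : Up (fun l => (l : ℝ) ^ (-(1 / 8) : ℝ) * (4 * (1 + (parF a q 1 l).Ls))) (-(1 / 9)) := by
    have h1 := H.Ls
    apply Up.mono
    · repeat' (first
        | assumption
        | exact Up.const _
        | exact Up.pow_self _
        | exact Up.self
        | apply (config := {newGoals := .nonDependentOnly}) Up.subm
        | apply (config := {newGoals := .nonDependentOnly}) Up.addm
        | apply (config := {newGoals := .nonDependentOnly}) Up.divm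
        | apply (config := {newGoals := .nonDependentOnly}) Up.mulm
        | apply (config := {newGoals := .nonDependentOnly}) Up.powm
        | apply (config := {newGoals := .nonDependentOnly}) Up.sqrtm
        | apply (config := {newGoals := .nonDependentOnly}) Up.invpow
        | apply (config := {newGoals := .nonDependentOnly}) Up.invmul
        | apply (config := {newGoals := .nonDependentOnly}) Up.invdiv
        | apply (config := {newGoals := .nonDependentOnly}) Up.invinv)
    · norm_num [max_def] at *; split_ifs <;> linarith
  filter_upwards [ev_one, k1.le_const (c := 1) (by linarith) one_pos,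
    k2.le_const (c := 1) (by norm_num) one_pos,
    up_cE.le_const (c := 1 / 2) (by norm_num) (by norm_num)] with l hl h1 h2 h3
  have hl0 : (0 : ℝ) < l := by exact_mod_cast hl
  have g0 := cE_pos hl
  have g1 := log_cE_nonneg hq hl
  have g2 : 0 ≤ Real.log (q ^ 2 / cE l) := log_cE_nonneg (q := q ^ 2) (by nlinarith) hl
  have g3 := Real.log_nonneg hq
  have g4 : Real.log q ≤ Real.log (q ^ 2 / cE l) := by
    refine Real.log_le_log hq0 ?_
    rw [le_div_iff₀ g0]
    have := cE_le_one hl
    nlinarith
  have he := Real.exp_pos 1
  have hC0 : 0 < C := lt_of_lt_of_le (by positivity) hC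
  refine ⟨g0, (le_abs_self _).trans h3, Real.rpow_pos_of_pos hl0 _, (le_abs_self _).trans h1,
    Real.rpow_pos_of_pos hl0 _, (le_abs_self _).trans h2, ?_, ?_⟩
  · show _ ≤ C * (1 + Real.log (q ^ 2 / cE l) * (2 * (cD a l : ℝ) + 1) ^ 2) ^ 2
    set x := Real.log (q ^ 2 / cE l) * (2 * (cD a l : ℝ) + 1) ^ 2 with hx
    have hx0 : 0 ≤ x := by positivity
    calc Real.exp 1 * (2 + 4 * x) ^ 2 ≤ Real.exp 1 * (4 * (1 + x)) ^ 2 := by
          refine mul_le_mul_of_nonneg_left ?_ he.le
          exact pow_le_pow_left₀ (by positivity) (by linarith) 2
      _ = 16 * Real.exp 1 * (1 + x) ^ 2 := by ring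
      _ ≤ C * (1 + x) ^ 2 := mul_le_mul_of_nonneg_right hC (by positivity)
  · show _ ≤ C * (1 + Real.log (q ^ 2 / cE l) * (2 * (cD a l : ℝ) + 1) ^ 2) ^ 2
    have e1 : 4 * (2 * (cD a l : ℝ) + 1) ^ 2 * Real.log q + 2 ≤
        4 * (1 + Real.log (q ^ 2 / cE l) * (2 * (cD a l : ℝ) + 1) ^ 2) := by
      have := mul_le_mul_of_nonneg_right g4 (sq_nonneg (2 * (cD a l : ℝ) + 1))
      nlinarith
    set x := Real.log (q ^ 2 / cE l) * (2 * (cD a l : ℝ) + 1) ^ 2 with hx
    have hx0 : 0 ≤ x := by positivity
    calc Real.exp 1 * (4 * (2 * (cD a l : ℝ) + 1) ^ 2 * Real.log q + 2) ^ 2 ≤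
          Real.exp 1 * (4 * (1 + x)) ^ 2 := by
          refine mul_le_mul_of_nonneg_left ?_ he.le
          exact pow_le_pow_left₀ (by positivity) e1 2
      _ = 16 * Real.exp 1 * (1 + x) ^ 2 := by ring
      _ ≤ C * (1 + x) ^ 2 := mul_le_mul_of_nonneg_right hC (by positivity)

/-- any other step: `l^(-x)` with `x > e0 / 50` is admissible for the slabs -/
theorem ev_step (ha : 0 < a) (hq : 0 < q) (ha1 : a ≤ 1) {x K : ℝ} (hx : e0 a / 50 < x) :
    ∀ᶠ l : ℕ in atTop, (l : ℝ) ^ (-x) *
      (K * (1 + Real.log (q ^ 2 / cE l) * (2 * cD a l + 1) ^ 2)) ≤ 1 := by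
  have b0 := e0_pos ha
  have H := upF_parF (C := 1) ha ha1 hq zero_le_one
  have k2 : Up (fun l => (l : ℝ) ^ (-x) * (K * (1 + (parF a q 1 l).Ls))) (-(x - e0 a / 100)) := by
    have h1 := H.Ls
    apply Up.mono
    · repeat' (first
        | assumption
        | exact Up.const _
        | exact Up.pow_self _
        | exact Up.self
        | apply (config := {newGoals := .nonDependentOnly}) Up.subm
        | apply (config := {newGoals := .nonDependentOnly}) Up.addm
        | apply (config := {newGoals := .nonDependentOnly}) Up.divm
        | apply (config := {newGoals := .nonDependentOnly}) Up.mulm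
        | apply (config := {newGoals := .nonDependentOnly}) Up.powm
        | apply (config := {newGoals := .nonDependentOnly}) Up.sqrtm
        | apply (config := {newGoals := .nonDependentOnly}) Up.invpow
        | apply (config := {newGoals := .nonDependentOnly}) Up.invmul
        | apply (config := {newGoals := .nonDependentOnly}) Up.invdiv
        | apply (config := {newGoals := .nonDependentOnly}) Up.invinv)
    · norm_num [max_def] at *; split_ifs <;> linarith
  filter_upwards [k2.le_const (c := 1) (by linarith) one_pos] with l hl
  exact (le_abs_self _).trans hl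

end

end Vale.Agent.P356.GA.Par
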