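import Mathlib

/-!
# P356, GA: expectation for a finite product weight, resampling
-/

namespace Vale.Agent.P356.GA

open Finset
open scoped BigOperators

variable {V : Type*} [DecidableEq V] [Fintype V] {Om : Type*} [DecidableEq Om] [Fintype Om]

/-- `E f = ∑ ξ, (∏ x, p x (ξ x)) * f ξ` -/
noncomputable def prodE (p : V → Om → ℝ) (f : (V → Om) → ℝ) : ℝ :=
  ∑ ξ, (∏ x, p x (ξ x)) * f ξ

omit [DecidableEq Om] in
theorem prodE_mono {p : V → Om → ℝ} (hp : ∀ x v, 0 ≤ p x v) {f g : (V → Om) → ℝ}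
    (h : ∀ ξ, f ξ ≤ g ξ) : prodE p f ≤ prodE p g :=
  Finset.sum_le_sum fun ξ _ => mul_le_mul_of_nonneg_left (h ξ)
    (Finset.prod_nonneg fun x _ => hp x _)

omit [DecidableEq Om] in
theorem prodE_nonneg {p : V → Om → ℝ} (hp : ∀ x v, 0 ≤ p x v) {f : (V → Om) → ℝ}
    (h : ∀ ξ, 0 ≤ f ξ) : 0 ≤ prodE p f :=
  Finset.sum_nonneg fun ξ _ => mul_nonneg (Finset.prod_nonneg fun x _ => hp x _) (h ξ)

omit [DecidableEq Om] in
theorem prodE_add (p : V → Om → ℝ) (f g : (V → Om) → ℝ) :
    prodE p (fun ξ => f ξ + g ξ) = prodE p f + prodE p g := by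
  unfold prodE
  rw [← Finset.sum_add_distrib]
  exact Finset.sum_congr rfl fun ξ _ => by ring

omit [DecidableEq Om] in
theorem prodE_mul_left (p : V → Om → ℝ) (c : ℝ) (f : (V → Om) → ℝ) :
    prodE p (fun ξ => c * f ξ) = c * prodE p f := by
  unfold prodE
  rw [Finset.mul_sum]
  exact Finset.sum_congr rfl fun ξ _ => by ring

omit [DecidableEq Om] in
theorem prodE_sum (p : V → Om → ℝ) {J : Type*} (s : Finset J) (f : J → (V → Om) → ℝ) :
    prodE p (fun ξ => ∑ j ∈ s, f j ξ) = ∑ j ∈ s, prodE p (f j) := by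
  unfold prodE
  rw [Finset.sum_comm]
  exact Finset.sum_congr rfl fun ξ _ => by rw [Finset.mul_sum]

omit [DecidableEq Om] in
/-- total mass -/
theorem prodE_const (p : V → Om → ℝ) (hp : ∀ x, ∑ v, p x v = 1) (c : ℝ) :
    prodE p (fun _ => c) = c := by
  unfold prodE
  rw [← Finset.sum_mul]
  have h := Finset.prod_univ_sum (fun _ : V => (Finset.univ : Finset Om)) (fun x v => p x v)
  rw [Fintype.piFinset_univ] at h
  rw [← h]
  simp [hp]

omit [DecidableEq Om] in
/-- resampling of one coordinate: an expectation over the coordinate `a` and the others -/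
theorem prodE_split (p : V → Om → ℝ) (a : V) (F : (V → Om) → ℝ) (hpa : ∑ v, p a v = 1) :
    prodE p F = prodE p (fun ξ => ∑ v, p a v * F (Function.update ξ a v)) := by
  have key : ∀ f : (V → Om) → ℝ, prodE p f = ∑ v, ∑ r : {j // j ≠ a} → Om,
      (p a v * ∏ j : {j // j ≠ a}, p j (r j)) * f ((Equiv.funSplitAt a Om).symm (v, r)) := by
    intro f
    unfold prodE
    rw [← Equiv.sum_comp (Equiv.funSplitAt a Om).symm, Fintype.sum_prod_type]
    refine Finset.sum_congr rfl fun v _ => Finset.sum_congr rfl fun r _ => ?_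
    congr 1
    rw [← Finset.mul_prod_erase Finset.univ _ (Finset.mem_univ a)]
    congr 1
    · simp [Equiv.funSplitAt, Equiv.piSplitAt]
    · have h1 : ∏ j : {j // j ≠ a}, p j (r j) =
          ∏ j ∈ Finset.univ.erase a, p j ((Equiv.funSplitAt a Om).symm (v, r) j) := by
        rw [Finset.prod_subtype (Finset.univ.erase a) (p := fun j => j ≠ a) (by simp)
          (fun j => p j ((Equiv.funSplitAt a Om).symm (v, r) j))]
        refine Finset.prod_congr rfl fun j _ => ?_
        have hj : (j : V) ≠ a := j.2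
        simp [Equiv.funSplitAt, Equiv.piSplitAt, hj]
      exact h1.symm
  have e : ∀ (u v : Om) (r : {j // j ≠ a} → Om),
      Function.update ((Equiv.funSplitAt a Om).symm (u, r)) a v =
        (Equiv.funSplitAt a Om).symm (v, r) := by
    intro u v r
    funext j
    by_cases hj : j = a
    · subst hj
      simp [Equiv.funSplitAt, Equiv.piSplitAt]
    · simp [Equiv.funSplitAt, Equiv.piSplitAt, hj]
  rw [key, key]
  simp only [e]
  rw [Finset.sum_comm, Finset.sum_comm (s := Finset.univ (α := Om))]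
  refine Finset.sum_congr rfl fun r _ => ?_
  have e2 : ∀ u : Om, (p a u * ∏ j : {j // j ≠ a}, p j (r j)) *
      ∑ v, p a v * F ((Equiv.funSplitAt a Om).symm (v, r)) =
      p a u * ((∏ j : {j // j ≠ a}, p j (r j)) *
        ∑ v, p a v * F ((Equiv.funSplitAt a Om).symm (v, r))) := fun u => by ring
  simp only [e2]
  rw [← Finset.sum_mul, hpa, one_mul, Finset.mul_sum]
  exact Finset.sum_congr rfl fun v _ => by ring

/-- one coordinate -/
theorem prodE_coord (p : V → Om → ℝ) (a : V) (hpa : ∑ v, p a v = 1) (W : Finset Om)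
    {g : (V → Om) → ℝ} (hg : ∀ ξ v, g (Function.update ξ a v) = g ξ) :
    prodE p (fun ξ => if ξ a ∈ W then g ξ else 0) = (∑ v ∈ W, p a v) * prodE p g := by
  rw [prodE_split p a _ hpa]
  simp only [Function.update_self, hg]
  rw [← prodE_mul_left]
  congr 1
  funext ξ
  rw [Finset.sum_mul]
  have : ∀ v, p a v * (if v ∈ W then g ξ else 0) = if v ∈ W then p a v * g ξ else 0 := by
    intro v
    split_ifs <;> simp
  simp only [this, Finset.sum_ite_mem, Finset.univ_inter]

/-- **independence**: several coordinates -/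
theorem prodE_indep (p : V → Om → ℝ) (A : Finset V) (hp : ∀ a ∈ A, ∑ v, p a v = 1)
    (W : V → Finset Om) : ∀ {g : (V → Om) → ℝ},
    (∀ a ∈ A, ∀ ξ v, g (Function.update ξ a v) = g ξ) →
    prodE p (fun ξ => if ∀ y ∈ A, ξ y ∈ W y then g ξ else 0) =
      (∏ y ∈ A, ∑ v ∈ W y, p y v) * prodE p g := by
  induction A using Finset.induction_on with
  | empty => intro g _; simp
  | insert a A ha ih =>
    intro g hg
    have h1 := ih (fun b hb => hp b (mem_insert_of_mem hb))
      (g := fun ξ => if ξ a ∈ W a then g ξ else 0) (by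
      intro b hb ξ v
      have hab : a ≠ b := fun h => ha (h ▸ hb)
      rw [hg b (mem_insert_of_mem hb), Function.update_of_ne hab])
    have h2 := prodE_coord p a (hp a (mem_insert_self a A)) (W a) (g := g)
      (hg a (mem_insert_self a A))
    have e : ∀ ξ : V → Om, (if ∀ y ∈ insert a A, ξ y ∈ W y then g ξ else 0) =
        if ∀ y ∈ A, ξ y ∈ W y then (if ξ a ∈ W a then g ξ else 0) else 0 := by
      intro ξ
      by_cases c1 : ∀ y ∈ A, ξ y ∈ W y
      · by_cases c2 : ξ a ∈ W a
        · rw [if_pos c1, if_pos c2, if_pos]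
          intro y hy
          rcases mem_insert.1 hy with rfl | hy
          · exact c2
          · exact c1 y hy
        · rw [if_pos c1, if_neg c2, if_neg]
          exact fun h' => c2 (h' a (mem_insert_self a A))
      · rw [if_neg c1, if_neg]
        exact fun h' => c1 fun y hy => h' y (mem_insert_of_mem hy)
    simp only [e]
    rw [prod_insert ha, h1, h2]
    ring

/-- **comparison of two patterns** on the coordinates in `A` -/
theorem prodE_compare (p : V → Om → ℝ) (h0 : ∀ x v, 0 ≤ p x v) (A : Finset V)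
    (hp : ∀ a ∈ A, ∑ v, p a v = 1) (W W' : V → Finset Om) {c c' : ℝ}
    (hW : c' ≤ ∏ y ∈ A, ∑ v ∈ W' y, p y v) (hW' : ∏ y ∈ A, ∑ v ∈ W y, p y v ≤ c) (hc' : 0 < c')
    {g : (V → Om) → ℝ} (hg0 : ∀ ξ, 0 ≤ g ξ)
    (hg : ∀ a ∈ A, ∀ ξ v, g (Function.update ξ a v) = g ξ) :
    prodE p (fun ξ => if ∀ y ∈ A, ξ y ∈ W y then g ξ else 0) ≤
      c / c' * prodE p (fun ξ => if ∀ y ∈ A, ξ y ∈ W' y then g ξ else 0) := by
  rw [prodE_indep p A hp W hg, prodE_indep p A hp W' hg]
  have hE := prodE_nonneg h0 hg0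
  rw [div_mul_eq_mul_div, le_div_iff₀ hc']
  have h1 : 0 ≤ ∏ y ∈ A, ∑ v ∈ W y, p y v :=
    Finset.prod_nonneg fun y _ => Finset.sum_nonneg fun v _ => h0 y v
  calc (∏ y ∈ A, ∑ v ∈ W y, p y v) * prodE p g * c' ≤ (c * prodE p g) * c' :=
        mul_le_mul_of_nonneg_right (mul_le_mul_of_nonneg_right hW' hE) hc'.le
    _ = c * (c' * prodE p g) := by ring
    _ ≤ c * ((∏ y ∈ A, ∑ v ∈ W' y, p y v) * prodE p g) :=
        mul_le_mul_of_nonneg_left (mul_le_mul_of_nonneg_right hW hE) (h1.trans hW')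

end Vale.Agent.P356.GA
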