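import Vale.Agent.P356.NA.Poly
import Vale.Agent.P356.NA.Reg

/-!
GA, step (8): the recursion over scales and the passage to all regions, with an arbitrarily small
loss in the exponent (pure combinatorics of a subadditive set function).
-/

set_option linter.all false

namespace Vale.Agent.P356.GA

open Matrix Finset Vale.Agent.P356 Vale.Agent.P356.SV Vale.Agent.P356.NA
open scoped BigOperators

/-- From the contraction `S(box) ≤ C₀ S(frame of width ≤ ε l) + C₁ l` (with `C₀` independent of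
`ε`) to `S(box) ≤ A l^(1+η)`. -/
theorem rect_near (C₀ κ η : ℝ) (hC₀ : 1 ≤ C₀) (hκ : 0 ≤ κ) (hη : 0 < η) :
    ∃ ε : ℝ, 0 < ε ∧ ε < 1 ∧ ∀ (C₁ : ℝ) (l₀ : ℕ), 0 ≤ C₁ →
      ∃ A : ℝ, 0 ≤ A ∧ ∀ (L : ℕ) (S : Finset (Site L) → ℝ),
      (∀ B, 0 ≤ S B) → (∀ B B', Disjoint B B' → S (B ∪ B') ≤ S B + S B') →
      (∀ B, S B ≤ κ * B.card) →
      (∀ l x0 x1 y0 y1 : ℕ, l₀ ≤ l → 1 ≤ l → x0 ≤ x1 → y0 ≤ y1 → x1 ≤ x0 + l → y1 ≤ y0 + l →
        ∃ w : ℕ, (w : ℝ) ≤ ε * l ∧
        S (rect L x0 x1 y0 y1) ≤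
          C₀ * S (rect L (x0 - w) (x1 + w) (y0 - w) (y1 + w) \ rect L x0 x1 y0 y1) +
            C₁ * l) →
      ∀ l x0 x1 y0 y1 : ℕ, 1 ≤ l → x1 ≤ x0 + l → y1 ≤ y0 + l →
        S (rect L x0 x1 y0 y1) ≤ A * (l : ℝ) ^ (1 + η) := by
  have hC0 : 0 < C₀ := by linarith
  have hbase0 : (0 : ℝ) < 1 / (32 * C₀) := by positivity
  have hbase1 : (1 : ℝ) / (32 * C₀) < 1 := by
    rw [div_lt_one (by positivity)]; linarith
  set ε : ℝ := (1 / (32 * C₀)) ^ (1 / η) with hε
  have hε0 : 0 < ε := Real.rpow_pos_of_pos hbase0 _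
  have hε1 : ε < 1 := Real.rpow_lt_one hbase0.le hbase1 (by positivity)
  have hεη : ε ^ η = 1 / (32 * C₀) := by
    rw [hε, ← Real.rpow_mul hbase0.le, one_div_mul_cancel hη.ne', Real.rpow_one]
  refine ⟨ε, hε0, hε1, ?_⟩
  intro C₁ l₀ hC₁
  set A : ℝ := 2 * C₁ + κ * l₀ with hA
  have hA0 : 0 ≤ A := by positivity
  refine ⟨A, hA0, ?_⟩
  intro L S hnn hsub hcard hcon
  have hS0 : S ∅ ≤ 0 := by
    have := hcard ∅
    simpa using this
  intro l
  induction l using Nat.strong_induction_on with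
  | _ l ih =>
    intro x0 x1 y0 y1 hl hx hy
    have hl1 : (1 : ℝ) ≤ l := by exact_mod_cast hl
    have hl0 : (0 : ℝ) < l := by linarith
    have hp1 : (l : ℝ) ≤ (l : ℝ) ^ (1 + η) := by
      calc (l : ℝ) = (l : ℝ) ^ (1 : ℝ) := (Real.rpow_one _).symm
        _ ≤ (l : ℝ) ^ (1 + η) := Real.rpow_le_rpow_of_exponent_le hl1 (by linarith)
    by_cases hsmall : l < l₀
    · have h1 := b8_tile S hS0 hsub (l := 1) one_pos (F := κ)
        (fun a b c d hab hcd => na_l_unit hκ S hcard a b c d hab hcd) l l x0 x1 y0 y1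
        (by omega) (by omega)
      have h2 : (l : ℝ) ≤ l₀ := by exact_mod_cast hsmall.le
      calc S (rect L x0 x1 y0 y1) ≤ l * l * κ := h1
        _ = (κ * l) * l := by ring
        _ ≤ (κ * l₀) * l := mul_le_mul_of_nonneg_right (mul_le_mul_of_nonneg_left h2 hκ) hl0.le
        _ ≤ A * l := mul_le_mul_of_nonneg_right (by rw [hA]; linarith) hl0.le
        _ ≤ _ := mul_le_mul_of_nonneg_left hp1 hA0
    · rw [not_lt] at hsmall
      have hend : C₁ * (l : ℝ) ≤ A / 2 * (l : ℝ) ^ (1 + η) := by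
        have h3 : C₁ ≤ A / 2 := by
          have : 0 ≤ κ * (l₀ : ℝ) := by positivity
          rw [hA]; linarith
        calc C₁ * (l : ℝ) ≤ A / 2 * l := mul_le_mul_of_nonneg_right h3 hl0.le
          _ ≤ _ := mul_le_mul_of_nonneg_left hp1 (by positivity)
      have hhalf : 0 ≤ A / 2 * (l : ℝ) ^ (1 + η) := by positivity
      by_cases hne : x0 ≤ x1 ∧ y0 ≤ y1
      · obtain ⟨w, hw, hS⟩ := hcon l x0 x1 y0 y1 hsmall hl hne.1 hne.2 hx hy
        rcases Nat.eq_zero_or_pos w with hw0 | hw0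
        · have e : rect L (x0 - w) (x1 + w) (y0 - w) (y1 + w) \ rect L x0 x1 y0 y1 = ∅ := by
            rw [hw0, Nat.sub_zero, Nat.sub_zero, Nat.add_zero, Nat.add_zero]
            exact Finset.sdiff_self _
          rw [e] at hS
          have h1 : C₀ * S ∅ ≤ 0 := mul_nonpos_of_nonneg_of_nonpos hC0.le hS0
          linarith
        · have hw1 : (1 : ℝ) ≤ w := by exact_mod_cast hw0
          have hwr0 : (0 : ℝ) < w := by linarith
          have hwl : (w : ℝ) < l := by
            calc (w : ℝ) ≤ ε * l := hw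
              _ < 1 * l := mul_lt_mul_of_pos_right hε1 hl0
              _ = l := one_mul _
          have hwlN : w < l := by exact_mod_cast hwl
          set F : ℝ := A * (w : ℝ) ^ (1 + η) with hF
          have hF0 : 0 ≤ F := by positivity
          have hih : ∀ a b c d : ℕ, b ≤ a + w → d ≤ c + w → S (rect L a b c d) ≤ F := by
            intro a b c d hab hcd
            exact ih w hwlN a b c d hw0 hab hcd
          have hfr := na_l_frame S hS0 hsub hw0 hih hF0 l x0 x1 y0 y1 hx hy hne.1 hne.2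
          have hb : ((l / w + 3 : ℕ) : ℝ) ≤ 4 * l / w := by
            rw [le_div_iff₀ hwr0]
            have h1 : ((l / w : ℕ) : ℝ) * w ≤ l := by
              exact_mod_cast Nat.div_mul_le_self l w
            push_cast
            rw [add_mul]
            have h3 : (((l : ℕ) / (w : ℕ) : ℕ) : ℝ) * w ≤ l := h1
            linarith
          have hwη : (w : ℝ) ^ η ≤ 1 / (32 * C₀) * (l : ℝ) ^ η := by
            calc (w : ℝ) ^ η ≤ (ε * l) ^ η := Real.rpow_le_rpow hwr0.le hw hη.le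
              _ = ε ^ η * (l : ℝ) ^ η := Real.mul_rpow hε0.le hl0.le
              _ = _ := by rw [hεη]
          have hsp : (w : ℝ) ^ (1 + η) = w * (w : ℝ) ^ η := by
            rw [Real.rpow_add hwr0, Real.rpow_one]
          have hspl : (l : ℝ) ^ (1 + η) = l * (l : ℝ) ^ η := by
            rw [Real.rpow_add hl0, Real.rpow_one]
          have hfr2 : S (rect L (x0 - w) (x1 + w) (y0 - w) (y1 + w) \ rect L x0 x1 y0 y1) ≤
              16 * A * l * (w : ℝ) ^ η := by
            refine hfr.trans ?_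
            calc 4 * ((l / w + 3 : ℕ) : ℝ) * F ≤ 4 * (4 * l / w) * F :=
                  mul_le_mul_of_nonneg_right (mul_le_mul_of_nonneg_left hb (by norm_num)) hF0
              _ = 16 * A * l * (w : ℝ) ^ η := by
                  rw [hF, hsp]; field_simp; ring
          have hC1 : C₀ * S (rect L (x0 - w) (x1 + w) (y0 - w) (y1 + w) \ rect L x0 x1 y0 y1) ≤
              A / 2 * (l : ℝ) ^ (1 + η) := by
            calc C₀ * S (rect L (x0 - w) (x1 + w) (y0 - w) (y1 + w) \ rect L x0 x1 y0 y1)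
                ≤ C₀ * (16 * A * l * (w : ℝ) ^ η) := mul_le_mul_of_nonneg_left hfr2 hC0.le
              _ ≤ C₀ * (16 * A * l * (1 / (32 * C₀) * (l : ℝ) ^ η)) :=
                  mul_le_mul_of_nonneg_left (mul_le_mul_of_nonneg_left hwη (by positivity)) hC0.le
              _ = A / 2 * (l : ℝ) ^ (1 + η) := by rw [hspl]; field_simp; ring
          have hsum : A / 2 * (l : ℝ) ^ (1 + η) + A / 2 * (l : ℝ) ^ (1 + η) =
              A * (l : ℝ) ^ (1 + η) := by ring
          linarith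
      · have e : rect L x0 x1 y0 y1 = ∅ := by
          rw [Finset.eq_empty_iff_forall_notMem]
          intro p hp
          rw [b8_mem] at hp
          omega
        rw [e]
        have : 0 ≤ A * (l : ℝ) ^ (1 + η) := by positivity
        linarith

section box
variable {L : ℕ} {S : Finset (Site L) → ℝ} {B : Finset (Site L)}

/-- the recursion over boxes with a linear bound `W l` for the rectangles of side `l ≤ 2 M` -/
theorem rec_boxes {W κ : ℝ} (hW0 : 0 ≤ W) (hκ : 0 ≤ κ)
    (hsub : ∀ A B, Disjoint A B → S (A ∪ B) ≤ S A + S B)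
    (hc : ∀ A, S Aᶜ = S A) (hcard : ∀ B, S B ≤ κ * B.card)
    {M : ℕ} (hbM : bdry B ≤ M)
    (hrect : ∀ l x0 x1 y0 y1 : ℕ, 1 ≤ l → l ≤ 2 * M → x1 ≤ x0 + l → y1 ≤ y0 + l →
        S (rect L x0 x1 y0 y1) ≤ W * l) (k : ℕ) :
    ∀ x0 x1 y0 y1 : ℕ, x1 ≤ L → y1 ≤ L → x0 + 2 ^ k ≤ x1 → x1 ≤ x0 + 2 ^ (k + 1) →
      y0 + 2 ^ k ≤ y1 → y1 ≤ y0 + 2 ^ (k + 1) →
      na_m_val S B (na_m_mj B (rect L x0 x1 y0 y1)) (rect L x0 x1 y0 y1) ≤
        (b9_bin B (rect L x0 x1 y0 y1)).card *
          (4 * κ + 8 * W * na_m_N M k) := by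
  have hS0 : S ∅ ≤ 0 := by
    have := hcard ∅
    simpa using this
  set T : ℝ := 8 * W with hT
  have hT0 : 0 ≤ T := by positivity
  induction k with
  | zero =>
    intro x0 x1 y0 y1 hx hy h1 h2 h3 h4
    rw [pow_zero] at h1 h3
    rw [zero_add, pow_one] at h2 h4
    set P := rect L x0 x1 y0 y1 with hP
    set b := (b9_bin B P).card with hb
    have hPc : P.card ≤ 4 := by
      rw [hP, na_m_card hx hy]
      calc (x1 - x0) * (y1 - y0) ≤ 2 * 2 := Nat.mul_le_mul (by omega) (by omega)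
        _ = 4 := by norm_num
    have hPc1 : 1 ≤ P.card := by
      rw [hP, na_m_card hx hy]
      exact Nat.mul_pos (by omega) (by omega)
    have hsP : (P \ B).card + (B ∩ P).card = P.card := by
      have := Finset.card_sdiff_add_card_inter P B
      rw [Finset.inter_comm P B] at this
      exact this
    have hN : 0 ≤ T * (na_m_N M 0 : ℝ) := mul_nonneg hT0 (Nat.cast_nonneg _)
    have hb0 : (0 : ℝ) ≤ b := Nat.cast_nonneg _
    have hkey : ∀ D : Finset (Site L), D.card ≤ 4 → (D.card ≠ 0 → 1 ≤ b) →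
        S D ≤ b * (4 * κ + T * (na_m_N M 0 : ℝ)) := by
      intro D hD hDb
      by_cases hD0 : D.card = 0
      · rw [Finset.card_eq_zero] at hD0
        rw [hD0]
        have : 0 ≤ (b : ℝ) * (4 * κ + T * (na_m_N M 0 : ℝ)) := by positivity
        linarith
      · have hb1 : (1 : ℝ) ≤ b := by exact_mod_cast hDb hD0
        have hD4 : (D.card : ℝ) ≤ 4 := by exact_mod_cast hD
        have h5 := hcard D
        have h6 : κ * D.card ≤ κ * 4 := mul_le_mul_of_nonneg_left hD4 hκ
        nlinarith [mul_nonneg hκ (sub_nonneg.2 hb1), mul_nonneg hb0 hN]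
    have hiso := na_m_iso (B := B) (x0 := x0) (y0 := y0) hx hy
    rw [← hP, ← hb] at hiso
    unfold na_m_val na_m_mj
    by_cases hm : P.card < 2 * (B ∩ P).card
    · rw [decide_eq_true hm]
      simp only [if_true]
      apply hkey
      · omega
      · intro h0
        by_contra hcon
        have hb00 : b = 0 := by omega
        rw [hb00] at hiso
        omega
    · rw [decide_eq_false hm]
      simp only [Bool.false_eq_true, if_false]
      apply hkey
      · omega
      · intro h0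
        by_contra hcon
        have hb00 : b = 0 := by omega
        rw [hb00] at hiso
        omega
  | succ k ih =>
    intro x0 x1 y0 y1 hx hy h1 h2 h3 h4
    have e2 : 2 ^ (k + 1) = 2 * 2 ^ k := by rw [pow_succ]; ring
    have e3 : 2 ^ (k + 1 + 1) = 4 * 2 ^ k := by rw [pow_succ, pow_succ]; ring
    set xm := x0 + (x1 - x0) / 2 with hxm
    set ym := y0 + (y1 - y0) / 2 with hym
    set P := rect L x0 x1 y0 y1 with hP
    set Q1 := rect L x0 xm y0 ym with hQ1
    set Q2 := rect L x0 xm ym y1 with hQ2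
    set Q3 := rect L xm x1 y0 ym with hQ3
    set Q4 := rect L xm x1 ym y1 with hQ4
    set m := na_m_mj B P with hm
    have hxm1 : x0 + 2 ^ k ≤ xm := by omega
    have hxm2 : xm ≤ x0 + 2 ^ (k + 1) := by omega
    have hxm3 : xm + 2 ^ k ≤ x1 := by omega
    have hxm4 : x1 ≤ xm + 2 ^ (k + 1) := by omega
    have hym1 : y0 + 2 ^ k ≤ ym := by omega
    have hym2 : ym ≤ y0 + 2 ^ (k + 1) := by omega
    have hym3 : ym + 2 ^ k ≤ y1 := by omega
    have hym4 : y1 ≤ ym + 2 ^ (k + 1) := by omega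
    have d12 : Disjoint Q1 Q2 := by
      rw [Finset.disjoint_left]; intro p hp hq; rw [hQ1, b8_mem] at hp; rw [hQ2, b8_mem] at hq; omega
    have d34 : Disjoint Q3 Q4 := by
      rw [Finset.disjoint_left]; intro p hp hq; rw [hQ3, b8_mem] at hp; rw [hQ4, b8_mem] at hq; omega
    have d1234 : Disjoint (Q1 ∪ Q2) (Q3 ∪ Q4) := by
      rw [Finset.disjoint_left]; intro p hp hq
      rw [Finset.mem_union, hQ1, hQ2, b8_mem, b8_mem] at hp
      rw [Finset.mem_union, hQ3, hQ4, b8_mem, b8_mem] at hq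
      omega
    have eP : P = (Q1 ∪ Q2) ∪ (Q3 ∪ Q4) := by
      ext p
      rw [Finset.mem_union, Finset.mem_union, Finset.mem_union, hP, hQ1, hQ2, hQ3, hQ4, b8_mem,
        b8_mem, b8_mem, b8_mem, b8_mem]
      omega
    have s1 : Q1 ⊆ P := by rw [eP]; intro p hp; simp only [Finset.mem_union]; tauto
    have s2 : Q2 ⊆ P := by rw [eP]; intro p hp; simp only [Finset.mem_union]; tauto
    have s3 : Q3 ⊆ P := by rw [eP]; intro p hp; simp only [Finset.mem_union]; tauto
    have s4 : Q4 ⊆ P := by rw [eP]; intro p hp; simp only [Finset.mem_union]; tauto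
    have i1 := ih x0 xm y0 ym (by omega) (by omega) hxm1 hxm2 hym1 hym2
    have i2 := ih x0 xm ym y1 (by omega) hy hxm1 hxm2 hym3 hym4
    have i3 := ih xm x1 y0 ym hx (by omega) hxm3 hxm4 hym1 hym2
    have i4 := ih xm x1 ym y1 hx hy hxm3 hxm4 hym3 hym4
    rw [← hQ1] at i1
    rw [← hQ2] at i2
    rw [← hQ3] at i3
    rw [← hQ4] at i4
    -- boundary
    have hbsum : (b9_bin B Q1).card + (b9_bin B Q2).card + (b9_bin B Q3).card +
        (b9_bin B Q4).card ≤ (b9_bin B P).card := by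
      have a1 := na_m_bin_union (B := B) d12
      have a2 := na_m_bin_union (B := B) d34
      have a3 := na_m_bin_union (B := B) d1234
      rw [← eP] at a3
      omega
    have hbsumR : ((b9_bin B Q1).card : ℝ) + (b9_bin B Q2).card + (b9_bin B Q3).card +
        (b9_bin B Q4).card ≤ (b9_bin B P).card := by exact_mod_cast hbsum
    have hbPM : (b9_bin B P).card ≤ M := (na_m_bin_le P).trans hbM
    -- values
    have v0 : na_m_val S B m P ≤ na_m_val S B m Q1 + na_m_val S B m Q2 + na_m_val S B m Q3 +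
        na_m_val S B m Q4 := by
      have a1 := na_m_union (B := B) hsub m d12
      have a2 := na_m_union (B := B) hsub m d34
      have a3 := na_m_union (B := B) hsub m d1234
      rw [← eP] at a3
      linarith
    -- the cost of one child
    set Z : ℝ := (if 2 ^ k ≤ M then (1 : ℝ) else 0) with hZ
    have hZ0 : 0 ≤ Z := by rw [hZ]; split_ifs <;> norm_num
    have hchild : ∀ u0 u1 v0 v1 : ℕ, u1 ≤ L → v1 ≤ L → u0 + 2 ^ k ≤ u1 → u1 ≤ u0 + 2 ^ (k + 1) →
        v0 + 2 ^ k ≤ v1 → v1 ≤ v0 + 2 ^ (k + 1) → rect L u0 u1 v0 v1 ⊆ P →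
        na_m_val S B m (rect L u0 u1 v0 v1) ≤
          na_m_val S B (na_m_mj B (rect L u0 u1 v0 v1)) (rect L u0 u1 v0 v1) +
            (b9_bin B P).card * (T / 4) * Z := by
      intro u0 u1 v0 v1 g1 g2 g3 g4 g5 g6 g7
      set Q := rect L u0 u1 v0 v1 with hQ
      by_cases hmm : m = na_m_mj B Q
      · rw [← hmm]
        have : 0 ≤ ((b9_bin B P).card : ℝ) * (T / 4) * Z := by positivity
        linarith
      · have hsw := na_m_switch (B := B) hsub hc Q m (na_m_mj B Q) hmm
        have hQc : 4 ^ k ≤ Q.card := by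
          rw [hQ, na_m_card g1 g2]
          calc 4 ^ k = 2 ^ k * 2 ^ k := by rw [← mul_pow]; norm_num
            _ ≤ (u1 - u0) * (v1 - v0) := Nat.mul_le_mul (by omega) (by omega)
        have hmis := na_m_mismatch (B := B) hx hy h1 h3 g7 hQc hmm
        rw [← hP] at hmis
        have hkM : 2 ^ k ≤ M := hmis.trans hbPM
        have hZ1 : Z = 1 := by rw [hZ, if_pos hkM]
        have hQS := hrect (2 ^ (k + 1)) u0 u1 v0 v1 (Nat.one_le_two_pow) (by omega) g4 g6
        rw [← hQ] at hQS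
        have hpk : ((2 ^ (k + 1) : ℕ) : ℝ) ≤ 2 * (b9_bin B P).card := by
          have h9 : 2 ^ (k + 1) ≤ 2 * (b9_bin B P).card := by omega
          exact_mod_cast h9
        have hfin : S Q ≤ (b9_bin B P).card * (T / 4) := by
          have h10 := mul_le_mul_of_nonneg_left hpk hW0
          rw [hT]
          linarith
        rw [hZ1, mul_one]
        linarith
    have c1 := hchild x0 xm y0 ym (by omega) (by omega) hxm1 hxm2 hym1 hym2 s1
    have c2 := hchild x0 xm ym y1 (by omega) hy hxm1 hxm2 hym3 hym4 s2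
    have c3 := hchild xm x1 y0 ym hx (by omega) hxm3 hxm4 hym1 hym2 s3
    have c4 := hchild xm x1 ym y1 hx hy hxm3 hxm4 hym3 hym4 s4
    rw [← hQ1] at c1
    rw [← hQ2] at c2
    rw [← hQ3] at c3
    rw [← hQ4] at c4
    have hNs : (na_m_N M (k + 1) : ℝ) = na_m_N M k + Z := by
      rw [na_m_N_succ, hZ]
      push_cast
      rfl
    rw [hNs]
    have hW : 0 ≤ 4 * κ + T * (na_m_N M k : ℝ) := by
      have : (0 : ℝ) ≤ na_m_N M k := Nat.cast_nonneg _
      positivity
    have hsumW : ((b9_bin B Q1).card : ℝ) * (4 * κ + T * (na_m_N M k : ℝ)) +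
        (b9_bin B Q2).card * (4 * κ + T * (na_m_N M k : ℝ)) +
        (b9_bin B Q3).card * (4 * κ + T * (na_m_N M k : ℝ)) +
        (b9_bin B Q4).card * (4 * κ + T * (na_m_N M k : ℝ)) ≤
        (b9_bin B P).card * (4 * κ + T * (na_m_N M k : ℝ)) := by
      have := mul_le_mul_of_nonneg_right hbsumR hW
      linarith
    have e5 : ((b9_bin B P).card : ℝ) * (4 * κ + T * (na_m_N M k + Z)) =
        (b9_bin B P).card * (4 * κ + T * (na_m_N M k : ℝ)) +
          4 * ((b9_bin B P).card * (T / 4) * Z) := by ring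
    rw [e5]
    linarith

end box

/-- From rectangles to all regions, general form: if rectangles of side `l ≤ 2 |∂B|` have
`S ≤ W l`, then `S B ≤ (4κ + 8 W (log₂ |∂B| + 1)) |∂B|`. -/
theorem region_gen {L : ℕ} {S : Finset (Site L) → ℝ} {W κ : ℝ} (hW0 : 0 ≤ W) (hκ : 0 ≤ κ)
    (hsub : ∀ A B, Disjoint A B → S (A ∪ B) ≤ S A + S B)
    (hcm : ∀ A, S Aᶜ = S A) (hcard : ∀ B, S B ≤ κ * B.card) (B : Finset (Site L))
    (hrect : ∀ l x0 x1 y0 y1 : ℕ, 1 ≤ l → l ≤ 2 * bdry B → x1 ≤ x0 + l → y1 ≤ y0 + l →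
        S (rect L x0 x1 y0 y1) ≤ W * l) :
    S B ≤ (4 * κ + 8 * W * (Nat.log 2 (bdry B) + 1)) * bdry B := by
  have hS0 : S ∅ ≤ 0 := by
    have := hcard ∅
    simpa using this
  rcases Nat.eq_zero_or_pos L with hL0 | hL
  · -- the empty lattice
    have hB : B = ∅ := by
      rw [Finset.eq_empty_iff_forall_notMem]
      intro p _
      have := p.1.isLt
      omega
    have hb : bdry B = 0 := by
      rw [hB]
      unfold bdry
      simp
    rw [hb, hB]
    simpa using hS0
  · set k := Nat.log 2 L with hk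
    have hk1 : 2 ^ k ≤ L := Nat.pow_log_le_self 2 (by omega)
    have hk2 : L < 2 ^ (k + 1) := Nat.lt_pow_succ_log_self (by norm_num) L
    have hrec := rec_boxes (S := S) (B := B) hW0 hκ hsub hcm hcard (le_refl (bdry B)) hrect k 0 L 0 L
      le_rfl le_rfl (by omega) (by omega) (by omega) (by omega)
    have euniv : rect L 0 L 0 L = Finset.univ := by
      ext p
      rw [b8_mem]
      have h1 := p.1.isLt
      have h2 := p.2.isLt
      simp only [Finset.mem_univ, iff_true]
      omega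
    rw [euniv] at hrec
    have hval : ∀ m, na_m_val S B m Finset.univ = S B := by
      intro m
      unfold na_m_val
      split_ifs
      · rw [← Finset.compl_eq_univ_sdiff]
        exact hcm B
      · rw [Finset.inter_univ]
    rw [hval] at hrec
    have hbu : (b9_bin B Finset.univ).card = bdry B := by
      unfold b9_bin bdry
      congr 1
      ext p
      simp
    rw [hbu] at hrec
    rcases Nat.eq_zero_or_pos (bdry B) with hb0 | hb0
    · rw [hb0] at hrec ⊢
      simpa using hrec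
    · have h1 : (na_m_N (bdry B) k : ℝ) ≤ Nat.log 2 (bdry B) + 1 := by
        exact_mod_cast na_m_N_le hb0 k
      have hb : (0 : ℝ) ≤ bdry B := Nat.cast_nonneg _
      refine hrec.trans ?_
      rw [mul_comm]
      apply mul_le_mul_of_nonneg_right _ hb
      have := mul_le_mul_of_nonneg_left h1 (show 0 ≤ 8 * W by positivity)
      linarith

/-- From rectangles to all regions with a small loss in the exponent. -/
theorem region_near (A κ η : ℝ) (hA : 0 ≤ A) (hκ : 0 ≤ κ) (hη : 0 < η) :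
    ∃ C : ℝ, 0 ≤ C ∧ ∀ (L : ℕ) (S : Finset (Site L) → ℝ),
      (∀ B B', Disjoint B B' → S (B ∪ B') ≤ S B + S B') → (∀ B, S Bᶜ = S B) →
      (∀ B, S B ≤ κ * B.card) →
      (∀ l x0 x1 y0 y1 : ℕ, 1 ≤ l → x1 ≤ x0 + l → y1 ≤ y0 + l →
        S (rect L x0 x1 y0 y1) ≤ A * (l : ℝ) ^ (1 + η)) →
      ∀ B, S B ≤ C * (bdry B : ℝ) ^ (1 + 2 * η) := by
  -- `log₂ b + 1 ≤ K b^η`
  have hlog2 : (0.6931471803 : ℝ) < Real.log 2 := Real.log_two_gt_d9
  set K : ℝ := 2 / η + 1 with hK
  have hK0 : 0 ≤ K := by positivity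
  refine ⟨4 * κ + 8 * (A * 2 ^ η) * K, by positivity, ?_⟩
  intro L S hsub hcm hcard hrect B
  set b : ℝ := (bdry B : ℝ) with hb
  have hb0 : 0 ≤ b := Nat.cast_nonneg _
  rcases Nat.eq_zero_or_pos (bdry B) with h0 | h0
  · have h1 := region_gen (S := S) (W := 0) le_rfl hκ hsub hcm hcard B (by
      intro l x0 x1 y0 y1 hl hl2
      omega)
    rw [h0] at h1
    rw [hb, h0]
    have h2 : (0 : ℝ) ≤ ((0 : ℕ) : ℝ) ^ (1 + 2 * η) := by positivity
    have h3 : (0 : ℝ) ≤ (4 * κ + 8 * (A * 2 ^ η) * K) := by positivity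
    have h4 : S B ≤ 0 := by simpa using h1
    have h5 := mul_nonneg h3 h2
    linarith
  · have hb1 : (1 : ℝ) ≤ b := by rw [hb]; exact_mod_cast h0
    have hbp : 0 < b := by linarith
    have hW0 : 0 ≤ A * (2 * b) ^ η := by positivity
    have h1 := region_gen (S := S) (W := A * (2 * b) ^ η) hW0 hκ hsub hcm hcard B (by
      intro l x0 x1 y0 y1 hl hl2 hx hy
      have h2 := hrect l x0 x1 y0 y1 hl hx hy
      have hl1 : (1 : ℝ) ≤ l := by exact_mod_cast hl
      have hl0 : (0 : ℝ) < l := by linarith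
      have hl2' : (l : ℝ) ≤ 2 * b := by rw [hb]; exact_mod_cast hl2
      have h3 : (l : ℝ) ^ (1 + η) ≤ (2 * b) ^ η * l := by
        rw [Real.rpow_add hl0, Real.rpow_one, mul_comm]
        exact mul_le_mul_of_nonneg_right (Real.rpow_le_rpow hl0.le hl2' hη.le) hl0.le
      calc S (rect L x0 x1 y0 y1) ≤ A * (l : ℝ) ^ (1 + η) := h2
        _ ≤ A * ((2 * b) ^ η * l) := mul_le_mul_of_nonneg_left h3 hA
        _ = A * (2 * b) ^ η * l := by ring)
    have hbη : (1 : ℝ) ≤ b ^ η := Real.one_le_rpow hb1 hη.le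
    have hlogb : Real.log b ≤ b ^ η / η := Real.log_le_rpow_div hb0 hη
    have hNlog : (Nat.log 2 (bdry B) : ℝ) + 1 ≤ K * b ^ η := by
      have h2 : (Nat.log 2 (bdry B) : ℝ) * Real.log 2 ≤ Real.log b := by
        have h3 : ((2 : ℝ)) ^ (Nat.log 2 (bdry B)) ≤ b := by
          rw [hb]
          exact_mod_cast Nat.pow_log_le_self 2 (by omega)
        have h4 := Real.log_le_log (by positivity) h3
        rw [Real.log_pow] at h4
        exact h4
      have h6 : (0 : ℝ) ≤ Nat.log 2 (bdry B) := Nat.cast_nonneg _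
      have h7 : (Nat.log 2 (bdry B) : ℝ) ≤ 2 * Real.log b := by nlinarith
      have h8 : K * b ^ η = 2 * (b ^ η / η) + b ^ η := by rw [hK]; ring
      rw [h8]
      linarith
    have h2b : (2 * b) ^ η = 2 ^ η * b ^ η := Real.mul_rpow (by norm_num) hb0
    have hsp : b ^ (1 + 2 * η) = b * (b ^ η * b ^ η) := by
      rw [Real.rpow_add hbp, Real.rpow_one, two_mul, Real.rpow_add hbp]
    have hbb : 1 ≤ b ^ η * b ^ η := one_le_mul_of_one_le_of_one_le hbη hbη
    refine h1.trans ?_
    rw [h2b, hsp]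
    have h9 : 8 * (A * (2 ^ η * b ^ η)) * ((Nat.log 2 (bdry B) : ℝ) + 1) ≤
        8 * (A * (2 ^ η * b ^ η)) * (K * b ^ η) :=
      mul_le_mul_of_nonneg_left hNlog (by positivity)
    have h10 : 4 * κ ≤ 4 * κ * (b ^ η * b ^ η) := by
      have := mul_le_mul_of_nonneg_left hbb (show 0 ≤ 4 * κ by positivity)
      linarith
    calc (4 * κ + 8 * (A * (2 ^ η * b ^ η)) * ((Nat.log 2 (bdry B) : ℝ) + 1)) * b
        ≤ (4 * κ * (b ^ η * b ^ η) + 8 * (A * (2 ^ η * b ^ η)) * (K * b ^ η)) * b :=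
          mul_le_mul_of_nonneg_right (by linarith) hb0
      _ = (4 * κ + 8 * (A * 2 ^ η) * K) * (b * (b ^ η * b ^ η)) := by ring

end Vale.Agent.P356.GA
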