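import Vale.Agent.P356.GA.Pair749
import Vale.Agent.P356.GA.Tube107
import Vale.Agent.P356.GA.Taylor107

/-!
The tube bound on regions: a local observable only sees the lines which cross its support.
-/

set_option linter.all false

namespace Vale.Agent.P356.GA

open Matrix Finset Vale.Agent.P356 Vale.Agent.P356.SV Vale.Agent.P356.Path Vale.Agent.P356.PH
open scoped BigOperators ComplexOrder Kronecker Matrix.Norms.L2Operator

section split
variable {V : Type*} [Fintype V] [DecidableEq V] {q : ℕ}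

theorem norm_le_of_contr749 {N : Type*} [Fintype N] [DecidableEq N] {P : Matrix N N ℂ}
    (h : Contr P) : ‖P‖ ≤ 1 := by
  refine ph_norm_le zero_le_one fun v => ?_
  rw [one_pow, one_mul]
  exact h v

theorem norm_opR_le (A : Finset V) (S : Op {x // ¬ x ∈ A} q) (hS : Contr S) :
    ‖opR (cut A q) S‖ ≤ 1 := by
  refine norm_le_of_contr749 fun v => ?_
  have h1 := contr_kron (contr_one (n := {x // x ∈ A} → Fin q)) hS (v ∘ (cut A q).symm)
  rw [← opR_mulVec (cut A q) S v] at h1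
  have h3 : ∀ w : Conf V q → ℂ, ∑ i, ‖(w ∘ (cut A q).symm) i‖ ^ 2 = ∑ i, ‖w i‖ ^ 2 := fun w =>
    nsq_comp (cut A q) w
  rw [h3, h3] at h1
  exact h1

/-- a local operator is a sum of products across a cut -/
theorem split_local (A Z : Finset V) {X : Op V q} (hX : ActsOn Z X) (hne : X ≠ 0 → Z.Nonempty) :
    SplitLe (cut A q) X ((q : ℝ) ^ (2 * Z.card) * ‖X‖) := by
  obtain ⟨k, hk, hkJ, -⟩ := exists_kernel hX (ph_opNormLe (le_refl ‖X‖)) hne
  have h1 := b5_split A Z X k hk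
  set I := (Z → Fin q) × (Z → Fin q) with hI
  have eI : Fin (Fintype.card I) ≃ I := (Fintype.equivFin I).symm
  refine ⟨Fintype.card I, fun j => k (eI j).1 (eI j).2,
    fun j => uOn (jIn A) Z (eI j).1 (eI j).2, fun j => uOn (jOut A) Z (eI j).1 (eI j).2,
    ?_, fun j => ?_, fun j => ?_, ?_⟩
  · rw [h1]
    exact (eI.sum_comp (fun uv => k uv.1 uv.2 •
      (opL (cut A q) (uOn (jIn A) Z uv.1 uv.2) * opR (cut A q) (uOn (jOut A) Z uv.1 uv.2)))).symm
  · exact norm_le_of_contr749 (b5_contr A (uOn_contr _ _ _ _))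
  · exact norm_opR_le A _ (uOn_contr _ _ _ _)
  · refine (eI.sum_comp (fun uv => ‖k uv.1 uv.2‖)).le.trans ?_
    refine (Finset.sum_le_card_nsmul _ _ ‖X‖ (fun uv _ => ?_)).trans (le_of_eq ?_)
    · exact (hkJ _ _).trans (le_of_eq (abs_of_nonneg (norm_nonneg _)))
    · rw [Finset.card_univ, Fintype.card_prod, Fintype.card_fun, Fintype.card_fin,
        Fintype.card_coe, nsmul_eq_mul]
      push_cast
      ring

end split

section lines
variable {V : Type*} [Fintype V] [DecidableEq V] {q : ℕ}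

/-- `⟨ψ| Y_0 ⋯ Y_{n-1} X Y_{n-1}⁻¹ ⋯ Y_0⁻¹ |ψ⟩`, `Y_k = e^{z_k G_k}` -/
noncomputable def FR (R : ℕ → Finset V) (ψ : Conf V q → ℂ) (g : ℝ → ℝ) (n : ℕ) (X : Op V q)
    (z : ℕ → ℂ) : ℂ :=
  ex ψ (prR (fun k => EE (R k) ψ g (z k)) n * X * prL (fun k => EE (R k) ψ g (-(z k))) n)

theorem FR_eq_FT (R : ℕ → Finset V) (ψ : Conf V q → ℂ) (g : ℝ → ℝ) (n : ℕ) (X : Op V q)
    (z : ℕ → ℂ) : FR R ψ g n X z = FT (α := fun k => ({x // x ∈ R k} → Fin q))
      (β := fun k => ({x // ¬ x ∈ R k} → Fin q)) (fun k => cut (R k) q) ψ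
      (fun k i => g (eigp (ψ ∘ (cut (R k) q).symm) i)) n X z := rfl

theorem FR_zero (R : ℕ → Finset V) (ψ : Conf V q → ℂ) (g : ℝ → ℝ) (X : Op V q)
    (z : ℕ → ℂ) : FR R ψ g 0 X z = ex ψ X := by
  rw [FR, prR, prL, Matrix.one_mul, Matrix.mul_one]

theorem prR_shift {N : Type*} [Fintype N] [DecidableEq N] (Y : ℕ → Matrix N N ℂ) (n : ℕ) :
    prR Y (n + 1) = Y 0 * prR (fun k => Y (k + 1)) n := by
  induction n with
  | zero => simp [prR]
  | succ n ih => rw [prR, ih, prR, Matrix.mul_assoc]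

theorem prL_shift {N : Type*} [Fintype N] [DecidableEq N] (Y : ℕ → Matrix N N ℂ) (n : ℕ) :
    prL Y (n + 1) = prL (fun k => Y (k + 1)) n * Y 0 := by
  induction n with
  | zero => simp [prL]
  | succ n ih => rw [prL, ih, prL, Matrix.mul_assoc]

theorem prR_acts {S : Finset V} {Y : ℕ → Op V q} {n : ℕ} (h : ∀ k < n, ActsOn S (Y k)) :
    ActsOn S (prR Y n) := by
  induction n with
  | zero => exact ph_acts_one S
  | succ n ih => exact ph_acts_mul (ih fun k hk => h k (by omega)) (h n (by omega))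

theorem prL_acts {S : Finset V} {Y : ℕ → Op V q} {n : ℕ} (h : ∀ k < n, ActsOn S (Y k)) :
    ActsOn S (prL Y n) := by
  induction n with
  | zero => exact ph_acts_one S
  | succ n ih => exact ph_acts_mul (h n (by omega)) (ih fun k hk => h k (by omega))

/-- conjugation by the outermost factor does nothing to an observable inside -/
theorem ex_outer (S : Finset V) (ψ : Conf V q → ℂ) (g : ℝ → ℝ) (z : ℂ) {X : Op V q}
    (hX : ActsOn S X) : ex ψ (EE S ψ g z * X * EE S ψ g (-z)) = ex ψ X := by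
  have h1 : EE S ψ g (-z) *ᵥ ψ = EE Sᶜ ψ g (-z) *ᵥ ψ := (EE_transport S ψ g (-z)).symm
  have h2 : EE S ψ g (star z) *ᵥ ψ = EE Sᶜ ψ g (star z) *ᵥ ψ := (EE_transport S ψ g _).symm
  have h3 : ∀ W : Op V q, ex ψ (EE S ψ g z * W) = star (EE S ψ g (star z) *ᵥ ψ) ⬝ᵥ (W *ᵥ ψ) := by
    intro W
    rw [Matrix.star_mulVec, ← Matrix.dotProduct_mulVec, EE_star, star_star, ex,
      Matrix.mulVec_mulVec]
  rw [Matrix.mul_assoc, h3, ← Matrix.mulVec_mulVec, h1, h2, Matrix.star_mulVec,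
    ← Matrix.dotProduct_mulVec, EE_star, star_star, Matrix.mulVec_mulVec, Matrix.mulVec_mulVec]
  have hc : EE Sᶜ ψ g z * X = X * EE Sᶜ ψ g z :=
    ph_acts_comm disjoint_compl_left (EE_acts _ _ _ _) hX
  rw [hc, Matrix.mul_assoc, EE_add, add_neg_cancel, EE_zero, Matrix.mul_one]
  rfl

theorem FR_drop_outer {R : ℕ → Finset V} (hR : Antitone R) (ψ : Conf V q → ℂ) (g : ℝ → ℝ) (n : ℕ)
    {Z : Finset V} {X : Op V q} (hX : ActsOn Z X) (hZ : Z ⊆ R 0) (z : ℕ → ℂ) :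
    FR R ψ g (n + 1) X z = FR (fun k => R (k + 1)) ψ g n X (fun k => z (k + 1)) := by
  rw [FR, prR_shift, prL_shift, FR]
  have e : EE (R 0) ψ g (z 0) * prR (fun k => EE (R (k + 1)) ψ g (z (k + 1))) n * X *
      (prL (fun k => EE (R (k + 1)) ψ g (-(z (k + 1)))) n * EE (R 0) ψ g (-(z 0))) =
      EE (R 0) ψ g (z 0) * (prR (fun k => EE (R (k + 1)) ψ g (z (k + 1))) n * X *
      prL (fun k => EE (R (k + 1)) ψ g (-(z (k + 1)))) n) * EE (R 0) ψ g (-(z 0)) := by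
    simp only [Matrix.mul_assoc]
  rw [e]
  refine ex_outer (R 0) ψ g (z 0) ?_
  refine ph_acts_mul (ph_acts_mul (prR_acts fun k _ => ?_) (ph_acts_mono hZ hX))
    (prL_acts fun k _ => ?_)
  · exact ph_acts_mono (hR (Nat.zero_le _)) (EE_acts _ _ _ _)
  · exact ph_acts_mono (hR (Nat.zero_le _)) (EE_acts _ _ _ _)

theorem FR_drop_inner {R : ℕ → Finset V} (ψ : Conf V q → ℂ) (g : ℝ → ℝ) (n : ℕ)
    {Z : Finset V} {X : Op V q} (hX : ActsOn Z X) (hZ : Disjoint Z (R n)) (z : ℕ → ℂ) :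
    FR R ψ g (n + 1) X z = FR R ψ g n X z := by
  rw [FR, prR, prL, FR]
  have hc : X * EE (R n) ψ g (-(z n)) = EE (R n) ψ g (-(z n)) * X :=
    ph_acts_comm hZ hX (EE_acts _ _ _ _)
  congr 1
  calc prR (fun k => EE (R k) ψ g (z k)) n * EE (R n) ψ g (z n) * X *
      (EE (R n) ψ g (-(z n)) * prL (fun k => EE (R k) ψ g (-(z k))) n) =
      prR (fun k => EE (R k) ψ g (z k)) n * (EE (R n) ψ g (z n) * (X * EE (R n) ψ g (-(z n)))) *
        prL (fun k => EE (R k) ψ g (-(z k))) n := by simp only [Matrix.mul_assoc]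
    _ = prR (fun k => EE (R k) ψ g (z k)) n * (EE (R n) ψ g (z n) * EE (R n) ψ g (-(z n)) * X) *
        prL (fun k => EE (R k) ψ g (-(z k))) n := by rw [hc]; simp only [Matrix.mul_assoc]
    _ = _ := by rw [EE_add, add_neg_cancel, EE_zero, Matrix.one_mul]

/-- the lines which cross `Z` -/
def crossing (R : ℕ → Finset V) (n : ℕ) (Z : Finset V) : Finset ℕ :=
  (range n).filter (fun k => ¬ Z ⊆ R k ∧ ¬ Disjoint Z (R k))

/-- interpolated tube bound, all lines counted -/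
theorem FR_interp {R : ℕ → Finset V} (hR : Antitone R) {ψ : Conf V q → ℂ} (hψ : nsq ψ = 1)
    {g : ℝ → ℝ} (n : ℕ) {K : ℝ} (hK : 1 ≤ K)
    (hg1 : ∀ k < n, ∀ i, eigp (ψ ∘ (cut (R k) q).symm) i ≤
      Real.exp (g (eigp (ψ ∘ (cut (R k) q).symm) i)))
    (hg2 : ∀ k < n, ∑ i, Real.exp (g (eigp (ψ ∘ (cut (R k) q).symm) i)) ≤ K)
    {Z : Finset V} {X : Op V q} (hX : ActsOn Z X) (hne : X ≠ 0 → Z.Nonempty) (hq : 1 ≤ q)
    {z : ℕ → ℂ} (hz : ∑ k ∈ range n, |(z k).re| ≤ 1 / 2) :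
    ‖FR R ψ g n X z‖ ≤ ‖X‖ * ((q : ℝ) ^ (2 * Z.card) * Real.sqrt K) ^
      (2 * ∑ k ∈ range n, |(z k).re|) := by
  set e : ∀ k, Conf V q ≃ ({x // x ∈ R k} → Fin q) × ({x // ¬ x ∈ R k} → Fin q) :=
    fun k => cut (R k) q with he
  set g' : ∀ k, ({x // x ∈ R k} → Fin q) → ℝ := fun k i => g (eigp (ψ ∘ (cut (R k) q).symm) i)
    with hg'
  set s := ∑ k ∈ range n, |(z k).re| with hs
  have hs0 : 0 ≤ s := Finset.sum_nonneg fun k _ => abs_nonneg _
  set w := (q : ℝ) ^ (2 * Z.card) * ‖X‖ with hw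
  have hq1 : (1 : ℝ) ≤ (q : ℝ) ^ (2 * Z.card) := one_le_pow₀ (by exact_mod_cast hq)
  have hK1 : 1 ≤ Real.sqrt K := Real.one_le_sqrt.2 hK
  have hXw : ‖X‖ ≤ w := by
    rw [hw]
    nlinarith [norm_nonneg X]
  have hcomm : ∀ j k, j ≤ k → ∀ (Y : Matrix ({x // x ∈ R k} → Fin q) ({x // x ∈ R k} → Fin q) ℂ)
      (S : Matrix ({x // ¬ x ∈ R j} → Fin q) ({x // ¬ x ∈ R j} → Fin q) ℂ),
      opL (e k) Y * opR (e j) S = opR (e j) S * opL (e k) Y := by
    intro j k hjk Y S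
    obtain ⟨S', hS'⟩ := b5_opR (R j) S
    show opL (cut (R k) q) Y * opR (cut (R j) q) S = opR (cut (R j) q) S * opL (cut (R k) q) Y
    rw [hS']
    exact ph_acts_comm (Finset.disjoint_of_subset_left (hR hjk) disjoint_compl_right)
      (ph_acts_opOn (R k) Y) (ph_acts_opOn _ S')
  have htube : ∀ z' : ℕ → ℂ, ∑ k ∈ range n, |(z' k).re| ≤ 1 / 2 →
      ‖FR R ψ g n X z'‖ ≤ w * Real.sqrt K := fun z' hz' => by
    rw [FR_eq_FT]
    exact FT_tube e ψ g' hcomm hψ n hK X hXw hg1 hg2 (fun k _ => split_local (R k) Z hX hne) hz'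
  rcases hs0.eq_or_lt with h0 | hpos
  · -- all exponents imaginary
    have hre : ∀ k < n, (z k).re = 0 := by
      intro k hk
      have := (Finset.sum_eq_zero_iff_of_nonneg (fun k _ => abs_nonneg ((z k).re))).1 h0.symm k
        (Finset.mem_range.2 hk)
      exact abs_eq_zero.1 this
    rw [← h0, mul_zero, Real.rpow_zero, mul_one, FR_eq_FT,
      FT_congr e ψ g' n X (z' := fun k => if k < n then z k else 0) (fun k hk => by simp [hk])]
    exact FT_imag e ψ g' hψ n X _ (fun j => by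
      by_cases hj : j < n
      · simp [hj, hre j hj]
      · simp [hj])
  · -- interpolation
    set x : ℕ → ℝ := fun k => (z k).re with hx
    set y : ℕ → ℝ := fun k => (z k).im with hy
    set z1 : ℕ → ℂ := fun k => if k < n then z k else 0 with hz1
    set u : ℕ → ℂ := fun k => if k < n then (((z k).re / (2 * s) : ℝ) : ℂ) else 0 with hu
    set b : ℕ → ℂ := fun k => if k < n then ((z k).im : ℂ) * Complex.I else 0 with hb
    set h : ℂ → ℂ := fun l => FR R ψ g n X (fun k => b k + l * u k) with hh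
    have hN := nice_FT e ψ g' n X
    have hd : Differentiable ℂ h := hN.diff b u
    have hul : ∀ k, ‖u k‖ ≤ 1 := by
      intro k
      simp only [hu]
      by_cases hk : k < n
      · rw [if_pos hk, Complex.norm_real, Real.norm_eq_abs, abs_div, abs_of_pos (by linarith :
          (0:ℝ) < 2 * s), div_le_one (by linarith)]
        have := Finset.single_le_sum (f := fun k => |(z k).re|) (fun i _ => abs_nonneg _)
          (Finset.mem_range.2 hk)
        linarith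
      · rw [if_neg hk, norm_zero]; exact zero_le_one
    have hure : ∀ k, (u k).im = 0 := fun k => by
      simp only [hu]
      by_cases hk : k < n
      · rw [if_pos hk, Complex.ofReal_im]
      · rw [if_neg hk, Complex.zero_im]
    have hbre : ∀ k, (b k).re = 0 := fun k => by
      simp only [hb]
      by_cases hk : k < n
      · rw [if_pos hk]; simp
      · rw [if_neg hk, Complex.zero_re]
    have hre : ∀ (l : ℂ) (k : ℕ), (b k + l * u k).re = l.re * (u k).re := by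
      intro l k
      rw [Complex.add_re, Complex.mul_re, hbre, hure]
      ring
    obtain ⟨M, hM⟩ := hN.bdd 1
    have hbd : BddAbove ((norm ∘ h) '' Complex.HadamardThreeLines.verticalClosedStrip 0 1) := by
      refine ⟨M, ?_⟩
      rintro _ ⟨l, hl, rfl⟩
      refine hM _ fun k _ => ?_
      have h1 : (b k + l * u k).re = l.re * (u k).re := hre l k
      show |(b k + l * u k).re| ≤ 1
      rw [h1, abs_mul]
      have h2 : |(u k).re| ≤ 1 := (Complex.abs_re_le_norm _).trans (hul k)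
      have h3 : |l.re| ≤ 1 := abs_le.2 ⟨by have := hl.1; linarith, hl.2⟩
      calc |l.re| * |(u k).re| ≤ 1 * 1 := mul_le_mul h3 h2 (abs_nonneg _) zero_le_one
        _ = 1 := one_mul 1
    have hl : ((2 * s : ℝ) : ℂ) ∈ Complex.HadamardThreeLines.verticalClosedStrip 0 1 := by
      constructor
      · rw [Complex.ofReal_re]; linarith
      · rw [Complex.ofReal_re]; linarith
    have key := Complex.HadamardThreeLines.norm_le_interp_of_mem_verticalClosedStrip₀₁' h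
      (z := ((2 * s : ℝ) : ℂ)) (a := ‖X‖) (b := w * Real.sqrt K) hl hd.diffContOnCl hbd
      (fun l hl0 => by
        rw [hh]
        simp only
        rw [FR_eq_FT]
        exact FT_imag e ψ g' hψ n X _ (fun j => by
          rw [hre, hl0, zero_mul]))
      (fun l hl1 => by
        refine htube _ ?_
        have h1 : ∀ k ∈ range n, |(b k + l * u k).re| = |(z k).re| / (2 * s) := by
          intro k hk
          rw [hre, hl1, one_mul]
          simp only [hu]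
          rw [if_pos (Finset.mem_range.1 hk), Complex.ofReal_re, abs_div,
            abs_of_pos (by linarith : (0:ℝ) < 2 * s)]
        rw [Finset.sum_congr rfl h1, ← Finset.sum_div, ← hs]
        refine le_of_eq ?_
        field_simp)
    have hval : h ((2 * s : ℝ) : ℂ) = FR R ψ g n X z := by
      rw [hh]
      simp only
      rw [FR_eq_FT, FR_eq_FT]
      refine FT_congr e ψ g' n X fun k hk => ?_
      simp only [hb, hu, if_pos hk]
      have h2s : (2 * s) ≠ 0 := by linarith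
      have e2 : ((2 * s : ℝ) : ℂ) * (((z k).re / (2 * s) : ℝ) : ℂ) = ((z k).re : ℂ) := by
        rw [← Complex.ofReal_mul]
        congr 1
        field_simp
      rw [e2, add_comm, Complex.re_add_im]
    rw [hval, Complex.ofReal_re] at key
    refine key.trans (le_of_eq ?_)
    have e1 : w * Real.sqrt K = ‖X‖ * ((q : ℝ) ^ (2 * Z.card) * Real.sqrt K) := by
      rw [hw]; ring
    rw [e1, Real.mul_rpow (norm_nonneg _) (by positivity), ← mul_assoc]
    congr 1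
    by_cases hX0 : ‖X‖ = 0
    · rw [hX0, Real.zero_rpow (x := 2 * s) (by linarith), mul_zero]
    · rw [← Real.rpow_add (lt_of_le_of_ne (norm_nonneg _) (Ne.symm hX0)), sub_add_cancel,
        Real.rpow_one]

/-- **The tube bound on regions.** -/
theorem reg_tube {R : ℕ → Finset V} (hR : Antitone R) {ψ : Conf V q → ℂ} (hψ : nsq ψ = 1)
    {g : ℝ → ℝ} (n : ℕ) {K : ℝ} (hK : 1 ≤ K)
    (hg1 : ∀ k < n, ∀ i, eigp (ψ ∘ (cut (R k) q).symm) i ≤
      Real.exp (g (eigp (ψ ∘ (cut (R k) q).symm) i)))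
    (hg2 : ∀ k < n, ∑ i, Real.exp (g (eigp (ψ ∘ (cut (R k) q).symm) i)) ≤ K)
    {Z : Finset V} {X : Op V q} (hX : ActsOn Z X) (hne : X ≠ 0 → Z.Nonempty) (hq : 1 ≤ q)
    {z : ℕ → ℂ} (hz : ∑ k ∈ crossing R n Z, |(z k).re| ≤ 1 / 2) :
    ‖FR R ψ g n X z‖ ≤ ‖X‖ * ((q : ℝ) ^ (2 * Z.card) * Real.sqrt K) ^
      (2 * ∑ k ∈ crossing R n Z, |(z k).re|) := by
  induction n generalizing R z with
  | zero =>
    have h0 : crossing R 0 Z = ∅ := by simp [crossing]
    rw [FR_zero, h0, Finset.sum_empty, mul_zero, Real.rpow_zero, mul_one]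
    exact dot_le_norm_bound ψ X hψ
  | succ n ih =>
    by_cases h1 : Z ⊆ R 0
    · rw [FR_drop_outer hR ψ g n hX h1]
      have hR' : Antitone (fun k => R (k + 1)) := fun a b hab => hR (by omega)
      have hcr : ∑ k ∈ crossing R (n + 1) Z, |(z k).re| =
          ∑ k ∈ crossing (fun k => R (k + 1)) n Z, |(z (k + 1)).re| := by
        rw [crossing, crossing, Finset.sum_filter, Finset.sum_filter, Finset.sum_range_succ']
        simp [h1]
      rw [hcr] at hz ⊢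
      exact ih hR' (fun k hk => hg1 (k + 1) (by omega)) (fun k hk => hg2 (k + 1) (by omega)) hz
    · by_cases h2 : Disjoint Z (R n)
      · rw [FR_drop_inner ψ g n hX h2]
        have hcr : ∑ k ∈ crossing R (n + 1) Z, |(z k).re| = ∑ k ∈ crossing R n Z, |(z k).re| := by
          rw [crossing, crossing, Finset.sum_filter, Finset.sum_filter, Finset.sum_range_succ]
          simp [h2]
        rw [hcr] at hz ⊢
        exact ih hR (fun k hk => hg1 k (by omega)) (fun k hk => hg2 k (by omega)) hz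
      · have hcr : crossing R (n + 1) Z = range (n + 1) := by
          rw [crossing]
          refine Finset.filter_true_of_mem fun k hk => ⟨fun h => h1 (h.trans (hR (Nat.zero_le k))),
            fun h => h2 (h.mono_right (hR (by
              have := Finset.mem_range.1 hk
              omega)))⟩
        rw [hcr] at hz ⊢
        exact FR_interp hR hψ (n + 1) hK hg1 hg2 hX hne hq hz

/-- the base of the tube bound, as an exponential -/
noncomputable def tubeL (q : ℕ) (Z : Finset V) (K : ℝ) : ℝ :=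
  2 * Z.card * Real.log q + Real.log K / 2

theorem tubeL_nonneg {q : ℕ} (hq : 1 ≤ q) (Z : Finset V) {K : ℝ} (hK : 1 ≤ K) :
    0 ≤ tubeL q Z K := by
  unfold tubeL
  have h1 : 0 ≤ Real.log q := Real.log_nonneg (by exact_mod_cast hq)
  have h2 : 0 ≤ Real.log K := Real.log_nonneg hK
  positivity

theorem tube_base {q : ℕ} (hq : 1 ≤ q) (Z : Finset V) {K : ℝ} (hK : 1 ≤ K) (s : ℝ) :
    ((q : ℝ) ^ (2 * Z.card) * Real.sqrt K) ^ s = Real.exp (tubeL q Z K * s) := by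
  have hq0 : (0 : ℝ) < q := by exact_mod_cast hq
  have hK0 : 0 < K := by linarith
  have hb : 0 < (q : ℝ) ^ (2 * Z.card) * Real.sqrt K :=
    mul_pos (pow_pos hq0 _) (Real.sqrt_pos.2 hK0)
  rw [Real.rpow_def_of_pos hb, Real.log_mul (pow_pos hq0 _).ne' (Real.sqrt_pos.2 hK0).ne',
    Real.log_pow, Real.log_sqrt hK0.le, tubeL]
  congr 1
  push_cast
  ring

/-- the one variable function -/
noncomputable def fR (R : ℕ → Finset V) (ψ : Conf V q → ℂ) (g : ℝ → ℝ) (n : ℕ) (θ : ℕ → ℝ)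
    (X : ℂ → Op V q) (ζ : ℂ) : ℂ :=
  FR R ψ g n (X ζ) (fun k => ζ * (θ k : ℂ))

/-- total strength of the lines crossing `Z` -/
noncomputable def crossT (R : ℕ → Finset V) (n : ℕ) (θ : ℕ → ℝ) (Z : Finset V) : ℝ :=
  ∑ k ∈ crossing R n Z, |θ k|

theorem fR_bound {R : ℕ → Finset V} (hR : Antitone R) {ψ : Conf V q → ℂ} (hψ : nsq ψ = 1)
    {g : ℝ → ℝ} (n : ℕ) (θ : ℕ → ℝ) {K : ℝ} (hK : 1 ≤ K)
    (hg1 : ∀ k < n, ∀ i, eigp (ψ ∘ (cut (R k) q).symm) i ≤
      Real.exp (g (eigp (ψ ∘ (cut (R k) q).symm) i)))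
    (hg2 : ∀ k < n, ∑ i, Real.exp (g (eigp (ψ ∘ (cut (R k) q).symm) i)) ≤ K)
    {Z : Finset V} {X : ℂ → Op V q} (hX : ∀ ζ, ActsOn Z (X ζ)) (hne : Z.Nonempty) (hq : 1 ≤ q)
    {ζ : ℂ} (hz : |ζ.re| * crossT R n θ Z ≤ 1 / 2) :
    ‖fR R ψ g n θ X ζ‖ ≤ ‖X ζ‖ * Real.exp (tubeL q Z K * (2 * (|ζ.re| * crossT R n θ Z))) := by
  have hsum : ∑ k ∈ crossing R n Z, |(ζ * (θ k : ℂ)).re| = |ζ.re| * crossT R n θ Z := by
    rw [crossT, Finset.mul_sum]
    refine Finset.sum_congr rfl fun k _ => ?_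
    rw [Complex.mul_re, Complex.ofReal_re, Complex.ofReal_im, mul_zero, sub_zero, abs_mul]
  have h := reg_tube hR hψ n hK hg1 hg2 (hX ζ) (fun _ => hne) hq
    (z := fun k => ζ * (θ k : ℂ)) (by rw [hsum]; exact hz)
  rw [hsum, tube_base hq Z hK] at h
  exact h

theorem EE_diff (S : Finset V) (ψ : Conf V q → ℂ) (g : ℝ → ℝ) (c : ℂ) :
    Differentiable ℂ (fun ζ : ℂ => EE S ψ g (ζ * c)) := by
  intro ζ
  have h1 : HasDerivAt (fun ζ : ℂ => ζ * c) c ζ := by
    simpa using (hasDerivAt_id ζ).mul_const c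
  exact ((EE_hasDerivAt S ψ g (ζ * c)).scomp ζ h1).differentiableAt

theorem prR_diff (R : ℕ → Finset V) (ψ : Conf V q → ℂ) (g : ℝ → ℝ) (n : ℕ) (c : ℕ → ℂ) :
    Differentiable ℂ (fun ζ : ℂ => prR (fun k => EE (R k) ψ g (ζ * c k)) n) := by
  induction n with
  | zero => exact differentiable_const _
  | succ n ih =>
    simp only [prR]
    exact ih.mul (EE_diff _ _ _ _)

theorem prL_diff (R : ℕ → Finset V) (ψ : Conf V q → ℂ) (g : ℝ → ℝ) (n : ℕ) (c : ℕ → ℂ) :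
    Differentiable ℂ (fun ζ : ℂ => prL (fun k => EE (R k) ψ g (ζ * c k)) n) := by
  induction n with
  | zero => exact differentiable_const _
  | succ n ih =>
    simp only [prL]
    exact (EE_diff _ _ _ _).mul ih

theorem fR_diff (R : ℕ → Finset V) (ψ : Conf V q → ℂ) (g : ℝ → ℝ) (n : ℕ) (θ : ℕ → ℝ)
    {X : ℂ → Op V q} (hX : Differentiable ℂ X) : Differentiable ℂ (fR R ψ g n θ X) := by
  have h1 := prR_diff R ψ g n (fun k => (θ k : ℂ))
  have h2 : Differentiable ℂ (fun ζ : ℂ => prL (fun k => EE (R k) ψ g (-(ζ * (θ k : ℂ)))) n) := by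
    have h3 := prL_diff R ψ g n (fun k => -(θ k : ℂ))
    simp only [mul_neg] at h3
    exact h3
  have h4 : Differentiable ℂ (fun ζ : ℂ => prR (fun k => EE (R k) ψ g (ζ * (θ k : ℂ))) n * X ζ *
      prL (fun k => EE (R k) ψ g (-(ζ * (θ k : ℂ)))) n) := (h1.mul hX).mul h2
  exact fun ζ => (ex_hasDerivAt ψ (h4 ζ).hasDerivAt).differentiableAt

/-- on a disc where the cost of the crossing lines is at most one -/
theorem fR_disc {R : ℕ → Finset V} (hR : Antitone R) {ψ : Conf V q → ℂ} (hψ : nsq ψ = 1)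
    {g : ℝ → ℝ} (n : ℕ) (θ : ℕ → ℝ) {K : ℝ} (hK : 1 ≤ K)
    (hg1 : ∀ k < n, ∀ i, eigp (ψ ∘ (cut (R k) q).symm) i ≤
      Real.exp (g (eigp (ψ ∘ (cut (R k) q).symm) i)))
    (hg2 : ∀ k < n, ∑ i, Real.exp (g (eigp (ψ ∘ (cut (R k) q).symm) i)) ≤ K)
    {Z : Finset V} {X : ℂ → Op V q} (hX : ∀ ζ, ActsOn Z (X ζ)) (hne : Z.Nonempty) (hq : 1 ≤ q)
    {ρ B : ℝ} (hρ : ρ * crossT R n θ Z * (2 * tubeL q Z K + 1) ≤ 1 / 2)
    (hB : ∀ ζ : ℂ, ‖ζ‖ ≤ ρ → ‖X ζ‖ ≤ B) {ζ : ℂ} (hζ : ‖ζ‖ ≤ ρ) :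
    ‖fR R ψ g n θ X ζ‖ ≤ 2 * B := by
  have hT : 0 ≤ crossT R n θ Z := Finset.sum_nonneg fun k _ => abs_nonneg _
  have hL := tubeL_nonneg hq Z hK
  have hre : |ζ.re| ≤ ρ := (Complex.abs_re_le_norm ζ).trans hζ
  have hρ0 : 0 ≤ ρ := (norm_nonneg _).trans hζ
  have h1 : |ζ.re| * crossT R n θ Z ≤ ρ * crossT R n θ Z := mul_le_mul_of_nonneg_right hre hT
  have h2 : 0 ≤ ρ * crossT R n θ Z := mul_nonneg hρ0 hT
  have h3 : 0 ≤ ρ * crossT R n θ Z * tubeL q Z K := mul_nonneg h2 hL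
  have h4 : |ζ.re| * crossT R n θ Z ≤ 1 / 2 := by nlinarith
  refine (fR_bound hR hψ n θ hK hg1 hg2 hX hne hq h4).trans ?_
  have h5 : tubeL q Z K * (2 * (|ζ.re| * crossT R n θ Z)) ≤ 1 / 2 := by
    have := mul_le_mul_of_nonneg_left h1 hL
    nlinarith
  have h6 : Real.exp (tubeL q Z K * (2 * (|ζ.re| * crossT R n θ Z))) ≤ 2 := by
    refine (Real.exp_le_exp.2 h5).trans ?_
    have h7 : Real.exp (1 / 2) ^ 2 = Real.exp 1 := by
      rw [← Real.exp_nat_mul]; norm_num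
    have h8 := Real.exp_one_lt_d9
    nlinarith [Real.exp_pos (1 / 2)]
  have hB0 : 0 ≤ B := (norm_nonneg _).trans (hB 0 (by rw [norm_zero]; exact hρ0))
  calc ‖X ζ‖ * Real.exp (tubeL q Z K * (2 * (|ζ.re| * crossT R n θ Z))) ≤ B * 2 :=
        mul_le_mul (hB ζ hζ) h6 (Real.exp_pos _).le hB0
    _ = 2 * B := by ring

/-- Taylor remainder of order `p` of the one variable function -/
theorem fR_taylor {R : ℕ → Finset V} (hR : Antitone R) {ψ : Conf V q → ℂ} (hψ : nsq ψ = 1)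
    {g : ℝ → ℝ} (n : ℕ) (θ : ℕ → ℝ) {K : ℝ} (hK : 1 ≤ K)
    (hg1 : ∀ k < n, ∀ i, eigp (ψ ∘ (cut (R k) q).symm) i ≤
      Real.exp (g (eigp (ψ ∘ (cut (R k) q).symm) i)))
    (hg2 : ∀ k < n, ∑ i, Real.exp (g (eigp (ψ ∘ (cut (R k) q).symm) i)) ≤ K)
    {Z : Finset V} {X : ℂ → Op V q} (hX : ∀ ζ, ActsOn Z (X ζ)) (hXd : Differentiable ℂ X)
    (hne : Z.Nonempty) (hq : 1 ≤ q) {ρ B : ℝ} (hρ0 : 0 < ρ)
    (hρ : ρ * crossT R n θ Z * (2 * tubeL q Z K + 1) ≤ 1 / 2)
    (hB : ∀ ζ : ℂ, ‖ζ‖ ≤ ρ → ‖X ζ‖ ≤ B) (p : ℕ) {ζ : ℂ} (hζ : ‖ζ‖ ≤ ρ / 2) :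
    ‖fR R ψ g n θ X ζ - ∑ m ∈ range p, (m.factorial : ℂ)⁻¹ *
      iteratedDeriv m (fR R ψ g n θ X) 0 * ζ ^ m‖ ≤ 4 * B * (‖ζ‖ / ρ) ^ p := by
  have h := taylor_rem (fR_diff R ψ g n θ hXd) hρ0
    (fun z hz => fR_disc hR hψ n θ hK hg1 hg2 hX hne hq hρ hB hz) p hζ
  refine h.trans (le_of_eq ?_)
  ring

/-- first order variation -/
theorem fR_var {R : ℕ → Finset V} (hR : Antitone R) {ψ : Conf V q → ℂ} (hψ : nsq ψ = 1)
    {g : ℝ → ℝ} (n : ℕ) (θ : ℕ → ℝ) {K : ℝ} (hK : 1 ≤ K)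
    (hg1 : ∀ k < n, ∀ i, eigp (ψ ∘ (cut (R k) q).symm) i ≤
      Real.exp (g (eigp (ψ ∘ (cut (R k) q).symm) i)))
    (hg2 : ∀ k < n, ∑ i, Real.exp (g (eigp (ψ ∘ (cut (R k) q).symm) i)) ≤ K)
    {Z : Finset V} {X : ℂ → Op V q} (hX : ∀ ζ, ActsOn Z (X ζ)) (hXd : Differentiable ℂ X)
    (hne : Z.Nonempty) (hq : 1 ≤ q) {ρ B : ℝ} (hρ0 : 0 < ρ)
    (hρ : ρ * crossT R n θ Z * (2 * tubeL q Z K + 1) ≤ 1 / 2)
    (hB : ∀ ζ : ℂ, ‖ζ‖ ≤ ρ → ‖X ζ‖ ≤ B) {ζ : ℂ} (hζ : ‖ζ‖ ≤ ρ / 2) :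
    ‖fR R ψ g n θ X ζ - ex ψ (X 0)‖ ≤ 4 * B * (‖ζ‖ / ρ) := by
  have h := fR_taylor hR hψ n θ hK hg1 hg2 hX hXd hne hq hρ0 hρ hB 1 hζ
  have h0 : fR R ψ g n θ X 0 = ex ψ (X 0) := by
    rw [fR, FR]
    have e1 : ∀ m, prR (fun k => EE (R k) ψ g ((0:ℂ) * (θ k : ℂ))) m = 1 := by
      intro m
      induction m with
      | zero => rfl
      | succ m ih => rw [prR, ih, zero_mul, EE_zero, Matrix.mul_one]
    have e2 : ∀ m, prL (fun k => EE (R k) ψ g (-((0:ℂ) * (θ k : ℂ)))) m = 1 := by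
      intro m
      induction m with
      | zero => rfl
      | succ m ih => rw [prL, ih, zero_mul, neg_zero, EE_zero, Matrix.mul_one]
    rw [e1, e2, Matrix.one_mul, Matrix.mul_one]
  simp only [Finset.sum_range_one, Nat.factorial_zero, Nat.cast_one, inv_one, one_mul,
    iteratedDeriv_zero, pow_zero, mul_one, pow_one, h0] at h
  exact h

/-- the clipped logarithm satisfies the two hypotheses -/
noncomputable def clg (M p : ℝ) : ℝ := if p = 0 then -M else max (Real.log p) (-M)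

theorem clg_ge {M p : ℝ} (hp : 0 ≤ p) : p ≤ Real.exp (clg M p) := by
  unfold clg
  split_ifs with h
  · rw [h]; exact (Real.exp_pos _).le
  · have hp' : 0 < p := lt_of_le_of_ne hp (Ne.symm h)
    calc p = Real.exp (Real.log p) := (Real.exp_log hp').symm
      _ ≤ _ := Real.exp_le_exp.2 (le_max_left _ _)

theorem clg_le {M p : ℝ} (hp : 0 ≤ p) : Real.exp (clg M p) ≤ p + Real.exp (-M) := by
  unfold clg
  split_ifs with h
  · rw [h]; linarith
  · have hp' : 0 < p := lt_of_le_of_ne hp (Ne.symm h)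
    rcases le_total (Real.log p) (-M) with h1 | h1
    · rw [max_eq_right h1]; linarith
    · rw [max_eq_left h1, Real.exp_log hp']
      have := Real.exp_pos (-M)
      linarith

theorem clg_sum (S : Finset V) {ψ : Conf V q → ℂ} (hψ : nsq ψ = 1) (M : ℝ) :
    ∑ i, Real.exp (clg M (eigp (ψ ∘ (cut S q).symm) i)) ≤
      1 + (q : ℝ) ^ S.card * Real.exp (-M) := by
  have h1 : ∑ i, eigp (ψ ∘ (cut S q).symm) i = 1 := by
    refine eigp_sum _ ?_
    have := nsq_comp (cut S q) ψ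
    rw [hψ] at this
    exact this
  refine (Finset.sum_le_sum fun i _ => clg_le (eigp_nonneg _ i)).trans (le_of_eq ?_)
  rw [Finset.sum_add_distrib, h1, Finset.sum_const, Finset.card_univ, Fintype.card_fun,
    Fintype.card_fin, Fintype.card_coe, nsmul_eq_mul]
  push_cast
  ring

end lines

end Vale.Agent.P356.GA
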