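import Vale.Agent.P356.GA.S1_87
import Vale.Agent.P356.GA.S1Plug770

/-!
# GA, S1 (helper770): the sum over the local terms, two classes of exceptional cores

As `S1.S1_sum` of helper87, but the exceptional sites and the cores whose window meets the edge of a
tile only pay the crude bound of the healed lines (they stay inner cores); the full crude bound is
paid only by the cores at the edge of a tile and at the ends of the ladder.
-/

set_option linter.all false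

namespace Vale.Agent.P356.GA.S1v

open Matrix Finset Vale.Agent.P356 Vale.Agent.P356.SV Vale.Agent.P356.SA Vale.Agent.P356.PH
open Vale.Agent.P356.GA Vale.Agent.P356.GA.Level Vale.Agent.P356.GA.Edge795
open Vale.Agent.P356.GA.Class407 Vale.Agent.P356.GA.Theta Vale.Agent.P356.GA.S1
open scoped BigOperators ComplexOrder Kronecker Matrix.Norms.L2Operator

variable {L q : ℕ}

/-- the inner cores: in one tile and away from the ends of the ladder -/
noncomputable def Zi (g : Gd L) (D b : ℕ) (Nr : Finset (SS L)) : Finset (SS L) :=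
  open Classical in Nr.filter fun v => st v ∉ endB g b ∧ st v ∉ edg L g.tl D

theorem mem_Zi {g : Gd L} {D b : ℕ} {Nr : Finset (SS L)} {v : SS L} :
    v ∈ Zi g D b Nr ↔ v ∈ Nr ∧ st v ∉ endB g b ∧ st v ∉ edg L g.tl D := by
  classical
  unfold Zi
  exact Finset.mem_filter

/-- the cores with a good window -/
noncomputable def Zg (g : Gd L) (Exc : Finset (Site L)) (D b r : ℕ) (Nr : Finset (SS L)) :
    Finset (SS L) :=
  open Classical in (Zi g D b Nr).filter fun v => st v ∉ Exc ∧ st v ∉ edg L g.tl r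

theorem mem_Zg {g : Gd L} {Exc : Finset (Site L)} {D b r : ℕ} {Nr : Finset (SS L)} {v : SS L} :
    v ∈ Zg g Exc D b r Nr ↔ v ∈ Zi g D b Nr ∧ st v ∉ Exc ∧ st v ∉ edg L g.tl r := by
  classical
  unfold Zg
  exact Finset.mem_filter

theorem card_edge {g : Gd L} {D b : ℕ} {Nr : Finset (SS L)} {base : Finset (Site L)}
    (hbase : ∀ v ∈ Nr, st v ∈ base) :
    (Nr \ Zi g D b Nr).card ≤ 2 * ((endB g b).card + (edg L g.tl D ∩ base).card) := by
  classical
  refine (card_two_layers _ (endB g b ∪ (edg L g.tl D ∩ base)) ?_).trans ?_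
  · intro v hv
    rw [Finset.mem_sdiff, mem_Zi] at hv
    obtain ⟨h1, h2⟩ := hv
    rw [Finset.mem_union, Finset.mem_inter]
    by_contra hcon
    simp only [not_or, not_and] at hcon
    exact h2 ⟨h1, hcon.1, fun h => hcon.2 h (hbase v h1)⟩
  · have h1 := Finset.card_union_le (endB g b) (edg L g.tl D ∩ base)
    omega

theorem card_exc {g : Gd L} {Exc : Finset (Site L)} {D b r : ℕ} {Nr : Finset (SS L)}
    {base : Finset (Site L)} (hbase : ∀ v ∈ Nr, st v ∈ base) :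
    (Zi g D b Nr \ Zg g Exc D b r Nr).card ≤ 2 * (Exc.card + (edg L g.tl r ∩ base).card) := by
  classical
  refine (card_two_layers _ (Exc ∪ (edg L g.tl r ∩ base)) ?_).trans ?_
  · intro v hv
    rw [Finset.mem_sdiff, mem_Zg] at hv
    obtain ⟨h1, h2⟩ := hv
    rw [Finset.mem_union, Finset.mem_inter]
    by_contra hcon
    simp only [not_or, not_and] at hcon
    exact h2 ⟨h1, hcon.1, fun h => hcon.2 h (hbase v (mem_Zi.1 h1).1)⟩
  · have h1 := Finset.card_union_le Exc (edg L g.tl r ∩ base)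
    omega

/-- the sum of the defects over the good cores -/
theorem sum_tv2 {g : Gd L} {S : Finset (Site L) → ℝ} (hS : EntLike S) {D r b : ℕ}
    {Exc : Finset (Site L)} {Nr : Finset (SS L)} {Θ : ℝ}
    (hΘ : ∑ z ∈ Excᶜ, ∑ k ∈ range g.n, (thC S (bal z D) (bal z r) (lev g.T (g.t0 + k)) +
        thC S (bal z D) (bal z r) (lev g.T (g.t0 + g.N - k))) ≤ Θ) :
    ∑ v ∈ Zg g Exc D b r Nr, ∑ k ∈ range g.n, tv g S D r v k ≤ Θ := by
  classical
  refine le_trans ?_ hΘ
  refine (sum_two_layers (fun v => ∑ k ∈ range g.n, tv g S D r v k)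
    (fun v => Finset.sum_nonneg fun k _ => thC_nonneg hS _ _ _) _ Excᶜ ?_).trans (le_of_eq ?_)
  · intro v hv
    rw [mem_Zg] at hv
    exact Finset.mem_compl.2 hv.2.1
  · refine Finset.sum_congr rfl fun z _ => ?_
    rw [← Finset.sum_add_distrib]
    refine Finset.sum_congr rfl fun k _ => ?_
    rw [lev_eq_upT, lev_eq_upT]
    rfl

/-- the total constant of S1 -/
noncomputable def S1rhs (θ : ℝ) (D mp tl : ℕ) (C₂ sA B Θ exc edge sτ₁ sτ : ℝ) : ℝ :=
  5 * θ ^ 2 * (((8 * D + 1 : ℕ) : ℝ) * (((8 * D + 1 : ℕ) : ℝ) * sA + B * Θ +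
      ((8 * D + 1 : ℕ) : ℝ) * (exc * (4 * C₂)) + ((8 * D + 1 : ℕ) : ℝ) * (4 * sτ)) +
    edge * ((((8 * D + 1 : ℕ) : ℝ) ^ 2 + ((4 * (mp + 8 * D + 1) : ℕ) : ℝ) ^ 2) * C₂) +
    ((4 * (mp + 4 * tl + 1) : ℕ) : ℝ) ^ 2 * sτ₁ +
    (((8 * D + 1 : ℕ) : ℝ) ^ 2 + 2 * ((4 * (mp + 4 * tl + 1) : ℕ) : ℝ) ^ 2 + 5) * sτ)

/-- the form at zero -/
theorem QV_zero (g : Gd L) (ψ : Conf (SS L) q → ℂ) (M : ℝ) (K : Finset (SS L) → Op (SS L) q)
    (P : Op (SS L) q) : g.QV ψ M K P 0 = 0 := by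
  rw [Gd.QV, map_zero]
  exact QF_zero _ _ _ _

/-- crude bound of a healed line from `LF` alone -/
theorem crude_healed {g : Gd L} {ψ : Conf (SS L) q → ℂ} {M : ℝ} {K : Finset (SS L) → Op (SS L) q}
    {P : Op (SS L) q} {D : ℕ} {v : SS L} {τ τ₁ C₂ : ℝ} (hC : 0 ≤ C₂)
    (hLF : Sum.LF (g.QV ψ M K P) g.R g.tB g.mp g.n (cor D v) (Rel g D v) τ τ₁ C₂)
    (j : SS L) {k : ℕ} (hk : k < g.n) :
    g.QV ψ M K P (Sum.healed g.mp j k) ≤ 4 * C₂ + 4 * τ := by
  refine S1P.crude_v hC hLF (fun p _ hp => ?_) j hk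
  have h1 : g.QV ψ M K P (-Sum.sl p) = g.QV ψ M K P 0 := by
    refine hLF.irr _ _ (fun k => ?_) (fun p' hp' => ?_)
    · rw [Pi.neg_apply, Sum.sl_inl, neg_zero, Pi.zero_apply]
    · rw [Pi.neg_apply, Sum.sl_inr, if_neg, neg_zero, Pi.zero_apply]
      intro h
      exact hp (h ▸ hp')
  rw [h1, QV_zero]
  exact hC

/-- **S1** (bookkeeping), with two classes of exceptional cores -/
theorem S1_sum2 (g : Gd L) {ψ : Conf (SS L) q → ℂ} {M : ℝ} {K : Finset (SS L) → Op (SS L) q}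
    {P : SS L → Op (SS L) q} {D r b : ℕ} {Nr : Finset (SS L)} {S : Finset (Site L) → ℝ}
    (hS : EntLike S) {Exc : Finset (Site L)} {τ τ₁ : SS L → ℝ} {C₂ θ : ℝ}
    (hT : ∀ x y, |g.T x - g.T y| ≤ 2 * dist1 x y) (hmp : 8 * D < g.mp) (htl : 0 < g.tl)
    (hD : 2 * D ≤ g.tl) (hb : g.mp + 4 * D ≤ b)
    (hLF : ∀ v ∈ Nr, Sum.LF (g.QV ψ M K (P v)) g.R g.tB g.mp g.n (cor D v) (Rel g D v) (τ v) (τ₁ v) C₂)
    (hτ : ∀ v ∈ Nr, 0 ≤ τ v) (hτ₁ : ∀ v ∈ Nr, 0 ≤ τ₁ v) (hC₂ : 0 ≤ C₂) (hθ : 0 ≤ θ)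
    {A : SS L → ℝ} {B : ℝ} (hA : ∀ v ∈ Nr, 0 ≤ A v) (hB : 0 ≤ B)
    (hE1 : ∀ v ∈ Nr, st v ∉ Exc → st v ∉ edg L g.tl r → ∀ k, g.mp ≤ k →
      k < g.n → Sum.Cuts g.R (cor D v) k →
      g.QV ψ M K (P v) (Sum.healed g.mp (tj g v) k) ≤ A v + B * tv g S D r v k)
    {Θ exc edge sA sτ₁ sτ : ℝ}
    (hΘ : ∑ z ∈ Excᶜ, ∑ k ∈ range g.n, (thC S (bal z D) (bal z r) (lev g.T (g.t0 + k)) +
        thC S (bal z D) (bal z r) (lev g.T (g.t0 + g.N - k))) ≤ Θ)
    (hexc : ((Zi g D b Nr \ Zg g Exc D b r Nr).card : ℝ) ≤ exc)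
    (hedge : ((Nr \ Zi g D b Nr).card : ℝ) ≤ edge)
    (hsA : ∑ v ∈ Nr, A v ≤ sA) (hsτ₁ : ∑ v ∈ Nr, τ₁ v ≤ sτ₁) (hsτ : ∑ v ∈ Nr, τ v ≤ sτ) :
    ∑ v ∈ Nr, g.QV ψ M K (P v) (Sum.czero θ g.n (range g.n ×ˢ (univ : Finset (SS L)))) ≤
      S1rhs θ D g.mp g.tl C₂ sA B Θ exc edge sτ₁ sτ := by
  classical
  rcases Nr.eq_empty_or_nonempty with hN | ⟨v0, hv0⟩
  · -- no term
    subst hN
    rw [Finset.sum_empty] at hsA hsτ₁ hsτ ⊢
    have h1 : (0 : ℝ) ≤ Θ := le_trans (Finset.sum_nonneg fun z _ => Finset.sum_nonneg fun k _ =>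
      add_nonneg (thC_nonneg hS _ _ _) (thC_nonneg hS _ _ _)) hΘ
    have h2 : (0 : ℝ) ≤ exc := le_trans (Nat.cast_nonneg _) hexc
    have h3 : (0 : ℝ) ≤ edge := le_trans (Nat.cast_nonneg _) hedge
    unfold S1rhs
    positivity
  haveI : Inhabited (SS L) := ⟨v0⟩
  set Z1 := Zi g D b Nr with hZ1
  set Z2 := Zg g Exc D b r Nr with hZ2
  have hZsub : Z1 ⊆ Nr := fun v hv => (mem_Zi.1 hv).1
  have hZ21 : Z2 ⊆ Z1 := fun v hv => (mem_Zg.1 hv).1
  set qf : SS L → ℕ → ℝ := fun v k => if v ∈ Z2 then A v + B * tv g S D r v k else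
    if v ∈ Z1 then 4 * C₂ + 4 * τ v else 0 with hqf
  have htv0 : ∀ v k, 0 ≤ tv g S D r v k := fun v k => thC_nonneg hS _ _ _
  have hlad : ∀ v ∈ Z1, ∀ k < g.n + g.mp, Sum.Cuts g.R (cor D v) k → g.mp ≤ k ∧ k < g.n := by
    intro v hv
    rw [hZ1, mem_Zi] at hv
    obtain ⟨-, h2, -⟩ := hv
    rw [mem_endB] at h2
    simp only [not_or, not_le] at h2
    have hb' : ((g.mp : ℝ) + 4 * D) ≤ b := by exact_mod_cast hb
    have h3 := lad_of (g := g) (v := v) (r := (g.mp : ℝ) + 4 * D) (lt_of_le_of_lt hb' h2.1)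
      (lt_of_le_of_lt hb' h2.2.1) (lt_of_le_of_lt hb' h2.2.2.2) (lt_of_le_of_lt hb' h2.2.2.1)
    exact cut_lad hT h3.1 h3.2
  have hqf0 : ∀ v ∈ Nr, ∀ k, 0 ≤ qf v k := by
    intro v hv k
    simp only [hqf]
    split_ifs with h h'
    · exact add_nonneg (hA v hv) (mul_nonneg hB (htv0 v k))
    · have := hτ v hv
      positivity
    · exact le_rfl
  have key := Sum.sum_terms (V := SS L) (J := SS L) (E := g.R) (B := g.tB) (m := g.mp) (h := g.n)
    Nr Z1 hZsub (Q := fun v => g.QV ψ M K (P v)) (a := cor D) (Rel := Rel g D) (τ := τ)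
    (τ₁ := τ₁) (C₂ := C₂) (θ := θ) (k₁ := ((8 * D + 1 : ℕ) : ℝ))
    (k₂ := ((4 * (g.mp + 8 * D + 1) : ℕ) : ℝ)) (k₃ := ((4 * (g.mp + 4 * g.tl + 1) : ℕ) : ℝ))
    hLF hτ hτ₁ hC₂ hθ (by omega) (Js := univ) (fun i _ j _ hij => g.tB_disj hij)
    (fun v _ => Rel_sub D v) (tj g) (fun v _ => Finset.mem_univ _) ?_ hlad
    (fun v _ => cut_dis hT hmp) (q := qf) (fun v hv k _ => hqf0 v hv k) ?_ ?_ ?_ ?_
  · refine key.trans ?_
    unfold S1rhs
    refine mul_le_mul_of_nonneg_left ?_ (by positivity)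
    have h1 : (0 : ℝ) ≤ ((8 * D + 1 : ℕ) : ℝ) := Nat.cast_nonneg _
    have hsum : ∑ v ∈ Nr, ∑ k ∈ Sum.cutL g.R g.n (cor D v), qf v k ≤
        ((8 * D + 1 : ℕ) : ℝ) * sA + B * Θ + ((8 * D + 1 : ℕ) : ℝ) * (exc * (4 * C₂)) +
          ((8 * D + 1 : ℕ) : ℝ) * (4 * sτ) := by
      -- pointwise
      have hpt : ∀ v ∈ Nr, ∑ k ∈ Sum.cutL g.R g.n (cor D v), qf v k ≤
          ((8 * D + 1 : ℕ) : ℝ) * A v +
            (if v ∈ Z2 then B * ∑ k ∈ range g.n, tv g S D r v k else 0) +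
            (if v ∈ Z1 \ Z2 then ((8 * D + 1 : ℕ) : ℝ) * (4 * C₂) else 0) +
            ((8 * D + 1 : ℕ) : ℝ) * (4 * τ v) := by
        intro v hv
        have hcard : ((Sum.cutL g.R g.n (cor D v)).card : ℝ) ≤ ((8 * D + 1 : ℕ) : ℝ) := by
          exact_mod_cast card_cutL hT g.n D v
        have a0 : 0 ≤ ((8 * D + 1 : ℕ) : ℝ) * A v := mul_nonneg h1 (hA v hv)
        have a1 : 0 ≤ ((8 * D + 1 : ℕ) : ℝ) * (4 * τ v) :=
          mul_nonneg h1 (mul_nonneg (by norm_num) (hτ v hv))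
        by_cases hv2 : v ∈ Z2
        · have hn : v ∉ Z1 \ Z2 := fun h => (mem_sdiff.1 h).2 hv2
          rw [if_pos hv2, if_neg hn]
          have e2 : ∑ k ∈ Sum.cutL g.R g.n (cor D v), qf v k =
              ((Sum.cutL g.R g.n (cor D v)).card : ℝ) * A v +
                B * ∑ k ∈ Sum.cutL g.R g.n (cor D v), tv g S D r v k := by
            rw [Finset.sum_congr rfl fun k _ => (by simp only [hqf, if_pos hv2] :
              qf v k = A v + B * tv g S D r v k), Finset.sum_add_distrib, Finset.sum_const,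
              nsmul_eq_mul, Finset.mul_sum]
          rw [e2]
          have e3 := mul_le_mul_of_nonneg_right hcard (hA v hv)
          have e4 : B * ∑ k ∈ Sum.cutL g.R g.n (cor D v), tv g S D r v k ≤
              B * ∑ k ∈ range g.n, tv g S D r v k := by
            refine mul_le_mul_of_nonneg_left ?_ hB
            refine Finset.sum_le_sum_of_subset_of_nonneg ?_ fun k _ _ => htv0 v k
            intro k hk
            exact Finset.mem_range.2 (Sum.mem_cutL.1 hk).1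
          linarith
        · rw [if_neg hv2]
          by_cases hv1 : v ∈ Z1
          · rw [if_pos (mem_sdiff.2 ⟨hv1, hv2⟩)]
            have e2 : ∑ k ∈ Sum.cutL g.R g.n (cor D v), qf v k =
                ((Sum.cutL g.R g.n (cor D v)).card : ℝ) * (4 * C₂ + 4 * τ v) := by
              rw [Finset.sum_congr rfl fun k _ => (by simp only [hqf, if_neg hv2, if_pos hv1] :
                qf v k = 4 * C₂ + 4 * τ v), Finset.sum_const, nsmul_eq_mul]
            rw [e2]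
            have hnn : 0 ≤ 4 * C₂ + 4 * τ v := by
              have := hτ v hv
              positivity
            have e3 := mul_le_mul_of_nonneg_right hcard hnn
            rw [mul_add] at e3
            linarith
          · rw [if_neg (fun h => hv1 (mem_sdiff.1 h).1)]
            have e2 : ∑ k ∈ Sum.cutL g.R g.n (cor D v), qf v k = 0 :=
              Finset.sum_eq_zero fun k _ => by simp only [hqf, if_neg hv2, if_neg hv1]
            rw [e2]
            linarith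
      refine (Finset.sum_le_sum hpt).trans ?_
      rw [Finset.sum_add_distrib, Finset.sum_add_distrib, Finset.sum_add_distrib,
        ← Finset.mul_sum, ← Finset.mul_sum, ← Finset.mul_sum]
      refine add_le_add (add_le_add (add_le_add ?_ ?_) ?_) ?_
      · exact mul_le_mul_of_nonneg_left hsA h1
      · rw [Finset.sum_ite_mem, Finset.inter_eq_right.2 (hZ21.trans hZsub), ← Finset.mul_sum]
        exact mul_le_mul_of_nonneg_left (sum_tv2 hS hΘ) hB
      · rw [Finset.sum_ite_mem, Finset.inter_eq_right.2 (sdiff_subset.trans hZsub),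
          Finset.sum_const, nsmul_eq_mul]
        have e5 := mul_le_mul_of_nonneg_right hexc (mul_nonneg h1 (by positivity : 0 ≤ 4 * C₂))
        refine e5.trans (le_of_eq ?_)
        ring
      · exact mul_le_mul_of_nonneg_left (mul_le_mul_of_nonneg_left hsτ (by norm_num)) h1
    refine add_le_add (add_le_add (add_le_add (mul_le_mul_of_nonneg_left hsum h1) ?_) ?_) ?_
    · exact mul_le_mul_of_nonneg_right hedge (by positivity)
    · exact mul_le_mul_of_nonneg_left hsτ₁ (by positivity)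
    · exact mul_le_mul_of_nonneg_left hsτ (by positivity)
  · intro v hv
    rw [hZ1, mem_Zi] at hv
    exact cor_sub_tile hv.2.2
  · intro v hv k hk
    rw [Sum.mem_cutL] at hk
    have hk1 := hlad v hv k (by omega) hk.2
    have hvN := hZsub hv
    by_cases hv2 : v ∈ Z2
    · simp only [hqf, if_pos hv2]
      have hv' := hv2
      rw [hZ2, mem_Zg] at hv'
      exact hE1 v hvN hv'.2.1 hv'.2.2 k hk1.1 hk1.2 hk.2
    · simp only [hqf, if_neg hv2, if_pos hv]
      exact crude_healed hC₂ (hLF v hvN) _ hk1.2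
  · intro v _
    exact_mod_cast card_cutL hT g.n D v
  · intro v _
    exact_mod_cast card_meetR hT htl hD v
  · intro v _
    exact_mod_cast card_Rel hT htl hD v

end Vale.Agent.P356.GA.S1v
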