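import Vale.Agent.P356.GA.Up960
import Vale.Agent.P356.GA.S1v770

/-!
# The numbers of the sum over the local terms (helper770)

Every quantity in `S1v.S1rhs` at the scale `l` as an explicit function of `l`, with its order of
magnitude; `ev_S1`: the whole expression is at most `l ^ (-(11 * e0 a))` for large `l`.
-/

set_option linter.all false

namespace Vale.Agent.P356.GA.S1n

open Filter Asymptotics Vale.Agent.P356.GA Vale.Agent.P356.GA.Par

/-! ### explicit quantities -/

/-- number of sites of a core -/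
noncomputable def cc (a : ℝ) (l : ℕ) : ℝ := ((2 * Par.cD a l + 1 : ℕ) : ℝ) ^ 2

/-- exponent of the line bound -/
noncomputable def Lc (q : ℕ) (a : ℝ) (l : ℕ) : ℝ := 3 * Real.log (q / cE l) * cc a l + 1

/-- exponent of the slab bound -/
noncomputable def Ls (q : ℕ) (a : ℝ) (l : ℕ) : ℝ := Real.log ((q : ℝ) ^ 2 / cE l) * cc a l

/-- crude bound of one line or window -/
noncomputable def C2 (q : ℕ) (a : ℝ) (l : ℕ) : ℝ :=
  Real.exp 1 * (4 * cc a l * Real.log q + 2) ^ 2 + Real.exp 1 * (2 + Ls q a l) ^ 2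

/-- number of sites of a window -/
noncomputable def bm (l : ℕ) : ℝ := (2 * (cB l : ℝ) + 1) ^ 2

/-- number of cores -/
noncomputable def nN (l : ℕ) : ℝ := 18 * (l : ℝ) ^ 2

/-- expectation in the ground state -/
noncomputable def p0 (l : ℕ) : ℝ := (l : ℝ) ^ (-20 : ℝ)

/-- sum of the deviations -/
noncomputable def dS (l : ℕ) : ℝ := (l : ℝ) ^ ((11 : ℝ) / 10)

/-- step of the slab bound -/
noncomputable def hs (l : ℕ) : ℝ := (l : ℝ) ^ (-(1 / 100) : ℝ)

/-- constant of the line bound -/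
noncomputable def cc0 : ℝ := 32 * Real.pi * Real.cosh Real.pi ^ 2

/-- coefficient of the defects -/
noncomputable def Bf (a : ℝ) (l : ℕ) : ℝ := cc0 / cY a l

/-- sum of the line bounds -/
noncomputable def sA (q : ℕ) (a : ℝ) (l : ℕ) : ℝ :=
  (nN l * p0 l + dS l) / cY a l ^ 2 +
    Bf a l * (nN l * (4 * cE l * bm l) + 4 * (bm l * Real.log (q / cE l)) * dS l +
      nN l * (2 * p0 l)) + nN l * (128 * Real.exp 1 * (1 + Lc q a l) ^ 4 * cY a l ^ 2)

/-- sum of the slab bounds -/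
noncomputable def sT1 (q : ℕ) (a : ℝ) (l : ℕ) : ℝ :=
  4 * (nN l * (2 * p0 l) + (dS l + nN l * (64 * Real.pi * Real.cosh Real.pi ^ 2 * hs l *
    (cE l * bm l)))) / hs l ^ 2 + nN l * (64 * (1 + Ls q a l) ^ 4 * hs l ^ 2)

/-- sum of the errors of almost convexity -/
noncomputable def sT (q : ℕ) (l : ℕ) : ℝ :=
  16 * Real.sqrt (nN l * (nN l * p0 l + dS l)) *
    (1750 * ((cM l : ℝ) + cP l) ^ 3 * (1 + Real.log (q / cE l))) ^ 2

/-- sum of the defects -/
noncomputable def Th (a C₁ : ℝ) (l : ℕ) : ℝ :=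
  1920000 * (|C₁| * (Par.cD a l * ((cS a l : ℝ) ^ 2 * ((l : ℝ) ^ 2 * (cR l : ℝ) ^ (-a)))))

/-- number of exceptional inner cores -/
noncomputable def nx (a : ℝ) (l : ℕ) : ℝ :=
  648 * ((l : ℝ) ^ 2 * (cR l / cM l)) + 27648 * ((l : ℝ) ^ 2 * (Par.cD a l / cS a l))

/-- number of edge cores -/
noncomputable def ne (a : ℝ) (l : ℕ) : ℝ :=
  216 * ((l : ℝ) ^ 2 * (Par.cD a l / cM l)) +
    1152 * ((2 * ((cP l + 8 * Par.cD a l + 8 : ℕ) : ℝ) + 1) * ((l : ℝ) ^ 2 * (l : ℝ) ^ (xom a - 1)))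

/-- the exponents -/
noncomputable def th (a : ℝ) (l : ℕ) : ℝ := 16 * (l : ℝ) ^ (xu a + xom a - 1)

/-- the right side -/
noncomputable def rhs (q : ℕ) (a C₁ : ℝ) (l : ℕ) : ℝ :=
  S1v.S1rhs (th a l) (Par.cD a l) (cP l) (cM l) (C2 q a l) (sA q a l) (Bf a l) (Th a C₁ l)
    (nx a l) (ne a l) (sT1 q a l) (sT q l)

/-! ### orders of magnitude -/

section
variable {a : ℝ} {q : ℕ}

theorem xd_pos (ha : 0 < a) : 0 < xd a := by have := e0_pos ha; unfold xd; positivity

theorem up_cc (ha : 0 < a) : Up (cc a) (2 * xd a) := by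
  have h0 := xd_pos ha
  have h1 : Up (fun l => ((2 * Par.cD a l + 1 : ℕ) : ℝ)) (xd a) :=
    (((up_cD ha).cmul 2).add ((Up.const 1).mono h0.le)).congr'
      (Eventually.of_forall fun l => by push_cast; rfl)
  have h2 := h1.pow 2
  exact h2.mono (by push_cast; exact le_rfl)

theorem up_Lc (ha : 0 < a) (hq : 1 ≤ q) : Up (Lc q a) (3 * xd a) := by
  have h0 := xd_pos ha
  have hq0 : (0 : ℝ) < q := by exact_mod_cast hq
  have h1 := ((up_logE_xd ha hq0).cmul 3).mul (up_cc ha)
  exact (h1.mono (by linarith)).add ((Up.const 1).mono (by linarith))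

theorem up_Ls (ha : 0 < a) (hq : 1 ≤ q) : Up (Ls q a) (3 * xd a) := by
  have hq0 : (0 : ℝ) < (q : ℝ) ^ 2 := by
    have : (0 : ℝ) < q := by exact_mod_cast hq
    positivity
  have h1 := (up_logE_xd ha hq0).mul (up_cc ha)
  exact h1.mono (by linarith)

theorem up_C2 (ha : 0 < a) (hq : 1 ≤ q) : Up (C2 q a) (6 * xd a) := by
  have h0 := xd_pos ha
  have h1 : Up (fun l => Real.exp 1 * (4 * cc a l * Real.log q + 2) ^ 2) (6 * xd a) := by
    have h2 : Up (fun l => 4 * cc a l * Real.log q + 2) (2 * xd a) :=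
      (((up_cc ha).cmul 4).mulc (Real.log q)).add ((Up.const 2).mono (by linarith))
    exact ((h2.pow 2).cmul (Real.exp 1)).mono (by push_cast; linarith)
  have h3 : Up (fun l => Real.exp 1 * (2 + Ls q a l) ^ 2) (6 * xd a) := by
    have h4 : Up (fun l => 2 + Ls q a l) (3 * xd a) :=
      ((Up.const 2).mono (by linarith)).add (up_Ls ha hq)
    exact ((h4.pow 2).cmul (Real.exp 1)).mono (by push_cast; linarith)
  exact h1.add h3

theorem up_bm : Up bm (2 * xm) := by
  have h1 : Up (fun l => 2 * (cB l : ℝ) + 1) xm :=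
    (up_cB.cmul 2).add ((Up.const 1).mono (by unfold xm; norm_num))
  exact (h1.pow 2).mono (by push_cast; exact le_rfl)

theorem up_nN : Up nN 2 := by
  have h := (Up.pow_self_nat 2).cmul 18
  exact h.mono (by norm_num)

theorem up_p0 : Up p0 (-20) := Up.pow_self _

theorem up_dS : Up dS (11 / 10) := Up.pow_self _

theorem up_hs : Up hs (-(1 / 100)) := Up.pow_self _

theorem up_hs_inv : Up (fun l => (hs l)⁻¹) (1 / 100) := by
  have h := Up.inv_pow_self (-(1 / 100))
  rw [neg_neg] at h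
  exact h

theorem up_Bf : Up (Bf a) (xy a) := by
  have h := (Up.const cc0).div (up_cY_inv a)
  rw [zero_add] at h
  exact h

theorem up_sA (ha : 0 < a) (ha1 : a ≤ 1) (hq : 1 ≤ q) : Up (sA q a) (2 + 12 * xd a - 2 * xy a) := by
  have h0 := e0_pos ha
  have h1 := e0_le ha1
  have hq0 : (0 : ℝ) < q := by exact_mod_cast hq
  have i1 : Up (fun l => nN l * p0 l + dS l) (11 / 10) :=
    ((up_nN.mul up_p0).mono (by norm_num)).add up_dS
  have i2 : Up (fun l => (nN l * p0 l + dS l) / cY a l ^ 2) (11 / 10 + 2 * xy a) := by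
    have := i1.div ((up_cY_inv a).inv_pow 2)
    exact this.mono (by push_cast; exact le_rfl)
  have i3 : Up (fun l => nN l * (4 * cE l * bm l) + 4 * (bm l * Real.log (q / cE l)) * dS l +
      nN l * (2 * p0 l)) (2 * xm + xd a + 11 / 10) := by
    have j1 := up_nN.mul ((up_cE.cmul 4).mul up_bm)
    have j2 := ((up_bm.mul (up_logE_xd ha hq0)).cmul 4).mul up_dS
    have j3 := up_nN.mul (up_p0.cmul 2)
    refine ((j1.mono ?_).add j2).add (j3.mono ?_)
    · unfold xm xd; norm_num; linarith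
    · unfold xm xd; norm_num; linarith
  have i4 := up_Bf (a := a) |>.mul i3
  have i5 : Up (fun l => nN l * (128 * Real.exp 1 * (1 + Lc q a l) ^ 4 * cY a l ^ 2))
      (2 + 12 * xd a - 2 * xy a) := by
    have j1 : Up (fun l => 1 + Lc q a l) (3 * xd a) :=
      ((Up.const 1).mono (by have := xd_pos ha; linarith)).add (up_Lc ha hq)
    have j2 := up_nN.mul (((j1.pow 4).cmul (128 * Real.exp 1)).mul ((up_cY a).pow 2))
    exact j2.mono (by push_cast; linarith)
  refine ((i2.mono ?_).add (i4.mono ?_)).add i5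
  · unfold xy xd; norm_num at h1 ⊢; linarith
  · unfold xy xd xm; norm_num at h1 ⊢; linarith

theorem up_sT1 (ha : 0 < a) (ha1 : a ≤ 1) (hq : 1 ≤ q) : Up (sT1 q a) (2 - 1 / 100) := by
  have h0 := e0_pos ha
  have h1 := e0_le ha1
  have i1 : Up (fun l => nN l * (2 * p0 l)) (11 / 10) :=
    (up_nN.mul (up_p0.cmul 2)).mono (by norm_num)
  have i2 : Up (fun l => nN l * (64 * Real.pi * Real.cosh Real.pi ^ 2 * hs l *
      (cE l * bm l))) (11 / 10) := by
    refine (up_nN.mul ((up_hs.cmul (64 * Real.pi * Real.cosh Real.pi ^ 2)).mul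
      (up_cE.mul up_bm))).mono ?_
    unfold xm
    norm_num
  have i3 := (((i1.add (up_dS.add i2)).cmul 4).div (up_hs_inv.inv_pow 2))
  have i5 : Up (fun l => nN l * (64 * (1 + Ls q a l) ^ 4 * hs l ^ 2)) (2 - 1 / 100) := by
    have j1 : Up (fun l => 1 + Ls q a l) (3 * xd a) :=
      ((Up.const 1).mono (by have := xd_pos ha; linarith)).add (up_Ls ha hq)
    have j2 := up_nN.mul (((j1.pow 4).cmul 64).mul (up_hs.pow 2))
    exact j2.mono (by unfold xd; push_cast; norm_num at h1 ⊢; linarith)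
  exact (i3.mono (by push_cast; norm_num)).add i5

theorem up_sT (ha : 0 < a) (ha1 : a ≤ 1) (hq : 1 ≤ q) : Up (sT q) (8 / 5) := by
  have h0 := e0_pos ha
  have h1 := e0_le ha1
  have hq0 : (0 : ℝ) < q := by exact_mod_cast hq
  have i1 : Up (fun l => nN l * p0 l + dS l) (11 / 10) :=
    ((up_nN.mul up_p0).mono (by norm_num)).add up_dS
  have i2 := ((up_nN.mul i1).sqrt).cmul 16
  have i3 : Up (fun l => (cM l : ℝ) + cP l) xm :=
    up_cM.add (up_cP.mono (by unfold xr xm; norm_num))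
  have i4 : Up (fun l => 1 + Real.log (q / cE l)) (xd a) :=
    ((Up.const 1).mono (xd_pos ha).le).add (up_logE_xd ha hq0)
  have i5 := i2.mul ((((i3.pow 3).cmul 1750).mul i4).pow 2)
  exact i5.mono (by unfold xm xd; push_cast; norm_num at h1 ⊢; linarith)

theorem up_cR_rpow (ha : 0 < a) : Up (fun l => (cR l : ℝ) ^ (-a)) (-(a * xr)) := by
  refine Up.intro (C := 1) ?_
  filter_upwards [ev_one] with l hl
  have hl0 : (0 : ℝ) < l := by exact_mod_cast hl
  have h1 : (l : ℝ) ^ xr ≤ cR l := by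
    have h2 := sc_ge xr l
    have h3 : (sc xr l : ℝ) ≤ cR l := by
      unfold cR
      push_cast
      have : (0 : ℝ) ≤ sc xr l := Nat.cast_nonneg _
      linarith
    linarith
  have h4 : (0 : ℝ) < (l : ℝ) ^ xr := Real.rpow_pos_of_pos hl0 _
  rw [abs_of_nonneg (Real.rpow_nonneg (Nat.cast_nonneg _) _), one_mul]
  refine (Real.rpow_le_rpow_of_nonpos h4 h1 (by linarith)).trans (le_of_eq ?_)
  rw [← Real.rpow_mul hl0.le]
  congr 1
  ring

theorem up_Th (ha : 0 < a) (C₁ : ℝ) : Up (Th a C₁) (2 + xd a + 2 * xs a - a * xr) := by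
  have h := ((((up_cD ha).mul (((up_cS ha).pow 2).mul ((Up.pow_self_nat 2).mul
    (up_cR_rpow ha)))).cmul |C₁|).cmul 1920000)
  exact h.mono (by push_cast; linarith)

theorem up_nx (ha : 0 < a) (ha1 : a ≤ 1) : Up (nx a) (2 + xd a - xs a) := by
  have h0 := e0_pos ha
  have h1 := e0_le ha1
  have i1 := ((Up.pow_self_nat 2).mul (up_cR.div up_cM_inv)).cmul 648
  have i2 := ((Up.pow_self_nat 2).mul ((up_cD ha).div (up_cS_inv a))).cmul 27648
  refine (i1.mono ?_).add (i2.mono ?_)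
  · unfold xr xm xd xs; push_cast; norm_num at h1 ⊢; linarith
  · push_cast; linarith

theorem up_ne (ha : 0 < a) (ha1 : a ≤ 1) : Up (ne a) (2 + xd a - xm) := by
  have h0 := e0_pos ha
  have h1 := e0_le ha1
  have i1 := ((Up.pow_self_nat 2).mul ((up_cD ha).div up_cM_inv)).cmul 216
  have i3 : Up (fun l => 2 * ((cP l + 8 * Par.cD a l + 8 : ℕ) : ℝ) + 1) xr := by
    have j1 : Up (fun l => (cP l : ℝ) + 8 * (Par.cD a l : ℝ) + 8) xr :=
      (up_cP.add (((up_cD ha).cmul 8).mono (by unfold xd xr; norm_num at h1 ⊢; linarith))).add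
        ((Up.const 8).mono (by unfold xr; norm_num))
    refine ((j1.cmul 2).add ((Up.const 1).mono (by unfold xr; norm_num))).congr'
      (Eventually.of_forall fun l => by push_cast; rfl)
  have i2 := (i3.mul ((Up.pow_self_nat 2).mul (Up.pow_self (xom a - 1)))).cmul 1152
  refine (i1.mono ?_).add (i2.mono ?_)
  · push_cast; linarith
  · unfold xr xm xd xom; push_cast; norm_num at h1 ⊢; linarith

theorem up_th : Up (th a) (xu a + xom a - 1) := (Up.pow_self _).cmul 16

/-- **the order of the whole expression** -/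
theorem up_rhs (ha : 0 < a) (ha1 : a ≤ 1) (hq : 1 ≤ q) (C₁ : ℝ) :
    Up (rhs q a C₁) (-(23 / 2 * e0 a)) := by
  have h0 := e0_pos ha
  have h1 := e0_le ha1
  have h2 := e0_mul a
  have k1 : Up (fun l => ((8 * Par.cD a l + 1 : ℕ) : ℝ)) (xd a) :=
    (((up_cD ha).cmul 8).add ((Up.const 1).mono (xd_pos ha).le)).congr'
      (Eventually.of_forall fun l => by push_cast; rfl)
  have k2 : Up (fun l => ((4 * (cP l + 8 * Par.cD a l + 1) : ℕ) : ℝ)) xr := by
    have j1 : Up (fun l => (cP l : ℝ) + 8 * (Par.cD a l : ℝ) + 1) xr :=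
      (up_cP.add (((up_cD ha).cmul 8).mono (by unfold xd xr; norm_num at h1 ⊢; linarith))).add
        ((Up.const 1).mono (by unfold xr; norm_num))
    exact (j1.cmul 4).congr' (Eventually.of_forall fun l => by push_cast; rfl)
  have k3 : Up (fun l => ((4 * (cP l + 4 * cM l + 1) : ℕ) : ℝ)) xm := by
    have j1 : Up (fun l => (cP l : ℝ) + 4 * (cM l : ℝ) + 1) xm :=
      ((up_cP.mono (by unfold xr xm; norm_num)).add (up_cM.cmul 4)).add
        ((Up.const 1).mono (by unfold xm; norm_num))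
    exact (j1.cmul 4).congr' (Eventually.of_forall fun l => by push_cast; rfl)
  have hC := up_C2 (q := q) ha hq
  have hA := up_sA (q := q) ha ha1 hq
  have hT := up_sT (q := q) ha ha1 hq
  have hT1 := up_sT1 (q := q) ha ha1 hq
  -- the lines
  have t1 := k1.mul hA
  have t2 := (up_Bf (a := a)).mul (up_Th ha C₁)
  have t3 := k1.mul ((up_nx ha ha1).mul (hC.cmul 4))
  have t4 := k1.mul (hT.cmul 4)
  have s1 : Up (fun l => ((8 * Par.cD a l + 1 : ℕ) : ℝ) * sA q a l + Bf a l * Th a C₁ l +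
      ((8 * Par.cD a l + 1 : ℕ) : ℝ) * (nx a l * (4 * C2 q a l)) +
      ((8 * Par.cD a l + 1 : ℕ) : ℝ) * (4 * sT q l)) (2 - 39 / 2 * e0 a - xd a) := by
    refine (((t1.mono ?_).add (t2.mono ?_)).add (t3.mono ?_)).add (t4.mono ?_)
    · unfold xd xy; linarith
    · have e1 : a * xr = 100 * e0 a := by unfold xr e0; ring
      rw [e1]
      unfold xd xy xs; linarith
    · unfold xd xs; linarith
    · unfold xd; norm_num at h1 ⊢; linarith
  have s2 := k1.mul s1
  -- the edges
  have s3 := (up_ne ha ha1).mul ((((k1.pow 2).mono (e' := 2 * xr) (by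
    unfold xd xr; push_cast; norm_num at h1 ⊢; linarith)).add ((k2.pow 2).mono (e' := 2 * xr) (by
    push_cast; exact le_rfl))).mul hC)
  -- the slabs
  have s4 := (k3.pow 2).mul hT1
  have s5 := ((((k1.pow 2).mono (e' := 2 * xm) (by
    unfold xd xm; push_cast; norm_num at h1 ⊢; linarith)).add (((k3.pow 2).cmul 2).mono
      (e' := 2 * xm) (by push_cast; exact le_rfl))).add ((Up.const 5).mono (e' := 2 * xm) (by
        unfold xm; norm_num))).mul hT
  have s6 := ((s2.mono (e' := 2 - 39 / 2 * e0 a) (by linarith)).add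
    (s3.mono (e' := 2 - 39 / 2 * e0 a) (by
      unfold xd xr xm; norm_num at h1 ⊢; linarith))).add
    (s4.mono (e' := 2 - 39 / 2 * e0 a) (by
      unfold xm; push_cast; norm_num at h1 ⊢; linarith)) |>.add
    (s5.mono (e' := 2 - 39 / 2 * e0 a) (by
      unfold xm; norm_num at h1 ⊢; linarith))
  have s7 := (((up_th (a := a)).pow 2).cmul 5).mul s6
  refine (s7.mono ?_).congr' (Eventually.of_forall fun l => ?_)
  · unfold xu xom; push_cast; linarith
  · rfl

/-- **The sum over the local terms is small.** -/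
theorem ev_S1 (ha : 0 < a) (ha1 : a ≤ 1) (hq : 1 ≤ q) (C₁ : ℝ) :
    ∀ᶠ l : ℕ in atTop, rhs q a C₁ l ≤ (l : ℝ) ^ (-(11 * e0 a)) :=
  (up_rhs ha ha1 hq C₁).ev_one (by have := e0_pos ha; linarith)

end

end Vale.Agent.P356.GA.S1n
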