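import Vale.Agent.P356.GA.S1c_87
import Vale.Agent.P356.GA.LFgeo225
import Vale.Agent.P356.GA.SumZ778
import Vale.Agent.P356.GA.CCount185

/-!
# GA, S1 (helper87): the sum over the local terms for the data `CData` of helper551

Output in the form `p.S1` of helper778's `EP`, for every `p : EP` whose fields dominate the true
values.
-/

set_option linter.all false

namespace Vale.Agent.P356.GA.S1

open Matrix Finset Vale.Agent.P356 Vale.Agent.P356.SV Vale.Agent.P356.SA Vale.Agent.P356.PH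
open Vale.Agent.P356.NA
open Vale.Agent.P356.GA Vale.Agent.P356.GA.Level Vale.Agent.P356.GA.Edge795
open Vale.Agent.P356.GA.Class407 Vale.Agent.P356.GA.Theta Vale.Agent.P356.GA.Par
open scoped BigOperators ComplexOrder Kronecker Matrix.Norms.L2Operator

variable {L q : ℕ}

theorem cor_eq_lay (D : ℕ) (v : SS L) : cor D v = lay v fun z => bal z D := by
  rcases v with v | v <;> rfl

/-- the tiles which meet a core are in the window of the detector -/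
theorem tile_sub_win (g : Gd L) (htl : 0 < g.tl) {D rb : ℕ} (h : 2 * (D + g.tl) ≤ rb) (v : SS L)
    {j : SS L} (hj : (g.tB j ∩ cor D v).Nonempty) : g.tB j ⊆ lyr (fun z => ball z rb) v := by
  classical
  have h1 : g.tB j ⊆ star1 univ g.tB (cor D v) := by
    intro x hx
    rw [star1, mem_union, mem_biUnion]
    right
    refine ⟨j, ?_, hx⟩
    rw [meet, mem_filter]
    refine ⟨mem_univ _, ?_⟩
    rw [Finset.not_disjoint_iff_nonempty_inter]
    exact hj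
  have h2 := LFi.star1_sub g htl (v := v) (D := D) (Z := cor D v) (le_of_eq (cor_eq_lay D v))
  rw [← cor_eq_lay] at h2
  exact h1.trans (h2.trans (S1P.cor_sub_lyr h v))

/-- the bound of the norms of the tile operators -/
noncomputable def b0 (g : Gd L) (q : ℕ) (ε : ℝ) (D : ℕ) : ℝ :=
  g.mp * (2 * ((D : ℝ) + g.tl) + 1) ^ 2 * Real.log (q / ε)

/-- the radius of the local forms -/
theorem rad_S1 (g : Gd L) (htl : 0 < g.tl) (hT : ∀ x y, |g.T x - g.T y| ≤ 2 * dist1 x y)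
    (hq : 1 ≤ q) {ε : ℝ} (h0 : 0 < ε) (h1 : ε ≤ 1) {D : ℕ} (hD : D ≤ g.tl) (v : SS L) :
    LFi.rad g q ε / 2 * (2 * (crs107 (star1 univ g.tB (cor D v)) g.R g.n).card *
      (4 * (star1 univ g.tB (cor D v)).card * Real.log q + 2) + 4 * b0 g q ε D) ≤ 1 := by
  obtain ⟨hlq, hl⟩ := LFi.log_q_div h0 h1 hq
  have hrad := LFi.rad_pos g htl h0 h1 hq
  have hsub := LFi.star1_sub g htl (v := v) (D := D) (Z := cor D v) (le_of_eq (cor_eq_lay D v))
  have hcs := LFi.card_star1 g htl (v := v) (D := D) (Z := cor D v) (le_of_eq (cor_eq_lay D v))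
  have hcc := LFi.card_crs g hT hsub
  have hcs' : ((star1 univ g.tB (cor D v)).card : ℝ) ≤ (2 * ((D : ℝ) + g.tl) + 1) ^ 2 := by
    exact_mod_cast hcs
  have hcc' : ((crs107 (star1 univ g.tB (cor D v)) g.R g.n).card : ℝ) ≤
      8 * ((D : ℝ) + g.tl) + 1 := by
    exact_mod_cast hcc
  have ht : (1 : ℝ) ≤ g.tl := by exact_mod_cast htl
  have hD' : (D : ℝ) ≤ g.tl := by exact_mod_cast hD
  have h2 := LFi.rad_num (t := (g.tl : ℝ)) (m := (g.mp : ℝ)) (lq := Real.log q)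
    (l := Real.log (q / ε)) (D := (D : ℝ)) (S := (2 * ((D : ℝ) + g.tl) + 1) ^ 2) ht
    (Nat.cast_nonneg _) hlq hl (Nat.cast_nonneg _) hD' (by positivity) le_rfl
    (Nat.cast_nonneg _) hcc'
  have h3 : LFi.rad g q ε * (1750 * ((g.tl : ℝ) + g.mp) ^ 3 * (1 + Real.log (q / ε))) = 1 := by
    unfold LFi.rad
    have h4 : (0 : ℝ) < g.tl := by linarith
    have h5 : (0 : ℝ) ≤ g.mp := Nat.cast_nonneg _
    have h6 : 0 < 1 + Real.log (q / ε) := by linarith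
    rw [one_div]
    exact inv_mul_cancel₀ (by positivity)
  have h4 := mul_le_mul_of_nonneg_left h2 hrad.le
  rw [h3] at h4
  refine le_trans ?_ h4
  have h5 : ((crs107 (star1 univ g.tB (cor D v)) g.R g.n).card : ℝ) *
      (4 * (star1 univ g.tB (cor D v)).card * Real.log q + 2) ≤
      ((crs107 (star1 univ g.tB (cor D v)) g.R g.n).card : ℝ) *
        (4 * (2 * ((D : ℝ) + g.tl) + 1) ^ 2 * Real.log q + 2) := by
    refine mul_le_mul_of_nonneg_left ?_ (Nat.cast_nonneg _)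
    have := mul_le_mul_of_nonneg_right hcs' hlq
    linarith
  have h6 := mul_le_mul_of_nonneg_left h5 hrad.le
  unfold b0
  linarith

/-- the sum of the norms of the tile operators of the windows in tiles which meet the core -/
theorem b_S1 (g : Gd L) (htl : 0 < g.tl) (hq : 1 ≤ q) {ε : ℝ} (h0 : 0 < ε) (h1 : ε ≤ 1)
    {Ω : Conf (SS L) q → ℂ} (hΩ : nsq Ω = 1) (D : ℕ) (v : SS L) :
    ∑ w : Fin g.n × SS L with ¬ Disjoint (g.tB w.2) (cor D v), ‖g.KV (Kt ε Ω) w‖ ≤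
      b0 g q ε D := by
  obtain ⟨hlq, hl⟩ := LFi.log_q_div h0 h1 hq
  have h := LFi.sum_norm_KV g h0 h1 hΩ hq (cor D v) (fun _ => (1 : ℝ)) (ν := 1) zero_le_one
    (fun _ => by simp)
  simp only [abs_one, one_mul] at h
  refine h.trans ?_
  have hcs := LFi.card_star1 g htl (v := v) (D := D) (Z := cor D v) (le_of_eq (cor_eq_lay D v))
  have hcs' : ((star1 univ g.tB (cor D v)).card : ℝ) ≤ (2 * ((D : ℝ) + g.tl) + 1) ^ 2 := by
    exact_mod_cast hcs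
  unfold b0
  exact mul_le_mul_of_nonneg_right (mul_le_mul_of_nonneg_left hcs' (Nat.cast_nonneg _))
    (hlq.trans hl)

/-- **S1 for the data `CData`**: the sum over the cores of the ring, both layers, of the second
order forms of positive local observables with small expectation in the ground state. -/
theorem S1_cdata {R : ℕ} {J Δ a C₁ C₂ : ℝ} {l : ℕ} (ha : 0 < a) (ha1 : a ≤ 1) (hl : 2 ≤ l)
    (d : CData q R J Δ a C₁ C₂ L l) (hRM : cR l ≤ cM l) (hM3 : cM l ≤ 3 * l) {M : ℝ}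
    (hM : Fintype.card (SS L) * Real.log q ≤ M) {ψ : Conf (SS L) q → ℂ} (hψ : nsq ψ = 1)
    {P : SS L → Op (SS L) q}
    (hP : ∀ v ∈ two (sa7_nb d.X d.w \ d.X), (P v).PosSemidef)
    (hP1 : ∀ v ∈ two (sa7_nb d.X d.w \ d.X), ‖P v‖ ≤ 1)
    (hPa : ∀ v ∈ two (sa7_nb d.X d.w \ d.X), ActsOn (cor (Par.cD a l) v) (P v))
    {p : EP} (hp : p.Pos) (hp0 : 0 < p.p₀) (hp1 : p.p₀ ≤ 1)
    (hπ' : ∀ v ∈ two (sa7_nb d.X d.w \ d.X), expv (dbl d.Ω d.Ω) (P v) ≤ p.p₀)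
    (hθ : p.θ = d.θ) (hk1 : ((8 * Par.cD a l + 1 : ℕ) : ℝ) ≤ p.k1)
    (hk2 : ((4 * (cP l + 8 * Par.cD a l + 1) : ℕ) : ℝ) ≤ p.k2)
    (hk3 : ((4 * (cP l + 4 * cM l + 1) : ℕ) : ℝ) ≤ p.k3)
    (hC1 : Real.exp 1 * (4 * ((2 * Par.cD a l + 1 : ℕ) : ℝ) ^ 2 * Real.log q + 2) ^ 2 ≤ p.C2)
    (hC2 : Real.exp 1 * (2 + p.Ls) ^ 2 ≤ p.C2)
    (hTh : 2 * (9600 * Par.cD a l * (cS a l : ℝ) ^ 2 *
        (((3 * l / cR l + 7 : ℕ) : ℝ) ^ 2 * (C₁ * (cR l : ℝ) ^ (2 - a)))) ≤ p.Th)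
    (hnx : 216 * ((l : ℝ) ^ 2 * ((3 * cR l : ℕ) / cM l)) +
        2 * (1536 * (9 * (l : ℝ) ^ 2) * (Par.cD a l / cS a l)) ≤ p.nx)
    (hne : 216 * ((l : ℝ) ^ 2 * (Par.cD a l / cM l)) +
        2 * (32 * (2 * bw a l + 1) * (9 * (l : ℝ) ^ 2 / d.w)) ≤ p.ne)
    (hnZ : 18 * (l : ℝ) ^ 2 ≤ p.nZ) (hε : p.ε = cE l) (hm : (2 * (cB l : ℝ) + 1) ^ 2 ≤ p.m)
    (hlq : Real.log (q / cE l) ≤ p.lq)
    (heM : 2 * (q : ℝ) ^ Fintype.card (SS L) * Real.exp (-M) ≤ p.eM)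
    (hLc : 3 * Real.log (q / cE l) * ((2 * Par.cD a l + 1 : ℕ) : ℝ) ^ 2 + 1 ≤ p.Lc)
    (hh : p.h * (8 * (1 + p.Lc)) ≤ 1) (hms : (2 * (cB l : ℝ) + 1) ^ 2 ≤ p.ms)
    (hLs : Real.log ((q : ℝ) ^ 2 / cE l) * ((2 * Par.cD a l + 1 : ℕ) : ℝ) ^ 2 ≤ p.Ls)
    (hhs : p.hs * (4 * (1 + p.Ls)) ≤ 1) (hr : p.r ≤ LFi.rad d.g q (cE l) / 2)
    (hD : ∑ v ∈ two (sa7_nb d.X d.w \ d.X), dvn d.P ψ v ≤ p.D) :
    ∑ v ∈ two (sa7_nb d.X d.w \ d.X), d.g.QV ψ M (Kt (cE l) (dbl d.Ω d.Ω)) (P v)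
        (Sum.czero d.θ d.g.n (range d.g.n ×ˢ (univ : Finset (SS L)))) ≤ p.S1 := by
  classical
  have hl1 : 1 ≤ l := by omega
  have hq := d.q1
  have hΩ := d.gap.1
  have hΩ2 : nsq (dbl d.Ω d.Ω) = 1 := by rw [nsq_dbl, hΩ, one_mul]
  -- scales
  have c1 := one_le_cD (a := a) hl1
  have c2 := cD_cS ha hl1
  have c3 := cS_cR ha ha1 hl1
  have c4 := cR_cP l
  have c5 : 1 ≤ cM l := one_le_sc hl1
  have c6 : cB l = 8 * cM l := rfl
  have htl : 0 < d.g.tl := by rw [d.tl]; omega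
  have hcM3 : d.g.tl ≤ 3 * l := by rw [d.tl]; exact hM3
  have hE0 : 0 < cE l := Real.rpow_pos_of_pos (by exact_mod_cast hl1) _
  have hE1 : cE l ≤ 1 / 2 := by
    have h2 : (2 : ℝ) ≤ l := by exact_mod_cast hl
    have h3 : (l : ℝ) ^ (-(50 : ℝ)) ≤ (l : ℝ) ^ (-(1 : ℝ)) :=
      Real.rpow_le_rpow_of_exponent_le (by linarith) (by norm_num)
    rw [Real.rpow_neg_one] at h3
    have h4 : (l : ℝ)⁻¹ ≤ 2⁻¹ := inv_anti₀ (by norm_num) h2
    unfold cE
    linarith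
  have hdv0 : ∀ v, 0 ≤ dvn d.P ψ v := dvn_nonneg (fun z => (d.det z).2.2.1) ψ
  have hdv5 : ∀ v, dvn d.P ψ v ≤ 5 :=
    dvn_le_five (fun z => (d.det z).2.1) (fun z => (d.det z).2.2.1) hψ
  have hdev := (d.dev ψ hψ).1
  set Nr := two (sa7_nb d.X d.w \ d.X) with hNr
  set D := Par.cD a l with hDdef
  have hrad := LFi.rad_pos d.g htl hE0 (by linarith : cE l ≤ 1) hq
  -- the classes
  have hexc : ((S1v.Zi d.g D (bw a l) Nr \ S1v.Zg d.g d.Exc D (bw a l) (3 * cR l) Nr).card : ℝ) ≤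
      216 * ((l : ℝ) ^ 2 * ((3 * cR l : ℕ) / cM l)) +
        2 * (1536 * (9 * (l : ℝ) ^ 2) * (Par.cD a l / cS a l)) := by
    refine le_trans ?_ (d.card_excZ185 htl hcM3)
    have hsub : S1v.Zi d.g D (bw a l) Nr \ S1v.Zg d.g d.Exc D (bw a l) (3 * cR l) Nr ⊆
        excZ d.g d.X d.Exc d.w (3 * cR l) := by
      intro v hv
      rw [mem_sdiff, S1v.mem_Zg, S1v.mem_Zi] at hv
      rw [mem_excZ]
      refine ⟨hv.1.1, ?_⟩
      by_contra hcon
      rw [not_or] at hcon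
      exact hv.2 ⟨hv.1, hcon.2, hcon.1⟩
    exact_mod_cast card_le_card hsub
  have hedge : ((Nr \ S1v.Zi d.g D (bw a l) Nr).card : ℝ) ≤
      216 * ((l : ℝ) ^ 2 * (Par.cD a l / cM l)) +
        2 * (32 * (2 * bw a l + 1) * (9 * (l : ℝ) ^ 2 / d.w)) := by
    refine le_trans ?_ (d.card_edgeZ185 htl hcM3)
    have hsub : Nr \ S1v.Zi d.g D (bw a l) Nr ⊆ edgeZ d.g d.X d.w D (bw a l) := by
      intro v hv
      rw [mem_sdiff, S1v.mem_Zi] at hv
      rw [mem_edgeZ]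
      refine ⟨hv.1, ?_⟩
      by_contra hcon
      rw [not_or] at hcon
      exact hv.2 ⟨hv.1, hcon.2, hcon.1⟩
    exact_mod_cast card_le_card hsub
  -- the sum
  have key := S1_all2 d.g hE0 hE1 hΩ hψ hq hM (entLike d.Ω hΩ) d.lip (D := D) (r := 3 * cR l)
    (b := bw a l) (by omega) (by rw [d.mp]; omega) (by rw [d.mp]; omega) htl
    (by rw [d.tl]; omega) d.bw_ge185 (Exc := d.Exc) (Nr := Nr) hP hP1 hPa
    (π := fun v => p.p₀ + dvn d.P ψ v) (δ := fun v => dvn d.P ψ v)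
    (fun v _ => by have := hdv0 v; positivity) (fun v _ => by have := hdv5 v; linarith)
    (fun v hv => S1P.expv_core (D := D) (rb := cB l) (by omega) (hPa v hv) (hP1 v hv) (hdv0 v)
      (hdev v) (hπ' v hv)) hp0.le hπ'
    (win := fun v => lyr (fun z => ball z (cB l)) v)
    (fun v _ j hj => tile_sub_win d.g htl (by rw [d.tl]; omega) v hj)
    (bm := (2 * (cB l : ℝ) + 1) ^ 2) (fun v _ => S1P.card_lyr (cB l) v) (by positivity)
    (fun v _ => hdv0 v) (fun v _ => hdev v)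
    (r₀ := LFi.rad d.g q (cE l) / 2) (b₀ := b0 d.g q (cE l) D) (by positivity)
    (fun v _ => b_S1 d.g htl hq hE0 (by linarith) hΩ2 D v)
    (fun v _ => rad_S1 d.g htl d.lip hq hE0 (by linarith) (by rw [d.tl]; omega) v) hLc hp.h hh hp.Ls hLs hp.hs
    hhs hC1 hC2 (θ := d.θ) (hθ ▸ hp.θ) d.markov hexc hedge le_rfl le_rfl le_rfl
  refine key.trans ?_
  have hfin := p.s1_le hp Nr (Av := fun v => Ac L q M (cE l) ((2 * (cB l : ℝ) + 1) ^ 2) p.Lc p.h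
      (p.p₀ + dvn d.P ψ v) (dvn d.P ψ v))
    (t1 := fun v => Gd.slErr p.p₀ (dvn d.P ψ v) (cE l) ((2 * (cB l : ℝ) + 1) ^ 2) p.Ls p.hs)
    (ta := fun v => 17 * Real.sqrt (p.p₀ + dvn d.P ψ v) / (LFi.rad d.g q (cE l) / 2) ^ 2)
    (f := fun v => p.p₀ + dvn d.P ψ v) (d := fun v => dvn d.P ψ v) (k1 := ((8 * D + 1 : ℕ) : ℝ))
    (Nat.cast_nonneg _) hk1 (Nat.cast_nonneg _) hk2 (Nat.cast_nonneg _) hk3 ?_ (fun v _ => le_rfl)
    (fun v _ => hdv0 v) hD ?_ ?_ ?_ hTh hnx hne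
  · refine le_trans (le_of_eq ?_) hfin
    have e1 : ∑ v ∈ Nr, 17 * Real.sqrt (p.p₀ + dvn d.P ψ v) / (LFi.rad d.g q (cE l) / 2) ^ 2 =
        17 / (LFi.rad d.g q (cE l) / 2) ^ 2 * ∑ v ∈ Nr, Real.sqrt (p.p₀ + dvn d.P ψ v) := by
      rw [Finset.mul_sum]
      exact Finset.sum_congr rfl fun v _ => by ring
    rw [e1, hθ, d.mp, d.tl]
    unfold S1v.S1rhs
    have e2 : Bc p.h = cLine / p.h := rfl
    rw [e2]
    ring
  · exact d.card_two_ring185.trans hnZ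
  · intro v hv
    have hd := hdv0 v
    have hlq0 : 0 ≤ Real.log (q / cE l) := (LFi.log_q_div hE0 (by linarith : cE l ≤ 1) hq).1.trans
      (LFi.log_q_div hE0 (by linarith : cE l ≤ 1) hq).2
    have f1 : 4 * cE l * (2 * (cB l : ℝ) + 1) ^ 2 ≤ 4 * p.ε * p.m := by
      rw [hε]
      exact mul_le_mul_of_nonneg_left hm (by positivity)
    have f2 : (2 * (cB l : ℝ) + 1) ^ 2 * Real.log (q / cE l) ≤ p.m * p.lq :=
      mul_le_mul hm hlq hlq0 hp.m
    have f3 := mul_le_mul_of_nonneg_right (mul_le_mul_of_nonneg_left f2 (by norm_num :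
      (0 : ℝ) ≤ 4)) hd
    have f4 := mul_le_mul_of_nonneg_left (add_le_add (add_le_add f1 f3) heM) (Bc_nonneg hp.h)
    have f5 : Bc p.h * (4 * p.ε * p.m + 4 * (p.m * p.lq) * dvn d.P ψ v + p.eM) =
        cLine * (4 * p.ε * p.m + 4 * (p.m * p.lq) * dvn d.P ψ v + p.eM) / p.h := by
      unfold Bc cLine
      ring
    rw [f5] at f4
    unfold Ac lineA
    linarith
  · intro v hv
    have f1 : cE l * (2 * (cB l : ℝ) + 1) ^ 2 ≤ p.ε * p.ms := by
      rw [hε]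
      exact mul_le_mul_of_nonneg_left hms hE0.le
    have hc : 0 ≤ 64 * Real.pi * Real.cosh Real.pi ^ 2 * p.hs := by
      have := Real.pi_pos
      have := hp.hs
      positivity
    have f2 := mul_le_mul_of_nonneg_left f1 hc
    have f3 : 4 * (2 * p.p₀ + (dvn d.P ψ v + 64 * Real.pi * Real.cosh Real.pi ^ 2 * p.hs *
        (cE l * (2 * (cB l : ℝ) + 1) ^ 2))) / p.hs ^ 2 ≤
        4 * (2 * p.p₀ + (dvn d.P ψ v + 64 * Real.pi * Real.cosh Real.pi ^ 2 * p.hs *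
        (p.ε * p.ms))) / p.hs ^ 2 :=
      div_le_div_of_nonneg_right (by linarith) (by positivity)
    unfold Gd.slErr slabA
    exact add_le_add f3 le_rfl
  · intro v hv
    have := hp.r
    refine div_le_div_of_nonneg_left (by positivity) (by positivity) ?_
    exact pow_le_pow_left₀ this.le hr 2

end Vale.Agent.P356.GA.S1

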