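import Vale.Agent.P356.GA.S1b_87
import Vale.Agent.P356.GA.S1v770
import Vale.Agent.P356.GA.LFinst225

/-!
# GA, S1 (helper770): the sum over the local terms with all inputs, two classes of cores

`S1_sum2` with the single line bound `line_S1` (helper228, helper87), the facts `LF` (helper770) and
the radius of helper225 (`LFi.conv_W`). The hypotheses are numbers only.
-/

set_option linter.all false

namespace Vale.Agent.P356.GA.S1w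

open Matrix Finset Vale.Agent.P356 Vale.Agent.P356.SV Vale.Agent.P356.SA Vale.Agent.P356.PH
open Vale.Agent.P356.NA
open Vale.Agent.P356.GA Vale.Agent.P356.GA.Level Vale.Agent.P356.GA.Edge795
open Vale.Agent.P356.GA.Class407 Vale.Agent.P356.GA.Theta Vale.Agent.P356.GA.S1
open scoped BigOperators ComplexOrder Kronecker Matrix.Norms.L2Operator

variable {L q : ℕ}

/-- **The hypotheses of SUM-A** without a condition on the radius -/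
theorem lf_w (g : Gd L) (htl : 0 < g.tl) (hT : ∀ x y, |g.T x - g.T y| ≤ 2 * dist1 x y)
    (hq : 1 ≤ q) {ψ Ω : Conf (SS L) q → ℂ} (hψ : nsq ψ = 1) {M : ℝ}
    (hM : Fintype.card (SS L) * Real.log q ≤ M) {ε : ℝ} (h0 : 0 < ε) (h1 : ε ≤ 1 / 2)
    (hΩ : nsq Ω = 1) {P : Op (SS L) q} (hPs : P.PosSemidef) {v : SS L} {D : ℕ} (hD : D ≤ g.tl)
    (hP : ActsOn (cor D v) P) (hP1 : ‖P‖ ≤ 1) {π : ℝ} (hπ : expv ψ P ≤ π)
    {win : Finset (SS L)} (hwin : ∀ j, (g.tB j ∩ cor D v).Nonempty → g.tB j ⊆ win)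
    {δ π' bm Λ h₁ C₂ : ℝ}
    (hcl : ∀ X : Op (SS L) q, ActsOn win X →
      ‖star ψ ⬝ᵥ (X *ᵥ ψ) - star Ω ⬝ᵥ (X *ᵥ Ω)‖ ≤ δ * ‖X‖) (hδ : 0 ≤ δ)
    (hπ0 : 0 ≤ π') (hπ' : expv Ω P ≤ π') (hbm : (win.card : ℝ) ≤ bm)
    (hL : 0 ≤ Λ) (hLa : Real.log ((q : ℝ) ^ 2 / ε) * (cor D v).card ≤ Λ) (hh : 0 < h₁)
    (hhL : h₁ * (4 * (1 + Λ)) ≤ 1)
    (hC1 : Real.exp 1 * (4 * (cor D v).card * Real.log q + 2) ^ 2 ≤ C₂)
    (hC2 : Real.exp 1 * (2 + Λ) ^ 2 ≤ C₂) :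
    Sum.LF (g.QV ψ M (Kt ε Ω) P) g.R g.tB g.mp g.n (cor D v) (Rel g D v) (LFi.tauE g q ε π)
      (Gd.slErr π' δ ε bm Λ h₁) C₂ := by
  classical
  have hq1 : (1 : ℝ) ≤ q := by exact_mod_cast hq
  have hlq : 0 ≤ Real.log q := Real.log_nonneg hq1
  set b₀ : ℝ := ∑ w : Fin g.n × SS L with ¬ Disjoint (g.tB w.2) (cor D v), ‖g.KV (Kt ε Ω) w‖
    with hb₀
  have hb0 : 0 ≤ b₀ := Finset.sum_nonneg fun _ _ => norm_nonneg _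
  set N₀ : ℝ := 2 * (crs107 (star1 univ g.tB (cor D v)) g.R g.n).card *
      (4 * (star1 univ g.tB (cor D v)).card * Real.log q + 2) + 4 * b₀ with hN₀
  have hN0 : 0 ≤ N₀ := by positivity
  have hr0 : 0 < 1 / (N₀ + 1) := by positivity
  have h3 := Gd.lf_inst g hq hψ hM h0 h1 hΩ hPs hP hP1 (b₀ := b₀) (r := 1 / (N₀ + 1))
    (y := 1 / (N₀ + 1) / 2) (π := π) le_rfl hr0 ?_ (by positivity) le_rfl hπ (Rel := Rel g D v)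
    (fun p hp1 hp2 hp3 => ?_) (fun p hp => (mem_Rel.1 hp).1) (win := win)
    (fun p hp _ => (g.Wd_sub p).trans (hwin p.2 (mem_Rel.1 hp).2.1)) hcl hδ hπ0 hπ' hbm hL hLa hh
    hhL hC1 hC2
  · have hco : cor D v ⊆ lay v fun z => bal z D := Finset.Subset.refl _
    have hcv := LFi.conv_W g htl hT hψ hΩ hq hM h0 (by linarith) hD hco hPs hP hP1 hπ
    exact { h3 with conv := hcv }
  · rw [← hN₀, div_mul_eq_mul_div, one_mul, div_le_one (by positivity)]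
    linarith
  · rw [mem_Rel]
    exact ⟨hp1, Finset.not_disjoint_iff_nonempty_inter.1 hp2, hp3⟩

/-- **S1**: the sum of the second order forms of positive local observables over both layers. -/
theorem S1_all2 (g : Gd L) {ε : ℝ} (hε0 : 0 < ε) (hε1 : ε ≤ 1 / 2)
    {Ω : Conf (Site L) q → ℂ} (hΩ : nsq Ω = 1) {ψ : Conf (SS L) q → ℂ} (hψ : nsq ψ = 1) {M : ℝ}
    (hq : 1 ≤ q) (hM : Fintype.card (SS L) * Real.log q ≤ M)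
    (hS : EntLike (fun A => entropyOf A Ω))
    (hT : ∀ x y, |g.T x - g.T y| ≤ 2 * dist1 x y) {D r b : ℕ} (hDr : D ≤ r)
    (hmp : 4 * D + 4 * r < g.mp) (hmp8 : 8 * D < g.mp) (htl : 0 < g.tl) (hD : 2 * D ≤ g.tl)
    (hb : g.mp + 4 * D ≤ b) {Exc : Finset (Site L)}
    {Nr : Finset (SS L)} {P : SS L → Op (SS L) q} (hP : ∀ v ∈ Nr, (P v).PosSemidef)
    (hP1 : ∀ v ∈ Nr, ‖P v‖ ≤ 1) (hPa : ∀ v ∈ Nr, ActsOn (cor D v) (P v))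
    {π δ : SS L → ℝ} (hπ : ∀ v ∈ Nr, expv ψ (P v) ≤ π v) {π' : ℝ} (hπ'0 : 0 ≤ π')
    (hπ' : ∀ v ∈ Nr, expv (dbl Ω Ω) (P v) ≤ π')
    {win : SS L → Finset (SS L)}
    (hwin : ∀ v ∈ Nr, ∀ j, (g.tB j ∩ cor D v).Nonempty → g.tB j ⊆ win v)
    {bm : ℝ} (hbm : ∀ v ∈ Nr, ((win v).card : ℝ) ≤ bm) (hbm0 : 0 ≤ bm)
    (hδ : ∀ v ∈ Nr, 0 ≤ δ v)
    (hdev : ∀ v ∈ Nr, ∀ X : Op (SS L) q, ActsOn (win v) X →
      ‖star ψ ⬝ᵥ (X *ᵥ ψ) - star (dbl Ω Ω) ⬝ᵥ (X *ᵥ dbl Ω Ω)‖ ≤ δ v * ‖X‖)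
    {Lc h Λ h₁ C₂ : ℝ} (hL : 3 * Real.log (q / ε) * ((2 * D + 1 : ℕ) : ℝ) ^ 2 + 1 ≤ Lc)
    (h0 : 0 < h) (hh : h * (8 * (1 + Lc)) ≤ 1) (hΛ0 : 0 ≤ Λ)
    (hΛ : Real.log ((q : ℝ) ^ 2 / ε) * ((2 * D + 1 : ℕ) : ℝ) ^ 2 ≤ Λ) (hh1 : 0 < h₁)
    (hhΛ : h₁ * (4 * (1 + Λ)) ≤ 1)
    (hC1 : Real.exp 1 * (4 * ((2 * D + 1 : ℕ) : ℝ) ^ 2 * Real.log q + 2) ^ 2 ≤ C₂)
    (hC2 : Real.exp 1 * (2 + Λ) ^ 2 ≤ C₂) {θ : ℝ} (hθ : 0 ≤ θ)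
    {Θ exc edge sA sτ₁ sτ : ℝ}
    (hΘ : ∑ z ∈ Excᶜ, ∑ k ∈ range g.n,
      (thC (fun A => entropyOf A Ω) (bal z D) (bal z r) (lev g.T (g.t0 + k)) +
        thC (fun A => entropyOf A Ω) (bal z D) (bal z r) (lev g.T (g.t0 + g.N - k))) ≤ Θ)
    (hexc : ((S1v.Zi g D b Nr \ S1v.Zg g Exc D b r Nr).card : ℝ) ≤ exc)
    (hedge : ((Nr \ S1v.Zi g D b Nr).card : ℝ) ≤ edge)
    (hsA : ∑ v ∈ Nr, Ac L q M ε bm Lc h (π v) (δ v) ≤ sA)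
    (hsτ₁ : ∑ v ∈ Nr, Gd.slErr π' (δ v) ε bm Λ h₁ ≤ sτ₁)
    (hsτ : ∑ v ∈ Nr, LFi.tauE g q ε (π v) ≤ sτ) :
    ∑ v ∈ Nr, g.QV ψ M (Kt ε (dbl Ω Ω)) (P v)
        (Sum.czero θ g.n (range g.n ×ˢ (univ : Finset (SS L)))) ≤
      S1v.S1rhs θ D g.mp g.tl C₂ sA (Bc h) Θ exc edge sτ₁ sτ := by
  have hΩ2 : nsq (dbl Ω Ω) = 1 := by rw [nsq_dbl, hΩ, one_mul]
  have hC20 : 0 ≤ C₂ := le_trans (by positivity) hC2
  have hq1 : (1 : ℝ) ≤ q := by exact_mod_cast hq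
  have hlq : 0 ≤ Real.log q := Real.log_nonneg hq1
  have hlog2 : 0 ≤ Real.log ((q : ℝ) ^ 2 / ε) := by
    refine Real.log_nonneg ?_
    rw [le_div_iff₀ hε0]
    nlinarith
  have hcc : ∀ v : SS L, (((cor D v).card : ℕ) : ℝ) ≤ ((2 * D + 1 : ℕ) : ℝ) ^ 2 := fun v => by
    exact_mod_cast card_cor D v
  have hπ0 : ∀ v ∈ Nr, 0 ≤ π v := fun v hv => (psd_re_nonneg (hP v hv) ψ).trans (hπ v hv)
  refine S1v.S1_sum2 g hS hT hmp8 htl hD hb (τ := fun v => LFi.tauE g q ε (π v))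
    (τ₁ := fun v => Gd.slErr π' (δ v) ε bm Λ h₁) (A := fun v => Ac L q M ε bm Lc h (π v) (δ v))
    (fun v hv => ?_) (fun v hv => by unfold LFi.tauE; positivity)
    (fun v hv => slErr_nonneg' hπ'0 (hδ v hv) hε0.le hbm0 hh1) hC20 hθ
    (fun v hv => Ac_nonneg hq hε0 hε1 hbm0 h0 (hπ0 v hv) (hδ v hv)) (Bc_nonneg h0)
    (fun v hv _ hedg k hk hkn hc => ?_) hΘ hexc hedge hsA hsτ₁ hsτ
  · refine lf_w g htl hT hq hψ hM hε0 hε1 hΩ2 (hP v hv) (by omega) (hPa v hv) (hP1 v hv)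
      (hπ v hv) (hwin v hv) (hdev v hv) (hδ v hv) hπ'0 (hπ' v hv) (hbm v hv) hΛ0
      ((mul_le_mul_of_nonneg_left (hcc v) hlog2).trans hΛ) hh1 hhΛ ?_ hC2
    refine le_trans (mul_le_mul_of_nonneg_left ?_ (Real.exp_pos 1).le) hC1
    have e1 : 4 * ((cor D v).card : ℝ) * Real.log q ≤
        4 * ((2 * D + 1 : ℕ) : ℝ) ^ 2 * Real.log q :=
      mul_le_mul_of_nonneg_right (mul_le_mul_of_nonneg_left (hcc v) (by norm_num)) hlq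
    exact pow_le_pow_left₀ (by positivity) (by linarith) 2
  · exact line_S1 g hε0 hε1 hΩ hψ hq hM hT hDr hmp hedg (hP v hv) (hP1 v hv) (hPa v hv) hk hkn hc
      (hwin v hv _ ⟨v, Finset.mem_inter.2 ⟨self_mem_tB g v, self_mem_cor D v⟩⟩) (hbm v hv)
      (hδ v hv) (hdev v hv) (hπ v hv) hL h0 hh

end Vale.Agent.P356.GA.S1w
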