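import Vale.Agent.P356.GA.EnFinal394
import Vale.Agent.P356.GA.S1w770
import Vale.Agent.P356.GA.S1d_87
import Vale.Agent.P356.GA.S1Num770
import Vale.Agent.P356.GA.EnNum407
import Vale.Agent.P356.GA.ParF227

/-!
# S1P: the sum over the local terms on `CData`
-/

set_option linter.all false

namespace Vale.Agent.P356.GA

open Matrix Finset Vale.Agent.P356 Vale.Agent.P356.SV Vale.Agent.P356.Path Vale.Agent.P356.NA
open Vale.Agent.P356.SA Vale.Agent.P356.PH Vale.Agent.P356.GA.Par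
open Vale.Agent.P356.GA.Level (bal)
open Vale.Agent.P356.GA.Class407
open scoped BigOperators ComplexOrder Kronecker Matrix.Norms.L2Operator

/-- the error of the regularised logarithm -/
theorem eM394 {q L l : ℕ} (hq : 1 ≤ q) (hl : 1 ≤ l) {M : ℝ} (hM : M1 q L l ≤ M) :
    2 * (q : ℝ) ^ Fintype.card (SS L) * Real.exp (-M) ≤ 2 * (l : ℝ) ^ (-20 : ℝ) := by
  have hl0 : (0 : ℝ) < l := by exact_mod_cast hl
  have hq0 : (0 : ℝ) < q := by exact_mod_cast hq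
  have hll : 0 ≤ Real.log l := Real.log_nonneg (by exact_mod_cast hl)
  have h1 : (q : ℝ) ^ Fintype.card (SS L) = Real.exp (Fintype.card (SS L) * Real.log q) := by
    rw [mul_comm, Real.exp_mul, Real.exp_log hq0, Real.rpow_natCast]
  have h2 : (l : ℝ) ^ (-20 : ℝ) = Real.exp (-20 * Real.log l) := by
    rw [Real.rpow_def_of_pos hl0, mul_comm]
  rw [mul_assoc, h1, h2, ← Real.exp_add]
  refine mul_le_mul_of_nonneg_left (Real.exp_le_exp.2 ?_) (by norm_num)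
  unfold M1 at hM
  linarith

theorem s1_ac394 {ι : Type*} {L q : ℕ} (s : Finset ι) {M ε bm Lc h n p₀ D : ℝ} {δ : ι → ℝ}
    (hs : (s.card : ℝ) ≤ n) (hD : ∑ v ∈ s, δ v ≤ D) (hp : 0 ≤ p₀) (hε : 0 ≤ ε) (hbm : 0 ≤ bm)
    (hlq : 0 ≤ Real.log (q / ε)) (hh : 0 < h) (hLc : 0 ≤ Lc)
    (heM : 2 * (q : ℝ) ^ Fintype.card (SS L) * Real.exp (-M) ≤ 2 * p₀) :
    ∑ v ∈ s, S1.Ac L q M ε bm Lc h (p₀ + δ v) (δ v) ≤
      (n * p₀ + D) / h ^ 2 + S1.Bc h * (n * (4 * ε * bm) + 4 * (bm * Real.log (q / ε)) * D +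
        n * (2 * p₀)) + n * (128 * Real.exp 1 * (1 + Lc) ^ 4 * h ^ 2) := by
  have hB := S1.Bc_nonneg hh
  have e1 : ∑ v ∈ s, S1.Ac L q M ε bm Lc h (p₀ + δ v) (δ v) =
      (s.card * p₀ + ∑ v ∈ s, δ v) / h ^ 2 + S1.Bc h * (s.card * (4 * ε * bm) +
        4 * (bm * Real.log (q / ε)) * ∑ v ∈ s, δ v +
        s.card * (2 * (q : ℝ) ^ Fintype.card (SS L) * Real.exp (-M))) +
        s.card * (128 * Real.exp 1 * (1 + Lc) ^ 4 * h ^ 2) := by
    unfold S1.Ac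
    rw [Finset.sum_add_distrib, Finset.sum_add_distrib, ← Finset.sum_div, Finset.sum_add_distrib,
      ← Finset.mul_sum, Finset.sum_add_distrib, Finset.sum_add_distrib,
      ← Finset.mul_sum s (fun v => δ v) (4 * (bm * Real.log (q / ε)))]
    simp only [Finset.sum_const, nsmul_eq_mul]
  rw [e1]
  have hn0 : (0 : ℝ) ≤ s.card := Nat.cast_nonneg _
  have hn : 0 ≤ n := hn0.trans hs
  refine add_le_add (add_le_add ?_ ?_) ?_
  · exact div_le_div_of_nonneg_right (add_le_add (mul_le_mul_of_nonneg_right hs hp) hD)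
      (by positivity)
  · refine mul_le_mul_of_nonneg_left ?_ hB
    refine add_le_add (add_le_add ?_ ?_) ?_
    · exact mul_le_mul_of_nonneg_right hs (by positivity)
    · exact mul_le_mul_of_nonneg_left hD (by positivity)
    · exact mul_le_mul hs heM (by positivity) hn
  · exact mul_le_mul_of_nonneg_right hs (by positivity)

theorem s1_sl394 {ι : Type*} (s : Finset ι) {ε bm Λ h n p₀ D : ℝ} {δ : ι → ℝ}
    (hs : (s.card : ℝ) ≤ n) (hD : ∑ v ∈ s, δ v ≤ D) (hp : 0 ≤ p₀) (hε : 0 ≤ ε) (hbm : 0 ≤ bm)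
    (hh : 0 < h) (hΛ : 0 ≤ Λ) :
    ∑ v ∈ s, Gd.slErr p₀ (δ v) ε bm Λ h ≤
      4 * (n * (2 * p₀) + (D + n * (64 * Real.pi * Real.cosh Real.pi ^ 2 * h * (ε * bm)))) / h ^ 2 +
        n * (64 * (1 + Λ) ^ 4 * h ^ 2) := by
  have hpi := Real.pi_pos
  have e1 : ∑ v ∈ s, Gd.slErr p₀ (δ v) ε bm Λ h =
      4 * (s.card * (2 * p₀) + (∑ v ∈ s, δ v +
        s.card * (64 * Real.pi * Real.cosh Real.pi ^ 2 * h * (ε * bm)))) / h ^ 2 +
        s.card * (64 * (1 + Λ) ^ 4 * h ^ 2) := by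
    unfold Gd.slErr
    rw [Finset.sum_add_distrib, ← Finset.sum_div, ← Finset.mul_sum, Finset.sum_add_distrib,
      Finset.sum_add_distrib]
    simp only [Finset.sum_const, nsmul_eq_mul]
  rw [e1]
  refine add_le_add ?_ (mul_le_mul_of_nonneg_right hs (by positivity))
  refine div_le_div_of_nonneg_right (mul_le_mul_of_nonneg_left ?_ (by norm_num)) (by positivity)
  exact add_le_add (mul_le_mul_of_nonneg_right hs (by positivity))
    (add_le_add hD (mul_le_mul_of_nonneg_right hs (by positivity)))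

theorem S1rhs_mono394 {θ θ' : ℝ} (h0 : 0 ≤ θ) (h : θ ≤ θ') (D mp tl : ℕ)
    {C₂ sA B Θ exc edge sτ₁ sτ : ℝ} (h1 : 0 ≤ C₂) (h2 : 0 ≤ sA) (h3 : 0 ≤ B) (h4 : 0 ≤ Θ)
    (h5 : 0 ≤ exc) (h6 : 0 ≤ edge) (h7 : 0 ≤ sτ₁) (h8 : 0 ≤ sτ) :
    S1v.S1rhs θ D mp tl C₂ sA B Θ exc edge sτ₁ sτ ≤
      S1v.S1rhs θ' D mp tl C₂ sA B Θ exc edge sτ₁ sτ := by
  unfold S1v.S1rhs
  refine mul_le_mul_of_nonneg_right ?_ (by positivity)
  have := pow_le_pow_left₀ h0 h 2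
  linarith

/-- **S1P holds.** -/
theorem s1P394 {q R : ℕ} {J Δ a C₁ C₂ : ℝ} (hq : 1 ≤ q) (ha : 0 < a) (ha1 : a ≤ 1) :
    S1P q R J Δ a C₁ C₂ := by
  have hev := (((S1n.ev_S1 ha ha1 hq C₁).and (EnNum.ev_exc (q := q) (R := R) (J := J) (Δ := Δ)
    (a := a) (C₁ := C₁) (C₂ := C₂))).and ((EnNum.ev_edge (q := q) (R := R) (J := J) (Δ := Δ)
    (C₁ := C₁) (C₂ := C₂) ha ha1).and (EnNum.ev_markov (q := q) (R := R) (J := J) (Δ := Δ)
    (a := a) (C₁ := C₁) (C₂ := C₂)))).and (((EnNum.ev_θ (q := q) (R := R) (J := J) (Δ := Δ)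
    (C₁ := C₁) (C₂ := C₂) ha1).and (ev_geo ha ha1)).and
    ((ev_steps (q := (q : ℝ)) ha ha1 (by exact_mod_cast hq) (le_refl (16 * Real.exp 1))).and
    ((ev_step (q := (q : ℝ)) ha (by exact_mod_cast hq) ha1 (x := 1 / 100) (K := 4) (by
      have := e0_le ha1; norm_num at this ⊢; linarith)).and ev_one)))
  obtain ⟨n₀, hn⟩ := Filter.eventually_atTop.1 hev
  refine ⟨n₀, fun L l d hl M hM ψ hψ hdv P hP => ?_⟩
  obtain ⟨⟨⟨nS, nx⟩, ⟨ne, nm⟩⟩, ⟨⟨nθ, ngeo⟩, ⟨nst, ⟨nst2, hl1⟩⟩⟩⟩ := hn l hl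
  obtain ⟨g1, g2, g3, g4, g5, g6, g7, g8, g9, g10, g11, g12, g13⟩ := ngeo
  obtain ⟨s1, s2, s3, s4, -, -, -, -⟩ := nst
  have hl0 : (0 : ℝ) < l := by exact_mod_cast hl1
  have hq0 : (0 : ℝ) < q := by exact_mod_cast hq
  have hll : 0 ≤ Real.log l := Real.log_nonneg (by exact_mod_cast hl1)
  have hlogq : 0 ≤ Real.log q := Real.log_nonneg (by exact_mod_cast hq)
  have hM' : Fintype.card (SS L) * Real.log q ≤ M := by
    refine le_trans ?_ hM
    unfold M1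
    linarith
  have hlq : 0 ≤ Real.log (q / cE l) := log_qE_nonneg hq hl1
  have hlq2 : 0 ≤ Real.log ((q : ℝ) ^ 2 / cE l) := by
    refine Real.log_nonneg ?_
    rw [one_le_div s1]
    have h1 : (1 : ℝ) ≤ (q : ℝ) ^ 2 := one_le_pow₀ (by exact_mod_cast hq)
    linarith
  have hp0 : 0 < S1n.p0 l := Real.rpow_pos_of_pos hl0 _
  have hhs : 0 < S1n.hs l := Real.rpow_pos_of_pos hl0 _
  have hcc : 0 ≤ S1n.cc a l := by unfold S1n.cc; positivity
  have hcc' : S1n.cc a l = (2 * (Par.cD a l : ℝ) + 1) ^ 2 := by unfold S1n.cc; push_cast; ring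
  have hLs : 0 ≤ S1n.Ls q a l := mul_nonneg hlq2 hcc
  have hLc : 0 ≤ S1n.Lc q a l := by unfold S1n.Lc; positivity
  have hbm : 0 ≤ S1n.bm l := by unfold S1n.bm; positivity
  obtain ⟨-, hθ0, hθ1⟩ := nθ L d
  set Nr := two (sa7_nb d.X d.w \ d.X) with hNr
  have hdvN : ∑ v ∈ Nr, dvn d.P ψ v ≤ S1n.dS l :=
    (Finset.sum_le_sum_of_subset_of_nonneg d.Nr_sub fun v _ _ => d.dvn_nn ψ v).trans hdv
  have hcard : ((Nr.card : ℕ) : ℝ) ≤ S1n.nN l := EnNum.card_Nr d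
  have hdS : 0 ≤ S1n.dS l := (Finset.sum_nonneg fun v _ => d.dvn_nn ψ v).trans hdvN
  have hnN : 0 ≤ S1n.nN l := (Nat.cast_nonneg _).trans hcard
  have hcB : cB l = 8 * cM l := rfl
  have hmp : d.g.mp = cP l := d.mp
  have htl : d.g.tl = cM l := d.tl
  have hC2a : Real.exp 1 * (4 * ((2 * Par.cD a l + 1 : ℕ) : ℝ) ^ 2 * Real.log q + 2) ^ 2 ≤
      S1n.C2 q a l := by
    unfold S1n.C2 S1n.cc
    have : 0 ≤ Real.exp 1 * (2 + S1n.Ls q a l) ^ 2 := by positivity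
    linarith
  have hC2b : Real.exp 1 * (2 + S1n.Ls q a l) ^ 2 ≤ S1n.C2 q a l := by
    unfold S1n.C2
    have : 0 ≤ Real.exp 1 * (4 * S1n.cc a l * Real.log q + 2) ^ 2 := by positivity
    linarith
  have key := S1w.S1_all2 d.g s1 s2 d.nΩ hψ hq hM' (entLike d.Ω d.nΩ) d.lip
    (D := Par.cD a l) (r := 3 * cR l) (b := bw a l) g2 (by rw [hmp]; exact g3)
    (by rw [hmp]; exact g4) (by rw [htl]; omega) (by rw [htl]; exact g6)
    (d.bw_ge185) (Exc := d.Exc) (Nr := Nr) (P := P) (fun v _ => hP.psd v) (fun v _ => hP.norm v)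
    (fun v _ => hP.acts v) (π := fun v => S1n.p0 l + dvn d.P ψ v) (δ := fun v => dvn d.P ψ v)
    (fun v _ => S1P.expv_core g11 (hP.acts v) (hP.norm v) (d.dvn_nn ψ v)
      ((d.dev ψ hψ).1 v) (hP.small v)) (π' := S1n.p0 l) hp0.le (fun v _ => hP.small v)
    (win := fun v => lyr (fun z => ball z (cB l)) v)
    (fun v _ j hj => S1.tile_sub_win d.g (by rw [htl]; omega) (by rw [htl]; omega) v hj)
    (bm := S1n.bm l) (fun v _ => S1P.card_lyr _ v) hbm (fun v _ => d.dvn_nn ψ v)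
    (fun v _ => (d.dev ψ hψ).1 v) (Lc := S1n.Lc q a l) (h := cY a l) (Λ := S1n.Ls q a l)
    (h₁ := S1n.hs l) (C₂ := S1n.C2 q a l) (le_of_eq rfl) s3 ?_ hLs (le_of_eq rfl) hhs ?_ hC2a hC2b
    (θ := d.θ) hθ0.le (Θ := S1n.Th a C₁ l) (exc := S1n.nx a l) (edge := S1n.ne a l)
    (sA := S1n.sA q a l) (sτ₁ := S1n.sT1 q a l) (sτ := S1n.sT q l) (nm L d) ?_ ?_ ?_ ?_ ?_
  · refine key.trans ?_
    rw [hmp, htl]
    refine le_trans (S1rhs_mono394 hθ0.le hθ1 _ _ _ ?_ ?_ ?_ ?_ ?_ ?_ ?_ ?_) nS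
    · unfold S1n.C2; positivity
    · unfold S1n.sA S1n.Bf S1n.cc0
      positivity
    · exact S1.Bc_nonneg s3
    · unfold S1n.Th
      positivity
    · unfold S1n.nx
      positivity
    · unfold S1n.ne
      positivity
    · unfold S1n.sT1
      positivity
    · unfold S1n.sT
      positivity
  · have h1 := s4
    unfold S1n.Lc
    rw [hcc']
    exact h1
  · have h1 := nst2
    unfold S1n.hs S1n.Ls
    rw [hcc']
    exact h1
  · -- the exceptional cores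
    refine le_trans ?_ (nx L d)
    have hsub : S1v.Zi d.g (Par.cD a l) (bw a l) Nr \
        S1v.Zg d.g d.Exc (Par.cD a l) (bw a l) (3 * cR l) Nr ⊆
        excZ d.g d.X d.Exc d.w (3 * cR l) := by
      intro v hv
      rw [mem_sdiff, S1v.mem_Zg] at hv
      obtain ⟨h1, h2⟩ := hv
      rw [mem_excZ]
      refine ⟨(S1v.mem_Zi.1 h1).1, ?_⟩
      by_contra hcon
      rw [not_or] at hcon
      exact h2 ⟨h1, hcon.2, hcon.1⟩
    exact_mod_cast Finset.card_le_card hsub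
  · -- the edge cores
    refine le_trans ?_ (ne L d)
    have hsub : Nr \ S1v.Zi d.g (Par.cD a l) (bw a l) Nr ⊆
        edgeZ d.g d.X d.w (Par.cD a l) (bw a l) := by
      intro v hv
      rw [mem_sdiff, S1v.mem_Zi] at hv
      obtain ⟨h1, h2⟩ := hv
      rw [mem_edgeZ]
      refine ⟨h1, ?_⟩
      by_contra hcon
      rw [not_or] at hcon
      exact h2 ⟨h1, hcon.2, hcon.1⟩
    exact_mod_cast Finset.card_le_card hsub
  · exact s1_ac394 Nr hcard hdvN hp0.le s1.le hbm hlq s3 hLc (eM394 hq hl1 hM)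
  · exact s1_sl394 Nr hcard hdvN hp0.le s1.le hbm hhs hLs
  · -- almost convexity
    have h1 := sumz_sqrt Nr (f := fun v => S1n.p0 l + dvn d.P ψ v) (d := fun v => dvn d.P ψ v)
      (fun v _ => le_rfl) hcard hp0.le (fun v _ => d.dvn_nn ψ v) hdvN
    have e1 : ∑ v ∈ Nr, LFi.tauE d.g q (cE l) (S1n.p0 l + dvn d.P ψ v) =
        16 * (∑ v ∈ Nr, Real.sqrt (S1n.p0 l + dvn d.P ψ v)) *
          (1750 * ((cM l : ℝ) + cP l) ^ 3 * (1 + Real.log (q / cE l))) ^ 2 := by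
      unfold LFi.tauE LFi.rad
      rw [hmp, htl, Finset.mul_sum, Finset.sum_mul]
      refine Finset.sum_congr rfl fun v _ => ?_
      rw [one_div, inv_pow, div_inv_eq_mul]
    rw [e1]
    unfold S1n.sT
    refine mul_le_mul_of_nonneg_right ?_ (by positivity)
    exact mul_le_mul_of_nonneg_left h1 (by norm_num)

end Vale.Agent.P356.GA
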