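import Vale.Agent.P356.GA.CNum960
import Vale.Agent.P356.GA.S1w770
import Vale.Agent.P356.GA.EnGoal394

/-!
# The numbers of the sum over the local terms (helper960)
-/

set_option linter.all false

namespace Vale.Agent.P356.GA.Par

open Matrix Finset Vale.Agent.P356 Vale.Agent.P356.SV Vale.Agent.P356.Path Vale.Agent.P356.NA
open Vale.Agent.P356.SA Vale.Agent.P356.PH Vale.Agent.P356.GA
open Vale.Agent.P356.GA.Class407 Vale.Agent.P356.GA.Level Vale.Agent.P356.GA.Edge795
open Filter Asymptotics

/-- exponent of the slab estimate -/
noncomputable def lam960 (q : ℕ) (a : ℝ) (l : ℕ) : ℝ :=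
  Real.log ((q : ℝ) ^ 2 / cE l) * ((2 * Par.cD a l + 1 : ℕ) : ℝ) ^ 2

/-- exponent of the line estimate -/
noncomputable def lc960 (q : ℕ) (a : ℝ) (l : ℕ) : ℝ :=
  3 * Real.log ((q : ℝ) / cE l) * ((2 * Par.cD a l + 1 : ℕ) : ℝ) ^ 2 + 1

/-- crude constant of one line or window -/
noncomputable def c2n960 (q : ℕ) (a : ℝ) (l : ℕ) : ℝ :=
  Real.exp 1 * (4 * ((2 * Par.cD a l + 1 : ℕ) : ℝ) ^ 2 * Real.log q + 2) ^ 2 +
    Real.exp 1 * (2 + lam960 q a l) ^ 2

/-- number of sites of a window -/
noncomputable def bm960 (l : ℕ) : ℝ := ((2 * cB l + 1 : ℕ) : ℝ) ^ 2

/-- the step of the slab estimate -/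
noncomputable def h1n960 (l : ℕ) : ℝ := (l : ℝ) ^ (-(1 / 8 : ℝ))

theorem up_lam960 {a : ℝ} (ha : 0 < a) {q : ℕ} (hq : 1 ≤ q) : Up (lam960 q a) (3 * xd a) := by
  have h0 := e0_pos ha
  have hq0 : (0 : ℝ) < q := by exact_mod_cast hq
  have h2 : Up (fun l => Real.log ((q : ℝ) ^ 2 / cE l) * (2 * (cD a l : ℝ) + 1) ^ 2)
      (3 * xd a) := by
    refine Up.mono (by
      repeat' (first
            | with_reducible exact Up.const _
            | with_reducible exact Up.self
            | with_reducible exact Up.inv_self
            | with_reducible exact Up.pow_self _
            | with_reducible exact Up.pow_self_nat _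
            | with_reducible exact Up.inv_pow_self _
            | with_reducible exact up_cF ha
            | with_reducible exact up_cD ha
            | with_reducible exact up_cS ha
            | with_reducible exact up_cS_inv _
            | with_reducible exact up_cR
            | with_reducible exact up_cR_inv
            | with_reducible exact up_cP
            | with_reducible exact up_cM
            | with_reducible exact up_cM_inv
            | with_reducible exact up_cB
            | with_reducible exact up_cN
            | with_reducible exact up_cLam
            | with_reducible exact up_cLam_inv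
            | with_reducible exact up_cY _
            | with_reducible exact up_cY_inv _
            | with_reducible exact up_cE
            | with_reducible exact up_cE_inv
            | with_reducible exact up_log_xd ha
            | with_reducible exact up_logE_xd ha (by positivity)
            | with_reducible assumption
            | with_reducible apply Up.sub'
            | with_reducible apply Up.neg
            | with_reducible apply Up.add'
            | with_reducible apply Up.inv_mul
            | with_reducible apply Up.mul
            | with_reducible apply Up.inv_div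
            | with_reducible apply Up.inv_pow
            | with_reducible apply Up.pow
            | with_reducible apply Up.inv_inv
            | with_reducible apply Up.div
            | with_reducible apply Up.sqrt
            | with_reducible apply Up.abs
            | with_reducible apply Up.max)) (by
      (
            try simp only [mul_add, add_mul, Nat.cast_ofNat,
              mul_max_of_nonneg _ _ (show (0:ℝ) ≤ 2 by norm_num),
              mul_max_of_nonneg _ _ (show (0:ℝ) ≤ 3 by norm_num),
              mul_max_of_nonneg _ _ (show (0:ℝ) ≤ 4 by norm_num),
              ← max_add_add_right, ← max_add_add_left, max_lt_iff, max_le_iff,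
              ← max_div_div_right (show (0:ℝ) ≤ 2 by norm_num), max_self]
            try and_intros
            all_goals (
              try simp only [xd, xs, xr, xm, xn, xlam, xy, xom, xu, xc]
              first | linarith | (norm_num; done) | (norm_num; linarith))))
  refine h2.congr' (Eventually.of_forall fun l => ?_)
  simp [lam960]

theorem up_lc960 {a : ℝ} (ha : 0 < a) {q : ℕ} (hq : 1 ≤ q) : Up (lc960 q a) (3 * xd a) := by
  have h0 := e0_pos ha
  have hq0 : (0 : ℝ) < q := by exact_mod_cast hq
  have h2 : Up (fun l => 3 * Real.log ((q : ℝ) / cE l) * (2 * (cD a l : ℝ) + 1) ^ 2 + 1)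
      (3 * xd a) := by
    refine Up.mono (by
      repeat' (first
            | with_reducible exact Up.const _
            | with_reducible exact Up.self
            | with_reducible exact Up.inv_self
            | with_reducible exact Up.pow_self _
            | with_reducible exact Up.pow_self_nat _
            | with_reducible exact Up.inv_pow_self _
            | with_reducible exact up_cF ha
            | with_reducible exact up_cD ha
            | with_reducible exact up_cS ha
            | with_reducible exact up_cS_inv _
            | with_reducible exact up_cR
            | with_reducible exact up_cR_inv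
            | with_reducible exact up_cP
            | with_reducible exact up_cM
            | with_reducible exact up_cM_inv
            | with_reducible exact up_cB
            | with_reducible exact up_cN
            | with_reducible exact up_cLam
            | with_reducible exact up_cLam_inv
            | with_reducible exact up_cY _
            | with_reducible exact up_cY_inv _
            | with_reducible exact up_cE
            | with_reducible exact up_cE_inv
            | with_reducible exact up_log_xd ha
            | with_reducible exact up_logE_xd ha (by positivity)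
            | with_reducible assumption
            | with_reducible apply Up.sub'
            | with_reducible apply Up.neg
            | with_reducible apply Up.add'
            | with_reducible apply Up.inv_mul
            | with_reducible apply Up.mul
            | with_reducible apply Up.inv_div
            | with_reducible apply Up.inv_pow
            | with_reducible apply Up.pow
            | with_reducible apply Up.inv_inv
            | with_reducible apply Up.div
            | with_reducible apply Up.sqrt
            | with_reducible apply Up.abs
            | with_reducible apply Up.max)) (by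
      (
            try simp only [mul_add, add_mul, Nat.cast_ofNat,
              mul_max_of_nonneg _ _ (show (0:ℝ) ≤ 2 by norm_num),
              mul_max_of_nonneg _ _ (show (0:ℝ) ≤ 3 by norm_num),
              mul_max_of_nonneg _ _ (show (0:ℝ) ≤ 4 by norm_num),
              ← max_add_add_right, ← max_add_add_left, max_lt_iff, max_le_iff,
              ← max_div_div_right (show (0:ℝ) ≤ 2 by norm_num), max_self]
            try and_intros
            all_goals (
              try simp only [xd, xs, xr, xm, xn, xlam, xy, xom, xu, xc]
              first | linarith | (norm_num; done) | (norm_num; linarith))))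
  refine h2.congr' (Eventually.of_forall fun l => ?_)
  simp [lc960]

theorem up_c2n960 {a : ℝ} (ha : 0 < a) {q : ℕ} (hq : 1 ≤ q) : Up (c2n960 q a) (6 * xd a) := by
  have h0 := e0_pos ha
  have hl := up_lam960 ha hq
  have h2 : Up (fun l => Real.exp 1 * (4 * (2 * (cD a l : ℝ) + 1) ^ 2 * Real.log q + 2) ^ 2 +
      Real.exp 1 * (2 + lam960 q a l) ^ 2) (6 * xd a) := by
    refine Up.mono (by
      repeat' (first
            | with_reducible exact Up.const _
            | with_reducible exact Up.self
            | with_reducible exact Up.inv_self
            | with_reducible exact Up.pow_self _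
            | with_reducible exact Up.pow_self_nat _
            | with_reducible exact Up.inv_pow_self _
            | with_reducible exact up_cF ha
            | with_reducible exact up_cD ha
            | with_reducible exact up_cS ha
            | with_reducible exact up_cS_inv _
            | with_reducible exact up_cR
            | with_reducible exact up_cR_inv
            | with_reducible exact up_cP
            | with_reducible exact up_cM
            | with_reducible exact up_cM_inv
            | with_reducible exact up_cB
            | with_reducible exact up_cN
            | with_reducible exact up_cLam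
            | with_reducible exact up_cLam_inv
            | with_reducible exact up_cY _
            | with_reducible exact up_cY_inv _
            | with_reducible exact up_cE
            | with_reducible exact up_cE_inv
            | with_reducible exact up_log_xd ha
            | with_reducible exact up_logE_xd ha (by positivity)
            | with_reducible assumption
            | with_reducible apply Up.sub'
            | with_reducible apply Up.neg
            | with_reducible apply Up.add'
            | with_reducible apply Up.inv_mul
            | with_reducible apply Up.mul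
            | with_reducible apply Up.inv_div
            | with_reducible apply Up.inv_pow
            | with_reducible apply Up.pow
            | with_reducible apply Up.inv_inv
            | with_reducible apply Up.div
            | with_reducible apply Up.sqrt
            | with_reducible apply Up.abs
            | with_reducible apply Up.max)) (by
      (
            try simp only [mul_add, add_mul, Nat.cast_ofNat,
              mul_max_of_nonneg _ _ (show (0:ℝ) ≤ 2 by norm_num),
              mul_max_of_nonneg _ _ (show (0:ℝ) ≤ 3 by norm_num),
              mul_max_of_nonneg _ _ (show (0:ℝ) ≤ 4 by norm_num),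
              ← max_add_add_right, ← max_add_add_left, max_lt_iff, max_le_iff,
              ← max_div_div_right (show (0:ℝ) ≤ 2 by norm_num), max_self]
            try and_intros
            all_goals (
              try simp only [xd, xs, xr, xm, xn, xlam, xy, xom, xu, xc]
              first | linarith | (norm_num; done) | (norm_num; linarith))))
  refine h2.congr' (Eventually.of_forall fun l => ?_)
  simp [c2n960]

theorem up_bm960 : Up bm960 (2 * xm) := by
  have ha : (0 : ℝ) < 1 := one_pos
  have h2 : Up (fun l => (2 * (cB l : ℝ) + 1) ^ 2) (2 * xm) := by
    refine Up.mono (by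
      repeat' (first
            | with_reducible exact Up.const _
            | with_reducible exact Up.self
            | with_reducible exact Up.inv_self
            | with_reducible exact Up.pow_self _
            | with_reducible exact Up.pow_self_nat _
            | with_reducible exact Up.inv_pow_self _
            | with_reducible exact up_cF ha
            | with_reducible exact up_cD ha
            | with_reducible exact up_cS ha
            | with_reducible exact up_cS_inv _
            | with_reducible exact up_cR
            | with_reducible exact up_cR_inv
            | with_reducible exact up_cP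
            | with_reducible exact up_cM
            | with_reducible exact up_cM_inv
            | with_reducible exact up_cB
            | with_reducible exact up_cN
            | with_reducible exact up_cLam
            | with_reducible exact up_cLam_inv
            | with_reducible exact up_cY _
            | with_reducible exact up_cY_inv _
            | with_reducible exact up_cE
            | with_reducible exact up_cE_inv
            | with_reducible exact up_log_xd ha
            | with_reducible exact up_logE_xd ha (by positivity)
            | with_reducible assumption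
            | with_reducible apply Up.sub'
            | with_reducible apply Up.neg
            | with_reducible apply Up.add'
            | with_reducible apply Up.inv_mul
            | with_reducible apply Up.mul
            | with_reducible apply Up.inv_div
            | with_reducible apply Up.inv_pow
            | with_reducible apply Up.pow
            | with_reducible apply Up.inv_inv
            | with_reducible apply Up.div
            | with_reducible apply Up.sqrt
            | with_reducible apply Up.abs
            | with_reducible apply Up.max)) (by
      (
            try simp only [mul_add, add_mul, Nat.cast_ofNat,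
              mul_max_of_nonneg _ _ (show (0:ℝ) ≤ 2 by norm_num),
              mul_max_of_nonneg _ _ (show (0:ℝ) ≤ 3 by norm_num),
              mul_max_of_nonneg _ _ (show (0:ℝ) ≤ 4 by norm_num),
              ← max_add_add_right, ← max_add_add_left, max_lt_iff, max_le_iff,
              ← max_div_div_right (show (0:ℝ) ≤ 2 by norm_num), max_self]
            try and_intros
            all_goals (
              try simp only [xd, xs, xr, xm, xn, xlam, xy, xom, xu, xc]
              first | linarith | (norm_num; done) | (norm_num; linarith))))
  refine h2.congr' (Eventually.of_forall fun l => ?_)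
  simp [bm960]

theorem up_h1n960 : Up h1n960 (-(1 / 8)) := Up.pow_self _

theorem up_h1n960_inv : Up (fun l => (h1n960 l)⁻¹) (1 / 8) := by
  have h := Up.inv_pow_self (-(1 / 8 : ℝ))
  rw [neg_neg] at h
  exact h

theorem up_cY_pos {a : ℝ} {l : ℕ} (hl : 1 ≤ l) : 0 < cY a l :=
  Real.rpow_pos_of_pos (by exact_mod_cast hl) _

theorem lam960_nonneg {a : ℝ} {q l : ℕ} (hq : 1 ≤ q) (hl : 1 ≤ l) : 0 ≤ lam960 q a l := by
  have h1 := cE_pos hl
  have h2 := cE_le_one hl
  have h3 : (1 : ℝ) ≤ q := by exact_mod_cast hq
  refine mul_nonneg (Real.log_nonneg ?_) (sq_nonneg _)
  rw [le_div_iff₀ h1]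
  nlinarith

/-- **side conditions** of the sum over the local terms -/
theorem ev_s1side {a : ℝ} (ha : 0 < a) (ha1 : a ≤ 1) {q : ℕ} (hq : 1 ≤ q) :
    ∀ᶠ l : ℕ in atTop, 1 ≤ l ∧ 0 < cE l ∧ cE l ≤ 1 / 2 ∧ Par.cD a l ≤ 3 * cR l ∧
      4 * Par.cD a l + 4 * (3 * cR l) < cP l ∧ 8 * Par.cD a l < cP l ∧ 0 < cM l ∧
      2 * Par.cD a l ≤ cM l ∧ cP l + 4 * Par.cD a l ≤ bw a l ∧ 0 < cY a l ∧
      cY a l * (8 * (1 + lc960 q a l)) ≤ 1 ∧ 0 ≤ lam960 q a l ∧ 0 < h1n960 l ∧
      h1n960 l * (4 * (1 + lam960 q a l)) ≤ 1 ∧ 2 * cM l ≤ cB l ∧ 2 * Par.cD a l ≤ cB l ∧
      cM l ≤ 3 * l := by
  have h0 := e0_pos ha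
  have h1 := e0_le ha1
  have e1 : ∀ᶠ l : ℕ in atTop, cE l ≤ 1 / 2 :=
    Up.ev_const (by norm_num) up_cE (by norm_num)
  have hlc := up_lc960 ha hq
  have hlam := up_lam960 ha hq
  have hh1 := up_h1n960
  have e2 : ∀ᶠ l : ℕ in atTop, cY a l * (8 * (1 + lc960 q a l)) ≤ 1 :=
    Up.ev_const one_pos (by
      repeat' (first
            | with_reducible exact Up.const _
            | with_reducible exact Up.self
            | with_reducible exact Up.inv_self
            | with_reducible exact Up.pow_self _
            | with_reducible exact Up.pow_self_nat _
            | with_reducible exact Up.inv_pow_self _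
            | with_reducible exact up_cF ha
            | with_reducible exact up_cD ha
            | with_reducible exact up_cS ha
            | with_reducible exact up_cS_inv _
            | with_reducible exact up_cR
            | with_reducible exact up_cR_inv
            | with_reducible exact up_cP
            | with_reducible exact up_cM
            | with_reducible exact up_cM_inv
            | with_reducible exact up_cB
            | with_reducible exact up_cN
            | with_reducible exact up_cLam
            | with_reducible exact up_cLam_inv
            | with_reducible exact up_cY _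
            | with_reducible exact up_cY_inv _
            | with_reducible exact up_cE
            | with_reducible exact up_cE_inv
            | with_reducible exact up_log_xd ha
            | with_reducible exact up_logE_xd ha (by positivity)
            | with_reducible assumption
            | with_reducible apply Up.sub'
            | with_reducible apply Up.neg
            | with_reducible apply Up.add'
            | with_reducible apply Up.inv_mul
            | with_reducible apply Up.mul
            | with_reducible apply Up.inv_div
            | with_reducible apply Up.inv_pow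
            | with_reducible apply Up.pow
            | with_reducible apply Up.inv_inv
            | with_reducible apply Up.div
            | with_reducible apply Up.sqrt
            | with_reducible apply Up.abs
            | with_reducible apply Up.max)) (by
      (
            try simp only [mul_add, add_mul, Nat.cast_ofNat,
              mul_max_of_nonneg _ _ (show (0:ℝ) ≤ 2 by norm_num),
              mul_max_of_nonneg _ _ (show (0:ℝ) ≤ 3 by norm_num),
              mul_max_of_nonneg _ _ (show (0:ℝ) ≤ 4 by norm_num),
              ← max_add_add_right, ← max_add_add_left, max_lt_iff, max_le_iff,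
              ← max_div_div_right (show (0:ℝ) ≤ 2 by norm_num), max_self]
            try and_intros
            all_goals (
              try simp only [xd, xs, xr, xm, xn, xlam, xy, xom, xu, xc]
              first | linarith | (norm_num; done) | (norm_num; linarith))))
  have e3 : ∀ᶠ l : ℕ in atTop, h1n960 l * (4 * (1 + lam960 q a l)) ≤ 1 :=
    Up.ev_const one_pos (by
      repeat' (first
            | with_reducible exact Up.const _
            | with_reducible exact Up.self
            | with_reducible exact Up.inv_self
            | with_reducible exact Up.pow_self _
            | with_reducible exact Up.pow_self_nat _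
            | with_reducible exact Up.inv_pow_self _
            | with_reducible exact up_cF ha
            | with_reducible exact up_cD ha
            | with_reducible exact up_cS ha
            | with_reducible exact up_cS_inv _
            | with_reducible exact up_cR
            | with_reducible exact up_cR_inv
            | with_reducible exact up_cP
            | with_reducible exact up_cM
            | with_reducible exact up_cM_inv
            | with_reducible exact up_cB
            | with_reducible exact up_cN
            | with_reducible exact up_cLam
            | with_reducible exact up_cLam_inv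
            | with_reducible exact up_cY _
            | with_reducible exact up_cY_inv _
            | with_reducible exact up_cE
            | with_reducible exact up_cE_inv
            | with_reducible exact up_log_xd ha
            | with_reducible exact up_logE_xd ha (by positivity)
            | with_reducible assumption
            | with_reducible apply Up.sub'
            | with_reducible apply Up.neg
            | with_reducible apply Up.add'
            | with_reducible apply Up.inv_mul
            | with_reducible apply Up.mul
            | with_reducible apply Up.inv_div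
            | with_reducible apply Up.inv_pow
            | with_reducible apply Up.pow
            | with_reducible apply Up.inv_inv
            | with_reducible apply Up.div
            | with_reducible apply Up.sqrt
            | with_reducible apply Up.abs
            | with_reducible apply Up.max)) (by
      (
            try simp only [mul_add, add_mul, Nat.cast_ofNat,
              mul_max_of_nonneg _ _ (show (0:ℝ) ≤ 2 by norm_num),
              mul_max_of_nonneg _ _ (show (0:ℝ) ≤ 3 by norm_num),
              mul_max_of_nonneg _ _ (show (0:ℝ) ≤ 4 by norm_num),
              ← max_add_add_right, ← max_add_add_left, max_lt_iff, max_le_iff,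
              ← max_div_div_right (show (0:ℝ) ≤ 2 by norm_num), max_self]
            try and_intros
            all_goals (
              try simp only [xd, xs, xr, xm, xn, xlam, xy, xom, xu, xc]
              first | linarith | (norm_num; done) | (norm_num; linarith))))
  have e4 : ∀ᶠ l : ℕ in atTop, |(cM l : ℝ)| ≤ 1 * (l : ℝ) ^ (1 : ℝ) :=
    up_cM.le (by unfold xm; norm_num) one_pos
  filter_upwards [e1, e2, e3, e4, ev_one, ev_cP_cM 2] with l h2 h3 h4 h5 hl h6
  have h7 := cD_cS ha hl
  have h8 := cS_cR ha ha1 hl
  have h9 : cP l = 16 * cR l := rfl
  have h10 : 1 ≤ cM l := one_le_sc hl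
  have h11 : 1 ≤ cR l := by
    have : 1 ≤ sc xr l := one_le_sc hl
    unfold cR; omega
  have h12 : cB l = 8 * cM l := rfl
  have h13 : bw a l = cP l + 8 * Par.cD a l + 8 := rfl
  have h14 : cM l ≤ 3 * l := by
    have h15 : (cM l : ℝ) ≤ l := by
      have := (le_abs_self _).trans h5
      rwa [one_mul, Real.rpow_one] at this
    have h16 : cM l ≤ l := by exact_mod_cast h15
    omega
  refine ⟨hl, cE_pos hl, h2, by omega, by omega, by omega, by omega, by omega, by omega,
    up_cY_pos hl, h3, lam960_nonneg hq hl, Real.rpow_pos_of_pos (by exact_mod_cast hl) _, h4,
    by omega, by omega, h14⟩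

/-- the data with a family of deviations -/
structure IxS (q R : ℕ) (J Δ a C₁ C₂ : ℝ) (l : ℕ) extends ID q R J Δ a C₁ C₂ l where
  M : ℝ
  δ : SS L → ℝ
  exc : ℝ
  edge : ℝ
  hM : M1 q L l ≤ M
  hδ : ∀ v, 0 ≤ δ v
  hs : ∑ v ∈ two (sa7_nb d.X d.w \ d.X), δ v ≤ (l : ℝ) ^ ((11 : ℝ) / 10)
  exc0 : 0 ≤ exc
  exc1 : exc ≤ 216 * ((l : ℝ) ^ 2 * ((3 * cR l : ℕ) / cM l)) +
    2 * (1536 * (9 * (l : ℝ) ^ 2) * (Par.cD a l / cS a l))
  edge0 : 0 ≤ edge
  edge1 : edge ≤ 216 * ((l : ℝ) ^ 2 * (Par.cD a l / cM l)) +
    2 * (32 * (2 * bw a l + 1) * (9 * (l : ℝ) ^ 2 / d.w))

/-- abbreviation for the family of all data with deviations -/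
abbrev IS (q R : ℕ) (J Δ a C₁ C₂ : ℝ) : ℕ → Type := fun l => IxS q R J Δ a C₁ C₂ l

variable {q R : ℕ} {J Δ a C₁ C₂ : ℝ}

theorem upS_th (ha1 : a ≤ 1) :
    UpD (ι := IS q R J Δ a C₁ C₂) (fun l i => i.d.θ) (xu a + xom a - 1) := by
  obtain ⟨C, hC, h⟩ := up_th960 (q := q) (R := R) (J := J) (Δ := Δ) (C₁ := C₁) (C₂ := C₂) ha1
  exact ⟨C, hC, h.mono fun l hl i => hl i.toID⟩

theorem upS_w (ha1 : a ≤ 1) :
    UpD (ι := IS q R J Δ a C₁ C₂) (fun l i => ((i.d.w : ℝ))⁻¹) (-(1 - xom a)) := by
  obtain ⟨C, hC, h⟩ := up_w960 (q := q) (R := R) (J := J) (Δ := Δ) (C₁ := C₁) (C₂ := C₂) ha1
  exact ⟨C, hC, h.mono fun l hl i => hl i.toID⟩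

theorem upS_N : UpD (ι := IS q R J Δ a C₁ C₂)
    (fun l i => (((two (sa7_nb i.d.X i.d.w \ i.d.X)).card : ℕ) : ℝ)) 2 :=
  by
  obtain ⟨C, hC, h⟩ := up_two960 (q := q) (R := R) (J := J) (Δ := Δ) (a := a) (C₁ := C₁) (C₂ := C₂)
  exact ⟨C, hC, h.mono fun l hl i => hl i.toID⟩

theorem upS_sum : UpD (ι := IS q R J Δ a C₁ C₂)
    (fun l i => ∑ v ∈ two (sa7_nb i.d.X i.d.w \ i.d.X), i.δ v) (11 / 10) := by
  refine UpD.intro (C := 1) (Eventually.of_forall fun l i => ?_)
  rw [abs_of_nonneg (Finset.sum_nonneg fun v _ => i.hδ v), one_mul]
  exact i.hs

theorem upS_eM (hq : 1 ≤ q) : UpD (ι := IS q R J Δ a C₁ C₂)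
    (fun l i => (q : ℝ) ^ Fintype.card (SS i.L) * Real.exp (-i.M)) (-100) := by
  refine UpD.intro (C := 1) ?_
  filter_upwards [ev_one] with l hl i
  have hq0 : (0 : ℝ) < q := by exact_mod_cast hq
  have hl0 : (0 : ℝ) < l := by exact_mod_cast hl
  rw [abs_of_nonneg (by positivity), one_mul]
  have h1 := i.hM
  unfold M1 at h1
  have h2 : (q : ℝ) ^ Fintype.card (SS i.L) = Real.exp (Fintype.card (SS i.L) * Real.log q) := by
    rw [Real.exp_nat_mul, Real.exp_log hq0]
  have h3 : (l : ℝ) ^ (-100 : ℝ) = Real.exp (-(100 * Real.log l)) := by
    rw [Real.rpow_def_of_pos hl0]
    congr 1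
    ring
  rw [h2, h3, ← Real.exp_add]
  exact Real.exp_le_exp.2 (by linarith)

theorem upS_exc (ha : 0 < a) (ha1 : a ≤ 1) :
    UpD (ι := IS q R J Δ a C₁ C₂) (fun l i => i.exc) (2 + xd a - xs a) := by
  have h0 := e0_pos ha
  have h1 := e0_le ha1
  have h2 : UpD (ι := IS q R J Δ a C₁ C₂) (fun l i => 216 * ((l : ℝ) ^ 2 * (3 * cR l / cM l)) +
    2 * (1536 * (9 * (l : ℝ) ^ 2) * (Par.cD a l / cS a l))) (2 + xd a - xs a) := by
    refine UpD.mono (by
      repeat' (first
            | with_reducible exact UpD.const _
            | with_reducible assumption
            | with_reducible exact UpD.of (Up.self)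
            | with_reducible exact UpD.of (Up.inv_self)
            | with_reducible exact UpD.of (Up.pow_self _)
            | with_reducible exact UpD.of (Up.pow_self_nat _)
            | with_reducible exact UpD.of (Up.inv_pow_self _)
            | with_reducible exact UpD.of (up_cF ha)
            | with_reducible exact UpD.of (up_cD ha)
            | with_reducible exact UpD.of (up_cS ha)
            | with_reducible exact UpD.of (up_cS_inv _)
            | with_reducible exact UpD.of (up_cR)
            | with_reducible exact UpD.of (up_cR_inv)
            | with_reducible exact UpD.of (up_cP)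
            | with_reducible exact UpD.of (up_cM)
            | with_reducible exact UpD.of (up_cM_inv)
            | with_reducible exact UpD.of (up_cB)
            | with_reducible exact UpD.of (up_cN)
            | with_reducible exact UpD.of (up_cLam)
            | with_reducible exact UpD.of (up_cLam_inv)
            | with_reducible exact UpD.of (up_cY _)
            | with_reducible exact UpD.of (up_cY_inv _)
            | with_reducible exact UpD.of (up_cE)
            | with_reducible exact UpD.of (up_cE_inv)
            | with_reducible exact UpD.of (up_log_xd ha)
            | with_reducible exact UpD.of (up_logE_xd ha (by positivity))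
            | with_reducible apply UpD.sub'
            | with_reducible apply UpD.neg
            | with_reducible apply UpD.add'
            | with_reducible apply UpD.inv_mul
            | with_reducible apply UpD.mul
            | with_reducible apply UpD.inv_div
            | with_reducible apply UpD.inv_pow
            | with_reducible apply UpD.pow
            | with_reducible apply UpD.inv_inv
            | with_reducible apply UpD.div
            | with_reducible apply UpD.sqrt
            | with_reducible apply UpD.abs
            | with_reducible apply UpD.max)) (by
      (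
            try simp only [mul_add, add_mul, Nat.cast_ofNat,
              mul_max_of_nonneg _ _ (show (0:ℝ) ≤ 2 by norm_num),
              mul_max_of_nonneg _ _ (show (0:ℝ) ≤ 3 by norm_num),
              mul_max_of_nonneg _ _ (show (0:ℝ) ≤ 4 by norm_num),
              ← max_add_add_right, ← max_add_add_left, max_lt_iff, max_le_iff,
              ← max_div_div_right (show (0:ℝ) ≤ 2 by norm_num), max_self]
            try and_intros
            all_goals (
              try simp only [xd, xs, xr, xm, xn, xlam, xy, xom, xu, xc]
              first | linarith | (norm_num; done) | (norm_num; linarith))))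
  refine h2.of_le' (Eventually.of_forall fun l i => ⟨i.exc0, ?_⟩)
  have := i.exc1
  push_cast at this
  exact this

theorem upS_edge (ha : 0 < a) (ha1 : a ≤ 1) :
    UpD (ι := IS q R J Δ a C₁ C₂) (fun l i => i.edge) (2 + xd a - xm) := by
  have h0 := e0_pos ha
  have h1 := e0_le ha1
  have h2 := up_bw ha ha1
  have h3 := upS_w (q := q) (R := R) (J := J) (Δ := Δ) (C₁ := C₁) (C₂ := C₂) ha1
  have h2' : UpD (ι := IS q R J Δ a C₁ C₂) (fun l i => (bw a l : ℝ)) xr := UpD.of h2
  have h4 : UpD (ι := IS q R J Δ a C₁ C₂) (fun l i => 216 * ((l : ℝ) ^ 2 * (Par.cD a l / cM l)) +
    2 * (32 * (2 * bw a l + 1) * (9 * (l : ℝ) ^ 2 / i.d.w))) (2 + xd a - xm) := by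
    refine UpD.mono (by
      repeat' (first
            | with_reducible exact UpD.const _
            | with_reducible assumption
            | with_reducible exact UpD.of (Up.self)
            | with_reducible exact UpD.of (Up.inv_self)
            | with_reducible exact UpD.of (Up.pow_self _)
            | with_reducible exact UpD.of (Up.pow_self_nat _)
            | with_reducible exact UpD.of (Up.inv_pow_self _)
            | with_reducible exact UpD.of (up_cF ha)
            | with_reducible exact UpD.of (up_cD ha)
            | with_reducible exact UpD.of (up_cS ha)
            | with_reducible exact UpD.of (up_cS_inv _)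
            | with_reducible exact UpD.of (up_cR)
            | with_reducible exact UpD.of (up_cR_inv)
            | with_reducible exact UpD.of (up_cP)
            | with_reducible exact UpD.of (up_cM)
            | with_reducible exact UpD.of (up_cM_inv)
            | with_reducible exact UpD.of (up_cB)
            | with_reducible exact UpD.of (up_cN)
            | with_reducible exact UpD.of (up_cLam)
            | with_reducible exact UpD.of (up_cLam_inv)
            | with_reducible exact UpD.of (up_cY _)
            | with_reducible exact UpD.of (up_cY_inv _)
            | with_reducible exact UpD.of (up_cE)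
            | with_reducible exact UpD.of (up_cE_inv)
            | with_reducible exact UpD.of (up_log_xd ha)
            | with_reducible exact UpD.of (up_logE_xd ha (by positivity))
            | with_reducible apply UpD.sub'
            | with_reducible apply UpD.neg
            | with_reducible apply UpD.add'
            | with_reducible apply UpD.inv_mul
            | with_reducible apply UpD.mul
            | with_reducible apply UpD.inv_div
            | with_reducible apply UpD.inv_pow
            | with_reducible apply UpD.pow
            | with_reducible apply UpD.inv_inv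
            | with_reducible apply UpD.div
            | with_reducible apply UpD.sqrt
            | with_reducible apply UpD.abs
            | with_reducible apply UpD.max)) (by
      (
            try simp only [mul_add, add_mul, Nat.cast_ofNat,
              mul_max_of_nonneg _ _ (show (0:ℝ) ≤ 2 by norm_num),
              mul_max_of_nonneg _ _ (show (0:ℝ) ≤ 3 by norm_num),
              mul_max_of_nonneg _ _ (show (0:ℝ) ≤ 4 by norm_num),
              ← max_add_add_right, ← max_add_add_left, max_lt_iff, max_le_iff,
              ← max_div_div_right (show (0:ℝ) ≤ 2 by norm_num), max_self]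
            try and_intros
            all_goals (
              try simp only [xd, xs, xr, xm, xn, xlam, xy, xom, xu, xc]
              first | linarith | (norm_num; done) | (norm_num; linarith))))
  exact h4.of_le' (Eventually.of_forall fun l i => ⟨i.edge0, i.edge1⟩)

/-! ### the three sums -/

theorem sumAc960 {L q : ℕ} (s : Finset (SS L)) (δ : SS L → ℝ) (M ε bm Lc h p : ℝ) :
    ∑ v ∈ s, S1.Ac L q M ε bm Lc h (p + δ v) (δ v) =
      s.card * (p / h ^ 2 + S1.Bc h * (4 * ε * bm +
        2 * ((q : ℝ) ^ Fintype.card (SS L) * Real.exp (-M))) +
          128 * Real.exp 1 * (1 + Lc) ^ 4 * h ^ 2) +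
      (1 / h ^ 2 + S1.Bc h * (4 * (bm * Real.log (q / ε)))) * ∑ v ∈ s, δ v := by
  have h1 : ∀ v ∈ s, S1.Ac L q M ε bm Lc h (p + δ v) (δ v) =
      (p / h ^ 2 + S1.Bc h * (4 * ε * bm +
        2 * ((q : ℝ) ^ Fintype.card (SS L) * Real.exp (-M))) +
          128 * Real.exp 1 * (1 + Lc) ^ 4 * h ^ 2) +
      (1 / h ^ 2 + S1.Bc h * (4 * (bm * Real.log (q / ε)))) * δ v := by
    intro v _
    unfold S1.Ac
    ring
  rw [Finset.sum_congr rfl h1, Finset.sum_add_distrib, Finset.sum_const, nsmul_eq_mul,
    ← Finset.mul_sum]

theorem sumSl960 {L : ℕ} (s : Finset (SS L)) (δ : SS L → ℝ) (ε bm Λ h p : ℝ) :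
    ∑ v ∈ s, Gd.slErr p (δ v) ε bm Λ h =
      s.card * (4 * (2 * p + 64 * Real.pi * Real.cosh Real.pi ^ 2 * h * (ε * bm)) / h ^ 2 +
        64 * (1 + Λ) ^ 4 * h ^ 2) + 4 / h ^ 2 * ∑ v ∈ s, δ v := by
  have h1 : ∀ v ∈ s, Gd.slErr p (δ v) ε bm Λ h =
      (4 * (2 * p + 64 * Real.pi * Real.cosh Real.pi ^ 2 * h * (ε * bm)) / h ^ 2 +
        64 * (1 + Λ) ^ 4 * h ^ 2) + 4 / h ^ 2 * δ v := by
    intro v _
    unfold Gd.slErr
    ring
  rw [Finset.sum_congr rfl h1, Finset.sum_add_distrib, Finset.sum_const, nsmul_eq_mul,
    ← Finset.mul_sum]

theorem sumTau960 {L : ℕ} (s : Finset (SS L)) {δ : SS L → ℝ} (hδ : ∀ v, 0 ≤ δ v) (g : Gd L)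
    (q : ℕ) (ε : ℝ) {p : ℝ} (hp : 0 ≤ p) :
    ∑ v ∈ s, LFi.tauE g q ε (p + δ v) ≤
      16 * (1750 * ((g.tl : ℝ) + g.mp) ^ 3 * (1 + Real.log (q / ε))) ^ 2 *
        Real.sqrt (s.card * (s.card * p + ∑ v ∈ s, δ v)) := by
  have h1 : ∀ v ∈ s, LFi.tauE g q ε (p + δ v) =
      16 * (1750 * ((g.tl : ℝ) + g.mp) ^ 3 * (1 + Real.log (q / ε))) ^ 2 *
        Real.sqrt (p + δ v) := by
    intro v _
    unfold LFi.tauE LFi.rad
    rw [div_pow, one_pow, div_div_eq_mul_div]
    ring
  rw [Finset.sum_congr rfl h1, ← Finset.mul_sum]
  refine mul_le_mul_of_nonneg_left ?_ (by positivity)
  exact sumz_sqrt s (fun v _ => le_rfl) le_rfl hp (fun v _ => hδ v) le_rfl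

theorem sumTau960_nonneg {L : ℕ} (s : Finset (SS L)) (δ : SS L → ℝ) (g : Gd L) (q : ℕ) (ε p : ℝ) :
    0 ≤ ∑ v ∈ s, LFi.tauE g q ε (p + δ v) :=
  Finset.sum_nonneg fun v _ => by
    unfold LFi.tauE
    positivity

theorem upS_Ac (ha : 0 < a) (ha1 : a ≤ 1) (hq : 1 ≤ q) : UpD (ι := IS q R J Δ a C₁ C₂)
    (fun l i => ∑ v ∈ two (sa7_nb i.d.X i.d.w \ i.d.X),
      S1.Ac i.L q i.M (cE l) (bm960 l) (lc960 q a l) (cY a l) ((l : ℝ) ^ (-20 : ℝ) + i.δ v) (i.δ v))
      (2 + 12 * xd a - 2 * xy a) := by
  have h0 := e0_pos ha
  have h1 := e0_le ha1
  have hq0 : (0 : ℝ) < q := by exact_mod_cast hq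
  have hN := upS_N (q := q) (R := R) (J := J) (Δ := Δ) (a := a) (C₁ := C₁) (C₂ := C₂)
  have hs := upS_sum (q := q) (R := R) (J := J) (Δ := Δ) (a := a) (C₁ := C₁) (C₂ := C₂)
  have he := upS_eM (R := R) (J := J) (Δ := Δ) (a := a) (C₁ := C₁) (C₂ := C₂) hq
  have hb : UpD (ι := IS q R J Δ a C₁ C₂) (fun l i => bm960 l) (2 * xm) := UpD.of up_bm960
  have hlc : UpD (ι := IS q R J Δ a C₁ C₂) (fun l i => lc960 q a l) (3 * xd a) :=
    UpD.of (up_lc960 ha hq)
  have hB : UpD (ι := IS q R J Δ a C₁ C₂) (fun l i => S1.Bc (cY a l)) (xy a) := by
    unfold S1.Bc
    refine UpD.mono (by
      repeat' (first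
            | with_reducible exact UpD.const _
            | with_reducible assumption
            | with_reducible exact UpD.of (Up.self)
            | with_reducible exact UpD.of (Up.inv_self)
            | with_reducible exact UpD.of (Up.pow_self _)
            | with_reducible exact UpD.of (Up.pow_self_nat _)
            | with_reducible exact UpD.of (Up.inv_pow_self _)
            | with_reducible exact UpD.of (up_cF ha)
            | with_reducible exact UpD.of (up_cD ha)
            | with_reducible exact UpD.of (up_cS ha)
            | with_reducible exact UpD.of (up_cS_inv _)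
            | with_reducible exact UpD.of (up_cR)
            | with_reducible exact UpD.of (up_cR_inv)
            | with_reducible exact UpD.of (up_cP)
            | with_reducible exact UpD.of (up_cM)
            | with_reducible exact UpD.of (up_cM_inv)
            | with_reducible exact UpD.of (up_cB)
            | with_reducible exact UpD.of (up_cN)
            | with_reducible exact UpD.of (up_cLam)
            | with_reducible exact UpD.of (up_cLam_inv)
            | with_reducible exact UpD.of (up_cY _)
            | with_reducible exact UpD.of (up_cY_inv _)
            | with_reducible exact UpD.of (up_cE)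
            | with_reducible exact UpD.of (up_cE_inv)
            | with_reducible exact UpD.of (up_log_xd ha)
            | with_reducible exact UpD.of (up_logE_xd ha (by positivity))
            | with_reducible apply UpD.sub'
            | with_reducible apply UpD.neg
            | with_reducible apply UpD.add'
            | with_reducible apply UpD.inv_mul
            | with_reducible apply UpD.mul
            | with_reducible apply UpD.inv_div
            | with_reducible apply UpD.inv_pow
            | with_reducible apply UpD.pow
            | with_reducible apply UpD.inv_inv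
            | with_reducible apply UpD.div
            | with_reducible apply UpD.sqrt
            | with_reducible apply UpD.abs
            | with_reducible apply UpD.max)) (by
      (
            try simp only [mul_add, add_mul, Nat.cast_ofNat,
              mul_max_of_nonneg _ _ (show (0:ℝ) ≤ 2 by norm_num),
              mul_max_of_nonneg _ _ (show (0:ℝ) ≤ 3 by norm_num),
              mul_max_of_nonneg _ _ (show (0:ℝ) ≤ 4 by norm_num),
              ← max_add_add_right, ← max_add_add_left, max_lt_iff, max_le_iff,
              ← max_div_div_right (show (0:ℝ) ≤ 2 by norm_num), max_self]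
            try and_intros
            all_goals (
              try simp only [xd, xs, xr, xm, xn, xlam, xy, xom, xu, xc]
              first | linarith | (norm_num; done) | (norm_num; linarith))))
  have h2 : UpD (ι := IS q R J Δ a C₁ C₂)
    (fun l i => ((two (sa7_nb i.d.X i.d.w \ i.d.X)).card : ℝ) *
        ((l : ℝ) ^ (-20 : ℝ) / cY a l ^ 2 + S1.Bc (cY a l) * (4 * cE l * bm960 l +
        2 * ((q : ℝ) ^ Fintype.card (SS i.L) * Real.exp (-i.M))) +
          128 * Real.exp 1 * (1 + lc960 q a l) ^ 4 * cY a l ^ 2) +
      (1 / cY a l ^ 2 + S1.Bc (cY a l) * (4 * (bm960 l * Real.log (q / cE l)))) *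
        ∑ v ∈ two (sa7_nb i.d.X i.d.w \ i.d.X), i.δ v) (2 + 12 * xd a - 2 * xy a) := by
    refine UpD.mono (by
      repeat' (first
            | with_reducible exact UpD.const _
            | with_reducible assumption
            | with_reducible exact UpD.of (Up.self)
            | with_reducible exact UpD.of (Up.inv_self)
            | with_reducible exact UpD.of (Up.pow_self _)
            | with_reducible exact UpD.of (Up.pow_self_nat _)
            | with_reducible exact UpD.of (Up.inv_pow_self _)
            | with_reducible exact UpD.of (up_cF ha)
            | with_reducible exact UpD.of (up_cD ha)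
            | with_reducible exact UpD.of (up_cS ha)
            | with_reducible exact UpD.of (up_cS_inv _)
            | with_reducible exact UpD.of (up_cR)
            | with_reducible exact UpD.of (up_cR_inv)
            | with_reducible exact UpD.of (up_cP)
            | with_reducible exact UpD.of (up_cM)
            | with_reducible exact UpD.of (up_cM_inv)
            | with_reducible exact UpD.of (up_cB)
            | with_reducible exact UpD.of (up_cN)
            | with_reducible exact UpD.of (up_cLam)
            | with_reducible exact UpD.of (up_cLam_inv)
            | with_reducible exact UpD.of (up_cY _)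
            | with_reducible exact UpD.of (up_cY_inv _)
            | with_reducible exact UpD.of (up_cE)
            | with_reducible exact UpD.of (up_cE_inv)
            | with_reducible exact UpD.of (up_log_xd ha)
            | with_reducible exact UpD.of (up_logE_xd ha (by positivity))
            | with_reducible apply UpD.sub'
            | with_reducible apply UpD.neg
            | with_reducible apply UpD.add'
            | with_reducible apply UpD.inv_mul
            | with_reducible apply UpD.mul
            | with_reducible apply UpD.inv_div
            | with_reducible apply UpD.inv_pow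
            | with_reducible apply UpD.pow
            | with_reducible apply UpD.inv_inv
            | with_reducible apply UpD.div
            | with_reducible apply UpD.sqrt
            | with_reducible apply UpD.abs
            | with_reducible apply UpD.max)) (by
      (
            try simp only [mul_add, add_mul, Nat.cast_ofNat,
              mul_max_of_nonneg _ _ (show (0:ℝ) ≤ 2 by norm_num),
              mul_max_of_nonneg _ _ (show (0:ℝ) ≤ 3 by norm_num),
              mul_max_of_nonneg _ _ (show (0:ℝ) ≤ 4 by norm_num),
              ← max_add_add_right, ← max_add_add_left, max_lt_iff, max_le_iff,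
              ← max_div_div_right (show (0:ℝ) ≤ 2 by norm_num), max_self]
            try and_intros
            all_goals (
              try simp only [xd, xs, xr, xm, xn, xlam, xy, xom, xu, xc]
              first | linarith | (norm_num; done) | (norm_num; linarith))))
  refine h2.congr' fun l i => ?_
  rw [sumAc960]

theorem upS_Sl (ha : 0 < a) (ha1 : a ≤ 1) (hq : 1 ≤ q) : UpD (ι := IS q R J Δ a C₁ C₂)
    (fun l i => ∑ v ∈ two (sa7_nb i.d.X i.d.w \ i.d.X),
      Gd.slErr ((l : ℝ) ^ (-20 : ℝ)) (i.δ v) (cE l) (bm960 l) (lam960 q a l) (h1n960 l))
      (2 - 1 / 4 + 12 * xd a) := by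
  have h0 := e0_pos ha
  have h1 := e0_le ha1
  have hq0 : (0 : ℝ) < q := by exact_mod_cast hq
  have hN := upS_N (q := q) (R := R) (J := J) (Δ := Δ) (a := a) (C₁ := C₁) (C₂ := C₂)
  have hs := upS_sum (q := q) (R := R) (J := J) (Δ := Δ) (a := a) (C₁ := C₁) (C₂ := C₂)
  have hb : UpD (ι := IS q R J Δ a C₁ C₂) (fun l i => bm960 l) (2 * xm) := UpD.of up_bm960
  have hlam : UpD (ι := IS q R J Δ a C₁ C₂) (fun l i => lam960 q a l) (3 * xd a) :=
    UpD.of (up_lam960 ha hq)
  have hh : UpD (ι := IS q R J Δ a C₁ C₂) (fun l i => h1n960 l) (-(1 / 8)) := UpD.of up_h1n960
  have hh' : UpD (ι := IS q R J Δ a C₁ C₂) (fun l i => (h1n960 l)⁻¹) (1 / 8) :=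
    UpD.of up_h1n960_inv
  have h2 : UpD (ι := IS q R J Δ a C₁ C₂)
    (fun l i => ((two (sa7_nb i.d.X i.d.w \ i.d.X)).card : ℝ) *
      (4 * (2 * (l : ℝ) ^ (-20 : ℝ) + 64 * Real.pi * Real.cosh Real.pi ^ 2 * h1n960 l *
        (cE l * bm960 l)) / h1n960 l ^ 2 + 64 * (1 + lam960 q a l) ^ 4 * h1n960 l ^ 2) +
        4 / h1n960 l ^ 2 * ∑ v ∈ two (sa7_nb i.d.X i.d.w \ i.d.X), i.δ v)
      (2 - 1 / 4 + 12 * xd a) := by
    refine UpD.mono (by
      repeat' (first
            | with_reducible exact UpD.const _
            | with_reducible assumption
            | with_reducible exact UpD.of (Up.self)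
            | with_reducible exact UpD.of (Up.inv_self)
            | with_reducible exact UpD.of (Up.pow_self _)
            | with_reducible exact UpD.of (Up.pow_self_nat _)
            | with_reducible exact UpD.of (Up.inv_pow_self _)
            | with_reducible exact UpD.of (up_cF ha)
            | with_reducible exact UpD.of (up_cD ha)
            | with_reducible exact UpD.of (up_cS ha)
            | with_reducible exact UpD.of (up_cS_inv _)
            | with_reducible exact UpD.of (up_cR)
            | with_reducible exact UpD.of (up_cR_inv)
            | with_reducible exact UpD.of (up_cP)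
            | with_reducible exact UpD.of (up_cM)
            | with_reducible exact UpD.of (up_cM_inv)
            | with_reducible exact UpD.of (up_cB)
            | with_reducible exact UpD.of (up_cN)
            | with_reducible exact UpD.of (up_cLam)
            | with_reducible exact UpD.of (up_cLam_inv)
            | with_reducible exact UpD.of (up_cY _)
            | with_reducible exact UpD.of (up_cY_inv _)
            | with_reducible exact UpD.of (up_cE)
            | with_reducible exact UpD.of (up_cE_inv)
            | with_reducible exact UpD.of (up_log_xd ha)
            | with_reducible exact UpD.of (up_logE_xd ha (by positivity))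
            | with_reducible apply UpD.sub'
            | with_reducible apply UpD.neg
            | with_reducible apply UpD.add'
            | with_reducible apply UpD.inv_mul
            | with_reducible apply UpD.mul
            | with_reducible apply UpD.inv_div
            | with_reducible apply UpD.inv_pow
            | with_reducible apply UpD.pow
            | with_reducible apply UpD.inv_inv
            | with_reducible apply UpD.div
            | with_reducible apply UpD.sqrt
            | with_reducible apply UpD.abs
            | with_reducible apply UpD.max)) (by
      (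
            try simp only [mul_add, add_mul, Nat.cast_ofNat,
              mul_max_of_nonneg _ _ (show (0:ℝ) ≤ 2 by norm_num),
              mul_max_of_nonneg _ _ (show (0:ℝ) ≤ 3 by norm_num),
              mul_max_of_nonneg _ _ (show (0:ℝ) ≤ 4 by norm_num),
              ← max_add_add_right, ← max_add_add_left, max_lt_iff, max_le_iff,
              ← max_div_div_right (show (0:ℝ) ≤ 2 by norm_num), max_self]
            try and_intros
            all_goals (
              try simp only [xd, xs, xr, xm, xn, xlam, xy, xom, xu, xc]
              first | linarith | (norm_num; done) | (norm_num; linarith))))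
  refine h2.congr' fun l i => ?_
  rw [sumSl960]

theorem upS_Tau (ha : 0 < a) (ha1 : a ≤ 1) (hq : 1 ≤ q) : UpD (ι := IS q R J Δ a C₁ C₂)
    (fun l i => ∑ v ∈ two (sa7_nb i.d.X i.d.w \ i.d.X),
      LFi.tauE i.d.g q (cE l) ((l : ℝ) ^ (-20 : ℝ) + i.δ v)) (8 / 5) := by
  have h0 := e0_pos ha
  have h1 := e0_le ha1
  have hq0 : (0 : ℝ) < q := by exact_mod_cast hq
  have hN := upS_N (q := q) (R := R) (J := J) (Δ := Δ) (a := a) (C₁ := C₁) (C₂ := C₂)
  have hs := upS_sum (q := q) (R := R) (J := J) (Δ := Δ) (a := a) (C₁ := C₁) (C₂ := C₂)
  have h2 : UpD (ι := IS q R J Δ a C₁ C₂)
    (fun l i => 16 * (1750 * ((cM l : ℝ) + cP l) ^ 3 * (1 + Real.log (q / cE l))) ^ 2 *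
        Real.sqrt (((two (sa7_nb i.d.X i.d.w \ i.d.X)).card : ℝ) *
          (((two (sa7_nb i.d.X i.d.w \ i.d.X)).card : ℝ) * (l : ℝ) ^ (-20 : ℝ) +
            ∑ v ∈ two (sa7_nb i.d.X i.d.w \ i.d.X), i.δ v))) (8 / 5) := by
    refine UpD.mono (by
      repeat' (first
            | with_reducible exact UpD.const _
            | with_reducible assumption
            | with_reducible exact UpD.of (Up.self)
            | with_reducible exact UpD.of (Up.inv_self)
            | with_reducible exact UpD.of (Up.pow_self _)
            | with_reducible exact UpD.of (Up.pow_self_nat _)
            | with_reducible exact UpD.of (Up.inv_pow_self _)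
            | with_reducible exact UpD.of (up_cF ha)
            | with_reducible exact UpD.of (up_cD ha)
            | with_reducible exact UpD.of (up_cS ha)
            | with_reducible exact UpD.of (up_cS_inv _)
            | with_reducible exact UpD.of (up_cR)
            | with_reducible exact UpD.of (up_cR_inv)
            | with_reducible exact UpD.of (up_cP)
            | with_reducible exact UpD.of (up_cM)
            | with_reducible exact UpD.of (up_cM_inv)
            | with_reducible exact UpD.of (up_cB)
            | with_reducible exact UpD.of (up_cN)
            | with_reducible exact UpD.of (up_cLam)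
            | with_reducible exact UpD.of (up_cLam_inv)
            | with_reducible exact UpD.of (up_cY _)
            | with_reducible exact UpD.of (up_cY_inv _)
            | with_reducible exact UpD.of (up_cE)
            | with_reducible exact UpD.of (up_cE_inv)
            | with_reducible exact UpD.of (up_log_xd ha)
            | with_reducible exact UpD.of (up_logE_xd ha (by positivity))
            | with_reducible apply UpD.sub'
            | with_reducible apply UpD.neg
            | with_reducible apply UpD.add'
            | with_reducible apply UpD.inv_mul
            | with_reducible apply UpD.mul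
            | with_reducible apply UpD.inv_div
            | with_reducible apply UpD.inv_pow
            | with_reducible apply UpD.pow
            | with_reducible apply UpD.inv_inv
            | with_reducible apply UpD.div
            | with_reducible apply UpD.sqrt
            | with_reducible apply UpD.abs
            | with_reducible apply UpD.max)) (by
      (
            try simp only [mul_add, add_mul, Nat.cast_ofNat,
              mul_max_of_nonneg _ _ (show (0:ℝ) ≤ 2 by norm_num),
              mul_max_of_nonneg _ _ (show (0:ℝ) ≤ 3 by norm_num),
              mul_max_of_nonneg _ _ (show (0:ℝ) ≤ 4 by norm_num),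
              ← max_add_add_right, ← max_add_add_left, max_lt_iff, max_le_iff,
              ← max_div_div_right (show (0:ℝ) ≤ 2 by norm_num), max_self]
            try and_intros
            all_goals (
              try simp only [xd, xs, xr, xm, xn, xlam, xy, xom, xu, xc]
              first | linarith | (norm_num; done) | (norm_num; linarith))))
  refine h2.of_le' (Eventually.of_forall fun l i => ⟨sumTau960_nonneg _ _ _ _ _ _, ?_⟩)
  have h3 := sumTau960 (two (sa7_nb i.d.X i.d.w \ i.d.X)) i.hδ i.d.g q (cE l)
    (p := (l : ℝ) ^ (-20 : ℝ)) (Real.rpow_nonneg (Nat.cast_nonneg l) _)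
  rw [i.d.tl, i.d.mp] at h3
  exact h3

/-! ### the total -/

/-- right side of the Markov bound -/
noncomputable def thn960 (a C₁ : ℝ) (l : ℕ) : ℝ :=
  2 * (9600 * Par.cD a l * (cS a l : ℝ) ^ 2 *
    (((3 * l / cR l + 7 : ℕ) : ℝ) ^ 2 * (C₁ * (cR l : ℝ) ^ (2 - a))))

theorem up_thn960 (ha : 0 < a) (ha1 : a ≤ 1) (C₁ : ℝ) :
    Up (thn960 a C₁) (2 + xd a + 2 * xs a - a * xr) := by
  have h0 := e0_pos ha
  have h1 := e0_le ha1
  have h2 := up_tiles
  have h3 := up_cRp ha1
  unfold thn960
  refine Up.mono (by
    repeat' (first
          | with_reducible exact Up.const _
          | with_reducible exact Up.self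
          | with_reducible exact Up.inv_self
          | with_reducible exact Up.pow_self _
          | with_reducible exact Up.pow_self_nat _
          | with_reducible exact Up.inv_pow_self _
          | with_reducible exact up_cF ha
          | with_reducible exact up_cD ha
          | with_reducible exact up_cS ha
          | with_reducible exact up_cS_inv _
          | with_reducible exact up_cR
          | with_reducible exact up_cR_inv
          | with_reducible exact up_cP
          | with_reducible exact up_cM
          | with_reducible exact up_cM_inv
          | with_reducible exact up_cB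
          | with_reducible exact up_cN
          | with_reducible exact up_cLam
          | with_reducible exact up_cLam_inv
          | with_reducible exact up_cY _
          | with_reducible exact up_cY_inv _
          | with_reducible exact up_cE
          | with_reducible exact up_cE_inv
          | with_reducible exact up_log_xd ha
          | with_reducible exact up_logE_xd ha (by positivity)
          | with_reducible assumption
          | with_reducible apply Up.sub'
          | with_reducible apply Up.neg
          | with_reducible apply Up.add'
          | with_reducible apply Up.inv_mul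
          | with_reducible apply Up.mul
          | with_reducible apply Up.inv_div
          | with_reducible apply Up.inv_pow
          | with_reducible apply Up.pow
          | with_reducible apply Up.inv_inv
          | with_reducible apply Up.div
          | with_reducible apply Up.sqrt
          | with_reducible apply Up.abs
          | with_reducible apply Up.max)) (by
    (
          try simp only [mul_add, add_mul, Nat.cast_ofNat,
            mul_max_of_nonneg _ _ (show (0:ℝ) ≤ 2 by norm_num),
            mul_max_of_nonneg _ _ (show (0:ℝ) ≤ 3 by norm_num),
            mul_max_of_nonneg _ _ (show (0:ℝ) ≤ 4 by norm_num),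
            ← max_add_add_right, ← max_add_add_left, max_lt_iff, max_le_iff,
            ← max_div_div_right (show (0:ℝ) ≤ 2 by norm_num), max_self]
          try and_intros
          all_goals (
            try simp only [xd, xs, xr, xm, xn, xlam, xy, xom, xu, xc]
            first | linarith | (norm_num; done) | (norm_num; linarith))))

/-- the sum over the local terms, as a number -/
noncomputable def tot960 (q : ℕ) (a C₁ : ℝ) {R : ℕ} {J Δ C₁' C₂ : ℝ} {L l : ℕ}
    (d : CData q R J Δ a C₁' C₂ L l) (M : ℝ) (δ : SS L → ℝ) (exc edge : ℝ) : ℝ :=
  S1v.S1rhs d.θ (Par.cD a l) d.g.mp d.g.tl (c2n960 q a l)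
    (∑ v ∈ two (sa7_nb d.X d.w \ d.X),
      S1.Ac L q M (cE l) (bm960 l) (lc960 q a l) (cY a l) ((l : ℝ) ^ (-20 : ℝ) + δ v) (δ v))
    (S1.Bc (cY a l)) (thn960 a C₁ l) exc edge
    (∑ v ∈ two (sa7_nb d.X d.w \ d.X),
      Gd.slErr ((l : ℝ) ^ (-20 : ℝ)) (δ v) (cE l) (bm960 l) (lam960 q a l) (h1n960 l))
    (∑ v ∈ two (sa7_nb d.X d.w \ d.X),
      LFi.tauE d.g q (cE l) ((l : ℝ) ^ (-20 : ℝ) + δ v))

theorem upS_tot (ha : 0 < a) (ha1 : a ≤ 1) (hq : 1 ≤ q) : UpD (ι := IS q R J Δ a C₁ C₂)
    (fun l i => tot960 q a C₁ i.d i.M i.δ i.exc i.edge) (-(23 / 2 * e0 a)) := by
  have h0 := e0_pos ha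
  have h1 := e0_le ha1
  have h1' := e0_mul a
  have hθ := upS_th (q := q) (R := R) (J := J) (Δ := Δ) (C₁ := C₁) (C₂ := C₂) ha1
  have hA := upS_Ac (q := q) (R := R) (J := J) (Δ := Δ) (C₁ := C₁) (C₂ := C₂) ha ha1 hq
  have hS := upS_Sl (q := q) (R := R) (J := J) (Δ := Δ) (C₁ := C₁) (C₂ := C₂) ha ha1 hq
  have hT := upS_Tau (q := q) (R := R) (J := J) (Δ := Δ) (C₁ := C₁) (C₂ := C₂) ha ha1 hq
  have hx := upS_exc (q := q) (R := R) (J := J) (Δ := Δ) (C₁ := C₁) (C₂ := C₂) ha ha1
  have he := upS_edge (q := q) (R := R) (J := J) (Δ := Δ) (C₁ := C₁) (C₂ := C₂) ha ha1
  have hth : UpD (ι := IS q R J Δ a C₁ C₂) (fun l i => thn960 a C₁ l)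
    (2 + xd a + 2 * xs a - a * xr) := UpD.of (up_thn960 ha ha1 C₁)
  have hc2 : UpD (ι := IS q R J Δ a C₁ C₂) (fun l i => c2n960 q a l) (6 * xd a) :=
    UpD.of (up_c2n960 ha hq)
  have hB : UpD (ι := IS q R J Δ a C₁ C₂) (fun l i => S1.Bc (cY a l)) (xy a) := by
    unfold S1.Bc
    refine UpD.mono (by
      repeat' (first
            | with_reducible exact UpD.const _
            | with_reducible assumption
            | with_reducible exact UpD.of (Up.self)
            | with_reducible exact UpD.of (Up.inv_self)
            | with_reducible exact UpD.of (Up.pow_self _)
            | with_reducible exact UpD.of (Up.pow_self_nat _)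
            | with_reducible exact UpD.of (Up.inv_pow_self _)
            | with_reducible exact UpD.of (up_cF ha)
            | with_reducible exact UpD.of (up_cD ha)
            | with_reducible exact UpD.of (up_cS ha)
            | with_reducible exact UpD.of (up_cS_inv _)
            | with_reducible exact UpD.of (up_cR)
            | with_reducible exact UpD.of (up_cR_inv)
            | with_reducible exact UpD.of (up_cP)
            | with_reducible exact UpD.of (up_cM)
            | with_reducible exact UpD.of (up_cM_inv)
            | with_reducible exact UpD.of (up_cB)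
            | with_reducible exact UpD.of (up_cN)
            | with_reducible exact UpD.of (up_cLam)
            | with_reducible exact UpD.of (up_cLam_inv)
            | with_reducible exact UpD.of (up_cY _)
            | with_reducible exact UpD.of (up_cY_inv _)
            | with_reducible exact UpD.of (up_cE)
            | with_reducible exact UpD.of (up_cE_inv)
            | with_reducible exact UpD.of (up_log_xd ha)
            | with_reducible exact UpD.of (up_logE_xd ha (by positivity))
            | with_reducible apply UpD.sub'
            | with_reducible apply UpD.neg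
            | with_reducible apply UpD.add'
            | with_reducible apply UpD.inv_mul
            | with_reducible apply UpD.mul
            | with_reducible apply UpD.inv_div
            | with_reducible apply UpD.inv_pow
            | with_reducible apply UpD.pow
            | with_reducible apply UpD.inv_inv
            | with_reducible apply UpD.div
            | with_reducible apply UpD.sqrt
            | with_reducible apply UpD.abs
            | with_reducible apply UpD.max)) (by
      (
            try simp only [mul_add, add_mul, Nat.cast_ofNat,
              mul_max_of_nonneg _ _ (show (0:ℝ) ≤ 2 by norm_num),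
              mul_max_of_nonneg _ _ (show (0:ℝ) ≤ 3 by norm_num),
              mul_max_of_nonneg _ _ (show (0:ℝ) ≤ 4 by norm_num),
              ← max_add_add_right, ← max_add_add_left, max_lt_iff, max_le_iff,
              ← max_div_div_right (show (0:ℝ) ≤ 2 by norm_num), max_self]
            try and_intros
            all_goals (
              try simp only [xd, xs, xr, xm, xn, xlam, xy, xom, xu, xc]
              first | linarith | (norm_num; done) | (norm_num; linarith))))
  have h2 : UpD (ι := IS q R J Δ a C₁ C₂)
    (fun l i => 5 * i.d.θ ^ 2 * ((8 * (cD a l : ℝ) + 1) * ((8 * (cD a l : ℝ) + 1) *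
      (∑ v ∈ two (sa7_nb i.d.X i.d.w \ i.d.X),
        S1.Ac i.L q i.M (cE l) (bm960 l) (lc960 q a l) (cY a l)
          ((l : ℝ) ^ (-20 : ℝ) + i.δ v) (i.δ v)) + S1.Bc (cY a l) * thn960 a C₁ l +
      (8 * (cD a l : ℝ) + 1) * (i.exc * (4 * c2n960 q a l)) +
      (8 * (cD a l : ℝ) + 1) * (4 * (∑ v ∈ two (sa7_nb i.d.X i.d.w \ i.d.X),
        LFi.tauE i.d.g q (cE l) ((l : ℝ) ^ (-20 : ℝ) + i.δ v)))) +
    i.edge * (((8 * (cD a l : ℝ) + 1) ^ 2 + (4 * ((cP l : ℝ) + 8 * cD a l + 1)) ^ 2) *
      c2n960 q a l) +
    (4 * ((cP l : ℝ) + 4 * cM l + 1)) ^ 2 * (∑ v ∈ two (sa7_nb i.d.X i.d.w \ i.d.X),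
      Gd.slErr ((l : ℝ) ^ (-20 : ℝ)) (i.δ v) (cE l) (bm960 l) (lam960 q a l) (h1n960 l)) +
    ((8 * (cD a l : ℝ) + 1) ^ 2 + 2 * (4 * ((cP l : ℝ) + 4 * cM l + 1)) ^ 2 + 5) *
      (∑ v ∈ two (sa7_nb i.d.X i.d.w \ i.d.X),
        LFi.tauE i.d.g q (cE l) ((l : ℝ) ^ (-20 : ℝ) + i.δ v)))) (-(23 / 2 * e0 a)) := by
    refine UpD.mono (by
      repeat' (first
            | with_reducible exact UpD.const _
            | with_reducible assumption
            | with_reducible exact UpD.of (Up.self)
            | with_reducible exact UpD.of (Up.inv_self)
            | with_reducible exact UpD.of (Up.pow_self _)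
            | with_reducible exact UpD.of (Up.pow_self_nat _)
            | with_reducible exact UpD.of (Up.inv_pow_self _)
            | with_reducible exact UpD.of (up_cF ha)
            | with_reducible exact UpD.of (up_cD ha)
            | with_reducible exact UpD.of (up_cS ha)
            | with_reducible exact UpD.of (up_cS_inv _)
            | with_reducible exact UpD.of (up_cR)
            | with_reducible exact UpD.of (up_cR_inv)
            | with_reducible exact UpD.of (up_cP)
            | with_reducible exact UpD.of (up_cM)
            | with_reducible exact UpD.of (up_cM_inv)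
            | with_reducible exact UpD.of (up_cB)
            | with_reducible exact UpD.of (up_cN)
            | with_reducible exact UpD.of (up_cLam)
            | with_reducible exact UpD.of (up_cLam_inv)
            | with_reducible exact UpD.of (up_cY _)
            | with_reducible exact UpD.of (up_cY_inv _)
            | with_reducible exact UpD.of (up_cE)
            | with_reducible exact UpD.of (up_cE_inv)
            | with_reducible exact UpD.of (up_log_xd ha)
            | with_reducible exact UpD.of (up_logE_xd ha (by positivity))
            | with_reducible apply UpD.sub'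
            | with_reducible apply UpD.neg
            | with_reducible apply UpD.add'
            | with_reducible apply UpD.inv_mul
            | with_reducible apply UpD.mul
            | with_reducible apply UpD.inv_div
            | with_reducible apply UpD.inv_pow
            | with_reducible apply UpD.pow
            | with_reducible apply UpD.inv_inv
            | with_reducible apply UpD.div
            | with_reducible apply UpD.sqrt
            | with_reducible apply UpD.abs
            | with_reducible apply UpD.max)) (by
      (
            try simp only [mul_add, add_mul, Nat.cast_ofNat,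
              mul_max_of_nonneg _ _ (show (0:ℝ) ≤ 2 by norm_num),
              mul_max_of_nonneg _ _ (show (0:ℝ) ≤ 3 by norm_num),
              mul_max_of_nonneg _ _ (show (0:ℝ) ≤ 4 by norm_num),
              ← max_add_add_right, ← max_add_add_left, max_lt_iff, max_le_iff,
              ← max_div_div_right (show (0:ℝ) ≤ 2 by norm_num), max_self]
            try and_intros
            all_goals (
              try simp only [xd, xs, xr, xm, xn, xlam, xy, xom, xu, xc]
              first | linarith | (norm_num; done) | (norm_num; linarith))))
  refine h2.congr' fun l i => ?_
  unfold tot960 S1v.S1rhs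
  rw [i.d.tl, i.d.mp]
  push_cast
  ring

/-- **The sum over the local terms is small.** -/
theorem ev_s1num (ha : 0 < a) (ha1 : a ≤ 1) (hq : 1 ≤ q) : ∀ᶠ l : ℕ in atTop,
    ∀ (L : ℕ) (d : CData q R J Δ a C₁ C₂ L l) (M : ℝ), M1 q L l ≤ M → ∀ δ : SS L → ℝ,
      (∀ v, 0 ≤ δ v) → ∑ v ∈ two (sa7_nb d.X d.w \ d.X), δ v ≤ (l : ℝ) ^ ((11 : ℝ) / 10) →
      ∀ exc edge : ℝ, 0 ≤ exc → exc ≤ 216 * ((l : ℝ) ^ 2 * ((3 * cR l : ℕ) / cM l)) +
          2 * (1536 * (9 * (l : ℝ) ^ 2) * (Par.cD a l / cS a l)) →
        0 ≤ edge → edge ≤ 216 * ((l : ℝ) ^ 2 * (Par.cD a l / cM l)) +
          2 * (32 * (2 * bw a l + 1) * (9 * (l : ℝ) ^ 2 / d.w)) →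
        tot960 q a C₁ d M δ exc edge ≤ (l : ℝ) ^ (-(11 * e0 a)) := by
  have h0 := e0_pos ha
  have h := UpD.ev_one (upS_tot (q := q) (R := R) (J := J) (Δ := Δ) (C₁ := C₁) (C₂ := C₂)
    ha ha1 hq) (show -(23 / 2 * e0 a) < -(11 * e0 a) by linarith)
  filter_upwards [h] with l hl L d M hM δ hδ hs exc edge x0 x1 y0 y1
  exact hl (IxS.mk (ID.mk L d) M δ exc edge hM hδ hs x0 x1 y0 y1)

end Vale.Agent.P356.GA.Par
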