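import Vale.Agent.P356.GA.EnGoal394
import Vale.Agent.P356.GA.EnNum407
import Vale.Agent.P356.GA.S1w770
import Vale.Agent.P356.GA.S1Num770
import Vale.Agent.P356.GA.CFacts185
import Vale.Agent.P356.GA.SumZ778

/-!
# GA, EN (helper770): the sum over the local terms on `CData`

`s1P` : the statement `S1P` of helper394, from `S1w.S1_all2` and the numbers `S1n.ev_S1`.
-/

set_option linter.all false

namespace Vale.Agent.P356.GA.S1P

open Matrix Finset Filter Vale.Agent.P356 Vale.Agent.P356.SV Vale.Agent.P356.Path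
open Vale.Agent.P356.NA Vale.Agent.P356.SA Vale.Agent.P356.PH Vale.Agent.P356.GA
open Vale.Agent.P356.GA.Par
open Vale.Agent.P356.GA.Class407 (two mem_two card_two st cor edgeZ excZ mem_edgeZ mem_excZ)
open Vale.Agent.P356.GA.Edge795 (edg)
open Vale.Agent.P356.GA.Level (bal lev)
open Vale.Agent.P356.GA.Theta (thC)
open scoped BigOperators ComplexOrder Kronecker Matrix.Norms.L2Operator

variable {q R : ℕ} {J Δ a C₁ C₂ : ℝ} {L l : ℕ}

/-- the right side is monotone in the exponent -/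
theorem S1rhs_mono {θ θ' : ℝ} (h0 : 0 ≤ θ) (h : θ ≤ θ') (D mp tl : ℕ)
    {C₂ sA B Θ exc edge sτ₁ sτ : ℝ} (h1 : 0 ≤ C₂) (h2 : 0 ≤ sA) (h3 : 0 ≤ B) (h4 : 0 ≤ Θ)
    (h5 : 0 ≤ exc) (h6 : 0 ≤ edge) (h7 : 0 ≤ sτ₁) (h8 : 0 ≤ sτ) :
    S1v.S1rhs θ D mp tl C₂ sA B Θ exc edge sτ₁ sτ ≤
      S1v.S1rhs θ' D mp tl C₂ sA B Θ exc edge sτ₁ sτ := by
  unfold S1v.S1rhs
  have h9 : θ ^ 2 ≤ θ' ^ 2 := pow_le_pow_left₀ h0 h 2
  refine mul_le_mul_of_nonneg_right (by linarith) ?_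
  positivity

/-- the tiles around a core are in the detector window -/
theorem tile_win (g : Gd L) (htl : 0 < g.tl) {D rb : ℕ} (hr : 2 * (D + g.tl) ≤ rb) {v j : SS L}
    (h : (g.tB j ∩ cor D v).Nonempty) : g.tB j ⊆ lyr (fun z => ball z rb) v := by
  classical
  have h1 : g.tB j ⊆ star1 univ g.tB (cor D v) := by
    intro x hx
    rw [star1, mem_union, mem_biUnion]
    refine Or.inr ⟨j, ?_, hx⟩
    rw [meet, mem_filter]
    exact ⟨mem_univ _, Finset.not_disjoint_iff_nonempty_inter.2 h⟩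
  refine (h1.trans (LFi.star1_sub g htl (Z := cor D v) (Finset.Subset.refl _))).trans ?_
  rw [← Win795.lay_eq_lyr]
  rcases v with z | z
  · exact Finset.map_subset_map.2 (Win795.bal_sub_ball hr)
  · exact Finset.map_subset_map.2 (Win795.bal_sub_ball hr)

/-- exceptional inner cores -/
theorem exc_sub (d : CData q R J Δ a C₁ C₂ L l) (D b r : ℕ) :
    S1v.Zi d.g D b d.Nr \ S1v.Zg d.g d.Exc D b r d.Nr ⊆ excZ d.g d.X d.Exc d.w r := by
  classical
  intro v hv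
  rw [Finset.mem_sdiff, S1v.mem_Zg] at hv
  obtain ⟨h1, h2⟩ := hv
  rw [mem_excZ]
  refine ⟨(S1v.mem_Zi.1 h1).1, ?_⟩
  by_contra hcon
  rw [not_or] at hcon
  exact h2 ⟨h1, hcon.2, hcon.1⟩

/-- edge cores -/
theorem edge_sub (d : CData q R J Δ a C₁ C₂ L l) (D b : ℕ) :
    d.Nr \ S1v.Zi d.g D b d.Nr ⊆ edgeZ d.g d.X d.w D b := by
  classical
  intro v hv
  rw [Finset.mem_sdiff, S1v.mem_Zi] at hv
  obtain ⟨h1, h2⟩ := hv
  rw [mem_edgeZ]
  refine ⟨h1, ?_⟩
  by_contra hcon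
  rw [not_or] at hcon
  exact h2 ⟨h1, hcon.2, hcon.1⟩

/-- the error of the regularised logarithm -/
theorem eM_le (hq : 1 ≤ q) (hl : 1 ≤ l) {M : ℝ} (hM : M1 q L l ≤ M) :
    2 * (q : ℝ) ^ Fintype.card (SS L) * Real.exp (-M) ≤ 2 * S1n.p0 l := by
  have hq0 : (0 : ℝ) < q := by exact_mod_cast hq
  have hl0 : (0 : ℝ) < l := by exact_mod_cast hl
  have hl1 : (1 : ℝ) ≤ l := by exact_mod_cast hl
  have hlog := Real.log_nonneg hl1
  have e1 : (q : ℝ) ^ Fintype.card (SS L) = Real.exp (Fintype.card (SS L) * Real.log q) := by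
    rw [Real.exp_nat_mul, Real.exp_log hq0]
  have e2 : S1n.p0 l = Real.exp (Real.log l * (-20 : ℝ)) := by
    rw [S1n.p0, Real.rpow_def_of_pos hl0]
  rw [mul_assoc, e1, ← Real.exp_add, e2]
  refine mul_le_mul_of_nonneg_left (Real.exp_le_exp.2 ?_) (by norm_num)
  unfold M1 at hM
  linarith

theorem lgE_nonneg (hq : 1 ≤ q) (hl : 1 ≤ l) : 0 ≤ Real.log (q / cE l) := by
  have h0 := CData.cE_pos185 hl
  have h1 := CData.cE_le_one185 hl
  have hq1 : (1 : ℝ) ≤ q := by exact_mod_cast hq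
  refine Real.log_nonneg ?_
  rw [le_div_iff₀ h0]
  linarith

theorem lgE2_nonneg (hq : 1 ≤ q) (hl : 1 ≤ l) : 0 ≤ Real.log ((q : ℝ) ^ 2 / cE l) := by
  have h0 := CData.cE_pos185 hl
  have h1 := CData.cE_le_one185 hl
  have hq1 : (1 : ℝ) ≤ q := by exact_mod_cast hq
  refine Real.log_nonneg ?_
  rw [le_div_iff₀ h0]
  nlinarith

theorem cc_nonneg (a : ℝ) (l : ℕ) : 0 ≤ S1n.cc a l := by
  unfold S1n.cc
  positivity

theorem Lc_nonneg (hq : 1 ≤ q) (hl : 1 ≤ l) : 0 ≤ S1n.Lc q a l := by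
  have h1 := lgE_nonneg hq hl
  have h2 := cc_nonneg a l
  unfold S1n.Lc
  positivity

theorem Ls_nonneg (hq : 1 ≤ q) (hl : 1 ≤ l) : 0 ≤ S1n.Ls q a l := by
  have h1 := lgE2_nonneg hq hl
  have h2 := cc_nonneg a l
  unfold S1n.Ls
  positivity

theorem Bf_nonneg (hl : 1 ≤ l) : 0 ≤ S1n.Bf a l := by
  have h0 : 0 < cY a l := Real.rpow_pos_of_pos (by exact_mod_cast hl) _
  have := Real.pi_pos
  unfold S1n.Bf S1n.cc0
  positivity

theorem p0_nonneg (l : ℕ) : 0 ≤ S1n.p0 l := Real.rpow_nonneg (Nat.cast_nonneg _) _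

theorem dS_nonneg (l : ℕ) : 0 ≤ S1n.dS l := Real.rpow_nonneg (Nat.cast_nonneg _) _

theorem nN_nonneg (l : ℕ) : 0 ≤ S1n.nN l := by
  unfold S1n.nN
  positivity

theorem bm_nonneg (l : ℕ) : 0 ≤ S1n.bm l := by
  unfold S1n.bm
  positivity

/-- sum of the line bounds -/
theorem sum_Ac (hq : 1 ≤ q) (hl : 1 ≤ l) {s : Finset (SS L)} {δ : SS L → ℝ}
    (hs : (s.card : ℝ) ≤ S1n.nN l) (hδ : ∑ v ∈ s, δ v ≤ S1n.dS l) {M : ℝ} (hM : M1 q L l ≤ M) :
    ∑ v ∈ s, S1.Ac L q M (cE l) (S1n.bm l) (S1n.Lc q a l) (cY a l) (S1n.p0 l + δ v) (δ v) ≤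
      S1n.sA q a l := by
  have hY : 0 < cY a l := Real.rpow_pos_of_pos (by exact_mod_cast hl) _
  have hE := (CData.cE_pos185 hl).le
  have hp := p0_nonneg l
  have hb := bm_nonneg l
  have hlg := lgE_nonneg hq hl
  have hB : S1.Bc (cY a l) = S1n.Bf a l := rfl
  have hB0 := Bf_nonneg (a := a) hl
  have hLc := Lc_nonneg (a := a) hq hl
  have he := eM_le (L := L) hq hl hM
  have hc0 : (0 : ℝ) ≤ s.card := Nat.cast_nonneg _
  have h1 : ∀ v ∈ s, S1.Ac L q M (cE l) (S1n.bm l) (S1n.Lc q a l) (cY a l)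
      (S1n.p0 l + δ v) (δ v) ≤ (S1n.p0 l + δ v) / cY a l ^ 2 + S1n.Bf a l *
        (4 * cE l * S1n.bm l + 4 * (S1n.bm l * Real.log (q / cE l)) * δ v + 2 * S1n.p0 l) +
          128 * Real.exp 1 * (1 + S1n.Lc q a l) ^ 4 * cY a l ^ 2 := by
    intro v _
    unfold S1.Ac
    rw [hB]
    have := mul_le_mul_of_nonneg_left he hB0
    linarith
  refine (Finset.sum_le_sum h1).trans ?_
  rw [Finset.sum_add_distrib, Finset.sum_add_distrib, Finset.sum_const, nsmul_eq_mul,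
    ← Finset.sum_div, ← Finset.mul_sum, Finset.sum_add_distrib, Finset.sum_add_distrib,
    Finset.sum_add_distrib, Finset.sum_const, Finset.sum_const, Finset.sum_const, nsmul_eq_mul,
    nsmul_eq_mul, nsmul_eq_mul, ← Finset.mul_sum]
  unfold S1n.sA
  refine add_le_add (add_le_add ?_ ?_) ?_
  · exact div_le_div_of_nonneg_right (add_le_add (mul_le_mul_of_nonneg_right hs hp) hδ)
      (sq_nonneg _)
  · refine mul_le_mul_of_nonneg_left (add_le_add (add_le_add ?_ ?_) ?_) hB0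
    · exact mul_le_mul_of_nonneg_right hs (by positivity)
    · exact mul_le_mul_of_nonneg_left hδ (by positivity)
    · exact mul_le_mul_of_nonneg_right hs (by positivity)
  · have hL4 : 0 ≤ (1 + S1n.Lc q a l) ^ 4 := by positivity
    exact mul_le_mul_of_nonneg_right hs (by positivity)

/-- sum of the slab bounds -/
theorem sum_sl (hq : 1 ≤ q) (hl : 1 ≤ l) {s : Finset (SS L)} {δ : SS L → ℝ}
    (hs : (s.card : ℝ) ≤ S1n.nN l) (hδ : ∑ v ∈ s, δ v ≤ S1n.dS l) :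
    ∑ v ∈ s, Gd.slErr (S1n.p0 l) (δ v) (cE l) (S1n.bm l) (S1n.Ls q a l) (S1n.hs l) ≤
      S1n.sT1 q a l := by
  have hY : 0 < S1n.hs l := Real.rpow_pos_of_pos (by exact_mod_cast hl) _
  have hE := (CData.cE_pos185 hl).le
  have hp := p0_nonneg l
  have hb := bm_nonneg l
  have hLs := Ls_nonneg (a := a) hq hl
  have hpi := Real.pi_pos
  unfold Gd.slErr S1n.sT1
  rw [Finset.sum_add_distrib, Finset.sum_const, nsmul_eq_mul, ← Finset.sum_div, ← Finset.mul_sum,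
    Finset.sum_add_distrib, Finset.sum_add_distrib, Finset.sum_const, Finset.sum_const,
    nsmul_eq_mul, nsmul_eq_mul]
  refine add_le_add ?_ ?_
  · refine div_le_div_of_nonneg_right (mul_le_mul_of_nonneg_left (add_le_add ?_ (add_le_add hδ ?_))
      (by norm_num)) (sq_nonneg _)
    · exact mul_le_mul_of_nonneg_right hs (by positivity)
    · exact mul_le_mul_of_nonneg_right hs (by positivity)
  · have hL4 : 0 ≤ (1 + S1n.Ls q a l) ^ 4 := by positivity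
    exact mul_le_mul_of_nonneg_right hs (by positivity)

/-- sum of the errors of almost convexity -/
theorem sum_tau (hq : 1 ≤ q) (hl : 1 ≤ l) (d : CData q R J Δ a C₁ C₂ L l)
    {s : Finset (SS L)} {δ : SS L → ℝ} (hδ0 : ∀ v ∈ s, 0 ≤ δ v)
    (hs : (s.card : ℝ) ≤ S1n.nN l) (hδ : ∑ v ∈ s, δ v ≤ S1n.dS l) :
    ∑ v ∈ s, LFi.tauE d.g q (cE l) (S1n.p0 l + δ v) ≤ S1n.sT q l := by
  have hlg := lgE_nonneg hq hl
  have h1 := sumz_sqrt s (f := fun v => S1n.p0 l + δ v) (d := δ) (A := S1n.nN l)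
    (p₀ := S1n.p0 l) (D := S1n.dS l) (fun v _ => le_rfl) hs (p0_nonneg l) hδ0 hδ
  have h2 : ∀ v ∈ s, LFi.tauE d.g q (cE l) (S1n.p0 l + δ v) =
      Real.sqrt (S1n.p0 l + δ v) *
        (16 * (1750 * ((cM l : ℝ) + cP l) ^ 3 * (1 + Real.log (q / cE l))) ^ 2) := by
    intro v _
    unfold LFi.tauE LFi.rad
    rw [d.tl, d.mp, one_div, inv_pow, div_inv_eq_mul]
    ring
  rw [Finset.sum_congr rfl h2, ← Finset.sum_mul]
  unfold S1n.sT
  calc (∑ v ∈ s, Real.sqrt (S1n.p0 l + δ v)) *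
        (16 * (1750 * ((cM l : ℝ) + cP l) ^ 3 * (1 + Real.log (q / cE l))) ^ 2) ≤
      Real.sqrt (S1n.nN l * (S1n.nN l * S1n.p0 l + S1n.dS l)) *
        (16 * (1750 * ((cM l : ℝ) + cP l) ^ 3 * (1 + Real.log (q / cE l))) ^ 2) :=
        mul_le_mul_of_nonneg_right h1 (by positivity)
    _ = _ := by ring

/-- **The sum over the local terms on `CData`.** -/
theorem s1P (hq : 1 ≤ q) (ha : 0 < a) (ha1 : a ≤ 1) : S1P q R J Δ a C₁ C₂ := by
  have hx0 := e0_pos ha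
  have hx1 := e0_le ha1
  -- sizes
  have f1 : ∀ᶠ l : ℕ in atTop, cE l ≤ 1 / 2 := up_cE.ev_const (by norm_num) (by norm_num)
  have f2 : ∀ᶠ l : ℕ in atTop, cY a l * (8 * (1 + S1n.Lc q a l)) ≤ 1 := by
    have h1 : Up (fun l => 1 + S1n.Lc q a l) (3 * xd a) :=
      ((Up.const 1).mono (by have := S1n.xd_pos ha; linarith)).add (S1n.up_Lc ha hq)
    exact ((up_cY a).mul (h1.cmul 8)).ev_const one_pos (by unfold xy xd; linarith)
  have f3 : ∀ᶠ l : ℕ in atTop, S1n.hs l * (4 * (1 + S1n.Ls q a l)) ≤ 1 := by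
    have h1 : Up (fun l => 1 + S1n.Ls q a l) (3 * xd a) :=
      ((Up.const 1).mono (by have := S1n.xd_pos ha; linarith)).add (S1n.up_Ls ha hq)
    exact (S1n.up_hs.mul (h1.cmul 4)).ev_const one_pos (by
      unfold xd; norm_num at hx1 ⊢; linarith)
  have f4 := EnNum.ev_θ (q := q) (R := R) (J := J) (Δ := Δ) (C₁ := C₁) (C₂ := C₂) ha1
  have f5 := EnNum.ev_edge (q := q) (R := R) (J := J) (Δ := Δ) (C₁ := C₁) (C₂ := C₂) ha ha1
  have f6 := EnNum.ev_exc (q := q) (R := R) (J := J) (Δ := Δ) (a := a) (C₁ := C₁) (C₂ := C₂)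
  have f7 := EnNum.ev_markov (q := q) (R := R) (J := J) (Δ := Δ) (a := a) (C₁ := C₁) (C₂ := C₂)
  have f8 := S1n.ev_S1 (q := q) ha ha1 hq C₁
  obtain ⟨n₀, hn⟩ := eventually_atTop.1 (ev_one.and (f1.and (f2.and (f3.and (f4.and (f5.and
    (f6.and (f7.and (f8.and (ev_cR_cM 1))))))))))
  refine ⟨n₀, fun L l d hl M hM ψ hψ hdev P hP => ?_⟩
  obtain ⟨hl1, g1, g2, g3, g4, g5, g6, g7, g8, g9⟩ := hn l hl
  obtain ⟨-, hθ0, hθ1⟩ := g4 L d
  have hl0 : (0 : ℝ) < l := by exact_mod_cast hl1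
  have hl1' : (1 : ℝ) ≤ l := by exact_mod_cast hl1
  have z1 := cD_cS ha hl1
  have z2 := cS_cR ha ha1 hl1
  have z3 : cP l = 16 * cR l := rfl
  have z4 : 1 ≤ cM l := one_le_sc hl1
  have z5 : cB l = 8 * cM l := rfl
  have z6 : 1 ≤ cR l := by
    have := one_le_sc (e := xr) hl1
    unfold cR
    omega
  have z7 := one_le_cD (a := a) hl1
  have hdv0 : ∀ v, 0 ≤ dvn d.P ψ v := dvn_nonneg (fun z => (d.det z).2.2.1) ψ
  have hdS : ∑ v ∈ d.Nr, dvn d.P ψ v ≤ S1n.dS l :=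
    (Finset.sum_le_sum_of_subset_of_nonneg d.Nr_sub fun v _ _ => hdv0 v).trans hdev
  have hcl := (d.dev ψ hψ).1
  have hMM : Fintype.card (SS L) * Real.log q ≤ M := by
    have h1 := Real.log_nonneg hl1'
    unfold M1 at hM
    linarith
  have hLs0 := Ls_nonneg (a := a) hq hl1
  have hcc0 := cc_nonneg a l
  have hlq : 0 ≤ Real.log q := Real.log_nonneg (by exact_mod_cast hq)
  have hC2a : 0 ≤ Real.exp 1 * (4 * S1n.cc a l * Real.log q + 2) ^ 2 := by positivity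
  have hC2b : 0 ≤ Real.exp 1 * (2 + S1n.Ls q a l) ^ 2 := by positivity
  have hcore : ∀ v, expv ψ (P v) ≤ S1n.p0 l + dvn d.P ψ v := fun v =>
    expv_core (D := Par.cD a l) (rb := cB l) (by omega) (hP.acts v) (hP.norm v) (hdv0 v) (hcl v)
      (hP.small v)
  have main := S1w.S1_all2 d.g (CData.cE_pos185 hl1) g1 d.gap.1 hψ hq hMM (entLike d.Ω d.gap.1) d.lip
    (D := Par.cD a l) (r := 3 * cR l) (b := bw a l) (by omega) (by rw [d.mp]; omega)
    (by rw [d.mp]; omega) (by rw [d.tl]; omega) (by rw [d.tl]; omega) d.bw_ge185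
    (Exc := d.Exc) (Nr := d.Nr) (P := P) (fun v _ => hP.psd v) (fun v _ => hP.norm v)
    (fun v _ => hP.acts v) (π := fun v => S1n.p0 l + dvn d.P ψ v) (δ := fun v => dvn d.P ψ v)
    (fun v _ => hcore v) (π' := S1n.p0 l) (p0_nonneg l) (fun v _ => hP.small v)
    (win := fun v => lyr (fun z => ball z (cB l)) v)
    (fun v _ j hj => tile_win d.g (by rw [d.tl]; omega) (by rw [d.tl]; omega) hj)
    (bm := S1n.bm l) (fun v _ => card_lyr (cB l) v) (bm_nonneg l) (fun v _ => hdv0 v)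
    (fun v _ X hX => hcl v X hX) (Lc := S1n.Lc q a l) (h := cY a l) (Λ := S1n.Ls q a l)
    (h₁ := S1n.hs l) (C₂ := S1n.C2 q a l) le_rfl (Real.rpow_pos_of_pos hl0 _) g2 hLs0 le_rfl
    (Real.rpow_pos_of_pos hl0 _) g3 ?_ ?_ hθ0.le (Θ := S1n.Th a C₁ l) (exc := S1n.nx a l)
    (edge := S1n.ne a l) (sA := S1n.sA q a l) (sτ₁ := S1n.sT1 q a l) (sτ := S1n.sT q l)
    (g7 L d) ?_ ?_ (sum_Ac hq hl1 d.card_Nr hdS hM) (sum_sl hq hl1 d.card_Nr hdS)
    (sum_tau hq hl1 d (fun v _ => hdv0 v) d.card_Nr hdS)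
  · refine (main.trans ?_).trans g8
    rw [d.mp, d.tl]
    refine S1rhs_mono hθ0.le hθ1 _ _ _ ?_ ?_ ?_ ?_ ?_ ?_ ?_ ?_
    · unfold S1n.C2
      positivity
    · have h1 := Bf_nonneg (a := a) hl1
      have h2 := nN_nonneg l
      have h3 := p0_nonneg l
      have h4 := dS_nonneg l
      have h5 := bm_nonneg l
      have h6 := lgE_nonneg hq hl1
      have h7 := (CData.cE_pos185 hl1).le
      have h8 := Lc_nonneg (a := a) hq hl1
      unfold S1n.sA
      positivity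
    · exact Bf_nonneg hl1
    · unfold S1n.Th
      positivity
    · unfold S1n.nx
      positivity
    · unfold S1n.ne
      have : (0 : ℝ) ≤ (l : ℝ) ^ (xom a - 1) := Real.rpow_nonneg hl0.le _
      positivity
    · have h2 := nN_nonneg l
      have h3 := p0_nonneg l
      have h4 := dS_nonneg l
      have h5 := bm_nonneg l
      have h7 := (CData.cE_pos185 hl1).le
      have h9 : 0 < S1n.hs l := Real.rpow_pos_of_pos hl0 _
      have := Real.pi_pos
      unfold S1n.sT1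
      positivity
    · have h6 := lgE_nonneg hq hl1
      unfold S1n.sT
      positivity
  · unfold S1n.C2
    have e : S1n.cc a l = ((2 * Par.cD a l + 1 : ℕ) : ℝ) ^ 2 := rfl
    rw [← e]
    linarith
  · unfold S1n.C2
    linarith
  · refine le_trans ?_ (g6 L d)
    exact_mod_cast Finset.card_le_card (exc_sub d _ _ _)
  · refine le_trans ?_ (g5 L d)
    exact_mod_cast Finset.card_le_card (edge_sub d _ _)

end Vale.Agent.P356.GA.S1P
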