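import Vale.Agent.P356.GA.S1d_87
import Vale.Agent.P356.GA.S1w770
import Vale.Agent.P356.GA.S1Num770
import Vale.Agent.P356.GA.EnNum407
import Vale.Agent.P356.GA.EnGoal394

/-!
# GA (helper87): the sum over the local terms, `S1P`

`S1w.S1_all2` (helper770, helper87) on the data `CData` (helper551), with the counts of helper407
and helper185 and the numbers of helper770.
-/

set_option linter.all false

namespace Vale.Agent.P356.GA.S1

open Matrix Finset Filter Vale.Agent.P356 Vale.Agent.P356.SV Vale.Agent.P356.SA Vale.Agent.P356.PH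
open Vale.Agent.P356.NA
open Vale.Agent.P356.GA Vale.Agent.P356.GA.Level Vale.Agent.P356.GA.Edge795
open Vale.Agent.P356.GA.Class407 Vale.Agent.P356.GA.Theta Vale.Agent.P356.GA.Par
open scoped BigOperators ComplexOrder Kronecker Matrix.Norms.L2Operator

variable {L q : ℕ}

/-- the step of the slab bound is small enough -/
theorem ev_hs {a : ℝ} (ha : 0 < a) (ha1 : a ≤ 1) (hq : 1 ≤ q) :
    ∀ᶠ l : ℕ in atTop, S1n.hs l * (4 * (1 + S1n.Ls q a l)) ≤ 1 := by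
  have h0 := e0_pos ha
  have h1 := e0_le ha1
  have k1 : Up (fun l => 4 * (1 + S1n.Ls q a l)) (3 * xd a) :=
    (((Up.const 1).mono (by have := S1n.xd_pos ha; linarith)).add (S1n.up_Ls ha hq)).cmul 4
  have k2 := S1n.up_hs.mul k1
  have k3 := k2.ev_one (E := 0) (by unfold xd; norm_num at h1 ⊢; linarith)
  filter_upwards [k3] with l hl
  simpa using hl

/-- the step of the line bound is small enough -/
theorem ev_cY {a : ℝ} (ha : 0 < a) (ha1 : a ≤ 1) (hq : 1 ≤ q) :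
    ∀ᶠ l : ℕ in atTop, cY a l * (8 * (1 + S1n.Lc q a l)) ≤ 1 := by
  have h0 := e0_pos ha
  have h1 := e0_le ha1
  have k1 : Up (fun l => 8 * (1 + S1n.Lc q a l)) (3 * xd a) :=
    (((Up.const 1).mono (by have := S1n.xd_pos ha; linarith)).add (S1n.up_Lc ha hq)).cmul 8
  have k2 := (up_cY a).mul k1
  have k3 := k2.ev_one (E := 0) (by unfold xd xy; norm_num at h1 ⊢; linarith)
  filter_upwards [k3] with l hl
  simpa using hl

/-- the scales -/
theorem ev_scales {a : ℝ} (ha : 0 < a) (ha1 : a ≤ 1) : ∀ᶠ l : ℕ in atTop,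
    2 ≤ l ∧ cR l ≤ cM l ∧ cM l ≤ 3 * l := by
  have h0 : ∀ᶠ l : ℕ in atTop, |(cM l : ℝ)| ≤ 1 * (l : ℝ) ^ (1 : ℝ) :=
    up_cM.le (by unfold xm; norm_num) one_pos
  filter_upwards [h0, eventually_ge_atTop 2, ev_cR_cM 1] with l h2 hl h3
  refine ⟨hl, by omega, ?_⟩
  have h3 : (cM l : ℝ) ≤ l := by
    have := (le_abs_self _).trans h2
    rwa [one_mul, Real.rpow_one] at this
  have h4 : cM l ≤ l := by exact_mod_cast h3
  omega

/-- the error of the regularised logarithm -/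
theorem eM_le {l : ℕ} (hq : 1 ≤ q) (hl : 1 ≤ l) {M : ℝ} (hM : M1 q L l ≤ M) :
    2 * (q : ℝ) ^ Fintype.card (SS L) * Real.exp (-M) ≤ 2 * S1n.p0 l := by
  have hq0 : (0 : ℝ) < q := by exact_mod_cast hq
  have hl0 : (0 : ℝ) < l := by exact_mod_cast hl
  have h1 : (q : ℝ) ^ Fintype.card (SS L) = Real.exp (Fintype.card (SS L) * Real.log q) := by
    rw [mul_comm, Real.exp_mul, Real.exp_log hq0, Real.rpow_natCast]
  have h2 : S1n.p0 l = Real.exp (-(20 * Real.log l)) := by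
    unfold S1n.p0
    rw [Real.rpow_def_of_pos hl0]
    congr 1
    ring
  rw [h1, h2, mul_assoc, ← Real.exp_add]
  refine mul_le_mul_of_nonneg_left (Real.exp_le_exp.2 ?_) (by norm_num)
  unfold M1 at hM
  have hlog : 0 ≤ Real.log l := Real.log_nonneg (by exact_mod_cast hl)
  linarith

/-- monotonicity in the exponent -/
theorem S1rhs_mono {θ θ' : ℝ} {D mp tl : ℕ} {C₂ sA B Θ exc edge sτ₁ sτ : ℝ} (h0 : 0 ≤ θ)
    (h1 : θ ≤ θ') (hC : 0 ≤ C₂) (hA : 0 ≤ sA) (hB : 0 ≤ B) (hΘ : 0 ≤ Θ) (hx : 0 ≤ exc)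
    (he : 0 ≤ edge) (ht1 : 0 ≤ sτ₁) (ht : 0 ≤ sτ) :
    S1v.S1rhs θ D mp tl C₂ sA B Θ exc edge sτ₁ sτ ≤
      S1v.S1rhs θ' D mp tl C₂ sA B Θ exc edge sτ₁ sτ := by
  have h2 : θ ^ 2 ≤ θ' ^ 2 := pow_le_pow_left₀ h0 h1 2
  unfold S1v.S1rhs
  refine mul_le_mul_of_nonneg_right (by linarith) ?_
  positivity

theorem s1P {R : ℕ} {J Δ a C₁ C₂ : ℝ} (hq : 1 ≤ q) (ha : 0 < a) (ha1 : a ≤ 1) :
    S1P q R J Δ a C₁ C₂ := by
  classical
  unfold S1P
  obtain ⟨n₀, hn₀⟩ := eventually_atTop.1 ((ev_scales ha ha1).and ((ev_hs (q := q) ha ha1 hq).and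
    ((ev_cY (q := q) ha ha1 hq).and ((S1n.ev_S1 (q := q) ha ha1 hq C₁).and
    ((EnNum.ev_θ (q := q) (R := R) (J := J) (Δ := Δ) (C₁ := C₁) (C₂ := C₂) ha1).and
    ((EnNum.ev_edge (q := q) (R := R) (J := J) (Δ := Δ) (C₁ := C₁) (C₂ := C₂) ha ha1).and
    ((EnNum.ev_exc (q := q) (R := R) (J := J) (Δ := Δ) (a := a) (C₁ := C₁) (C₂ := C₂)).and
    (EnNum.ev_markov (q := q) (R := R) (J := J) (Δ := Δ) (a := a) (C₁ := C₁)
      (C₂ := C₂)))))))))
  refine ⟨n₀, fun L l d hl M hM ψ hψ hsum P hPf => ?_⟩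
  obtain ⟨⟨hl2, hRM, hM3⟩, hhs, hcY, hS1, hθ', hedg', hexc', hmk'⟩ := hn₀ l hl
  obtain ⟨hn1, hθ0, hθ1⟩ := hθ' L d
  have hedge0 := hedg' L d
  have hexc0 := hexc' L d
  have hmk := hmk' L d
  clear hθ' hedg' hexc' hmk'
  have hl1 : 1 ≤ l := by omega
  have hl0 : (0 : ℝ) < l := by exact_mod_cast hl1
  have hΩ := d.gap.1
  have hΩ2 : nsq (dbl d.Ω d.Ω) = 1 := by rw [nsq_dbl, hΩ, one_mul]
  have hlogl : 0 ≤ Real.log l := Real.log_nonneg (by exact_mod_cast hl1)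
  have hM' : Fintype.card (SS L) * Real.log q ≤ M := by
    unfold M1 at hM
    linarith
  -- scales
  have c1 := one_le_cD (a := a) hl1
  have c2 := cD_cS ha hl1
  have c3 := cS_cR ha ha1 hl1
  have c4 := cR_cP l
  have c5 : 1 ≤ cM l := one_le_sc hl1
  have c6 : cB l = 8 * cM l := rfl
  have htl : 0 < d.g.tl := by rw [d.tl]; omega
  have hE0 : 0 < cE l := Real.rpow_pos_of_pos hl0 _
  have hE1 : cE l ≤ 1 / 2 := by
    have h2 : (2 : ℝ) ≤ l := by exact_mod_cast hl2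
    have h3 : (l : ℝ) ^ (-(50 : ℝ)) ≤ (l : ℝ) ^ (-(1 : ℝ)) :=
      Real.rpow_le_rpow_of_exponent_le (by linarith) (by norm_num)
    rw [Real.rpow_neg_one] at h3
    have h4 : (l : ℝ)⁻¹ ≤ 2⁻¹ := inv_anti₀ (by norm_num) h2
    unfold cE
    linarith
  have hY0 : 0 < cY a l := Real.rpow_pos_of_pos hl0 _
  have hhs0 : 0 < S1n.hs l := Real.rpow_pos_of_pos hl0 _
  have hp0 : 0 < S1n.p0 l := Real.rpow_pos_of_pos hl0 _
  have hdv0 : ∀ v, 0 ≤ dvn d.P ψ v := dvn_nonneg (fun z => (d.det z).2.2.1) ψ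
  have hdev := (d.dev ψ hψ).1
  obtain ⟨hlq0, hlq1⟩ := LFi.log_q_div (q := q) hE0 (by linarith : cE l ≤ 1) hq
  have hlq := hlq0.trans hlq1
  have hq1 : (1 : ℝ) ≤ q := by exact_mod_cast hq
  have hlog2 : 0 ≤ Real.log ((q : ℝ) ^ 2 / cE l) := by
    refine Real.log_nonneg ?_
    rw [le_div_iff₀ hE0]
    nlinarith
  have hcc0 : 0 ≤ S1n.cc a l := by unfold S1n.cc; positivity
  have hLs0 : 0 ≤ S1n.Ls q a l := mul_nonneg hlog2 hcc0
  have hLc0 : 0 ≤ S1n.Lc q a l := by unfold S1n.Lc; positivity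
  have hbm0 : 0 ≤ S1n.bm l := by unfold S1n.bm; positivity
  set Nr := two (sa7_nb d.X d.w \ d.X) with hNr
  set D := Par.cD a l with hDdef
  have hcard : (Nr.card : ℝ) ≤ S1n.nN l := d.card_two_ring185
  have hsub : Nr ⊆ d.Z.disjSum d.Z := by
    have h1 : sa7_nb d.X d.w \ d.X ⊆ d.Z :=
      Finset.sdiff_subset.trans (sa7_nb_mono d.X (by omega))
    exact Finset.disjSum_mono h1 h1
  have hdS : ∑ v ∈ Nr, dvn d.P ψ v ≤ S1n.dS l :=
    (Finset.sum_le_sum_of_subset_of_nonneg hsub fun v _ _ => hdv0 v).trans hsum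
  -- the classes
  have hexc : ((S1v.Zi d.g D (bw a l) Nr \ S1v.Zg d.g d.Exc D (bw a l) (3 * cR l) Nr).card : ℝ) ≤
      S1n.nx a l := by
    refine le_trans ?_ hexc0
    have hsub : S1v.Zi d.g D (bw a l) Nr \ S1v.Zg d.g d.Exc D (bw a l) (3 * cR l) Nr ⊆
        excZ d.g d.X d.Exc d.w (3 * cR l) := by
      intro v hv
      rw [Finset.mem_sdiff, S1v.mem_Zg, S1v.mem_Zi] at hv
      rw [mem_excZ]
      refine ⟨hv.1.1, ?_⟩
      by_contra hcon
      rw [not_or] at hcon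
      exact hv.2 ⟨hv.1, hcon.2, hcon.1⟩
    exact_mod_cast card_le_card hsub
  have hedge : ((Nr \ S1v.Zi d.g D (bw a l) Nr).card : ℝ) ≤ S1n.ne a l := by
    refine le_trans ?_ hedge0
    have hsub : Nr \ S1v.Zi d.g D (bw a l) Nr ⊆ edgeZ d.g d.X d.w D (bw a l) := by
      intro v hv
      rw [Finset.mem_sdiff, S1v.mem_Zi] at hv
      rw [mem_edgeZ]
      refine ⟨hv.1, ?_⟩
      by_contra hcon
      rw [not_or] at hcon
      exact hv.2 ⟨hv.1, hcon.2, hcon.1⟩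
    exact_mod_cast card_le_card hsub
  -- the sums
  have hsA : ∑ v ∈ Nr, Ac L q M (cE l) (S1n.bm l) (S1n.Lc q a l) (cY a l)
      (S1n.p0 l + dvn d.P ψ v) (dvn d.P ψ v) ≤ S1n.sA q a l := by
    have h1 := sumz_A Nr (f := fun v => S1n.p0 l + dvn d.P ψ v) (d := fun v => dvn d.P ψ v)
      (A := S1n.nN l) (p₀ := S1n.p0 l) (D := S1n.dS l) (ε := cE l) (m := S1n.bm l)
      (lq := Real.log (q / cE l)) (eM := 2 * S1n.p0 l) (Lc := S1n.Lc q a l) (h := cY a l)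
      (fun v _ => le_rfl) hcard hp0.le hdS hE0.le hbm0 hlq (by positivity) hLc0 hY0.le
    refine (Finset.sum_le_sum fun v _ => ?_).trans (h1.trans (le_of_eq ?_))
    · have h2 := mul_le_mul_of_nonneg_left (eM_le (L := L) hq hl1 hM) (Bc_nonneg hY0)
      have e1 : Bc (cY a l) = cLine / cY a l := rfl
      unfold Ac lineA
      rw [e1] at h2 ⊢
      have e2 : cLine * (4 * cE l * S1n.bm l + 4 * (S1n.bm l * Real.log (q / cE l)) *
          dvn d.P ψ v + 2 * S1n.p0 l) / cY a l =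
          cLine / cY a l * (4 * cE l * S1n.bm l + 4 * (S1n.bm l * Real.log (q / cE l)) *
            dvn d.P ψ v) + cLine / cY a l * (2 * S1n.p0 l) := by ring
      have e3 : cLine / cY a l * (4 * cE l * S1n.bm l + 4 * (S1n.bm l * Real.log (q / cE l)) *
          dvn d.P ψ v + 2 * (q : ℝ) ^ Fintype.card (SS L) * Real.exp (-M)) =
          cLine / cY a l * (4 * cE l * S1n.bm l + 4 * (S1n.bm l * Real.log (q / cE l)) *
            dvn d.P ψ v) + cLine / cY a l * (2 * (q : ℝ) ^ Fintype.card (SS L) *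
              Real.exp (-M)) := by ring
      rw [e2, e3]
      linarith
    · unfold S1n.sA S1n.Bf S1n.cc0 cLine
      ring
  have hsT1 : ∑ v ∈ Nr, Gd.slErr (S1n.p0 l) (dvn d.P ψ v) (cE l) (S1n.bm l) (S1n.Ls q a l)
      (S1n.hs l) ≤ S1n.sT1 q a l := by
    have h1 := sumz_tau1 Nr (d := fun v => dvn d.P ψ v)
      (A := S1n.nN l) (p₀ := S1n.p0 l) (D := S1n.dS l) (ε := cE l) (m := S1n.bm l)
      (Λ := S1n.Ls q a l) (h := S1n.hs l) hcard hp0.le hdS hE0.le hbm0 hLs0 hhs0.le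
    refine (Finset.sum_le_sum fun v _ => ?_).trans (h1.trans (le_of_eq ?_))
    · exact le_rfl
    · unfold S1n.sT1
      ring
  have hsT : ∑ v ∈ Nr, LFi.tauE d.g q (cE l) (S1n.p0 l + dvn d.P ψ v) ≤ S1n.sT q l := by
    have h1 := sumz_tau Nr (f := fun v => S1n.p0 l + dvn d.P ψ v) (d := fun v => dvn d.P ψ v)
      (A := S1n.nN l) (p₀ := S1n.p0 l) (D := S1n.dS l) (c := 16) (r := LFi.rad d.g q (cE l))
      (fun v _ => le_rfl) hcard hp0.le (fun v _ => hdv0 v) hdS (by norm_num)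
    refine h1.trans (le_of_eq ?_)
    unfold S1n.sT LFi.rad
    rw [d.tl, d.mp, div_pow, one_pow, div_div_eq_mul_div, div_one]
  -- the sum
  have key := S1w.S1_all2 d.g hE0 hE1 hΩ hψ hq hM' (entLike d.Ω hΩ) d.lip (D := D)
    (r := 3 * cR l) (b := bw a l) (by omega) (by rw [d.mp]; omega) (by rw [d.mp]; omega) htl
    (by rw [d.tl]; omega) d.bw_ge185 (Exc := d.Exc) (Nr := Nr) (fun v _ => hPf.psd v)
    (fun v _ => hPf.norm v) (fun v _ => by rw [cor_eq_lay]; exact hPf.acts v)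
    (π := fun v => S1n.p0 l + dvn d.P ψ v) (δ := fun v => dvn d.P ψ v)
    (fun v _ => S1P.expv_core (D := D) (rb := cB l) (by omega)
      (by rw [cor_eq_lay]; exact hPf.acts v) (hPf.norm v) (hdv0 v) (hdev v) (hPf.small v))
    hp0.le (fun v _ => hPf.small v) (win := fun v => lyr (fun z => ball z (cB l)) v)
    (fun v _ j hj => tile_sub_win d.g htl (by rw [d.tl]; omega) v hj)
    (bm := S1n.bm l) (fun v _ => S1P.card_lyr (cB l) v) hbm0
    (fun v _ => hdv0 v) (fun v _ => hdev v) (Lc := S1n.Lc q a l) (h := cY a l)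
    (Λ := S1n.Ls q a l) (h₁ := S1n.hs l) (C₂ := S1n.C2 q a l) le_rfl hY0 hcY hLs0 le_rfl hhs0 hhs
    ?_ ?_ (θ := d.θ) hθ0.le hmk hexc hedge hsA hsT1 hsT
  · refine key.trans (le_trans ?_ hS1)
    have hsT0 : 0 ≤ S1n.sT q l := by unfold S1n.sT; positivity
    have hsA0 : 0 ≤ S1n.sA q a l := le_trans (Finset.sum_nonneg fun v _ =>
      Ac_nonneg hq hE0 hE1 hbm0 hY0 (add_nonneg hp0.le (hdv0 v)) (hdv0 v)) hsA
    have hsT10 : 0 ≤ S1n.sT1 q a l := le_trans (Finset.sum_nonneg fun v _ =>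
      slErr_nonneg' hp0.le (hdv0 v) hE0.le hbm0 hhs0) hsT1
    have hnx0 : 0 ≤ S1n.nx a l := (Nat.cast_nonneg _).trans hexc
    have hne0 : 0 ≤ S1n.ne a l := (Nat.cast_nonneg _).trans hedge
    have hTh0 : 0 ≤ S1n.Th a C₁ l := by unfold S1n.Th; positivity
    have hC20 : 0 ≤ S1n.C2 q a l := by unfold S1n.C2; positivity
    have hB0 : 0 ≤ Bc (cY a l) := Bc_nonneg hY0
    have e3 : S1n.rhs q a C₁ l = S1v.S1rhs (S1n.th a l) D d.g.mp d.g.tl (S1n.C2 q a l)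
        (S1n.sA q a l) (Bc (cY a l)) (S1n.Th a C₁ l) (S1n.nx a l) (S1n.ne a l) (S1n.sT1 q a l)
        (S1n.sT q l) := by
      rw [d.mp, d.tl]
      rfl
    rw [e3]
    exact S1rhs_mono hθ0.le hθ1 hC20 hsA0 hB0 hTh0 hnx0 hne0 hsT10 hsT0
  · unfold S1n.C2
    have : 0 ≤ Real.exp 1 * (2 + S1n.Ls q a l) ^ 2 := by positivity
    unfold S1n.cc at *
    linarith
  · unfold S1n.C2
    have : 0 ≤ Real.exp 1 * (4 * S1n.cc a l * Real.log q + 2) ^ 2 := by positivity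
    linarith

end Vale.Agent.P356.GA.S1

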