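import Vale.Agent.P356.GA.Class407
import Vale.Agent.P356.GA.E1_228
import Vale.Agent.P356.GA.Gd551

/-!
# GA, S1 (helper87): the sum over the local terms, bookkeeping

From helper770's `sum_terms` with the facts of helper407 (lines and slabs seen by a core), the output
format of helper551's `exists_gd` and the single line bound (E1) as hypothesis.
-/

set_option linter.all false

namespace Vale.Agent.P356.GA.S1

open Matrix Finset Vale.Agent.P356 Vale.Agent.P356.SV Vale.Agent.P356.SA Vale.Agent.P356.PH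
open Vale.Agent.P356.GA Vale.Agent.P356.GA.Level Vale.Agent.P356.GA.Edge795
open Vale.Agent.P356.GA.Class407 Vale.Agent.P356.GA.Theta
open scoped BigOperators ComplexOrder Kronecker Matrix.Norms.L2Operator

variable {L q : ℕ}

theorem lev_eq_upT (T : Site L → ℝ) (t : ℝ) : lev T t = upT T t := by
  ext x
  rw [mem_lev, e1_mem_upT]

theorem tj_eq (g : Gd L) (v : SS L) : tj g v = layPt v (tli g.tl (st v)) := by
  rcases v with v | v <;> rfl

theorem cor_eq (D : ℕ) (v : SS L) : cor D v = layS v (bal (st v) D) := by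
  rcases v with v | v <;> rfl

/-- the inner cores -/
noncomputable def Zin (g : Gd L) (Exc : Finset (Site L)) (b r : ℕ) (Nr : Finset (SS L)) :
    Finset (SS L) :=
  open Classical in Nr.filter fun v => st v ∉ Exc ∧ st v ∉ endB g b ∧ st v ∉ edg L g.tl r

theorem mem_Zin {g : Gd L} {Exc : Finset (Site L)} {b r : ℕ} {Nr : Finset (SS L)} {v : SS L} :
    v ∈ Zin g Exc b r Nr ↔
      v ∈ Nr ∧ st v ∉ Exc ∧ st v ∉ endB g b ∧ st v ∉ edg L g.tl r := by
  classical
  unfold Zin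
  exact Finset.mem_filter

/-- the defect of the core `v` at the line `k` -/
noncomputable def tv (g : Gd L) (S : Finset (Site L) → ℝ) (D r : ℕ) (v : SS L) (k : ℕ) : ℝ :=
  thC S (bal (st v) D) (bal (st v) r) (upT g.T (layLev g v k))

/-- a sum over the sites of both layers -/
theorem sum_two_layers (F : SS L → ℝ) (hF : ∀ v, 0 ≤ F v) (N : Finset (SS L))
    (A : Finset (Site L)) (hN : ∀ v ∈ N, st v ∈ A) :
    ∑ v ∈ N, F v ≤ ∑ z ∈ A, (F (Sum.inl z) + F (Sum.inr z)) := by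
  classical
  have hsub : N ⊆ A.disjSum A := by
    rintro (z | z) hv
    · exact Finset.inl_mem_disjSum.2 (hN _ hv)
    · exact Finset.inr_mem_disjSum.2 (hN _ hv)
  refine (Finset.sum_le_sum_of_subset_of_nonneg hsub fun v _ _ => hF v).trans ?_
  rw [Finset.sum_disjSum, Finset.sum_add_distrib]

theorem card_two_layers (N : Finset (SS L)) (A : Finset (Site L)) (hN : ∀ v ∈ N, st v ∈ A) :
    N.card ≤ 2 * A.card := by
  classical
  have hsub : N ⊆ A.disjSum A := by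
    rintro (z | z) hv
    · exact Finset.inl_mem_disjSum.2 (hN _ hv)
    · exact Finset.inr_mem_disjSum.2 (hN _ hv)
  refine (Finset.card_le_card hsub).trans (le_of_eq ?_)
  rw [Finset.card_disjSum, two_mul]

/-- number of cores which are not inner -/
theorem card_bad {g : Gd L} {Exc : Finset (Site L)} {b r : ℕ} {Nr : Finset (SS L)}
    {base : Finset (Site L)} (hbase : ∀ v ∈ Nr, st v ∈ base) :
    (Nr \ Zin g Exc b r Nr).card ≤
      2 * (Exc.card + (endB g b).card + (edg L g.tl r ∩ base).card) := by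
  classical
  refine (card_two_layers _ (Exc ∪ endB g b ∪ (edg L g.tl r ∩ base)) ?_).trans ?_
  · intro v hv
    rw [Finset.mem_sdiff, mem_Zin] at hv
    obtain ⟨h1, h2⟩ := hv
    rw [Finset.mem_union, Finset.mem_union, Finset.mem_inter]
    by_contra hcon
    simp only [not_or, not_and] at hcon
    exact h2 ⟨h1, hcon.1.1, hcon.1.2, fun h => hcon.2 h (hbase v h1)⟩
  · have h1 := Finset.card_union_le (Exc ∪ endB g b) (edg L g.tl r ∩ base)
    have h2 := Finset.card_union_le Exc (endB g b)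
    omega

/-- **the sum of the defects** over the inner cores -/
theorem sum_tv {g : Gd L} {S : Finset (Site L) → ℝ} (hS : EntLike S) {D r b : ℕ}
    {Exc : Finset (Site L)} {Nr : Finset (SS L)} {Θ : ℝ}
    (hΘ : ∑ z ∈ Excᶜ, ∑ k ∈ range g.n, (thC S (bal z D) (bal z r) (lev g.T (g.t0 + k)) +
        thC S (bal z D) (bal z r) (lev g.T (g.t0 + g.N - k))) ≤ Θ) :
    ∑ v ∈ Zin g Exc b r Nr, ∑ k ∈ range g.n, tv g S D r v k ≤ Θ := by
  classical
  refine le_trans ?_ hΘ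
  refine (sum_two_layers (fun v => ∑ k ∈ range g.n, tv g S D r v k)
    (fun v => Finset.sum_nonneg fun k _ => thC_nonneg hS _ _ _) _ Excᶜ ?_).trans (le_of_eq ?_)
  · intro v hv
    rw [mem_Zin] at hv
    exact Finset.mem_compl.2 hv.2.1
  · refine Finset.sum_congr rfl fun z _ => ?_
    rw [← Finset.sum_add_distrib]
    refine Finset.sum_congr rfl fun k _ => ?_
    rw [lev_eq_upT, lev_eq_upT]
    rfl

/-- the total constant of S1 -/
noncomputable def S1rhs (θ : ℝ) (D mp tl : ℕ) (C₂ sA B Θ bad sτ₁ sτ : ℝ) : ℝ :=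
  5 * θ ^ 2 * (((8 * D + 1 : ℕ) : ℝ) * (((8 * D + 1 : ℕ) : ℝ) * sA + B * Θ) +
    bad * ((((8 * D + 1 : ℕ) : ℝ) ^ 2 + ((4 * (mp + 8 * D + 1) : ℕ) : ℝ) ^ 2) * C₂) +
    ((4 * (mp + 4 * tl + 1) : ℕ) : ℝ) ^ 2 * sτ₁ +
    (((8 * D + 1 : ℕ) : ℝ) ^ 2 + 2 * ((4 * (mp + 4 * tl + 1) : ℕ) : ℝ) ^ 2 + 5) * sτ)

/-- **S1** (bookkeeping): the sum of the second order forms of the local terms -/
theorem S1_sum (g : Gd L) {ψ : Conf (SS L) q → ℂ} {M : ℝ} {K : Finset (SS L) → Op (SS L) q}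
    {P : SS L → Op (SS L) q} {D r b : ℕ} {Nr : Finset (SS L)} {S : Finset (Site L) → ℝ}
    (hS : EntLike S) {Exc : Finset (Site L)} {τ τ₁ : SS L → ℝ} {C₂ θ : ℝ}
    (hT : ∀ x y, |g.T x - g.T y| ≤ 2 * dist1 x y) (hmp : 8 * D < g.mp) (htl : 0 < g.tl)
    (hD : 2 * D ≤ g.tl) (hDr : D ≤ r) (hb : g.mp + 4 * D ≤ b)
    (hLF : ∀ v ∈ Nr, Sum.LF (g.QV ψ M K (P v)) g.R g.tB g.mp g.n (cor D v) (Rel g D v) (τ v) (τ₁ v) C₂)
    (hτ : ∀ v ∈ Nr, 0 ≤ τ v) (hτ₁ : ∀ v ∈ Nr, 0 ≤ τ₁ v) (hC₂ : 0 ≤ C₂) (hθ : 0 ≤ θ)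
    {A : SS L → ℝ} {B : ℝ} (hA : ∀ v ∈ Nr, 0 ≤ A v) (hB : 0 ≤ B)
    (hE1 : ∀ v ∈ Nr, st v ∉ Exc → st v ∉ endB g b → st v ∉ edg L g.tl r → ∀ k, g.mp ≤ k →
      k < g.n → Sum.Cuts g.R (cor D v) k →
      g.QV ψ M K (P v) (Sum.healed g.mp (tj g v) k) ≤ A v + B * tv g S D r v k)
    {Θ bad sA sτ₁ sτ : ℝ}
    (hΘ : ∑ z ∈ Excᶜ, ∑ k ∈ range g.n, (thC S (bal z D) (bal z r) (lev g.T (g.t0 + k)) +
        thC S (bal z D) (bal z r) (lev g.T (g.t0 + g.N - k))) ≤ Θ)
    (hbad : ((Nr \ Zin g Exc b r Nr).card : ℝ) ≤ bad)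
    (hsA : ∑ v ∈ Nr, A v ≤ sA) (hsτ₁ : ∑ v ∈ Nr, τ₁ v ≤ sτ₁) (hsτ : ∑ v ∈ Nr, τ v ≤ sτ) :
    ∑ v ∈ Nr, g.QV ψ M K (P v) (Sum.czero θ g.n (range g.n ×ˢ (univ : Finset (SS L)))) ≤
      S1rhs θ D g.mp g.tl C₂ sA B Θ bad sτ₁ sτ := by
  classical
  rcases Nr.eq_empty_or_nonempty with hN | ⟨v0, hv0⟩
  · -- no term
    subst hN
    rw [Finset.sum_empty] at hsA hsτ₁ hsτ ⊢
    have h1 : (0 : ℝ) ≤ Θ := le_trans (Finset.sum_nonneg fun z _ => Finset.sum_nonneg fun k _ =>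
      add_nonneg (thC_nonneg hS _ _ _) (thC_nonneg hS _ _ _)) hΘ
    have h2 : (0 : ℝ) ≤ bad := le_trans (Nat.cast_nonneg _) hbad
    unfold S1rhs
    positivity
  haveI : Inhabited (SS L) := ⟨v0⟩
  set Zi := Zin g Exc b r Nr with hZi
  have hZsub : Zi ⊆ Nr := fun v hv => (mem_Zin.1 hv).1
  set qf : SS L → ℕ → ℝ := fun v k => if v ∈ Zi then A v + B * tv g S D r v k else 0 with hqf
  have htv0 : ∀ v k, 0 ≤ tv g S D r v k := fun v k => thC_nonneg hS _ _ _
  have hlad : ∀ v ∈ Zi, ∀ k < g.n + g.mp, Sum.Cuts g.R (cor D v) k → g.mp ≤ k ∧ k < g.n := by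
    intro v hv
    rw [hZi, mem_Zin] at hv
    obtain ⟨-, -, h2, -⟩ := hv
    rw [mem_endB] at h2
    simp only [not_or, not_le] at h2
    have hb' : ((g.mp : ℝ) + 4 * D) ≤ b := by exact_mod_cast hb
    have h3 := lad_of (g := g) (v := v) (r := (g.mp : ℝ) + 4 * D) (lt_of_le_of_lt hb' h2.1)
      (lt_of_le_of_lt hb' h2.2.1) (lt_of_le_of_lt hb' h2.2.2.2) (lt_of_le_of_lt hb' h2.2.2.1)
    exact cut_lad hT h3.1 h3.2
  have key := Sum.sum_terms (V := SS L) (J := SS L) (E := g.R) (B := g.tB) (m := g.mp) (h := g.n)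
    Nr Zi hZsub (Q := fun v => g.QV ψ M K (P v)) (a := cor D) (Rel := Rel g D) (τ := τ)
    (τ₁ := τ₁) (C₂ := C₂) (θ := θ) (k₁ := ((8 * D + 1 : ℕ) : ℝ))
    (k₂ := ((4 * (g.mp + 8 * D + 1) : ℕ) : ℝ)) (k₃ := ((4 * (g.mp + 4 * g.tl + 1) : ℕ) : ℝ))
    hLF hτ hτ₁ hC₂ hθ (by omega) (Js := univ) (fun i _ j _ hij => g.tB_disj hij)
    (fun v _ => Rel_sub D v) (tj g) (fun v _ => Finset.mem_univ _) ?_ hlad
    (fun v _ => cut_dis hT hmp) (q := qf) ?_ ?_ ?_ ?_ ?_
  · refine key.trans ?_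
    unfold S1rhs
    refine mul_le_mul_of_nonneg_left ?_ (by positivity)
    have hsum : ∑ v ∈ Nr, ∑ k ∈ Sum.cutL g.R g.n (cor D v), qf v k ≤
        ((8 * D + 1 : ℕ) : ℝ) * sA + B * Θ := by
      have e1 : ∑ v ∈ Nr, ∑ k ∈ Sum.cutL g.R g.n (cor D v), qf v k ≤
          ∑ v ∈ Zi, (((8 * D + 1 : ℕ) : ℝ) * A v + B * ∑ k ∈ range g.n, tv g S D r v k) := by
        rw [← Finset.sum_subset hZsub (f := fun v => ∑ k ∈ Sum.cutL g.R g.n (cor D v), qf v k)
          fun v _ hv => Finset.sum_eq_zero fun k _ => by simp only [hqf, if_neg hv]]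
        refine Finset.sum_le_sum fun v hv => ?_
        have e2 : ∑ k ∈ Sum.cutL g.R g.n (cor D v), qf v k =
            ((Sum.cutL g.R g.n (cor D v)).card : ℝ) * A v +
              B * ∑ k ∈ Sum.cutL g.R g.n (cor D v), tv g S D r v k := by
          rw [Finset.sum_congr rfl fun k _ => (by simp only [hqf, if_pos hv] :
            qf v k = A v + B * tv g S D r v k), Finset.sum_add_distrib, Finset.sum_const,
            nsmul_eq_mul, Finset.mul_sum]
        rw [e2]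
        refine add_le_add ?_ ?_
        · exact mul_le_mul_of_nonneg_right (by exact_mod_cast card_cutL hT g.n D v)
            (hA v (hZsub hv))
        · refine mul_le_mul_of_nonneg_left ?_ hB
          refine Finset.sum_le_sum_of_subset_of_nonneg ?_ fun k _ _ => htv0 v k
          intro k hk
          exact Finset.mem_range.2 (Sum.mem_cutL.1 hk).1
      refine e1.trans ?_
      rw [Finset.sum_add_distrib, ← Finset.mul_sum, ← Finset.mul_sum]
      refine add_le_add (mul_le_mul_of_nonneg_left ?_ (Nat.cast_nonneg _))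
        (mul_le_mul_of_nonneg_left (sum_tv hS hΘ) hB)
      refine le_trans ?_ hsA
      exact Finset.sum_le_sum_of_subset_of_nonneg hZsub fun v hv _ => hA v hv
    have h1 : (0 : ℝ) ≤ ((8 * D + 1 : ℕ) : ℝ) := Nat.cast_nonneg _
    refine add_le_add (add_le_add (add_le_add (mul_le_mul_of_nonneg_left hsum h1) ?_) ?_) ?_
    · exact mul_le_mul_of_nonneg_right hbad (by positivity)
    · exact mul_le_mul_of_nonneg_left hsτ₁ (by positivity)
    · exact mul_le_mul_of_nonneg_left hsτ (by positivity)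
  · intro v hv
    rw [hZi, mem_Zin] at hv
    refine cor_sub_tile fun h => hv.2.2.2 (edg_mono hDr h)
  · intro v hv k _
    simp only [hqf]
    split_ifs with h
    · exact add_nonneg (hA v hv) (mul_nonneg hB (htv0 v k))
    · exact le_rfl
  · intro v hv k hk
    rw [Sum.mem_cutL] at hk
    have hk1 := hlad v hv k (by omega) hk.2
    simp only [hqf, if_pos hv]
    have hv' := hv
    rw [hZi, mem_Zin] at hv'
    exact hE1 v hv'.1 hv'.2.1 hv'.2.2.1 hv'.2.2.2 k hk1.1 hk1.2 hk.2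
  · intro v _
    exact_mod_cast card_cutL hT g.n D v
  · intro v _
    exact_mod_cast card_meetR hT htl hD v
  · intro v _
    exact_mod_cast card_Rel hT htl hD v

end Vale.Agent.P356.GA.S1
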