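import Vale.Agent.P356.GA.S1_87
import Vale.Agent.P356.GA.LFInst770
import Vale.Agent.P356.GA.En394

/-!
# GA, S1 (helper87): the sum over the local terms with all inputs

`S1_sum` with the single line bound of helper228 (`e1_site`) and the facts of helper770 (`lf_inst`).
The hypotheses are numbers: radius, closeness on windows, the Markov sum, the exceptional cores.
-/

set_option linter.all false

namespace Vale.Agent.P356.GA.S1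

open Matrix Finset Vale.Agent.P356 Vale.Agent.P356.SV Vale.Agent.P356.SA Vale.Agent.P356.PH
open Vale.Agent.P356.NA
open Vale.Agent.P356.GA Vale.Agent.P356.GA.Level Vale.Agent.P356.GA.Edge795
open Vale.Agent.P356.GA.Class407 Vale.Agent.P356.GA.Theta
open scoped BigOperators ComplexOrder Kronecker Matrix.Norms.L2Operator

variable {L q : ℕ}

/-- the window of a cutting line is within thickness `mp` of its level -/
theorem lev_near {g : Gd L} (hT : ∀ x y, |g.T x - g.T y| ≤ 2 * dist1 x y) {D r : ℕ} {v : SS L}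
    {k : ℕ} (hmp : 4 * D + 4 * r < g.mp) (hc : Sum.Cuts g.R (cor D v) k) {x : Site L}
    (hx : x ∈ bal (st v) r) : layLev g v k - g.mp < g.T x ∧ g.T x ≤ layLev g v k + g.mp := by
  have h1 := cuts_near hT hc
  have h2 := near hT hx
  have h3 : (4 : ℝ) * D + 4 * r < g.mp := by exact_mod_cast hmp
  rcases v with z | z
  · simp only [layLev, Sum.elim_inl]
    rw [hgt_inl] at h1
    simp only [st, Sum.elim_inl, id] at h2
    constructor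
    · linarith [h1.2, h2.1]
    · linarith [h1.1, h2.2]
  · simp only [layLev, Sum.elim_inr]
    rw [hgt_inr] at h1
    simp only [st, Sum.elim_inr, id] at h2
    constructor
    · linarith [h1.1, h2.1]
    · linarith [h1.2, h2.2]

theorem self_mem_tB (g : Gd L) (v : SS L) : v ∈ g.tB (tj g v) := by
  rcases v with z | z
  · exact mem_inL_inl.2 (mem_tileB_tli g.tl z)
  · exact mem_inR_inr.2 (mem_tileB_tli g.tl z)

/-- the coefficient of the defects -/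
noncomputable def Bc (h : ℝ) : ℝ := 32 * Real.pi * Real.cosh Real.pi ^ 2 / h

/-- the part of the line bound which does not depend on the line -/
noncomputable def Ac (L q : ℕ) (M ε bm Lc h π δ : ℝ) : ℝ :=
  π / h ^ 2 + Bc h * (4 * ε * bm + 4 * (bm * Real.log (q / ε)) * δ +
    2 * (q : ℝ) ^ Fintype.card (SS L) * Real.exp (-M)) + 128 * Real.exp 1 * (1 + Lc) ^ 4 * h ^ 2

theorem Bc_nonneg {h : ℝ} (h0 : 0 < h) : 0 ≤ Bc h := by
  unfold Bc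
  have := Real.pi_pos
  positivity

/-- **the single line bound** (E1) in the format of `S1_sum` -/
theorem line_S1 (g : Gd L) {ε : ℝ} (hε0 : 0 < ε) (hε1 : ε ≤ 1 / 2)
    {Ω : Conf (Site L) q → ℂ} (hΩ : nsq Ω = 1) {ψ : Conf (SS L) q → ℂ} (hψ : nsq ψ = 1) {M : ℝ}
    (hq : 1 ≤ q) (hM : Fintype.card (SS L) * Real.log q ≤ M)
    (hT : ∀ x y, |g.T x - g.T y| ≤ 2 * dist1 x y) {D r : ℕ} (hDr : D ≤ r)
    (hmp : 4 * D + 4 * r < g.mp) {v : SS L} (hv : st v ∉ edg L g.tl r)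
    {P : Op (SS L) q} (hP : P.PosSemidef) (hP1 : ‖P‖ ≤ 1) (hPa : ActsOn (cor D v) P)
    {k : ℕ} (hk : g.mp ≤ k) (hkn : k < g.n) (hc : Sum.Cuts g.R (cor D v) k)
    {win : Finset (SS L)} (hwin : g.tB (tj g v) ⊆ win) {bm : ℝ} (hbm : (win.card : ℝ) ≤ bm)
    {δ : ℝ} (hδ : 0 ≤ δ)
    (hdev : ∀ X : Op (SS L) q, ActsOn win X →
      ‖star ψ ⬝ᵥ (X *ᵥ ψ) - star (dbl Ω Ω) ⬝ᵥ (X *ᵥ dbl Ω Ω)‖ ≤ δ * ‖X‖)
    {π : ℝ} (hπ : expv ψ P ≤ π)
    {Lc : ℝ} (hL : 3 * Real.log (q / ε) * ((2 * D + 1 : ℕ) : ℝ) ^ 2 + 1 ≤ Lc)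
    {h : ℝ} (h0 : 0 < h) (hh : h * (8 * (1 + Lc)) ≤ 1) :
    g.QV ψ M (Kt ε (dbl Ω Ω)) P (Sum.healed g.mp (tj g v) k) ≤
      Ac L q M ε bm Lc h π δ + Bc h * tv g (fun A => entropyOf A Ω) D r v k := by
  have hq1 : (1 : ℝ) ≤ q := by exact_mod_cast hq
  have hlog : 0 ≤ Real.log (q / ε) := by
    refine Real.log_nonneg ?_
    rw [le_div_iff₀ hε0]
    linarith
  have hcard : (((bal (st v) D).card : ℕ) : ℝ) ≤ ((2 * D + 1 : ℕ) : ℝ) ^ 2 := by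
    exact_mod_cast card_bal (st v) D
  have h1 := e1_site g hε0 hε1 hΩ hψ hq hM v hP hP1 (c := bal (st v) D) (W := bal (st v) r)
    (by rw [← cor_eq]; exact hPa) (i := tli g.tl (st v)) hk hkn (bal_mono _ hDr)
    (bal_sub_tile hv) (fun x hx => lev_near hT hmp hc hx) (A := win)
    (by rw [layS_tile, ← tj_eq]; exact hwin) hδ hdev (Lc := Lc)
    (by
      have := mul_le_mul_of_nonneg_left hcard (by positivity : 0 ≤ 3 * Real.log (q / ε))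
      linarith) h0 hh
  rw [← tj_eq] at h1
  refine h1.trans ?_
  have hc' : Sum.Cuts g.R (layS v (bal (st v) D)) k := by rw [← cor_eq]; exact hc
  rw [th_eq_thC g v hc']
  have hpos : 0 < h ^ 2 := by positivity
  have e1 : expv ψ P / h ^ 2 ≤ π / h ^ 2 := div_le_div_of_nonneg_right hπ hpos.le
  have hB := Bc_nonneg h0
  have e2 : thC (fun A => entropyOf A Ω) (bal (st v) D) (bal (st v) r) (upT g.T (layLev g v k)) +
      4 * ε * win.card + 4 * (win.card * Real.log (q / ε)) * δ +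
      2 * (q : ℝ) ^ Fintype.card (SS L) * Real.exp (-M) ≤
      (4 * ε * bm + 4 * (bm * Real.log (q / ε)) * δ +
        2 * (q : ℝ) ^ Fintype.card (SS L) * Real.exp (-M)) +
        tv g (fun A => entropyOf A Ω) D r v k := by
    have f1 : 4 * ε * (win.card : ℝ) ≤ 4 * ε * bm := mul_le_mul_of_nonneg_left hbm (by positivity)
    have f2 : 4 * ((win.card : ℝ) * Real.log (q / ε)) * δ ≤ 4 * (bm * Real.log (q / ε)) * δ := by
      have := mul_le_mul_of_nonneg_right hbm hlog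
      have := mul_le_mul_of_nonneg_right this hδ
      linarith
    unfold tv
    linarith
  have e3 := mul_le_mul_of_nonneg_left e2 hB
  have e4 : 32 * Real.pi * Real.cosh Real.pi ^ 2 *
      (thC (fun A => entropyOf A Ω) (bal (st v) D) (bal (st v) r) (upT g.T (layLev g v k)) +
      4 * ε * win.card + 4 * (win.card * Real.log (q / ε)) * δ +
      2 * (q : ℝ) ^ Fintype.card (SS L) * Real.exp (-M)) / h =
      Bc h * (thC (fun A => entropyOf A Ω) (bal (st v) D) (bal (st v) r)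
        (upT g.T (layLev g v k)) +
      4 * ε * win.card + 4 * (win.card * Real.log (q / ε)) * δ +
      2 * (q : ℝ) ^ Fintype.card (SS L) * Real.exp (-M)) := by
    unfold Bc
    ring
  rw [e4]
  unfold Ac
  linarith

theorem Ac_nonneg {M ε bm Lc h π δ : ℝ} (hq : 1 ≤ q) (hε0 : 0 < ε) (hε1 : ε ≤ 1 / 2)
    (hbm : 0 ≤ bm) (h0 : 0 < h) (hπ : 0 ≤ π) (hδ : 0 ≤ δ) : 0 ≤ Ac L q M ε bm Lc h π δ := by
  have hq1 : (1 : ℝ) ≤ q := by exact_mod_cast hq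
  have hlog : 0 ≤ Real.log (q / ε) := by
    refine Real.log_nonneg ?_
    rw [le_div_iff₀ hε0]
    linarith
  have hB := Bc_nonneg h0
  have e1 : 0 ≤ 128 * Real.exp 1 * (1 + Lc) ^ 4 * h ^ 2 := by
    have : 0 ≤ (1 + Lc) ^ 4 := by positivity
    positivity
  unfold Ac
  positivity

theorem slErr_nonneg' {π' δ ε bm Λ h₁ : ℝ} (hπ' : 0 ≤ π') (hδ : 0 ≤ δ) (hε : 0 ≤ ε)
    (hbm : 0 ≤ bm) (h0 : 0 < h₁) : 0 ≤ Gd.slErr π' δ ε bm Λ h₁ := by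
  unfold Gd.slErr
  have := Real.pi_pos
  have e2 : 0 ≤ 64 * (1 + Λ) ^ 4 * h₁ ^ 2 := by
    have : 0 ≤ (1 + Λ) ^ 4 := by positivity
    positivity
  positivity

/-- **S1**: the sum of the second order forms of positive local observables over both layers. -/
theorem S1_all (g : Gd L) {ε : ℝ} (hε0 : 0 < ε) (hε1 : ε ≤ 1 / 2)
    {Ω : Conf (Site L) q → ℂ} (hΩ : nsq Ω = 1) {ψ : Conf (SS L) q → ℂ} (hψ : nsq ψ = 1) {M : ℝ}
    (hq : 1 ≤ q) (hM : Fintype.card (SS L) * Real.log q ≤ M)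
    (hS : EntLike (fun A => entropyOf A Ω))
    (hT : ∀ x y, |g.T x - g.T y| ≤ 2 * dist1 x y) {D r b : ℕ} (hDr : D ≤ r)
    (hmp : 4 * D + 4 * r < g.mp) (hmp8 : 8 * D < g.mp) (htl : 0 < g.tl) (hD : 2 * D ≤ g.tl)
    (hb : g.mp + 4 * D ≤ b) {Exc : Finset (Site L)}
    {Nr : Finset (SS L)} {P : SS L → Op (SS L) q} (hP : ∀ v ∈ Nr, (P v).PosSemidef)
    (hP1 : ∀ v ∈ Nr, ‖P v‖ ≤ 1) (hPa : ∀ v ∈ Nr, ActsOn (cor D v) (P v))
    {π δ : SS L → ℝ} (hπ0 : ∀ v ∈ Nr, 0 < π v) (hπ1 : ∀ v ∈ Nr, π v ≤ 1)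
    (hπ : ∀ v ∈ Nr, expv ψ (P v) ≤ π v) {π' : ℝ} (hπ'0 : 0 ≤ π')
    (hπ' : ∀ v ∈ Nr, expv (dbl Ω Ω) (P v) ≤ π')
    {win : SS L → Finset (SS L)}
    (hwin : ∀ v ∈ Nr, ∀ j, (g.tB j ∩ cor D v).Nonempty → g.tB j ⊆ win v)
    {bm : ℝ} (hbm : ∀ v ∈ Nr, ((win v).card : ℝ) ≤ bm) (hbm0 : 0 ≤ bm)
    (hδ : ∀ v ∈ Nr, 0 ≤ δ v)
    (hdev : ∀ v ∈ Nr, ∀ X : Op (SS L) q, ActsOn (win v) X →
      ‖star ψ ⬝ᵥ (X *ᵥ ψ) - star (dbl Ω Ω) ⬝ᵥ (X *ᵥ dbl Ω Ω)‖ ≤ δ v * ‖X‖)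
    {r₀ b₀ : ℝ} (hr0 : 0 < r₀)
    (hb₀ : ∀ v ∈ Nr, ∑ w : Fin g.n × SS L with ¬ Disjoint (g.tB w.2) (cor D v),
      ‖g.KV (Kt ε (dbl Ω Ω)) w‖ ≤ b₀)
    (hr : ∀ v ∈ Nr, r₀ * (2 * (crs107 (star1 univ g.tB (cor D v)) g.R g.n).card *
      (4 * (star1 univ g.tB (cor D v)).card * Real.log q + 2) + 4 * b₀) ≤ 1)
    {Lc h Λ h₁ C₂ : ℝ} (hL : 3 * Real.log (q / ε) * ((2 * D + 1 : ℕ) : ℝ) ^ 2 + 1 ≤ Lc)
    (h0 : 0 < h) (hh : h * (8 * (1 + Lc)) ≤ 1) (hΛ0 : 0 ≤ Λ)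
    (hΛ : Real.log ((q : ℝ) ^ 2 / ε) * ((2 * D + 1 : ℕ) : ℝ) ^ 2 ≤ Λ) (hh1 : 0 < h₁)
    (hhΛ : h₁ * (4 * (1 + Λ)) ≤ 1)
    (hC1 : Real.exp 1 * (4 * ((2 * D + 1 : ℕ) : ℝ) ^ 2 * Real.log q + 2) ^ 2 ≤ C₂)
    (hC2 : Real.exp 1 * (2 + Λ) ^ 2 ≤ C₂) {θ : ℝ} (hθ : 0 ≤ θ)
    {Θ bad sA sτ₁ sq : ℝ}
    (hΘ : ∑ z ∈ Excᶜ, ∑ k ∈ range g.n,
      (thC (fun A => entropyOf A Ω) (bal z D) (bal z r) (lev g.T (g.t0 + k)) +
        thC (fun A => entropyOf A Ω) (bal z D) (bal z r) (lev g.T (g.t0 + g.N - k))) ≤ Θ)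
    (hbad : ((Nr \ Zin g Exc b r Nr).card : ℝ) ≤ bad)
    (hsA : ∑ v ∈ Nr, Ac L q M ε bm Lc h (π v) (δ v) ≤ sA)
    (hsτ₁ : ∑ v ∈ Nr, Gd.slErr π' (δ v) ε bm Λ h₁ ≤ sτ₁)
    (hsq : ∑ v ∈ Nr, Real.sqrt (π v) ≤ sq) :
    ∑ v ∈ Nr, g.QV ψ M (Kt ε (dbl Ω Ω)) (P v)
        (Sum.czero θ g.n (range g.n ×ˢ (univ : Finset (SS L)))) ≤
      S1rhs θ D g.mp g.tl C₂ sA (Bc h) Θ bad sτ₁ (4 / r₀ ^ 2 * sq) := by
  have hΩ2 : nsq (dbl Ω Ω) = 1 := by rw [nsq_dbl, hΩ, one_mul]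
  have hC20 : 0 ≤ C₂ := le_trans (by positivity) hC2
  have hq1 : (1 : ℝ) ≤ q := by exact_mod_cast hq
  have hlq : 0 ≤ Real.log q := Real.log_nonneg hq1
  have hlog2 : 0 ≤ Real.log ((q : ℝ) ^ 2 / ε) := by
    refine Real.log_nonneg ?_
    rw [le_div_iff₀ hε0]
    nlinarith
  have hcc : ∀ v : SS L, (((cor D v).card : ℕ) : ℝ) ≤ ((2 * D + 1 : ℕ) : ℝ) ^ 2 := fun v => by
    exact_mod_cast card_cor D v
  refine S1_sum g hS hT hmp8 htl hD hDr hb (τ := fun v => 4 * Real.sqrt (π v) / r₀ ^ 2)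
    (τ₁ := fun v => Gd.slErr π' (δ v) ε bm Λ h₁) (A := fun v => Ac L q M ε bm Lc h (π v) (δ v))
    (fun v hv => ?_) (fun v hv => by positivity)
    (fun v hv => slErr_nonneg' hπ'0 (hδ v hv) hε0.le hbm0 hh1) hC20 hθ
    (fun v hv => Ac_nonneg hq hε0 hε1 hbm0 h0 (hπ0 v hv).le (hδ v hv)) (Bc_nonneg h0)
    (fun v hv _ _ hedg k hk hkn hc => ?_) hΘ hbad hsA hsτ₁ ?_
  · obtain ⟨y, hy0, hy1, hy2⟩ := psd_opt394 (hπ0 v hv) (hπ1 v hv) hr0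
    have h3 := Gd.lf_inst g hq hψ hM hε0 hε1 hΩ2 (hP v hv) (hPa v hv) (hP1 v hv) (hb₀ v hv) hr0
      (hr v hv) hy0 hy1 (hπ v hv) (Rel := Rel g D v) (fun p hp1 hp2 hp3 => ?_)
      (fun p hp => (mem_Rel.1 hp).1) (win := win v)
      (fun p hp _ => (g.Wd_sub p).trans (hwin v hv p.2 (mem_Rel.1 hp).2.1)) (hdev v hv)
      (hδ v hv) hπ'0 (hπ' v hv) (hbm v hv) hΛ0
      ((mul_le_mul_of_nonneg_left (hcc v) hlog2).trans hΛ) hh1 hhΛ ?_ hC2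
    · have e : 1 / 2 * psdErr (π v) 8 r₀ y = 4 * Real.sqrt (π v) / r₀ ^ 2 := by
        rw [hy2]
        ring
      rw [e] at h3
      exact h3
    · rw [mem_Rel]
      exact ⟨hp1, Finset.not_disjoint_iff_nonempty_inter.1 hp2, hp3⟩
    · refine le_trans (mul_le_mul_of_nonneg_left ?_ (Real.exp_pos 1).le) hC1
      have e1 : 4 * ((cor D v).card : ℝ) * Real.log q ≤
          4 * ((2 * D + 1 : ℕ) : ℝ) ^ 2 * Real.log q :=
        mul_le_mul_of_nonneg_right (mul_le_mul_of_nonneg_left (hcc v) (by norm_num)) hlq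
      exact pow_le_pow_left₀ (by positivity) (by linarith) 2
  · exact line_S1 g hε0 hε1 hΩ hψ hq hM hT hDr hmp hedg (hP v hv) (hP1 v hv) (hPa v hv) hk hkn hc
      (hwin v hv _ ⟨v, Finset.mem_inter.2 ⟨self_mem_tB g v, self_mem_cor D v⟩⟩) (hbm v hv)
      (hδ v hv) (hdev v hv) (hπ v hv) hL h0 hh
  · have e : ∑ v ∈ Nr, 4 * Real.sqrt (π v) / r₀ ^ 2 = 4 / r₀ ^ 2 * ∑ v ∈ Nr, Real.sqrt (π v) := by
      rw [Finset.mul_sum]
      exact Finset.sum_congr rfl fun v _ => by ring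
    rw [e]
    exact mul_le_mul_of_nonneg_left hsq (by positivity)

end Vale.Agent.P356.GA.S1
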