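import Vale.Agent.P356.GA.S1b_87
import Vale.Agent.P356.GA.S1v770

/-!
# GA, S1 (helper87): the sum over the local terms with all inputs, two classes of exceptional cores

`S1_sum2` of helper770 with the single line bound (E1) and the facts of helper770 (`lf_inst`).
-/

set_option linter.all false

namespace Vale.Agent.P356.GA.S1

open Matrix Finset Vale.Agent.P356 Vale.Agent.P356.SV Vale.Agent.P356.SA Vale.Agent.P356.PH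
open Vale.Agent.P356.NA
open Vale.Agent.P356.GA Vale.Agent.P356.GA.Level Vale.Agent.P356.GA.Edge795
open Vale.Agent.P356.GA.Class407 Vale.Agent.P356.GA.Theta
open scoped BigOperators ComplexOrder Kronecker Matrix.Norms.L2Operator

variable {L q : ℕ}

/-- the step in almost positivity, for expectations up to `16` -/
theorem psd_opt16 {π r : ℝ} (h0 : 0 < π) (h1 : π ≤ 16) (hr : 0 < r) :
    ∃ y : ℝ, 0 < y ∧ y ≤ r / 2 ∧ psdErr π 8 r y = 17 * Real.sqrt π / r ^ 2 := by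
  set s := Real.sqrt (Real.sqrt π) with hs
  have s0 : 0 < s := Real.sqrt_pos.2 (Real.sqrt_pos.2 h0)
  have s2 : s ^ 2 = Real.sqrt π := Real.sq_sqrt (Real.sqrt_nonneg _)
  have s4 : s ^ 4 = π := by
    have : s ^ 4 = (s ^ 2) ^ 2 := by ring
    rw [this, s2, Real.sq_sqrt h0.le]
  have s1 : s ≤ 2 := by
    by_contra h
    push Not at h
    have : (2 : ℝ) ^ 4 < s ^ 4 := pow_lt_pow_left₀ h (by norm_num) (by norm_num)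
    linarith
  refine ⟨r * s / 4, by positivity, ?_, ?_⟩
  · have : r * s ≤ r * 2 := mul_le_mul_of_nonneg_left s1 hr.le
    linarith
  · unfold psdErr
    rw [← s2, show π = s ^ 4 from s4.symm]
    have e1 : s ^ 4 / (r * s / 4) ^ 2 = 16 * s ^ 2 / r ^ 2 := by
      field_simp
      ring
    have e2 : 2 * 8 * (r * s / 4) ^ 2 / r ^ 4 = 1 * s ^ 2 / r ^ 2 := by
      field_simp
      ring
    rw [e1, e2]
    ring

/-- **S1**: the sum of the second order forms of positive local observables over both layers. -/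
theorem S1_all2 (g : Gd L) {ε : ℝ} (hε0 : 0 < ε) (hε1 : ε ≤ 1 / 2)
    {Ω : Conf (Site L) q → ℂ} (hΩ : nsq Ω = 1) {ψ : Conf (SS L) q → ℂ} (hψ : nsq ψ = 1) {M : ℝ}
    (hq : 1 ≤ q) (hM : Fintype.card (SS L) * Real.log q ≤ M)
    (hS : EntLike (fun A => entropyOf A Ω))
    (hT : ∀ x y, |g.T x - g.T y| ≤ 2 * dist1 x y) {D r b : ℕ} (hDr : D ≤ r)
    (hmp : 4 * D + 4 * r < g.mp) (hmp8 : 8 * D < g.mp) (htl : 0 < g.tl) (hD : 2 * D ≤ g.tl)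
    (hb : g.mp + 4 * D ≤ b) {Exc : Finset (Site L)}
    {Nr : Finset (SS L)} {P : SS L → Op (SS L) q} (hP : ∀ v ∈ Nr, (P v).PosSemidef)
    (hP1 : ∀ v ∈ Nr, ‖P v‖ ≤ 1) (hPa : ∀ v ∈ Nr, ActsOn (cor D v) (P v))
    {π δ : SS L → ℝ} (hπ0 : ∀ v ∈ Nr, 0 < π v) (hπ1 : ∀ v ∈ Nr, π v ≤ 16)
    (hπ : ∀ v ∈ Nr, expv ψ (P v) ≤ π v) {π' : ℝ} (hπ'0 : 0 ≤ π')
    (hπ' : ∀ v ∈ Nr, expv (dbl Ω Ω) (P v) ≤ π')
    {win : SS L → Finset (SS L)}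
    (hwin : ∀ v ∈ Nr, ∀ j, (g.tB j ∩ cor D v).Nonempty → g.tB j ⊆ win v)
    {bm : ℝ} (hbm : ∀ v ∈ Nr, ((win v).card : ℝ) ≤ bm) (hbm0 : 0 ≤ bm)
    (hδ : ∀ v ∈ Nr, 0 ≤ δ v)
    (hdev : ∀ v ∈ Nr, ∀ X : Op (SS L) q, ActsOn (win v) X →
      ‖star ψ ⬝ᵥ (X *ᵥ ψ) - star (dbl Ω Ω) ⬝ᵥ (X *ᵥ dbl Ω Ω)‖ ≤ δ v * ‖X‖)
    {r₀ b₀ : ℝ} (hr0 : 0 < r₀)
    (hb₀ : ∀ v ∈ Nr, ∑ w : Fin g.n × SS L with ¬ Disjoint (g.tB w.2) (cor D v),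
      ‖g.KV (Kt ε (dbl Ω Ω)) w‖ ≤ b₀)
    (hr : ∀ v ∈ Nr, r₀ * (2 * (crs107 (star1 univ g.tB (cor D v)) g.R g.n).card *
      (4 * (star1 univ g.tB (cor D v)).card * Real.log q + 2) + 4 * b₀) ≤ 1)
    {Lc h Λ h₁ C₂ : ℝ} (hL : 3 * Real.log (q / ε) * ((2 * D + 1 : ℕ) : ℝ) ^ 2 + 1 ≤ Lc)
    (h0 : 0 < h) (hh : h * (8 * (1 + Lc)) ≤ 1) (hΛ0 : 0 ≤ Λ)
    (hΛ : Real.log ((q : ℝ) ^ 2 / ε) * ((2 * D + 1 : ℕ) : ℝ) ^ 2 ≤ Λ) (hh1 : 0 < h₁)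
    (hhΛ : h₁ * (4 * (1 + Λ)) ≤ 1)
    (hC1 : Real.exp 1 * (4 * ((2 * D + 1 : ℕ) : ℝ) ^ 2 * Real.log q + 2) ^ 2 ≤ C₂)
    (hC2 : Real.exp 1 * (2 + Λ) ^ 2 ≤ C₂) {θ : ℝ} (hθ : 0 ≤ θ)
    {Θ exc edge sA sτ₁ sq : ℝ}
    (hΘ : ∑ z ∈ Excᶜ, ∑ k ∈ range g.n,
      (thC (fun A => entropyOf A Ω) (bal z D) (bal z r) (lev g.T (g.t0 + k)) +
        thC (fun A => entropyOf A Ω) (bal z D) (bal z r) (lev g.T (g.t0 + g.N - k))) ≤ Θ)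
    (hexc : ((S1v.Zi g D b Nr \ S1v.Zg g Exc D b r Nr).card : ℝ) ≤ exc)
    (hedge : ((Nr \ S1v.Zi g D b Nr).card : ℝ) ≤ edge)
    (hsA : ∑ v ∈ Nr, Ac L q M ε bm Lc h (π v) (δ v) ≤ sA)
    (hsτ₁ : ∑ v ∈ Nr, Gd.slErr π' (δ v) ε bm Λ h₁ ≤ sτ₁)
    (hsq : ∑ v ∈ Nr, Real.sqrt (π v) ≤ sq) :
    ∑ v ∈ Nr, g.QV ψ M (Kt ε (dbl Ω Ω)) (P v)
        (Sum.czero θ g.n (range g.n ×ˢ (univ : Finset (SS L)))) ≤
      S1v.S1rhs θ D g.mp g.tl C₂ sA (Bc h) Θ exc edge sτ₁ (17 / r₀ ^ 2 * sq) := by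
  have hΩ2 : nsq (dbl Ω Ω) = 1 := by rw [nsq_dbl, hΩ, one_mul]
  have hC20 : 0 ≤ C₂ := le_trans (by positivity) hC2
  have hq1 : (1 : ℝ) ≤ q := by exact_mod_cast hq
  have hlq : 0 ≤ Real.log q := Real.log_nonneg hq1
  have hlog2 : 0 ≤ Real.log ((q : ℝ) ^ 2 / ε) := by
    refine Real.log_nonneg ?_
    rw [le_div_iff₀ hε0]
    nlinarith
  have hcc : ∀ v : SS L, (((cor D v).card : ℕ) : ℝ) ≤ ((2 * D + 1 : ℕ) : ℝ) ^ 2 := fun v => by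
    exact_mod_cast card_cor D v
  refine S1v.S1_sum2 g hS hT hmp8 htl hD hb (τ := fun v => 17 / 2 * Real.sqrt (π v) / r₀ ^ 2)
    (τ₁ := fun v => Gd.slErr π' (δ v) ε bm Λ h₁) (A := fun v => Ac L q M ε bm Lc h (π v) (δ v))
    (fun v hv => ?_) (fun v hv => by positivity)
    (fun v hv => slErr_nonneg' hπ'0 (hδ v hv) hε0.le hbm0 hh1) hC20 hθ
    (fun v hv => Ac_nonneg hq hε0 hε1 hbm0 h0 (hπ0 v hv).le (hδ v hv)) (Bc_nonneg h0)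
    (fun v hv _ hedg k hk hkn hc => ?_) hΘ hexc hedge hsA hsτ₁ ?_
  · obtain ⟨y, hy0, hy1, hy2⟩ := psd_opt16 (hπ0 v hv) (hπ1 v hv) hr0
    have h3 := Gd.lf_inst g hq hψ hM hε0 hε1 hΩ2 (hP v hv) (hPa v hv) (hP1 v hv) (hb₀ v hv) hr0
      (hr v hv) hy0 hy1 (hπ v hv) (Rel := Rel g D v) (fun p hp1 hp2 hp3 => ?_)
      (fun p hp => (mem_Rel.1 hp).1) (win := win v)
      (fun p hp _ => (g.Wd_sub p).trans (hwin v hv p.2 (mem_Rel.1 hp).2.1)) (hdev v hv)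
      (hδ v hv) hπ'0 (hπ' v hv) (hbm v hv) hΛ0
      ((mul_le_mul_of_nonneg_left (hcc v) hlog2).trans hΛ) hh1 hhΛ ?_ hC2
    · have e : 1 / 2 * psdErr (π v) 8 r₀ y = 17 / 2 * Real.sqrt (π v) / r₀ ^ 2 := by
        rw [hy2]
        ring
      rw [e] at h3
      exact h3
    · rw [mem_Rel]
      exact ⟨hp1, Finset.not_disjoint_iff_nonempty_inter.1 hp2, hp3⟩
    · refine le_trans (mul_le_mul_of_nonneg_left ?_ (Real.exp_pos 1).le) hC1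
      have e1 : 4 * ((cor D v).card : ℝ) * Real.log q ≤
          4 * ((2 * D + 1 : ℕ) : ℝ) ^ 2 * Real.log q :=
        mul_le_mul_of_nonneg_right (mul_le_mul_of_nonneg_left (hcc v) (by norm_num)) hlq
      exact pow_le_pow_left₀ (by positivity) (by linarith) 2
  · exact line_S1 g hε0 hε1 hΩ hψ hq hM hT hDr hmp hedg (hP v hv) (hP1 v hv) (hPa v hv) hk hkn hc
      (hwin v hv _ ⟨v, Finset.mem_inter.2 ⟨self_mem_tB g v, self_mem_cor D v⟩⟩) (hbm v hv)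
      (hδ v hv) (hdev v hv) (hπ v hv) hL h0 hh
  · have e : ∑ v ∈ Nr, 17 / 2 * Real.sqrt (π v) / r₀ ^ 2 =
        17 / 2 / r₀ ^ 2 * ∑ v ∈ Nr, Real.sqrt (π v) := by
      rw [Finset.mul_sum]
      exact Finset.sum_congr rfl fun v _ => by ring
    rw [e]
    have e0 : 0 ≤ ∑ v ∈ Nr, Real.sqrt (π v) := Finset.sum_nonneg fun v _ => Real.sqrt_nonneg _
    have e1 : 17 / 2 / r₀ ^ 2 ≤ 17 / r₀ ^ 2 :=
      div_le_div_of_nonneg_right (by norm_num) (by positivity)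
    exact mul_le_mul e1 hsq e0 (by positivity)

end Vale.Agent.P356.GA.S1
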