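import Vale.Agent.P356.GA.Cuts103

/-!
GA, block CUTS, part 3: the truncated two-sided exponential weights `p j ~ exp (-|j| / K)`,
`|j| ≤ K (J + 1)`.
-/

set_option linter.all false

namespace Vale.Agent.P356.GA.Cut

open Finset
open scoped BigOperators

/-- the levels of the noise -/
noncomputable def lvN (K J : ℕ) : Finset ℤ := Finset.Icc (-((K * (J + 1) : ℕ) : ℤ)) ((K * (J + 1) : ℕ) : ℤ)

/-- weight before normalisation -/
noncomputable def w0 (K : ℕ) (j : ℤ) : ℝ := Real.exp (-((j.natAbs : ℝ) / K))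

/-- normalisation -/
noncomputable def Zc (K J : ℕ) : ℝ := ∑ j ∈ lvN K J, w0 K j

/-- the weight -/
noncomputable def pw (K J : ℕ) (j : ℤ) : ℝ := w0 K j / Zc K J

theorem w0_pos (K : ℕ) (j : ℤ) : 0 < w0 K j := Real.exp_pos _

theorem mem_lvN {K J : ℕ} {j : ℤ} : j ∈ lvN K J ↔ j.natAbs ≤ K * (J + 1) := by
  unfold lvN
  rw [Finset.mem_Icc]
  constructor
  · rintro ⟨h1, h2⟩
    omega
  · intro h
    constructor <;> omega

theorem Zc_pos (K J : ℕ) : 0 < Zc K J := by
  unfold Zc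
  refine Finset.sum_pos (fun j _ => w0_pos K j) ⟨0, ?_⟩
  rw [mem_lvN]
  simp

theorem pw_nonneg (K J : ℕ) (j : ℤ) : 0 ≤ pw K J j := div_nonneg (w0_pos K j).le (Zc_pos K J).le

theorem sum_pw (K J : ℕ) : ∑ j ∈ lvN K J, pw K J j = 1 := by
  unfold pw
  rw [← Finset.sum_div]
  exact div_self (Zc_pos K J).ne'

/-- lower bound of the weight -/
theorem w0_ge {K : ℕ} (hK : 1 ≤ K) {j : ℤ} {a : ℝ} (h : (j.natAbs : ℝ) ≤ K * a) :
    Real.exp (-a) ≤ w0 K j := by
  unfold w0
  refine Real.exp_le_exp.2 ?_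
  have hK0 : (0 : ℝ) < K := by exact_mod_cast hK
  have : (j.natAbs : ℝ) / K ≤ a := by
    rw [div_le_iff₀ hK0]
    linarith
  linarith

/-- upper bound of the weight -/
theorem w0_le {K : ℕ} (hK : 1 ≤ K) {j : ℤ} {a : ℝ} (h : K * a ≤ (j.natAbs : ℝ)) :
    w0 K j ≤ Real.exp (-a) := by
  unfold w0
  refine Real.exp_le_exp.2 ?_
  have hK0 : (0 : ℝ) < K := by exact_mod_cast hK
  have : a ≤ (j.natAbs : ℝ) / K := by
    rw [le_div_iff₀ hK0]
    linarith
  linarith

theorem geom_le {K : ℕ} (hK : 1 ≤ K) (N : ℕ) :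
    ∑ n ∈ range N, Real.exp (-((n : ℝ) / K)) ≤ K + 1 := by
  have hK0 : (0 : ℝ) < K := by exact_mod_cast hK
  set x : ℝ := Real.exp (-(1 / (K : ℝ))) with hx
  have hx0 : 0 < x := Real.exp_pos _
  have hxle : x ≤ K / (K + 1) := by
    have h1 : 1 + 1 / (K : ℝ) ≤ Real.exp (1 / (K : ℝ)) := by
      have := Real.add_one_le_exp (1 / (K : ℝ))
      linarith
    rw [hx, Real.exp_neg, inv_le_comm₀ (Real.exp_pos _) (by positivity)]
    calc (K / (K + 1) : ℝ)⁻¹ = 1 + 1 / (K : ℝ) := by field_simp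
      _ ≤ _ := h1
  have hx1 : x < 1 := lt_of_le_of_lt hxle (by rw [div_lt_one (by positivity)]; linarith)
  have e : ∀ n ∈ range N, Real.exp (-((n : ℝ) / K)) = x ^ n := by
    intro n _
    rw [hx, ← Real.exp_nat_mul]
    congr 1
    ring
  rw [Finset.sum_congr rfl e]
  have h2 : ∑ n ∈ range N, x ^ n ≤ (1 - x)⁻¹ := by
    rw [geom_sum_eq hx1.ne, ← neg_sub 1 x, div_neg, ← neg_div, neg_sub, inv_eq_one_div]
    have : 0 ≤ x ^ N := by positivity
    exact div_le_div_of_nonneg_right (by linarith) (by linarith)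
  refine h2.trans ?_
  rw [inv_le_comm₀ (by linarith) (by positivity)]
  have : 1 - K / ((K : ℝ) + 1) = (K + 1 : ℝ)⁻¹ := by field_simp; ring
  linarith

theorem Zc_le {K : ℕ} (hK : 1 ≤ K) (J : ℕ) : Zc K J ≤ 4 * K := by
  have hK1 : (1 : ℝ) ≤ K := by exact_mod_cast hK
  set M : ℕ := K * (J + 1) with hM
  have hmap : ∀ j ∈ lvN K J, j.natAbs ∈ range (M + 1) := by
    intro j hj
    rw [mem_lvN] at hj
    rw [mem_range]
    omega
  have h1 : Zc K J = ∑ n ∈ range (M + 1), ∑ j ∈ (lvN K J).filter (fun j => j.natAbs = n),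
      w0 K j := (Finset.sum_fiberwise_of_maps_to hmap _).symm
  rw [h1]
  have h2 : ∀ n ∈ range (M + 1), ∑ j ∈ (lvN K J).filter (fun j => j.natAbs = n), w0 K j ≤
      2 * Real.exp (-((n : ℝ) / K)) := by
    intro n _
    have hc : ((lvN K J).filter (fun j => j.natAbs = n)).card ≤ 2 := by
      refine le_trans (Finset.card_le_card (t := {(n : ℤ), -(n : ℤ)}) ?_) Finset.card_le_two
      intro j hj
      rw [mem_filter] at hj
      rw [mem_insert, mem_singleton]
      omega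
    calc ∑ j ∈ (lvN K J).filter (fun j => j.natAbs = n), w0 K j
        = ∑ j ∈ (lvN K J).filter (fun j => j.natAbs = n), Real.exp (-((n : ℝ) / K)) := by
          refine Finset.sum_congr rfl fun j hj => ?_
          unfold w0
          rw [(mem_filter.1 hj).2]
      _ = ((lvN K J).filter (fun j => j.natAbs = n)).card * Real.exp (-((n : ℝ) / K)) := by
          rw [Finset.sum_const, nsmul_eq_mul]
      _ ≤ 2 * Real.exp (-((n : ℝ) / K)) := by
          refine mul_le_mul_of_nonneg_right ?_ (Real.exp_pos _).le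
          exact_mod_cast hc
  refine (Finset.sum_le_sum h2).trans ?_
  rw [← Finset.mul_sum]
  have := geom_le hK (M + 1)
  linarith

theorem Zc_ge {K : ℕ} (hK : 1 ≤ K) (J : ℕ) : K * Real.exp (-1) ≤ Zc K J := by
  have hsub : (Finset.Ico (0 : ℤ) K) ⊆ lvN K J := by
    intro j hj
    rw [Finset.mem_Ico] at hj
    rw [mem_lvN]
    have h1 : j.natAbs ≤ K := by omega
    exact h1.trans (Nat.le_mul_of_pos_right K (Nat.succ_pos J))
  unfold Zc
  calc K * Real.exp (-1) = ∑ j ∈ Finset.Ico (0 : ℤ) K, Real.exp (-1) := by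
        rw [Finset.sum_const, nsmul_eq_mul]
        simp
    _ ≤ ∑ j ∈ Finset.Ico (0 : ℤ) K, w0 K j := by
        refine Finset.sum_le_sum fun j hj => w0_ge hK ?_
        rw [Finset.mem_Ico] at hj
        rw [mul_one]
        have : j.natAbs ≤ K := by omega
        exact_mod_cast this
    _ ≤ _ := Finset.sum_le_sum_of_subset_of_nonneg hsub fun j _ _ => (w0_pos K j).le

/-- **at the level** : the probability of the exact height -/
theorem kap1 {K : ℕ} (hK : 1 ≤ K) (J : ℕ) {ρ s : ℤ} (h : |s - K * ρ| ≤ K * J) :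
    1 ≤ (4 * K * Real.exp J) * Pr (lvN K J) (pw K J) (fun v => (K : ℤ) * ρ + v = s) := by
  have hK0 : (0 : ℝ) < K := by exact_mod_cast hK
  set t : ℤ := s - K * ρ with ht
  have habs : (t.natAbs : ℤ) ≤ K * J := by rw [Int.natCast_natAbs]; exact h
  have hmem : t ∈ (lvN K J).filter (fun v => (K : ℤ) * ρ + v = s) := by
    rw [mem_filter, mem_lvN]
    refine ⟨?_, by rw [ht]; ring⟩
    have h1 : t.natAbs ≤ K * J := by exact_mod_cast habs
    exact h1.trans (Nat.mul_le_mul_left K (Nat.le_succ J))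
  have h1 : pw K J t ≤ Pr (lvN K J) (pw K J) (fun v => (K : ℤ) * ρ + v = s) :=
    Finset.single_le_sum (f := pw K J) (fun j _ => pw_nonneg K J j) hmem
  have h2 : Real.exp (-J) / (4 * K) ≤ pw K J t := by
    unfold pw
    refine div_le_div₀ (w0_pos K t).le (w0_ge hK ?_) (Zc_pos K J) (Zc_le hK J)
    have : (t.natAbs : ℤ) ≤ ((K * J : ℕ) : ℤ) := by push_cast; exact h
    exact_mod_cast this
  calc (1 : ℝ) = (4 * K * Real.exp J) * (Real.exp (-J) / (4 * K)) := by
        rw [Real.exp_neg]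
        have := (Real.exp_pos (J : ℝ)).ne'
        field_simp
    _ ≤ _ := mul_le_mul_of_nonneg_left (h2.trans h1) (by positivity)

/-- a run of `K` levels -/
theorem run_ge {K : ℕ} (hK : 1 ≤ K) (J : ℕ) (A : ℤ → Prop) [DecidablePred A] {a : ℤ}
    (h : ∀ v ∈ Finset.Ico a (a + K), A v ∧ v.natAbs ≤ K * (J + 1)) :
    1 ≤ (4 * Real.exp (J + 1)) * Pr (lvN K J) (pw K J) A := by
  have hK0 : (0 : ℝ) < K := by exact_mod_cast hK
  have hsub : Finset.Ico a (a + K) ⊆ (lvN K J).filter A := by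
    intro v hv
    rw [mem_filter, mem_lvN]
    exact ⟨(h v hv).2, (h v hv).1⟩
  have h1 : ∑ v ∈ Finset.Ico a (a + K), pw K J v ≤ Pr (lvN K J) (pw K J) A :=
    Finset.sum_le_sum_of_subset_of_nonneg hsub fun j _ _ => pw_nonneg K J j
  have h2 : Real.exp (-(J + 1 : ℝ)) / 4 ≤ ∑ v ∈ Finset.Ico a (a + K), pw K J v := by
    calc Real.exp (-(J + 1 : ℝ)) / 4 =
        ∑ v ∈ Finset.Ico a (a + K), Real.exp (-(J + 1 : ℝ)) / (4 * K) := by
          rw [Finset.sum_const, nsmul_eq_mul]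
          simp only [Int.card_Ico, add_sub_cancel_left, Int.toNat_natCast]
          field_simp
      _ ≤ _ := by
          refine Finset.sum_le_sum fun v hv => ?_
          unfold pw
          refine div_le_div₀ (w0_pos K v).le (w0_ge hK ?_) (Zc_pos K J) (Zc_le hK J)
          exact_mod_cast (h v hv).2
  calc (1 : ℝ) = (4 * Real.exp (J + 1)) * (Real.exp (-(J + 1 : ℝ)) / 4) := by
        rw [Real.exp_neg]
        have := (Real.exp_pos (J + 1 : ℝ)).ne'
        field_simp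
    _ ≤ _ := mul_le_mul_of_nonneg_left (h2.trans h1) (by positivity)

/-- **above the level** -/
theorem kap2 {K : ℕ} (hK : 1 ≤ K) (J : ℕ) {ρ s : ℤ} (h : |s - K * ρ| ≤ K * J) :
    1 ≤ (4 * Real.exp (J + 1)) * Pr (lvN K J) (pw K J) (fun v => s < (K : ℤ) * ρ + v) := by
  refine run_ge hK J _ (a := (K * J : ℕ) + 1) ?_
  intro v hv
  rw [Finset.mem_Ico] at hv
  rw [abs_le] at h
  push_cast at hv
  have e : (K : ℤ) * (J + 1) = K * J + K := by ring
  refine ⟨by linarith [h.2, hv.1], ?_⟩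
  have h1 : (0 : ℤ) ≤ (K : ℤ) * J := by positivity
  have h2 : (v.natAbs : ℤ) ≤ K * (J + 1) := by
    rw [Int.natCast_natAbs, abs_le]
    constructor <;> linarith [hv.1, hv.2]
  exact_mod_cast h2

/-- **below the level** -/
theorem kap3 {K : ℕ} (hK : 1 ≤ K) (J : ℕ) {ρ s : ℤ} (h : |s - K * ρ| ≤ K * J) :
    1 ≤ (4 * Real.exp (J + 1)) * Pr (lvN K J) (pw K J) (fun v => (K : ℤ) * ρ + v < s) := by
  refine run_ge hK J _ (a := -((K * J : ℕ) : ℤ) - K) ?_
  intro v hv
  rw [Finset.mem_Ico] at hv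
  rw [abs_le] at h
  push_cast at hv
  have e : (K : ℤ) * (J + 1) = K * J + K := by ring
  refine ⟨by linarith [h.1, hv.2], ?_⟩
  have h1 : (0 : ℤ) ≤ (K : ℤ) * J := by positivity
  have h2 : (v.natAbs : ℤ) ≤ K * (J + 1) := by
    rw [Int.natCast_natAbs, abs_le]
    constructor <;> linarith [hv.1, hv.2]
  exact_mod_cast h2

/-- **tail** -/
theorem Pr_tail {K J : ℕ} (hK : 1 ≤ K) (hJ : 1 ≤ J) :
    Pr (lvN K J) (pw K J) (fun v => K * (J - 1) < v.natAbs) ≤ 4 * Real.exp (2 - J) := by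
  have hK0 : (0 : ℝ) < K := by exact_mod_cast hK
  have hcard : ((lvN K J).filter (fun v : ℤ => K * (J - 1) < v.natAbs)).card ≤ 4 * K := by
    have hsub : (lvN K J).filter (fun v : ℤ => K * (J - 1) < v.natAbs) ⊆
        Finset.Ioc ((K * (J - 1) : ℕ) : ℤ) ((K * (J + 1) : ℕ) : ℤ) ∪
          Finset.Ico (-((K * (J + 1) : ℕ) : ℤ)) (-((K * (J - 1) : ℕ) : ℤ)) := by
      intro v hv
      rw [mem_filter, mem_lvN] at hv
      rw [mem_union, Finset.mem_Ioc, Finset.mem_Ico]
      omega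
    refine (Finset.card_le_card hsub).trans ((Finset.card_union_le _ _).trans ?_)
    rw [Int.card_Ioc, Int.card_Ico]
    have e : K * (J + 1) = K * (J - 1) + 2 * K := by
      obtain ⟨J', rfl⟩ : ∃ J', J = J' + 1 := ⟨J - 1, by omega⟩
      rw [Nat.add_sub_cancel]
      ring
    rw [e]
    push_cast
    omega
  unfold Pr
  calc ∑ j ∈ (lvN K J).filter (fun v : ℤ => K * (J - 1) < v.natAbs), pw K J j
      ≤ ∑ j ∈ (lvN K J).filter (fun v : ℤ => K * (J - 1) < v.natAbs),
          Real.exp (-((J : ℝ) - 1)) / (K * Real.exp (-1)) := by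
        refine Finset.sum_le_sum fun v hv => ?_
        unfold pw
        refine div_le_div₀ (Real.exp_pos _).le (w0_le hK ?_) (by positivity) (Zc_ge hK J)
        have h1 := (mem_filter.1 hv).2
        have h2 : ((K * (J - 1) : ℕ) : ℝ) ≤ (v.natAbs : ℝ) := by exact_mod_cast h1.le
        rw [Nat.cast_mul, Nat.cast_sub hJ, Nat.cast_one] at h2
        exact h2
    _ = ((lvN K J).filter (fun v : ℤ => K * (J - 1) < v.natAbs)).card *
          (Real.exp (-((J : ℝ) - 1)) / (K * Real.exp (-1))) := by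
        rw [Finset.sum_const, nsmul_eq_mul]
    _ ≤ (4 * K : ℝ) * (Real.exp (-((J : ℝ) - 1)) / (K * Real.exp (-1))) := by
        refine mul_le_mul_of_nonneg_right ?_ (by positivity)
        exact_mod_cast hcard
    _ = 4 * Real.exp (2 - J) := by
        have : Real.exp (2 - J) = Real.exp (-((J : ℝ) - 1)) / Real.exp (-1) := by
          rw [← Real.exp_sub]
          congr 1
          ring
        rw [this]
        field_simp

end Vale.Agent.P356.GA.Cut
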