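import Vale.Agent.P356.GA.Avg103
import Vale.Agent.P356.GA.Wt103

/-!
GA, block CUTS, part 4: the two conditional entropies of the single line lemma are at most `cutErr`;
selection of one realisation of the block noise.
-/

set_option linter.all false

namespace Vale.Agent.P356.GA.Cut

open Finset Vale.Agent.P356 Vale.Agent.P356.SA Vale.Agent.P356.GA
open scoped BigOperators

section kap

variable {I : Type*} [Fintype I] [DecidableEq I] {S : Finset I → ℝ}

theorem dpat_sum_le (hS : EntLike S) {Nb : I → Finset I} {out W c a : Finset I} (ha : a ⊆ c)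
    (A : I → Finset I) (hA : ∀ i ∈ a, A i ⊆ c.erase i) :
    ∑ i ∈ a, dpat S Nb out W c i (A i) ≤ cutErr S Nb out W c := by
  unfold cutErr
  calc ∑ i ∈ a, dpat S Nb out W c i (A i)
      ≤ ∑ i ∈ a, ∑ A ∈ (c.erase i).powerset, dpat S Nb out W c i A := by
        refine Finset.sum_le_sum fun i hi => ?_
        exact Finset.single_le_sum (f := fun A => dpat S Nb out W c i A)
          (fun B hB => dpat_nonneg hS (ha hi) (mem_powerset.1 hB))
          (mem_powerset.2 (hA i hi))
    _ ≤ _ := Finset.sum_le_sum_of_subset_of_nonneg ha fun i hi _ =>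
        Finset.sum_nonneg fun B hB => dpat_nonneg hS hi (mem_powerset.1 hB)

/-- **the outside of the line**: `S(a_R | N) + S(a_R | b') ≤ cutErr`, `a_R = c ∩ up` -/
theorem kap_up (hS : EntLike S) {e : I → ℕ} (he : Function.Injective e) {Nb : I → Finset I}
    {out W c N b : Finset I} (hN1 : out ∩ (W \ c) ⊆ N) (hN2 : Disjoint N c)
    (hb1 : c \ out ⊆ b) (hb1' : (W \ c) \ out ⊆ b) (hb2 : Disjoint b (c ∩ out)) :
    (S ((c ∩ out) ∪ N) - S N) + (S ((c ∩ out) ∪ b) - S b) ≤ cutErr S Nb out W c := by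
  rw [chain_below he S (c ∩ out) N, chain_above he S (c ∩ out) b, ← Finset.sum_add_distrib]
  refine le_trans ?_ (dpat_sum_le hS (a := c ∩ out) inter_subset_left
    (fun i => below e (c ∩ out) i) ?_)
  · refine Finset.sum_le_sum fun i hi => ?_
    have hic := (mem_inter.1 hi).1
    unfold dpat
    refine add_le_add (ce_anti hS ?_ ?_) (ce_anti hS ?_ ?_)
    · intro j hj
      rw [mem_inter, mem_union] at hj
      rw [mem_union]
      exact hj.1.imp id fun h => hN1 h
    · rw [mem_union, not_or]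
      exact ⟨notMem_below e _ i, fun h => Finset.disjoint_left.1 hN2 h hic⟩
    · intro j hj
      rw [mem_inter, mem_union, mem_sdiff] at hj
      rw [mem_union]
      rcases hj.1 with ⟨h1, h2⟩ | h
      · rw [mem_erase] at h1
        by_cases hjo : j ∈ out
        · left
          have hjc : j ∈ c ∩ out := mem_inter.2 ⟨h1.2, hjo⟩
          simp only [above, below, mem_filter] at h2 ⊢
          refine ⟨hjc, ?_⟩
          have h3 : ¬ e j < e i := fun h => h2 ⟨hjc, h⟩
          exact lt_of_le_of_ne (not_lt.1 h3) fun h => h1.1 (he h).symm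
        · right
          exact hb1 (mem_sdiff.2 ⟨h1.2, hjo⟩)
      · exact Or.inr (hb1' h)
    · rw [mem_union, not_or]
      exact ⟨notMem_above e _ i, fun h => Finset.disjoint_left.1 hb2 h hi⟩
  · intro i hi j hj
    simp only [below, mem_filter] at hj
    rw [mem_erase]
    refine ⟨?_, (mem_inter.1 hj.1).1⟩
    rintro rfl
    exact lt_irrefl _ hj.2

/-- **the inside of the line**: `S(a' | N') + S(a' | b) ≤ cutErr`, `a' = c \ up` -/
theorem kap_down (hS : EntLike S) {e : I → ℕ} (he : Function.Injective e) {Nb : I → Finset I}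
    {out W c N b : Finset I} (hN1 : (W \ c) \ out ⊆ N) (hN2 : Disjoint N c)
    (hb1 : c ∩ out ⊆ b) (hb1' : out ∩ (W \ c) ⊆ b) (hb2 : Disjoint b (c \ out)) :
    (S ((c \ out) ∪ N) - S N) + (S ((c \ out) ∪ b) - S b) ≤ cutErr S Nb out W c := by
  have hbe : ∀ i ∈ c \ out, below e (c \ out) i ⊆ c.erase i := by
    intro i hi j hj
    simp only [below, mem_filter] at hj
    rw [mem_erase]
    refine ⟨?_, (mem_sdiff.1 hj.1).1⟩
    rintro rfl
    exact lt_irrefl _ hj.2
  rw [chain_below he S (c \ out) N, chain_above he S (c \ out) b, ← Finset.sum_add_distrib]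
  refine le_trans ?_ (dpat_sum_le hS (a := c \ out) sdiff_subset
    (fun i => c.erase i \ below e (c \ out) i) fun i _ => sdiff_subset)
  refine Finset.sum_le_sum fun i hi => ?_
  have hic := (mem_sdiff.1 hi).1
  unfold dpat
  rw [add_comm]
  refine add_le_add (ce_anti hS ?_ ?_) (ce_anti hS ?_ ?_)
  · intro j hj
    rw [mem_inter, mem_union, mem_sdiff] at hj
    rw [mem_union]
    rcases hj.1 with ⟨h1, h2⟩ | h
    · rw [mem_erase] at h1
      by_cases hjo : j ∈ out
      · right
        exact hb1 (mem_inter.2 ⟨h1.2, hjo⟩)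
      · left
        have hjc : j ∈ c \ out := mem_sdiff.2 ⟨h1.2, hjo⟩
        simp only [above, below, mem_filter] at h2 ⊢
        refine ⟨hjc, ?_⟩
        have h3 : ¬ e j < e i := fun h => h2 ⟨hjc, h⟩
        exact lt_of_le_of_ne (not_lt.1 h3) fun h => h1.1 (he h).symm
    · exact Or.inr (hb1' h)
  · rw [mem_union, not_or]
    exact ⟨notMem_above e _ i, fun h => Finset.disjoint_left.1 hb2 h hi⟩
  · intro j hj
    rw [mem_inter, mem_union] at hj
    rw [mem_union]
    rcases hj.1 with h | h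
    · left
      rw [mem_sdiff, mem_sdiff] at h
      by_contra hn
      exact h.2 ⟨h.1, hn⟩
    · exact Or.inr (hN1 h)
  · rw [mem_union, not_or]
    exact ⟨notMem_below e _ i, fun h => Finset.disjoint_left.1 hN2 h hic⟩

end kap

section det

variable {I : Type*} [Fintype I] [DecidableEq I]

/-- the core is cut at level `s` -/
def CutAt (T : I → ℤ) (s : ℤ) (c : Finset I) : Prop := (∃ i ∈ c, s < T i) ∧ ∃ j ∈ c, T j ≤ s

/-- the level is good for the core -/
def GoodL (K J : ℕ) (row : I → ℤ) (c : Finset I) (s : ℤ) : Prop :=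
  ∀ i ∈ c, |s - K * row i| ≤ K * J

open Classical in
/-- (D1) few levels are not off -/
theorem card_not_off (T : I → ℤ) (Ls : Finset ℤ) (W c : Finset I) :
    (Ls.filter fun s => ¬ Off T s W c).card ≤ (W \ c).card := by
  refine le_trans (Finset.card_le_card (t := (W \ c).image T) ?_) Finset.card_image_le
  intro s hs
  rw [mem_filter] at hs
  unfold Off at hs
  push Not at hs
  obtain ⟨j, hj, hjs⟩ := hs.2
  exact mem_image.2 ⟨j, hj, hjs⟩

/-- (D2) the levels at which a core is cut -/
theorem cutAt_range {K J : ℕ} {row ξ : I → ℤ} (hξ : ∀ i, (ξ i).natAbs ≤ K * (J + 1))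
    {c : Finset I} (hrow : ∀ i ∈ c, ∀ j ∈ c, |row i - row j| ≤ 1) {s : ℤ}
    (h : CutAt (ht K row ξ) s c) {k : I} (hk : k ∈ c) : |s - K * row k| ≤ K * (J + 2) := by
  obtain ⟨⟨i, hi, h1⟩, j, hj, h2⟩ := h
  unfold ht at h1 h2
  have hK0 : (0 : ℤ) ≤ K := by positivity
  have a1 := abs_le.1 (hrow i hi k hk)
  have a2 := abs_le.1 (hrow j hj k hk)
  have b1 : |ξ i| ≤ K * (J + 1) := by
    rw [Int.abs_eq_natAbs]; exact_mod_cast hξ i
  have b2 : |ξ j| ≤ K * (J + 1) := by
    rw [Int.abs_eq_natAbs]; exact_mod_cast hξ j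
  have b1' := abs_le.1 b1
  have b2' := abs_le.1 b2
  have c1 : (K : ℤ) * (row i - row k) ≤ K * 1 := mul_le_mul_of_nonneg_left a1.2 hK0
  have c2 : (K : ℤ) * (-1) ≤ K * (row j - row k) := mul_le_mul_of_nonneg_left a2.1 hK0
  rw [abs_le]
  constructor <;> nlinarith

open Classical in
/-- the number of bad levels at which the core is cut -/
theorem card_bad_le {K J : ℕ} (hJ : 1 ≤ J) {row ξ : I → ℤ} (hξ : ∀ i, (ξ i).natAbs ≤ K * (J + 1))
    {c : Finset I} (hrow : ∀ i ∈ c, ∀ j ∈ c, |row i - row j| ≤ 1) (Ls : Finset ℤ) :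
    (Ls.filter fun s => ¬ GoodL K J row c s ∧ CutAt (ht K row ξ) s c).card ≤
      ∑ i ∈ c, (if K * (J - 1) < (ξ i).natAbs then 2 * K else 0) := by
  have hK0 : (0 : ℤ) ≤ K := by positivity
  set L : I → Finset ℤ := fun i =>
    Finset.Ioo (K * row i + K * ((J : ℤ) - 1)) (K * row i + ξ i) ∪
      Finset.Ico (K * row i + ξ i) (K * row i - K * ((J : ℤ) - 1)) with hL
  have hsub : (Ls.filter fun s => ¬ GoodL K J row c s ∧ CutAt (ht K row ξ) s c) ⊆
      c.biUnion L := by
    intro s hs
    rw [mem_filter] at hs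
    obtain ⟨-, hbad, ⟨i, hi, h1⟩, j, hj, h2⟩ := hs
    unfold GoodL at hbad
    push Not at hbad
    obtain ⟨k, hk, hbad⟩ := hbad
    unfold ht at h1 h2
    rw [mem_biUnion]
    rw [lt_abs] at hbad
    have a1 := abs_le.1 (hrow i hi k hk)
    have a2 := abs_le.1 (hrow j hj k hk)
    have c1 : (K : ℤ) * (row i - row k) ≤ K * 1 := mul_le_mul_of_nonneg_left a1.2 hK0
    have c2 : (K : ℤ) * (-1) ≤ K * (row j - row k) := mul_le_mul_of_nonneg_left a2.1 hK0
    rcases hbad with hb | hb
    · refine ⟨i, hi, ?_⟩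
      simp only [hL]
      rw [mem_union, Finset.mem_Ioo]
      left
      constructor <;> nlinarith
    · refine ⟨j, hj, ?_⟩
      simp only [hL]
      rw [mem_union, Finset.mem_Ico]
      right
      constructor <;> nlinarith
  refine (Finset.card_le_card hsub).trans (Finset.card_biUnion_le.trans ?_)
  refine Finset.sum_le_sum fun i _ => ?_
  simp only [hL]
  refine (Finset.card_union_le _ _).trans ?_
  rw [Int.card_Ioo, Int.card_Ico]
  have h1 := hξ i
  obtain ⟨J', rfl⟩ : ∃ J', J = J' + 1 := ⟨J - 1, by omega⟩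
  rw [Nat.add_sub_cancel]
  have e1 : ((J' + 1 : ℕ) : ℤ) - 1 = J' := by push_cast; ring
  rw [e1]
  have e2 : K * (J' + 1 + 1) = K * J' + 2 * K := by ring
  rw [e2] at h1
  have e3 : ((K * J' : ℕ) : ℤ) = (K : ℤ) * J' := by push_cast; ring
  rw [← e3]
  split_ifs with h
  · omega
  · omega

end det

section select

variable {I : Type*} [Fintype I] [DecidableEq I]

/-- first moment with bounds `≥ 0` -/
theorem exists_small' {lv : Finset ℤ} {p : ℤ → ℝ} (hp : ∀ j, 0 ≤ p j) (h1 : ∑ j ∈ lv, p j = 1)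
    {ι : Type*} (s : Finset ι)
    (X : ι → (I → ℤ) → ℝ) (B : ι → ℝ) (hB : ∀ k ∈ s, 0 ≤ B k)
    (hX : ∀ k ∈ s, ∀ ξ ∈ Fintype.piFinset (fun _ : I => lv), 0 ≤ X k ξ)
    (hE : ∀ k ∈ s, Ex lv p (X k) ≤ B k) :
    ∃ ξ ∈ Fintype.piFinset (fun _ : I => lv), ∀ k ∈ s, X k ξ ≤ s.card * B k := by
  rcases s.eq_empty_or_nonempty with rfl | hs
  · obtain ⟨ξ, hξ, -⟩ := exists_small (I := I) hp h1 (∅ : Finset ι) X B (by simp) (by simp) (by simp)
    exact ⟨ξ, hξ, by simp⟩
  by_contra hcon
  push Not at hcon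
  haveI : Nonempty ι := ⟨hs.choose⟩
  choose! k hk hlt using hcon
  have hne : (Fintype.piFinset (fun _ : I => lv)).Nonempty := by
    rw [Fintype.piFinset_nonempty]
    intro _
    by_contra h
    rw [Finset.not_nonempty_iff_eq_empty] at h
    rw [h] at h1
    simp at h1
  obtain ⟨ξ₀, hξ₀, hmin⟩ := Finset.exists_min_image (Fintype.piFinset (fun _ : I => lv))
    (fun ξ => X (k ξ) ξ - s.card * B (k ξ)) hne
  set δ : ℝ := X (k ξ₀) ξ₀ - s.card * B (k ξ₀) with hδ
  have hδ0 : 0 < δ := by
    have := hlt ξ₀ hξ₀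
    rw [hδ]
    linarith
  have hc : (0 : ℝ) < s.card := by exact_mod_cast hs.card_pos
  obtain ⟨ξ, hξ, h⟩ := exists_small (I := I) hp h1 s X (fun k => B k + δ / (2 * s.card))
    (fun k hk => by have := hB k hk; positivity) hX
    (fun k hk => (hE k hk).trans (by have : 0 < δ / (2 * s.card) := by positivity
                                     linarith))
  have h2 := h (k ξ) (hk ξ hξ)
  have h3 := hmin ξ hξ
  have e : (s.card : ℝ) * (B (k ξ) + δ / (2 * s.card)) = s.card * B (k ξ) + δ / 2 := by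
    have hc' := hc.ne'
    rw [mul_add]
    congr 1
    field_simp
  rw [e] at h2
  linarith

open Classical in
/-- **SELECTION**: one realisation of the block noise with a small sum of the Markov errors at the
good levels and few bad levels at which a core is cut. -/
theorem select {S : Finset I → ℝ} (hS : EntLike S) {K J : ℕ} (hK : 1 ≤ K) (hJ : 1 ≤ J)
    (row : I → ℤ) {e : I → ℕ} (he : Function.Injective e) (Nb : I → Finset I)
    {Z : Type*} (zs : Finset Z) (c W : Z → Finset I) (good : Z → Finset ℤ) (m : ℕ)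
    (hcW : ∀ z ∈ zs, c z ⊆ W z) (hNb : ∀ z ∈ zs, ∀ i ∈ c z, Nb i ⊆ W z)
    (hc4 : ∀ z ∈ zs, (c z).card ≤ 4)
    (hrow : ∀ z ∈ zs, ∀ i ∈ c z, ∀ j ∈ c z, |row i - row j| ≤ 1)
    (hgood : ∀ z ∈ zs, ∀ s ∈ good z, GoodL K J row (c z) s)
    (hmult : ∀ i, (zs.filter fun z => i ∈ c z).card ≤ m)
    {Q : Type*} (ts : Finset Q) (t : Q → Finset I)
    (hd : ∀ a ∈ ts, ∀ b ∈ ts, a ≠ b → Disjoint (t a) (t b))
    (htN : ∀ a ∈ ts, ∀ i ∈ t a, t a ⊆ Nb i)
    (hcov : ∀ z ∈ zs, ∀ i ∈ c z, ∃ a ∈ ts, i ∈ t a) :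
    ∃ ξ : I → ℤ, (∀ i, (ξ i).natAbs ≤ K * (J + 1)) ∧
      (∑ z ∈ zs, ∑ s ∈ good z, (if Off (ht K row ξ) s (W z) (c z) then
        cutErr S Nb (up (ht K row ξ) s) (W z) (c z) else 0) ≤
          4 * (4 * K * Real.exp J) * (4 * Real.exp (J + 1)) ^ 3 * m * ∑ a ∈ ts, S (t a)) ∧
      ∀ Ls : Finset ℤ, ∑ z ∈ zs, ((Ls.filter fun s => ¬ GoodL K J row (c z) s ∧
        CutAt (ht K row ξ) s (c z)).card : ℝ) ≤ 64 * K * Real.exp (2 - J) * zs.card := by
  set κ₁ : ℝ := 4 * K * Real.exp J with hκ₁
  set κ₂ : ℝ := 4 * Real.exp (J + 1) with hκ₂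
  have hK0 : (0 : ℝ) < K := by exact_mod_cast hK
  have hκ₁0 : 0 ≤ κ₁ := by positivity
  have hκ₂1 : 1 ≤ κ₂ := by
    have : 1 ≤ Real.exp ((J : ℝ) + 1) := Real.one_le_exp (by positivity)
    rw [hκ₂]; linarith
  have hp := pw_nonneg K J
  have h1 := sum_pw K J
  set lv := lvN K J with hlv
  set p := pw K J with hpdef
  -- the two functionals
  set X : Bool → (I → ℤ) → ℝ := fun k ξ => if k then
      ∑ z ∈ zs, ∑ s ∈ good z, (if Off (ht K row ξ) s (W z) (c z) then (1 : ℝ) else 0) *
        cutErr S Nb (up (ht K row ξ) s) (W z) (c z)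
    else ∑ z ∈ zs, ∑ i ∈ c z, (if K * (J - 1) < (ξ i).natAbs then (1 : ℝ) else 0) * (2 * K)
    with hX
  set B : Bool → ℝ := fun k => if k then κ₁ * κ₂ ^ 3 * (m * (2 * ∑ a ∈ ts, S (t a)))
    else 32 * K * Real.exp (2 - J) * zs.card with hB
  have hSt : 0 ≤ ∑ a ∈ ts, S (t a) := Finset.sum_nonneg fun a _ => hS.nonneg _
  have hB0 : ∀ k ∈ (Finset.univ : Finset Bool), 0 ≤ B k := by
    intro k _
    cases k
    · simp only [hB]
      simp only [Bool.false_eq_true, if_false]
      positivity
    · simp only [hB, if_true]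
      positivity
  have hX0 : ∀ k ∈ (Finset.univ : Finset Bool), ∀ ξ ∈ Fintype.piFinset (fun _ : I => lv),
      0 ≤ X k ξ := by
    intro k _ ξ _
    cases k
    · simp only [hX, Bool.false_eq_true, if_false]
      exact Finset.sum_nonneg fun z _ => Finset.sum_nonneg fun i _ =>
        mul_nonneg (by split_ifs <;> norm_num) (by positivity)
    · simp only [hX, if_true]
      exact Finset.sum_nonneg fun z _ => Finset.sum_nonneg fun s _ =>
        mul_nonneg (by split_ifs <;> norm_num) (cutErr_nonneg hS _ _ _ _)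
  have hE : ∀ k ∈ (Finset.univ : Finset Bool), Ex lv p (X k) ≤ B k := by
    intro k _
    cases k
    · simp only [hX, hB, Bool.false_eq_true, if_false]
      rw [Ex_sum]
      have : ∀ z ∈ zs, Ex lv p (fun ξ : I → ℤ => ∑ i ∈ c z,
          (if K * (J - 1) < (ξ i).natAbs then (1 : ℝ) else 0) * (2 * K)) ≤
          32 * K * Real.exp (2 - J) := by
        intro z hz
        rw [Ex_sum]
        have hone : ∀ i ∈ c z, Ex lv p (fun ξ : I → ℤ =>
            (if K * (J - 1) < (ξ i).natAbs then (1 : ℝ) else 0) * (2 * K)) ≤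
            8 * K * Real.exp (2 - J) := by
          intro i _
          have := Ex_ind_one (I := I) h1 i (fun v : ℤ => K * (J - 1) < v.natAbs)
            (fun _ => (2 * K : ℝ)) (fun _ _ => rfl)
          rw [this, Ex_const h1]
          have ht := Pr_tail hK hJ
          calc Pr lv p (fun v : ℤ => K * (J - 1) < v.natAbs) * (2 * K)
              ≤ (4 * Real.exp (2 - J)) * (2 * K) :=
                mul_le_mul_of_nonneg_right ht (by positivity)
            _ = _ := by ring
        calc _ ≤ ∑ i ∈ c z, 8 * K * Real.exp (2 - J) := Finset.sum_le_sum hone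
          _ = (c z).card * (8 * K * Real.exp (2 - J)) := by rw [Finset.sum_const, nsmul_eq_mul]
          _ ≤ 4 * (8 * K * Real.exp (2 - J)) := by
              refine mul_le_mul_of_nonneg_right ?_ (by positivity)
              exact_mod_cast hc4 z hz
          _ = _ := by ring
      calc _ ≤ ∑ z ∈ zs, 32 * K * Real.exp (2 - J) := Finset.sum_le_sum this
        _ = _ := by rw [Finset.sum_const, nsmul_eq_mul]; ring
    · simp only [hX, hB, if_true]
      rw [Ex_sum]
      set D : I → ℝ := fun i => Ex lv p (fun ξ => dlt S Nb e (ht K row ξ) i) with hD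
      have hD0 : ∀ i, 0 ≤ D i := fun i => Ex_nonneg hp fun ξ _ => dlt_nonneg hS Nb e _ i
      have hz : ∀ z ∈ zs, Ex lv p (fun ξ => ∑ s ∈ good z,
          (if Off (ht K row ξ) s (W z) (c z) then (1 : ℝ) else 0) *
          cutErr S Nb (up (ht K row ξ) s) (W z) (c z)) ≤ κ₁ * κ₂ ^ 3 * ∑ i ∈ c z, D i := by
        intro z hz
        refine (cutErr_avg_sum (κ₁ := κ₁) (κ₂ := κ₂) hS hp h1 hκ₁0 (by linarith) (good z)
          (fun s hs j hj => kap1 hK J (hgood z hz s hs j hj))
          (fun s hs j hj => kap2 hK J (hgood z hz s hs j hj))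
          (fun s hs j hj => kap3 hK J (hgood z hz s hs j hj)) e (hcW z hz)
          (hNb z hz)).trans ?_
        refine mul_le_mul_of_nonneg_right ?_ (Finset.sum_nonneg fun i _ => hD0 i)
        refine mul_le_mul_of_nonneg_left ?_ hκ₁0
        exact pow_le_pow_right₀ hκ₂1 (by have := hc4 z hz; omega)
      calc _ ≤ ∑ z ∈ zs, κ₁ * κ₂ ^ 3 * ∑ i ∈ c z, D i := Finset.sum_le_sum hz
        _ = κ₁ * κ₂ ^ 3 * ∑ z ∈ zs, ∑ i ∈ c z, D i := by rw [Finset.mul_sum]
        _ ≤ κ₁ * κ₂ ^ 3 * (m * (2 * ∑ a ∈ ts, S (t a))) := by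
            refine mul_le_mul_of_nonneg_left ?_ (by positivity)
            have hsw : ∑ z ∈ zs, ∑ i ∈ c z, D i =
                ∑ i ∈ ts.biUnion t, ((zs.filter fun z => i ∈ c z).card : ℝ) * D i := by
              have : ∀ z ∈ zs, ∑ i ∈ c z, D i =
                  ∑ i ∈ ts.biUnion t, if i ∈ c z then D i else 0 := by
                intro z hz
                rw [← Finset.sum_filter]
                refine Finset.sum_congr ?_ fun _ _ => rfl
                ext i
                rw [mem_filter, mem_biUnion]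
                constructor
                · intro h
                  obtain ⟨a, ha, hia⟩ := hcov z hz i h
                  exact ⟨⟨a, ha, hia⟩, h⟩
                · exact fun h => h.2
              rw [Finset.sum_congr rfl this, Finset.sum_comm]
              refine Finset.sum_congr rfl fun i _ => ?_
              rw [← Finset.sum_filter, Finset.sum_const, nsmul_eq_mul]
            rw [hsw]
            calc ∑ i ∈ ts.biUnion t, ((zs.filter fun z => i ∈ c z).card : ℝ) * D i
                ≤ ∑ i ∈ ts.biUnion t, (m : ℝ) * D i := by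
                  refine Finset.sum_le_sum fun i _ => mul_le_mul_of_nonneg_right ?_ (hD0 i)
                  exact_mod_cast hmult i
              _ = m * ∑ i ∈ ts.biUnion t, D i := by rw [Finset.mul_sum]
              _ ≤ m * (2 * ∑ a ∈ ts, S (t a)) := by
                  refine mul_le_mul_of_nonneg_left ?_ (by positivity)
                  simp only [hD]
                  rw [← Ex_sum]
                  refine le_trans (Ex_mono hp (g := fun _ => 2 * ∑ a ∈ ts, S (t a)) ?_)
                    (Ex_const h1 _).le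
                  intro ξ _
                  exact tiles_le (T := lx e (ht K row ξ)) (lx_injective he _) hS ts t hd
                    (B := Nb) htN
  obtain ⟨ξ, hξ, hsm⟩ := exists_small' hp h1 (Finset.univ : Finset Bool) X B hB0 hX0 hE
  have hξ' : ∀ i, (ξ i).natAbs ≤ K * (J + 1) := fun i =>
    mem_lvN.1 (Fintype.mem_piFinset.1 hξ i)
  refine ⟨ξ, hξ', ?_, ?_⟩
  · have h := hsm true (Finset.mem_univ _)
    simp only [hX, hB, if_true, Finset.card_univ, Fintype.card_bool] at h
    calc _ = ∑ z ∈ zs, ∑ s ∈ good z, (if Off (ht K row ξ) s (W z) (c z) then (1 : ℝ) else 0) *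
        cutErr S Nb (up (ht K row ξ) s) (W z) (c z) := by
          refine Finset.sum_congr rfl fun z _ => Finset.sum_congr rfl fun s _ => ?_
          split_ifs <;> simp
      _ ≤ _ := h
      _ = _ := by push_cast; ring
  · intro Ls
    have h := hsm false (Finset.mem_univ _)
    simp only [hX, hB, Bool.false_eq_true, if_false, Finset.card_univ, Fintype.card_bool] at h
    refine le_trans ?_ (h.trans (by push_cast; linarith))
    refine Finset.sum_le_sum fun z hz => ?_
    have hb := card_bad_le hJ hξ' (hrow z hz) Ls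
    have hb' : ((Ls.filter fun s => ¬ GoodL K J row (c z) s ∧
        CutAt (ht K row ξ) s (c z)).card : ℝ) ≤
        ((∑ i ∈ c z, (if K * (J - 1) < (ξ i).natAbs then 2 * K else 0) : ℕ) : ℝ) := by
      exact_mod_cast hb
    refine hb'.trans (le_of_eq ?_)
    push_cast
    refine Finset.sum_congr rfl fun i _ => ?_
    split_ifs <;> simp

end select

end Vale.Agent.P356.GA.Cut
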