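import Vale.Agent.P356.GA.Kappa749
import Vale.Agent.P356.GA.Glue980

/-!
# GA, block SLAB (helper225): the slabs which do not cut the core

For a positive operator `P` on a region inside the slab tile `b` (or disjoint from it) the second
order coefficient in the direction of `K_b` alone is small: `e^{-iyK_b} Ω ≈ ρ_{bᶜ}^{iy} Ω`, and on
the window `b` the state `ψ` is close to `Ω`.

* `slab_point` : value of the flow at some time `y ∈ [h/2, h]`, both signs.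
* `slab_in` : `QF P (0, single j 1) ≤ 4 (2⟨P⟩_Ω + ‖P‖(δ + 32 π cosh² π h κ)) / h² + 2 K h² / R⁴`.
* `slab_out` : `QF P (0, γ) = 0` if `P` commutes with the tile generators.
* `slab_irr` : tiles which commute with everything else drop out.
-/

set_option linter.all false

namespace Vale.Agent.P356.GA.Slab

open Matrix Finset Vale.Agent.P356 Vale.Agent.P356.SV Vale.Agent.P356.Path Vale.Agent.P356.PH
open Vale.Agent.P356.GA Vale.Agent.P356.GA.K1
open scoped BigOperators ComplexOrder Kronecker Matrix.Norms.L2Operator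

section empty
variable {V : Type*} [Fintype V] [DecidableEq V] {q : ℕ} {ψ : Conf V q → ℂ}

theorem eigp_empty (hψ : nsq ψ = 1) (i : {x // x ∈ (∅ : Finset V)} → Fin q) :
    eigp (ψ ∘ (cut (∅ : Finset V) q).symm) i = 1 := by
  have h := eigp_sum (ψ ∘ (cut (∅ : Finset V) q).symm) (sum_comp_one (cut (∅ : Finset V) q) hψ)
  rw [Fintype.sum_eq_single i] at h
  · exact h
  · intro j hj
    exact absurd (Subsingleton.elim j i) hj

theorem entropy_empty (hψ : nsq ψ = 1) : entropyOf (∅ : Finset V) ψ = 0 := by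
  have h := PPd_expect (∅ : Finset V) ψ
  have e : PPd (∅ : Finset V) ψ 0 = 0 := by
    rw [PPd]
    have e1 : (fun i => (Real.log (eigp (ψ ∘ (cut (∅ : Finset V) q).symm) i) : ℂ) *
        pw 0 (eigp (ψ ∘ (cut (∅ : Finset V) q).symm) i)) = fun _ => (0 : ℂ) := by
      funext i
      rw [eigp_empty hψ, Real.log_one, Complex.ofReal_zero, zero_mul]
    rw [e1]
    exact (crL (∅ : Finset V) ψ).map_zero
  rw [e, Matrix.zero_mulVec, dotProduct_zero] at h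
  have h2 : ((-(entropyOf (∅ : Finset V) ψ) : ℝ) : ℂ) = ((0 : ℝ) : ℂ) := by
    rw [← h, Complex.ofReal_zero]
  have h3 := Complex.ofReal_injective h2
  linarith

theorem UU_empty (hψ : nsq ψ = 1) (s : ℝ) : UU (∅ : Finset V) ψ s = 1 := by
  rw [UU, ← cr_one (∅ : Finset V) ψ]
  congr 1
  funext i
  rw [eigp_empty hψ, Real.log_one, mul_zero, Complex.ofReal_zero, zero_mul, Complex.exp_zero]

end empty

section point
variable {V : Type*} [Fintype V] [DecidableEq V] {q : ℕ}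

/-- the flow of `K_b` in the state `Ω` is close to the modular flow of the complement -/
theorem slab_flow {Ω : Conf V q → ℂ} (hΩ : nsq Ω = 1) {b : Finset V} {T : Op V q}
    (hT : T.IsHermitian) (hTb : ActsOn b T) (hnorm : (NormedSpace.exp (-T)).trace = dO q b) {h : ℝ}
    (h0 : 0 < h) (h1 : h ≤ 1) : ∃ y ∈ Set.Icc (h / 2) h, ∀ s : ℝ, (s = y ∨ s = -y) →
      nsq (SE T ((s : ℂ) * Complex.I) *ᵥ (UU bᶜ Ω (-s) *ᵥ Ω) - Ω) ≤
        16 * Real.pi * Real.cosh Real.pi ^ 2 * h * ((star Ω ⬝ᵥ (T *ᵥ Ω)).re - entropyOf b Ω) := by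
  have hd : Disjoint (∅ : Finset V) b := Finset.disjoint_empty_left b
  have hz : ((0 : Op V q)).IsHermitian := Matrix.isHermitian_zero
  have hSE0 : ∀ z : ℂ, SE (0 : Op V q) z = 1 := by
    intro z
    rw [SE, smul_zero, neg_zero, NormedSpace.exp_zero]
  have hmarg : ∀ X : Op V q, ActsOn (∅ : Finset V) X →
      (q : ℂ) ^ b.card * (SE T 1 * X).trace = (SE (0 : Op V q) 1 * X).trace := by
    intro X hX
    have h2 := trace_disj hd.symm (SE_acts hTb 1) hX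
    have h3 : (SE T 1).trace = dO q b := by rw [SE, one_smul]; exact hnorm
    obtain ⟨n, hn0, hn⟩ := dO_pos hΩ b
    have hne : dO q b ≠ 0 := by rw [hn]; exact_mod_cast hn0.ne'
    have hcard : b.card ≤ Fintype.card V := Finset.card_le_univ _
    have h4 : (q : ℂ) ^ (Fintype.card V) = dO q b * (q : ℂ) ^ b.card := by
      rw [dO_eq, ← pow_add]
      congr 1
      omega
    rw [h3, h4] at h2
    rw [hSE0, Matrix.one_mul]
    refine mul_left_cancel₀ hne ?_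
    rw [← h2]
    ring
  obtain ⟨y, hy, hys⟩ := kappa1_lin (M := ∅) (a := b) (Kb := T) (KN := 0) hd hΩ hT hz
    (by rw [Finset.empty_union]; exact hTb) (ph_acts_zero _) hmarg h0 h1
  refine ⟨y, hy, fun s hs => ?_⟩
  have h3 := hys s hs
  rw [Finset.empty_union, UU_empty hΩ, hSE0, Matrix.one_mulVec, Matrix.one_mulVec,
    ← UU_transport b Ω (-s)] at h3
  refine h3.trans (le_of_eq ?_)
  rw [kap, Finset.empty_union, entropy_empty hΩ, Matrix.zero_mulVec, dotProduct_zero,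
    Complex.zero_re]
  ring

theorem conj_norm_le {W P : Op V q} (hW : ‖W‖ ≤ 1) : ‖Wᴴ * P * W‖ ≤ ‖P‖ := by
  have h1 : ‖Wᴴ‖ ≤ 1 := by
    have : ‖Wᴴ‖ = ‖W‖ := norm_star W
    rw [this]; exact hW
  calc ‖Wᴴ * P * W‖ ≤ ‖Wᴴ * P‖ * ‖W‖ := norm_mul_le _ _
    _ ≤ (‖Wᴴ‖ * ‖P‖) * ‖W‖ := mul_le_mul_of_nonneg_right (norm_mul_le _ _) (norm_nonneg _)
    _ ≤ (1 * ‖P‖) * 1 := by
        refine mul_le_mul (mul_le_mul_of_nonneg_right h1 (norm_nonneg _)) hW (norm_nonneg _) ?_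
        exact mul_nonneg zero_le_one (norm_nonneg _)
    _ = ‖P‖ := by ring

theorem quad_le (P : Op V q) (v : Conf V q → ℂ) : (star v ⬝ᵥ (P *ᵥ v)).re ≤ ‖P‖ * nsq v := by
  refine (Complex.re_le_norm _).trans ((nrm_ip_le _ _).trans ?_)
  have h1 := nrm_mulVec_le P v
  have h2 := nrm_nonneg v
  have h3 : nrm v * nrm v = nsq v := by rw [← sq, nrm_sq]
  calc nrm v * nrm (P *ᵥ v) ≤ nrm v * (‖P‖ * nrm v) := mul_le_mul_of_nonneg_left h1 h2
    _ = ‖P‖ * nsq v := by rw [← h3]; ring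

theorem quad_add_le {P : Op V q} (hP : P.PosSemidef) (u v : Conf V q → ℂ) :
    (star (u + v) ⬝ᵥ (P *ᵥ (u + v))).re ≤
      2 * (star u ⬝ᵥ (P *ᵥ u)).re + 2 * (star v ⬝ᵥ (P *ᵥ v)).re := by
  have h := (Complex.le_def.1 (hP.dotProduct_mulVec_nonneg (u - v))).1
  rw [Complex.zero_re] at h
  simp only [star_add, star_sub, Matrix.mulVec_add, Matrix.mulVec_sub, add_dotProduct,
    sub_dotProduct, dotProduct_add, dotProduct_sub, Complex.add_re, Complex.sub_re] at h ⊢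
  linarith

/-- the value of the flow of one slab generator, at some time, both signs -/
theorem slab_point {ψ Ω : Conf V q → ℂ} (hΩ : nsq Ω = 1) {b : Finset V} {T P : Op V q}
    (hT : T.IsHermitian) (hTb : ActsOn b T) (hnorm : (NormedSpace.exp (-T)).trace = dO q b)
    (hP : P.PosSemidef) (hPb : ActsOn b P) {δ : ℝ}
    (hcl : ∀ X : Op V q, ActsOn b X →
      ‖star ψ ⬝ᵥ (X *ᵥ ψ) - star Ω ⬝ᵥ (X *ᵥ Ω)‖ ≤ δ * ‖X‖) (hδ : 0 ≤ δ) {h : ℝ}
    (h0 : 0 < h) (h1 : h ≤ 1) : ∃ y ∈ Set.Icc (h / 2) h, ∀ s : ℝ, (s = y ∨ s = -y) →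
      (star (NormedSpace.exp ((-((s : ℂ) * Complex.I)) • T) *ᵥ ψ) ⬝ᵥ
        (P *ᵥ (NormedSpace.exp ((-((s : ℂ) * Complex.I)) • T) *ᵥ ψ))).re ≤
        2 * (star Ω ⬝ᵥ (P *ᵥ Ω)).re + ‖P‖ * (δ + 32 * Real.pi * Real.cosh Real.pi ^ 2 * h *
          ((star Ω ⬝ᵥ (T *ᵥ Ω)).re - entropyOf b Ω)) := by
  obtain ⟨y, hy, hys⟩ := slab_flow hΩ hT hTb hnorm h0 h1
  refine ⟨y, hy, fun s hs => ?_⟩
  have hs' : -s = y ∨ -s = -y := by
    rcases hs with rfl | rfl
    · exact Or.inr rfl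
    · exact Or.inl (neg_neg _)
  have h2 := hys (-s) hs'
  rw [neg_neg] at h2
  set ζ : ℂ := (s : ℂ) * Complex.I with hζ
  have hζre : ζ.re = 0 := by simp [hζ]
  have hneg : (((-s : ℝ)) : ℂ) * Complex.I = -ζ := by rw [hζ]; push_cast; ring
  rw [hneg] at h2
  have hW : NormedSpace.exp ((-ζ) • T) = SE T ζ := by rw [SE, neg_smul]
  rw [hW]
  set W : Op V q := SE T ζ with hWdef
  have hWu : Wᴴ * W = 1 := SE_unit hT hζre
  have hWact : ActsOn b W := SE_acts hTb ζ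
  set v : Conf V q → ℂ := UU bᶜ Ω s *ᵥ Ω with hv
  -- `W Ω = v - W r`
  set r : Conf V q → ℂ := SE T (-ζ) *ᵥ v - Ω with hr
  have hWW : W * SE T (-ζ) = 1 := by rw [hWdef, SE_add, add_neg_cancel, SE_zero]
  have e1 : W *ᵥ Ω = v + (-(W *ᵥ r)) := by
    rw [hr, Matrix.mulVec_sub, Matrix.mulVec_mulVec, hWW, Matrix.one_mulVec]
    abel
  have hnr : nsq (-(W *ᵥ r)) = nsq r := by
    have : -(W *ᵥ r) = (-1 : ℂ) • (W *ᵥ r) := by rw [neg_one_smul]
    rw [this, nsq_smul, norm_neg, norm_one, one_pow, one_mul, nsq_of_unit hWu]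
  -- on `ψ`
  have e2 : ∀ w : Conf V q → ℂ, star (W *ᵥ w) ⬝ᵥ (P *ᵥ (W *ᵥ w)) =
      star w ⬝ᵥ ((Wᴴ * P * W) *ᵥ w) := by
    intro w
    rw [Matrix.star_mulVec, ← Matrix.dotProduct_mulVec]
    simp only [Matrix.mulVec_mulVec, Matrix.mul_assoc]
  have hXact : ActsOn b (Wᴴ * P * W) := ph_acts_mul (ph_acts_mul (ph_acts_star hWact) hPb) hWact
  have h3 := hcl _ hXact
  have h4 := (Complex.abs_re_le_norm _).trans h3
  rw [Complex.sub_re] at h4
  have h5 := (abs_le.1 h4).2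
  have h6 : δ * ‖Wᴴ * P * W‖ ≤ δ * ‖P‖ :=
    mul_le_mul_of_nonneg_left (conj_norm_le (norm_le_one_of_unit hWu)) hδ
  rw [e2 ψ]
  -- on `Ω`
  have h7 : (star Ω ⬝ᵥ ((Wᴴ * P * W) *ᵥ Ω)).re ≤ 2 * (star v ⬝ᵥ (P *ᵥ v)).re +
      2 * (‖P‖ * nsq r) := by
    rw [← e2 Ω, e1]
    refine (quad_add_le hP v (-(W *ᵥ r))).trans ?_
    have := quad_le P (-(W *ᵥ r))
    rw [hnr] at this
    linarith
  -- `P` commutes with the flow of the complement
  have h8 : star v ⬝ᵥ (P *ᵥ v) = star Ω ⬝ᵥ (P *ᵥ Ω) := by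
    have hU : ActsOn bᶜ (UU bᶜ Ω s) := UU_acts _ _ _
    have hc : P * UU bᶜ Ω s = UU bᶜ Ω s * P := ph_acts_comm disjoint_compl_right hPb hU
    rw [hv, Matrix.star_mulVec, ← Matrix.dotProduct_mulVec]
    simp only [Matrix.mulVec_mulVec]
    rw [hc, ← Matrix.mul_assoc, UU_unit, Matrix.one_mul]
  rw [h8] at h7
  have h9 := mul_le_mul_of_nonneg_left h2 (norm_nonneg P)
  nlinarith [h5, h6, h7, h9]

end point

section gen
variable {N : Type*} [Fintype N] [DecidableEq N] {α β : ℕ → Type*}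
  [∀ k, Fintype (α k)] [∀ k, DecidableEq (α k)] [∀ k, Fintype (β k)] [∀ k, DecidableEq (β k)]
  {ι : Type*} [Fintype ι]

theorem GamK_single [DecidableEq ι] (K : ι → Matrix N N ℂ) (j : ι) :
    GamK K (Pi.single j (1 : ℝ)) = K j := by
  rw [GamK, Finset.sum_eq_single j]
  · rw [Pi.single_eq_same, one_smul]
  · intro i _ hij
    rw [Pi.single_eq_of_ne hij, zero_smul]
  · intro h
    exact absurd (Finset.mem_univ j) h

/-- the flow in the direction of tiles only -/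
theorem fQ_tile (e : ∀ k, N ≃ α k × β k) (ψ : N → ℂ) (g : ∀ k, α k → ℝ) (n : ℕ)
    (K : ι → Matrix N N ℂ) (X : Matrix N N ℂ) (γ : ι → ℝ) (ζ : ℂ) :
    fQ ψ (Gen e ψ g n K) (n + 1) X ((0 : ℕ → ℝ), γ) ζ =
      star ψ ⬝ᵥ ((NormedSpace.exp (ζ • GamK K γ) * X * NormedSpace.exp ((-ζ) • GamK K γ)) *ᵥ ψ) := by
  rw [fQ_Gen, FT]
  simp only [Pi.zero_apply, Complex.ofReal_zero, mul_zero, neg_zero, sg_zero]
  have h1 : ∀ m, prR (fun _ => (1 : Matrix N N ℂ)) m = 1 := by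
    intro m
    induction m with
    | zero => rfl
    | succ m ih => rw [prR, ih, Matrix.mul_one]
  have h2 : ∀ m, prL (fun _ => (1 : Matrix N N ℂ)) m = 1 := by
    intro m
    induction m with
    | zero => rfl
    | succ m ih => rw [prL, ih, Matrix.one_mul]
  rw [h1, h2, Matrix.one_mul, Matrix.mul_one]

/-- a tile generator which commutes with the observable does not contribute -/
theorem slab_out (e : ∀ k, N ≃ α k × β k) (ψ : N → ℂ) (g : ∀ k, α k → ℝ) (n : ℕ)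
    (K : ι → Matrix N N ℂ) (X : Matrix N N ℂ) (γ : ι → ℝ) (h : Commute (GamK K γ) X) :
    QF ψ (Gen e ψ g n K) (n + 1) X ((0 : ℕ → ℝ), γ) = 0 := by
  refine QF_const (a := star ψ ⬝ᵥ (X *ᵥ ψ)) fun ζ => ?_
  rw [fQ_tile]
  have hc : Commute (NormedSpace.exp (ζ • GamK K γ)) X := (h.smul_left ζ).exp_left
  rw [hc.eq, Matrix.mul_assoc]
  have h1 : NormedSpace.exp (ζ • GamK K γ) * NormedSpace.exp ((-ζ) • GamK K γ) = 1 := by
    have := exp_inv_neg (GamK K γ) (-ζ)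
    rwa [neg_neg] at this
  rw [h1, Matrix.mul_one]

theorem GamK_add (K : ι → Matrix N N ℂ) (γ γ' : ι → ℝ) : GamK K (γ + γ') = GamK K γ + GamK K γ' := by
  simp only [GamK, Pi.add_apply, add_smul, Finset.sum_add_distrib]

theorem GamK_sub (K : ι → Matrix N N ℂ) (γ γ' : ι → ℝ) : GamK K (γ - γ') = GamK K γ - GamK K γ' := by
  simp only [GamK, Pi.sub_apply, sub_smul, Finset.sum_sub_distrib]

theorem GamK_commute {K : ι → Matrix N N ℂ} {X : Matrix N N ℂ} {γ : ι → ℝ}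
    (h : ∀ j, γ j ≠ 0 → Commute (K j) X) : Commute (GamK K γ) X := by
  refine Commute.sum_left _ _ _ fun j _ => ?_
  by_cases hj : γ j = 0
  · rw [hj, zero_smul]
    exact Commute.zero_left _
  · exact (h j hj).smul_left _

/-- conjugation by commuting generators -/
theorem conj_split {A B X : Matrix N N ℂ} (hAB : Commute A B) (hBX : Commute B X) (ζ : ℂ) :
    NormedSpace.exp (ζ • (A + B)) * X * NormedSpace.exp ((-ζ) • (A + B)) =
      NormedSpace.exp (ζ • A) * X * NormedSpace.exp ((-ζ) • A) := by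
  have h1 : NormedSpace.exp (ζ • (A + B)) = NormedSpace.exp (ζ • A) * NormedSpace.exp (ζ • B) := by
    rw [smul_add]
    exact Matrix.exp_add_of_commute _ _ ((hAB.smul_left ζ).smul_right ζ)
  have h2 : NormedSpace.exp ((-ζ) • (A + B)) =
      NormedSpace.exp ((-ζ) • B) * NormedSpace.exp ((-ζ) • A) := by
    rw [smul_add, add_comm]
    exact Matrix.exp_add_of_commute _ _ ((hAB.symm.smul_left (-ζ)).smul_right (-ζ))
  have h3 : NormedSpace.exp (ζ • B) * X = X * NormedSpace.exp (ζ • B) :=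
    ((hBX.smul_left ζ).exp_left).eq
  have h4 : NormedSpace.exp (ζ • B) * NormedSpace.exp ((-ζ) • B) = 1 := by
    have := exp_inv_neg B (-ζ)
    rwa [neg_neg] at this
  rw [h1, h2]
  calc NormedSpace.exp (ζ • A) * NormedSpace.exp (ζ • B) * X *
        (NormedSpace.exp ((-ζ) • B) * NormedSpace.exp ((-ζ) • A)) =
      NormedSpace.exp (ζ • A) * (NormedSpace.exp (ζ • B) * X) * NormedSpace.exp ((-ζ) • B) *
        NormedSpace.exp ((-ζ) • A) := by simp only [Matrix.mul_assoc]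
    _ = NormedSpace.exp (ζ • A) * X * (NormedSpace.exp (ζ • B) * NormedSpace.exp ((-ζ) • B)) *
        NormedSpace.exp ((-ζ) • A) := by rw [h3]; simp only [Matrix.mul_assoc]
    _ = _ := by rw [h4, Matrix.mul_one]

/-- **the irrelevant tiles**: the form only depends on the lines and on the relevant tiles -/
theorem slab_irr (e : ∀ k, N ≃ α k × β k) (ψ : N → ℂ) (g : ∀ k, α k → ℝ) (n : ℕ)
    {K : ι → Matrix N N ℂ} {X : Matrix N N ℂ} {rel : ι → Prop}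
    (h1 : ∀ i j, rel i → ¬ rel j → Commute (K i) (K j)) (h2 : ∀ j, ¬ rel j → Commute (K j) X)
    {c c' : (ℕ → ℝ) × (ι → ℝ)} (hc : c.1 = c'.1) (hc' : ∀ i, rel i → c.2 i = c'.2 i) :
    QF ψ (Gen e ψ g n K) (n + 1) X c = QF ψ (Gen e ψ g n K) (n + 1) X c' := by
  classical
  -- both equal the value for the relevant part
  have key : ∀ d : (ℕ → ℝ) × (ι → ℝ), ∀ ζ : ℂ, fQ ψ (Gen e ψ g n K) (n + 1) X d ζ =
      fQ ψ (Gen e ψ g n K) (n + 1) X (d.1, fun i => if rel i then d.2 i else 0) ζ := by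
    intro d ζ
    rw [fQ_Gen, fQ_Gen]
    set γ : ι → ℝ := fun i => if rel i then d.2 i else 0 with hγ
    set γ' : ι → ℝ := fun i => if rel i then 0 else d.2 i with hγ'
    have e1 : d.2 = γ + γ' := by
      funext i
      simp only [hγ, hγ', Pi.add_apply]
      split_ifs <;> simp
    have hcom : Commute (GamK K γ) (GamK K γ') := by
      refine GamK_commute fun i hi => ?_
      have hi' : rel i := by
        by_contra h
        exact hi (by simp only [hγ, if_neg h])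
      refine (GamK_commute fun j hj => ?_).symm
      have hj' : ¬ rel j := by
        intro h
        exact hj (by simp only [hγ', if_pos h])
      exact (h1 i j hi' hj').symm
    have hcX : Commute (GamK K γ') X := by
      refine GamK_commute fun j hj => ?_
      have hj' : ¬ rel j := by
        intro h
        exact hj (by simp only [hγ', if_pos h])
      exact h2 j hj'
    have e2 : GamK K d.2 = GamK K γ + GamK K γ' := by rw [← GamK_add, ← e1]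
    rw [e2, conj_split hcom hcX]
  refine QF_congr fun ζ => ?_
  rw [key c, key c', hc]
  congr 1
  refine Prod.ext rfl ?_
  funext i
  by_cases hi : rel i
  · simp only [if_pos hi, hc' i hi]
  · simp only [if_neg hi]

end gen

section main
variable {V : Type*} [Fintype V] [DecidableEq V] {q : ℕ} {α β : ℕ → Type*}
  [∀ k, Fintype (α k)] [∀ k, DecidableEq (α k)] [∀ k, Fintype (β k)] [∀ k, DecidableEq (β k)]
  {ι : Type*} [Fintype ι] [DecidableEq ι]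

theorem uQ_tile (e : ∀ k, Conf V q ≃ α k × β k) (ψ : Conf V q → ℂ) (g : ∀ k, α k → ℝ) (n : ℕ)
    {K : ι → Op V q} (hK : ∀ i, (K i).IsHermitian) (P : Op V q) (j : ι) (y : ℝ) :
    star (uQ ψ (Gen e ψ g n K) (n + 1) ((0 : ℕ → ℝ), Pi.single j (1 : ℝ)) y) ⬝ᵥ
      (P *ᵥ uQ ψ (Gen e ψ g n K) (n + 1) ((0 : ℕ → ℝ), Pi.single j (1 : ℝ)) y) =
    star (NormedSpace.exp ((-((y : ℂ) * Complex.I)) • K j) *ᵥ ψ) ⬝ᵥ
        (P *ᵥ (NormedSpace.exp ((-((y : ℂ) * Complex.I)) • K j) *ᵥ ψ)) := by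
  rw [← fQ_imag ψ (fun k _ => Gen_herm e ψ g n hK k _) P y, fQ_tile, GamK_single,
    Matrix.star_mulVec, ← exp_imag_star (hK j), conjTranspose_conjTranspose,
    ← Matrix.dotProduct_mulVec]
  simp only [Matrix.mulVec_mulVec, Matrix.mul_assoc]

theorem slab_scal {p B R h y : ℝ} (hp0 : 0 ≤ p) (hB0 : 0 ≤ B) (hR : 0 < R) (hy0 : 0 < y)
    (hy1 : h / 2 ≤ y) (hyh : y ≤ h) :
    p / y ^ 2 + 2 * B * y ^ 2 / R ^ 4 ≤ 4 * p / h ^ 2 + 2 * B * h ^ 2 / R ^ 4 := by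
  have hh : 0 < h := by linarith
  refine add_le_add ?_ ?_
  · rw [div_le_div_iff₀ (by positivity) (by positivity)]
    have h3 : h ^ 2 ≤ 4 * y ^ 2 := by nlinarith
    calc p * h ^ 2 ≤ p * (4 * y ^ 2) := mul_le_mul_of_nonneg_left h3 hp0
      _ = 4 * p * y ^ 2 := by ring
  · refine div_le_div_of_nonneg_right ?_ (by positivity)
    have h3 : y ^ 2 ≤ h ^ 2 := pow_le_pow_left₀ hy0.le hyh 2
    exact mul_le_mul_of_nonneg_left h3 (by positivity)

theorem slab_scal2 {W P δ C κ κ' : ℝ} (hP : 0 ≤ P) (hC : 0 ≤ C) (hκ : κ' ≤ κ) :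
    W + P * (δ + C * κ') ≤ W + P * (δ + C * κ) := by
  have h4 := mul_le_mul_of_nonneg_left hκ hC
  have h5 := mul_le_mul_of_nonneg_left (add_le_add_right h4 δ) hP
  linarith

/-- **SLAB**: a slab whose tile contains the support of `P`. -/
theorem slab_in (e : ∀ k, Conf V q ≃ α k × β k) {ψ Ω : Conf V q → ℂ} (g : ∀ k, α k → ℝ) (n : ℕ)
    {K : ι → Op V q} (hK : ∀ i, (K i).IsHermitian) (hΩ : nsq Ω = 1) {b : Finset V} {j : ι}
    (hTb : ActsOn b (K j)) (hnorm : (NormedSpace.exp (-(K j))).trace = dO q b)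
    {P : Op V q} (hP : P.PosSemidef) (hPb : ActsOn b P) {δ : ℝ}
    (hcl : ∀ X : Op V q, ActsOn b X →
      ‖star ψ ⬝ᵥ (X *ᵥ ψ) - star Ω ⬝ᵥ (X *ᵥ Ω)‖ ≤ δ * ‖X‖) (hδ : 0 ≤ δ) {κ : ℝ}
    (hκ : (star Ω ⬝ᵥ (K j *ᵥ Ω)).re - entropyOf b Ω ≤ κ) {R B h : ℝ} (hR : 0 < R)
    (hB : ∀ z : ℂ, ‖z‖ ≤ R →
      ‖NormedSpace.exp (z • K j) * P * NormedSpace.exp ((-z) • K j)‖ ≤ B)
    (hψ : nsq ψ = 1) (h0 : 0 < h) (h1 : h ≤ 1) (h2 : h ≤ R / 2) :
    QF ψ (Gen e ψ g n K) (n + 1) P ((0 : ℕ → ℝ), Pi.single j (1 : ℝ)) ≤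
      4 * (2 * (star Ω ⬝ᵥ (P *ᵥ Ω)).re + ‖P‖ * (δ + 32 * Real.pi * Real.cosh Real.pi ^ 2 * h * κ)) /
        h ^ 2 + 2 * B * h ^ 2 / R ^ 4 := by
  obtain ⟨y, hy, hys⟩ := slab_point (ψ := ψ) hΩ (hK j) hTb hnorm hP hPb hcl hδ h0 h1
  have hy0 : 0 < y := by have := hy.1; linarith
  have hC : 0 ≤ 32 * Real.pi * Real.cosh Real.pi ^ 2 * h := by
    have := Real.pi_pos
    positivity
  have hB0 : 0 ≤ B := (norm_nonneg _).trans (hB 0 (by simpa using hR.le))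
  have hle := slab_scal2 (W := 2 * (star Ω ⬝ᵥ (P *ᵥ Ω)).re) (δ := δ) (norm_nonneg P) hC hκ
  have hv1 := (hys y (Or.inl rfl)).trans hle
  have hv2 := (hys (-y) (Or.inr rfl)).trans hle
  rw [← uQ_tile e ψ g n hK P j] at hv1 hv2
  have hF : ∀ z : ℂ, ‖z‖ ≤ R →
      ‖fQ ψ (Gen e ψ g n K) (n + 1) P ((0 : ℕ → ℝ), Pi.single j (1 : ℝ)) z‖ ≤ B := by
    intro z hz
    rw [fQ_tile, GamK_single]
    exact (dot_le_norm_bound ψ _ hψ).trans (hB z hz)
  have hG : ∀ k < n + 1, (Gen e ψ g n K k ((0 : ℕ → ℝ), Pi.single j (1 : ℝ))).IsHermitian :=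
    fun k _ => Gen_herm e ψ g n hK k _
  have hp0 := (psd_re_nonneg hP _).trans hv1
  have hyR := hy.2.trans h2
  generalize 2 * (star Ω ⬝ᵥ (P *ᵥ Ω)).re + ‖P‖ *
    (δ + 32 * Real.pi * Real.cosh Real.pi ^ 2 * h * κ) = p at hv1 hv2 hp0 ⊢
  exact (QF_upper hP hG hR hF hy0 hyR hv1 hv2).trans (slab_scal hp0 hB0 hR hy0 hy.1 hy.2)

/-- the other sign -/
theorem QF_tile_neg {N : Type*} [Fintype N] [DecidableEq N] (e : ∀ k, N ≃ α k × β k) (ψ : N → ℂ)
    (g : ∀ k, α k → ℝ) (n : ℕ) (K : ι → Matrix N N ℂ) (P : Matrix N N ℂ) (γ : ι → ℝ) :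
    QF ψ (Gen e ψ g n K) (n + 1) P ((0 : ℕ → ℝ), -γ) =
      QF ψ (Gen e ψ g n K) (n + 1) P ((0 : ℕ → ℝ), γ) := by
  have h := QF_neg ψ (Gen e ψ g n K) (n + 1) P ((0 : ℕ → ℝ), γ)
  rw [Prod.neg_mk, neg_zero] at h
  exact h

/-- SLAB for an arbitrary direction of the tile generators -/
theorem slab_in_gen (e : ∀ k, Conf V q ≃ α k × β k) {ψ Ω : Conf V q → ℂ} (g : ∀ k, α k → ℝ)
    (n : ℕ) {K : ι → Op V q} (hΩ : nsq Ω = 1) {b : Finset V} {γ : ι → ℝ} {T : Op V q}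
    (hT : T.IsHermitian) (hγ : GamK K γ = T ∨ GamK K γ = -T)
    (hTb : ActsOn b T) (hnorm : (NormedSpace.exp (-T)).trace = dO q b)
    {P : Op V q} (hP : P.PosSemidef) (hPb : ActsOn b P) {δ : ℝ}
    (hcl : ∀ X : Op V q, ActsOn b X →
      ‖star ψ ⬝ᵥ (X *ᵥ ψ) - star Ω ⬝ᵥ (X *ᵥ Ω)‖ ≤ δ * ‖X‖) (hδ : 0 ≤ δ) {κ : ℝ}
    (hκ : (star Ω ⬝ᵥ (T *ᵥ Ω)).re - entropyOf b Ω ≤ κ) {R B h : ℝ} (hR : 0 < R)
    (hB : ∀ z : ℂ, ‖z‖ ≤ R →
      ‖NormedSpace.exp (z • T) * P * NormedSpace.exp ((-z) • T)‖ ≤ B)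
    (hψ : nsq ψ = 1) (h0 : 0 < h) (h1 : h ≤ 1) (h2 : h ≤ R / 2) :
    QF ψ (Gen e ψ g n K) (n + 1) P ((0 : ℕ → ℝ), γ) ≤
      4 * (2 * (star Ω ⬝ᵥ (P *ᵥ Ω)).re + ‖P‖ * (δ + 32 * Real.pi * Real.cosh Real.pi ^ 2 * h * κ)) /
        h ^ 2 + 2 * B * h ^ 2 / R ^ 4 := by
  have hmain := slab_in (ι := Unit) e (ψ := ψ) (Ω := Ω) g n (K := fun _ => T) (fun _ => hT) hΩ
    (j := ()) hTb hnorm hP hPb hcl hδ hκ hR hB hψ h0 h1 h2
  have e1 : ∀ γ' : ι → ℝ, GamK K γ' = T → QF ψ (Gen e ψ g n K) (n + 1) P ((0 : ℕ → ℝ), γ') =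
      QF ψ (Gen e ψ g n (fun _ : Unit => T)) (n + 1) P ((0 : ℕ → ℝ), Pi.single () (1 : ℝ)) := by
    intro γ' hγ'
    refine QF_congr fun ζ => ?_
    rw [fQ_tile, fQ_tile, GamK_single, hγ']
  rcases hγ with hγ | hγ
  · rw [e1 γ hγ]
    exact hmain
  · have e2 : GamK K (-γ) = T := by
      have h3 := GamK_sub K 0 γ
      have h4 : GamK K (0 : ι → ℝ) = 0 := by
        simp only [GamK, Pi.zero_apply, zero_smul, Finset.sum_const_zero]
      rw [zero_sub, h4, hγ, zero_sub, neg_neg] at h3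
      exact h3
    rw [← QF_tile_neg e ψ g n K P γ, e1 (-γ) e2]
    exact hmain

end main

section lines
variable {V : Type*} [Fintype V] [DecidableEq V] {q : ℕ} {ι : Type*} [Fintype ι]

/-- **lines which do not cross the support** -/
theorem line_free {R : ℕ → Finset V} (hR : ∀ j k, j ≤ k → R k ⊆ R j) (ψ : Conf V q → ℂ)
    (g : ∀ k, Conf {x // x ∈ R k} q → ℝ) (n : ℕ) (K : ι → Op V q) {A : Finset V} {X : Op V q}
    (hX : ActsOn A X) {θ : ℕ → ℝ} (h : ∀ k ∈ crs107 A R n, θ k = 0) :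
    QF ψ (Gen (fun k => cut (R k) q) ψ g n K) (n + 1) X (θ, (0 : ι → ℝ)) = 0 := by
  refine QF_const (a := FT (fun k => cut (R k) q) ψ g n X (fun _ => 0)) fun ζ => ?_
  rw [fQ_Gen]
  have e0 : GamK K (0 : ι → ℝ) = 0 := by
    simp only [GamK, Pi.zero_apply, zero_smul, Finset.sum_const_zero]
  simp only [e0, smul_zero, NormedSpace.exp_zero, Matrix.one_mul, Matrix.mul_one]
  exact FT_region_congr hR ψ g n hX fun k hk => by rw [h k hk, Complex.ofReal_zero, mul_zero]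

/-- the form only depends on the lines which cross the dressed support -/
theorem line_congr {R : ℕ → Finset V} (hR : ∀ j k, j ≤ k → R k ⊆ R j) (ψ : Conf V q → ℂ)
    (g : ∀ k, Conf {x // x ∈ R k} q → ℝ) (n : ℕ) (K : ι → Op V q) {A B : Finset V} {X : Op V q}
    (hX : ActsOn A X) (hAB : A ⊆ B) {θ θ' : ℕ → ℝ} {γ : ι → ℝ} (hΓ : ActsOn B (GamK K γ))
    (h : ∀ k ∈ crs107 B R n, θ k = θ' k) :
    QF ψ (Gen (fun k => cut (R k) q) ψ g n K) (n + 1) X (θ, γ) =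
      QF ψ (Gen (fun k => cut (R k) q) ψ g n K) (n + 1) X (θ', γ) := by
  refine QF_congr fun ζ => ?_
  rw [fQ_Gen, fQ_Gen]
  refine FT_region_congr (A := B) hR ψ g n ?_ fun k hk => by
    show ζ * (θ k : ℂ) = ζ * (θ' k : ℂ)
    rw [h k hk]
  exact ph_acts_mul (ph_acts_mul (ph_acts_exp (ph_acts_smul _ hΓ)) (ph_acts_mono hAB hX))
    (ph_acts_exp (ph_acts_smul _ hΓ))

end lines

end Vale.Agent.P356.GA.Slab
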