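import Vale.Agent.P356.GA.FinB551
import Vale.Agent.P356.GA.S1P770

/-!
# GA: the strict area law for all gapped Hamiltonians on the square lattice
-/

set_option linter.all false

namespace Vale.Agent.P356.GA

open Matrix Finset Vale.Agent.P356 Vale.Agent.P356.SV

/-- **Strict area law for all gapped Hamiltonians.** -/
theorem strict_area_law {q R : ℕ} (hq : 1 ≤ q) {J Δ : ℝ} (hJ : 0 < J) (hΔ : 0 < Δ) :
    ∃ C : ℝ, 0 < C ∧ ∀ (L : ℕ) (H : Op (Site L) q) (E : ℝ) (Ω : Conf (Site L) q → ℂ),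
      Admissible L q R J H → GappedGround H Δ E Ω → ∀ A : Finset (Site L),
      entropyOf A Ω ≤ C * bdry A :=
  strict_of_S1P551 hq hJ hΔ fun _ _ _ ha ha1 _ _ => S1P.s1P hq ha ha1

end Vale.Agent.P356.GA
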