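import Mathlib.Analysis.Complex.Hadamard
import Mathlib.Analysis.SpecialFunctions.Trigonometric.Deriv
import Mathlib.Analysis.SpecialFunctions.Trigonometric.DerivHyp
import Mathlib.Analysis.SpecialFunctions.Trigonometric.Bounds
import Mathlib.Analysis.Real.Pi.Bounds

/-!
A point on the line `Re z = 1` where an analytic function is not smaller than its linearisation at
the origin predicts, with exponentially small loss in the height.
-/

set_option linter.all false

namespace Vale.Agent.P356.GA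

open Complex Set Filter Topology

/-- `χ(z) = z - ε (cos (z - 1/2) - cos (1/2))` -/
noncomputable def stChi (ε : ℝ) (z : ℂ) : ℂ :=
  z - ε * (Complex.cos (z - (1 / 2 : ℝ)) - Complex.cos ((1 / 2 : ℝ) : ℂ))

theorem stChi_re (ε x y : ℝ) : (stChi ε ((x : ℂ) + y * I)).re =
    x - ε * (Real.cos (x - 1 / 2) * Real.cosh y - Real.cos (1 / 2)) := by
  have h : ((x : ℂ) + y * I - ((1 / 2 : ℝ) : ℂ)) = ((x - 1 / 2 : ℝ) : ℂ) + y * I := by
    push_cast; ring
  rw [stChi, h, Complex.cos_add_mul_I, ← Complex.ofReal_cos (1 / 2)]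
  rw [← Complex.ofReal_cos, ← Complex.ofReal_sin, ← Complex.ofReal_cosh, ← Complex.ofReal_sinh]
  simp only [sub_re, add_re, mul_re, ofReal_re, ofReal_im, I_re, I_im, mul_im, sub_im]
  ring

theorem stChi_zero (ε : ℝ) : stChi ε 0 = 0 := by
  simp [stChi, Complex.cos_neg]

theorem stChi_deriv (ε : ℝ) (z : ℂ) :
    HasDerivAt (stChi ε) (1 + ε * Complex.sin (z - (1 / 2 : ℝ))) z := by
  have h1 : HasDerivAt (fun z : ℂ => z - ((1 / 2 : ℝ) : ℂ)) 1 z := (hasDerivAt_id z).sub_const _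
  have h2 := ((h1.ccos.sub_const (Complex.cos ((1 / 2 : ℝ) : ℂ))).const_mul (ε : ℂ))
  have h3 := (hasDerivAt_id z).sub h2
  refine h3.congr_deriv ?_
  ring

/-- a function bounded by its value `1` at the origin has nonpositive derivative -/
theorem st_deriv_nonpos {G : ℂ → ℂ} {c : ℂ} (hG : HasDerivAt G c 0) (h0 : G 0 = 1)
    (hb : ∀ x : ℝ, 0 < x → x < 1 → ‖G x‖ ≤ 1) : c.re ≤ 0 := by
  have h1 : HasDerivAt (fun x : ℝ => (G x).re) c.re 0 := by
    have := hG.real_of_complex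
    exact this
  have h2 := (hasDerivAt_iff_tendsto_slope.1 h1)
  have h3 : Tendsto (slope (fun x : ℝ => (G x).re) 0) (𝓝[>] 0) (𝓝 c.re) :=
    h2.mono_left (nhdsWithin_mono _ (fun x hx => ne_of_gt hx))
  refine le_of_tendsto h3 ?_
  have : Ioo (0 : ℝ) 1 ∈ 𝓝[>] (0 : ℝ) := Ioo_mem_nhdsGT one_pos
  filter_upwards [this] with x hx
  rw [slope_def_field]
  have h4 : (G x).re ≤ 1 := (Complex.re_le_norm _).trans (hb x hx.1 hx.2)
  have h5 : (G ((0 : ℝ) : ℂ)).re = 1 := by simp [h0]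
  rw [h5, sub_zero]
  exact div_nonpos_of_nonpos_of_nonneg (by linarith) hx.1.le

theorem st_cos_half : 0 < Real.cos (1 / 2) := by
  apply Real.cos_pos_of_mem_Ioo
  constructor <;> linarith [Real.pi_gt_three]

theorem st_sin_half : 0 < Real.sin (1 / 2) ∧ Real.sin (1 / 2) < 1 / 2 := by
  refine ⟨Real.sin_pos_of_pos_of_lt_pi (by norm_num) (by linarith [Real.pi_gt_three]),
    Real.sin_lt (by norm_num)⟩

/-- bounded on both lines, hence in the strip, for the modified function -/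
theorem st_bound {g : ℂ → ℂ} (hg : Differentiable ℂ g)
    {M : ℝ} (hb : ∀ z : ℂ, 0 ≤ z.re → z.re ≤ 1 → ‖g z‖ ≤ M)
    (h0 : ∀ y : ℝ, ‖g ((0 : ℝ) + y * I)‖ ≤ 1) (h1 : ∀ y : ℝ, ‖g ((1 : ℝ) + y * I)‖ ≤ 1)
    {ε T a : ℝ} (hε : 0 ≤ ε) (ha : 0 ≤ a) (hT : 0 ≤ T)
    (hεT : 1 ≤ ε * (Real.cos (1 / 2) * (Real.cosh T - 1)))
    (hsm : ∀ y : ℝ, |y| ≤ T → ‖g ((1 : ℝ) + y * I)‖ ≤ Real.exp (-a)) (z : ℂ)
    (hz0 : 0 ≤ z.re) (hz1 : z.re ≤ 1) : ‖g z * Complex.exp (a * stChi ε z)‖ ≤ 1 := by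
  have hcos := st_cos_half
  have hn : ∀ z : ℂ, ‖Complex.exp (a * stChi ε z)‖ = Real.exp (a * (stChi ε z).re) := by
    intro z
    rw [Complex.norm_exp]
    congr 1
    simp
  have hch : ∀ y : ℝ, 1 ≤ Real.cosh y := Real.one_le_cosh
  have hM0 : 0 ≤ M := (norm_nonneg _).trans (hb 0 (by simp) (by simp))
  have hfd : Differentiable ℂ (fun z => g z * Complex.exp (a * stChi ε z)) := by
    intro z
    exact (hg z).mul ((((stChi_deriv ε z).const_mul (a : ℂ)).cexp).differentiableAt)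
  have hB : BddAbove ((norm ∘ fun z => g z * Complex.exp (a * stChi ε z)) ''
      HadamardThreeLines.verticalClosedStrip 0 1) := by
    refine ⟨M * Real.exp (a * (1 + ε)), ?_⟩
    rintro _ ⟨w, hw, rfl⟩
    have hw0 : 0 ≤ w.re := hw.1
    have hw1 : w.re ≤ 1 := hw.2
    simp only [Function.comp]
    rw [norm_mul, hn]
    have hre : (stChi ε w).re ≤ 1 + ε := by
      have e := stChi_re ε w.re w.im
      rw [Complex.re_add_im] at e
      rw [e]
      have h5 : 0 ≤ Real.cos (w.re - 1 / 2) * Real.cosh w.im := by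
        apply mul_nonneg _ (Real.cosh_pos _).le
        apply Real.cos_nonneg_of_mem_Icc
        constructor <;> linarith [Real.pi_gt_three]
      have h6 : Real.cos (1 / 2) ≤ 1 := Real.cos_le_one _
      nlinarith
    exact mul_le_mul (hb w hw0 hw1) (Real.exp_le_exp.2 (mul_le_mul_of_nonneg_left hre ha))
      (Real.exp_pos _).le hM0
  have hleft : ∀ w ∈ re ⁻¹' {(0 : ℝ)}, ‖(fun z => g z * Complex.exp (a * stChi ε z)) w‖ ≤ 1 := by
    intro w hw
    have hw' : w.re = 0 := hw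
    have e : w = ((0 : ℝ) : ℂ) + w.im * I := by rw [← hw', Complex.re_add_im]
    have e2 := stChi_re ε 0 w.im
    rw [← e] at e2
    simp only
    rw [norm_mul, hn, e2]
    have h5 := h0 w.im
    rw [← e] at h5
    have h6 : a * (0 - ε * (Real.cos (0 - 1 / 2) * Real.cosh w.im - Real.cos (1 / 2))) ≤ 0 := by
      have : Real.cos (0 - 1 / 2) = Real.cos (1 / 2) := by
        rw [zero_sub, Real.cos_neg]
      rw [this]
      have h7 : 0 ≤ Real.cos (1 / 2) * Real.cosh w.im - Real.cos (1 / 2) := by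
        nlinarith [hch w.im]
      have := mul_nonneg ha (mul_nonneg hε h7)
      nlinarith
    calc ‖g w‖ * Real.exp _ ≤ 1 * 1 := mul_le_mul h5 (Real.exp_le_one_iff.2 h6)
          (Real.exp_pos _).le zero_le_one
      _ = 1 := one_mul _
  have hright : ∀ w ∈ re ⁻¹' {(1 : ℝ)}, ‖(fun z => g z * Complex.exp (a * stChi ε z)) w‖ ≤ 1 := by
    intro w hw
    have hw' : w.re = 1 := hw
    have e : w = ((1 : ℝ) : ℂ) + w.im * I := by rw [← hw', Complex.re_add_im]
    have e2 := stChi_re ε 1 w.im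
    rw [← e] at e2
    simp only
    rw [norm_mul, hn, e2]
    have hc : Real.cos (1 - 1 / 2) = Real.cos (1 / 2) := by norm_num
    rw [hc]
    have h5 := h1 w.im
    rw [← e] at h5
    by_cases hy : |w.im| ≤ T
    · have h6 := hsm w.im hy
      rw [← e] at h6
      have h7 : a * (1 - ε * (Real.cos (1 / 2) * Real.cosh w.im - Real.cos (1 / 2))) ≤ a := by
        have h7 : 0 ≤ Real.cos (1 / 2) * Real.cosh w.im - Real.cos (1 / 2) := by
          nlinarith [hch w.im]
        have := mul_nonneg ha (mul_nonneg hε h7)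
        nlinarith
      calc ‖g w‖ * Real.exp _ ≤ Real.exp (-a) * Real.exp a :=
            mul_le_mul h6 (Real.exp_le_exp.2 h7) (Real.exp_pos _).le (Real.exp_pos _).le
        _ = 1 := by rw [← Real.exp_add]; simp
    · have hcosh : Real.cosh T ≤ Real.cosh w.im := by
        rw [Real.cosh_le_cosh, abs_of_nonneg hT]
        exact (not_le.1 hy).le
      have h7 : a * (1 - ε * (Real.cos (1 / 2) * Real.cosh w.im - Real.cos (1 / 2))) ≤ 0 := by
        have h8 : 1 ≤ ε * (Real.cos (1 / 2) * Real.cosh w.im - Real.cos (1 / 2)) := by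
          refine hεT.trans (mul_le_mul_of_nonneg_left ?_ hε)
          nlinarith
        nlinarith
      calc ‖g w‖ * Real.exp _ ≤ 1 * 1 := mul_le_mul h5 (Real.exp_le_one_iff.2 h7)
            (Real.exp_pos _).le zero_le_one
        _ = 1 := one_mul _
  have h := HadamardThreeLines.norm_le_interp_of_mem_verticalClosedStrip₀₁'
    (fun z => g z * Complex.exp (a * stChi ε z)) (z := z) ⟨hz0, hz1⟩ hfd.diffContOnCl hB hleft hright
  simpa using h

/-- **Strip lemma.** -/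
theorem strip_exists {g : ℂ → ℂ} (hg : Differentiable ℂ g)
    {M : ℝ} (hb : ∀ z : ℂ, 0 ≤ z.re → z.re ≤ 1 → ‖g z‖ ≤ M)
    (h0 : ∀ y : ℝ, ‖g ((0 : ℝ) + y * I)‖ ≤ 1) (h1 : ∀ y : ℝ, ‖g ((1 : ℝ) + y * I)‖ ≤ 1)
    (hg0 : g 0 = 1) {ε T S : ℝ} (hε : 0 ≤ ε) (hε1 : ε ≤ 1) (hT : 0 ≤ T)
    (hεT : 1 ≤ ε * (Real.cos (1 / 2) * (Real.cosh T - 1)))
    (hS : -(deriv g 0).re ≤ S) :
    ∃ y : ℝ, |y| ≤ T ∧ Real.exp (-(S / (1 - ε / 2))) ≤ ‖g ((1 : ℝ) + y * I)‖ := by
  have hs := st_sin_half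
  have hg' : HasDerivAt g (deriv g 0) 0 := (hg 0).hasDerivAt
  have hd1 : 0 < 1 - ε / 2 := by linarith
  have hS0 : 0 ≤ -(deriv g 0).re := by
    have := st_bound hg hb h0 h1 hε le_rfl hT hεT (by simpa using fun y _ => h1 y)
    have h2 := st_deriv_nonpos hg' hg0 (fun x hx0 hx1 => by
      simpa using this x (by simpa using hx0.le) (by simpa using hx1.le))
    linarith
  have hS1 : 0 ≤ S := hS0.trans hS
  obtain ⟨y₀, hy₀, hmax⟩ : ∃ y₀ ∈ Icc (-T) T, IsMaxOn (fun y : ℝ => ‖g ((1 : ℝ) + y * I)‖)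
      (Icc (-T) T) y₀ := by
    apply isCompact_Icc.exists_isMaxOn ⟨0, by constructor <;> linarith⟩
    apply Continuous.continuousOn
    exact (hg.continuous.comp (by fun_prop)).norm
  refine ⟨y₀, abs_le.2 hy₀, ?_⟩
  by_contra hlt
  rw [not_le] at hlt
  set b : ℝ := S / (1 - ε / 2) with hbdef
  set m : ℝ := max ‖g ((1 : ℝ) + y₀ * I)‖ (Real.exp (-(b + 1))) with hm
  have hmpos : 0 < m := lt_of_lt_of_le (Real.exp_pos _) (le_max_right _ _)
  have hmlt : m < Real.exp (-b) := max_lt hlt (Real.exp_lt_exp.2 (by linarith))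
  set a : ℝ := -Real.log m with hadef
  have hea : Real.exp (-a) = m := by rw [hadef, neg_neg, Real.exp_log hmpos]
  have hab : b < a := by
    have : Real.log m < -b := by
      rw [Real.log_lt_iff_lt_exp hmpos]; exact hmlt
    linarith
  have hb0 : 0 ≤ b := div_nonneg hS1 hd1.le
  have ha0 : 0 ≤ a := hb0.trans hab.le
  have hbd := st_bound hg hb h0 h1 hε ha0 hT hεT (fun y hy => by
    rw [hea]
    exact le_trans (hmax (abs_le.1 hy)) (le_max_left _ _))
  have hder : HasDerivAt (fun z => g z * Complex.exp (a * stChi ε z))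
      (deriv g 0 * Complex.exp (a * stChi ε 0) + g 0 * (Complex.exp (a * stChi ε 0) *
        (a * (1 + ε * Complex.sin (0 - (1 / 2 : ℝ)))))) 0 :=
    hg'.mul (((stChi_deriv ε 0).const_mul (a : ℂ)).cexp)
  have hfin := st_deriv_nonpos hder (by simp [stChi_zero, hg0]) (fun x hx0 hx1 =>
    hbd x (by simpa using hx0.le) (by simpa using hx1.le))
  have e1 : (deriv g 0 * Complex.exp (a * stChi ε 0) + g 0 * (Complex.exp (a * stChi ε 0) *
        (a * (1 + ε * Complex.sin (0 - (1 / 2 : ℝ)))))).re =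
      (deriv g 0).re + a * (1 - ε * Real.sin (1 / 2)) := by
    have e3 : Complex.sin (0 - ((1 / 2 : ℝ) : ℂ)) = ((-Real.sin (1 / 2) : ℝ) : ℂ) := by
      rw [zero_sub, Complex.sin_neg, ← Complex.ofReal_sin]; push_cast; rfl
    rw [stChi_zero, mul_zero, Complex.exp_zero, hg0, e3, mul_one, one_mul, one_mul]
    rw [add_re]
    have e4 : ((a : ℂ) * (1 + (ε : ℂ) * ((-Real.sin (1 / 2) : ℝ) : ℂ))) =
        ((a * (1 - ε * Real.sin (1 / 2)) : ℝ) : ℂ) := by push_cast; ring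
    rw [e4, ofReal_re]
  rw [e1] at hfin
  have h7 : a * (1 - ε / 2) ≤ a * (1 - ε * Real.sin (1 / 2)) := by
    apply mul_le_mul_of_nonneg_left _ ha0
    nlinarith [hs.2]
  have h8 : b * (1 - ε / 2) = S := by rw [hbdef]; exact div_mul_cancel₀ _ hd1.ne'
  have h9 : b * (1 - ε / 2) < a * (1 - ε / 2) := mul_lt_mul_of_pos_right hab hd1
  linarith

/-- **Strip lemma**, with an exponential bound: `‖g z‖ ≤ e^{c Re z}` on the two lines. -/
theorem strip_exists' {g : ℂ → ℂ} (hg : Differentiable ℂ g)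
    {M : ℝ} (hb : ∀ z : ℂ, 0 ≤ z.re → z.re ≤ 1 → ‖g z‖ ≤ M) {c : ℝ}
    (h0 : ∀ y : ℝ, ‖g ((0 : ℝ) + y * I)‖ ≤ 1)
    (h1 : ∀ y : ℝ, ‖g ((1 : ℝ) + y * I)‖ ≤ Real.exp c)
    (hg0 : g 0 = 1) {ε T S : ℝ} (hε : 0 ≤ ε) (hε1 : ε ≤ 1) (hT : 0 ≤ T)
    (hεT : 1 ≤ ε * (Real.cos (1 / 2) * (Real.cosh T - 1)))
    (hS : -(deriv g 0).re ≤ S) :
    ∃ y : ℝ, |y| ≤ T ∧ Real.exp (c - (S + c) / (1 - ε / 2)) ≤ ‖g ((1 : ℝ) + y * I)‖ := by
  have hn : ∀ z : ℂ, ‖Complex.exp (-(c * z))‖ = Real.exp (-(c * z.re)) := by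
    intro z
    rw [Complex.norm_exp]
    congr 1
    simp
  have hd : HasDerivAt (fun z => g z * Complex.exp (-(c * z)))
      (deriv g 0 * Complex.exp (-(c * 0)) + g 0 * (Complex.exp (-(c * 0)) * (-(c * 1)))) 0 :=
    (hg 0).hasDerivAt.mul ((((hasDerivAt_id (0 : ℂ)).const_mul (c : ℂ)).neg).cexp)
  have hdiff : Differentiable ℂ (fun z => g z * Complex.exp (-(c * z))) := by
    intro z
    exact (hg z).mul ((((hasDerivAt_id z).const_mul (c : ℂ)).neg).cexp.differentiableAt)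
  obtain ⟨y, hy, h⟩ := strip_exists (g := fun z => g z * Complex.exp (-(c * z)))
    (M := M * Real.exp |c|) hdiff
    (fun z hz0 hz1 => by
      rw [norm_mul, hn]
      have hM0 : 0 ≤ M := (norm_nonneg _).trans (hb z hz0 hz1)
      refine mul_le_mul (hb z hz0 hz1) (Real.exp_le_exp.2 ?_) (Real.exp_pos _).le hM0
      have h3 : -(c * z.re) ≤ |c * z.re| := neg_le_abs _
      rw [abs_mul, abs_of_nonneg hz0] at h3
      exact h3.trans (by nlinarith [abs_nonneg c]))
    (fun y => by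
      rw [norm_mul, hn]
      have : ((((0 : ℝ) : ℂ) + y * I).re) = 0 := by simp
      rw [this]
      simpa using h0 y)
    (fun y => by
      rw [norm_mul, hn]
      have : ((((1 : ℝ) : ℂ) + y * I).re) = 1 := by simp
      rw [this, mul_one]
      calc ‖g ((1 : ℝ) + y * I)‖ * Real.exp (-c) ≤ Real.exp c * Real.exp (-c) :=
            mul_le_mul_of_nonneg_right (h1 y) (Real.exp_pos _).le
        _ = 1 := by rw [← Real.exp_add]; simp)
    (by simp [hg0]) hε hε1 hT hεT (S := S + c) (by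
      rw [hd.deriv]
      simp only [mul_zero, neg_zero, Complex.exp_zero, mul_one, hg0, one_mul]
      simp only [add_re, neg_re, ofReal_re]
      linarith)
  refine ⟨y, hy, ?_⟩
  rw [norm_mul, hn] at h
  have : ((((1 : ℝ) : ℂ) + y * I).re) = 1 := by simp
  rw [this, mul_one] at h
  have h5 : Real.exp (c - (S + c) / (1 - ε / 2)) =
      Real.exp (-((S + c) / (1 - ε / 2))) * Real.exp c := by
    rw [← Real.exp_add]; congr 1; ring
  rw [h5]
  calc _ ≤ ‖g ((1 : ℝ) + y * I)‖ * Real.exp (-c) * Real.exp c :=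
        mul_le_mul_of_nonneg_right h (Real.exp_pos _).le
    _ = ‖g ((1 : ℝ) + y * I)‖ := by
        rw [mul_assoc, ← Real.exp_add]; simp

/-- a height which works, logarithmic in `1 / ε` -/
theorem strip_height {ε T : ℝ} (hε : 0 < ε) (hT : Real.log (2 * (1 + 2 / ε)) ≤ T) :
    1 ≤ ε * (Real.cos (1 / 2) * (Real.cosh T - 1)) := by
  have hc : 1 / 2 ≤ Real.cos (1 / 2) := by
    have h : Real.cos (Real.pi / 3) ≤ Real.cos (1 / 2) := by
      apply Real.cos_le_cos_of_nonneg_of_le_pi (by norm_num) (by linarith [Real.pi_pos])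
      linarith [Real.pi_gt_three]
    rwa [Real.cos_pi_div_three] at h
  have h2 : 1 + 2 / ε ≤ Real.cosh T := by
    rw [Real.cosh_eq]
    have h3 : 2 * (1 + 2 / ε) ≤ Real.exp T := by
      rw [← Real.log_le_iff_le_exp (by positivity)]; exact hT
    have := Real.exp_pos (-T)
    linarith
  have h4 : ε * (1 / 2 * (2 / ε)) ≤ ε * (Real.cos (1 / 2) * (Real.cosh T - 1)) := by
    apply mul_le_mul_of_nonneg_left _ hε.le
    apply mul_le_mul hc (by linarith) (by positivity) (by linarith)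
  have h5 : ε * (1 / 2 * (2 / ε)) = 1 := by field_simp
  linarith

end Vale.Agent.P356.GA
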