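import Vale.Agent.P356.GA.Energy980
import Vale.Agent.P356.GA.Dual860

/-!
# GA, block TAILC2 (helper860): the second order coefficient of a nonlocal term

The generators of the maximiser are functions of the reduced states of the nested regions `R k`.
By duality `G_j ψ = G^_j ψ` with `G^_j` acting on the complement of `R j`, which commutes with
`G_k` for `j ≤ k`; so the second Taylor coefficient of the energy flow of any observable `X` is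
bounded by `2 ‖X‖ (∑ θ_k B + Q)²`, where `B` depends only on `m log q`,
`m ≥ min (card R k) (card (R k)ᶜ)`.
-/

set_option linter.all false

namespace Vale.Agent.P356.GA

open Matrix Finset Vale.Agent.P356 Vale.Agent.P356.SV Vale.Agent.P356.Path Vale.Agent.P356.PH
open scoped BigOperators ComplexOrder Kronecker Matrix.Norms.L2Operator

/-! ## scalar moments -/

theorem t860_exp {u : ℝ} (hu : 0 ≤ u) : (1 + u) ^ 4 ≤ 4096 * Real.exp (u / 2) := by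
  have h1 : u / 8 + 1 ≤ Real.exp (u / 8) := Real.add_one_le_exp _
  have h2 : (1 + u) / 8 ≤ Real.exp (u / 8) := by linarith
  have h3 : ((1 + u) / 8) ^ 4 ≤ Real.exp (u / 8) ^ 4 :=
    pow_le_pow_left₀ (by positivity) h2 4
  have h4 : Real.exp (u / 8) ^ 4 = Real.exp (u / 2) := by
    rw [← Real.exp_nat_mul]
    congr 1
    push_cast
    ring
  rw [h4] at h3
  have h5 : ((1 + u) / 8) ^ 4 = (1 + u) ^ 4 / 4096 := by
    rw [div_pow]; norm_num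
  rw [h5] at h3
  linarith

theorem t860_term {p D : ℝ} (hp : 0 ≤ p) (hp1 : p ≤ 1) (hD : 1 ≤ D) :
    p * (1 + |Real.log p|) ^ 4 ≤ p * (1 + 2 * Real.log D) ^ 4 + 4096 / D := by
  have hD0 : 0 < D := by linarith
  have hlD : 0 ≤ Real.log D := Real.log_nonneg hD
  rcases hp.eq_or_lt with h0 | h0
  · rw [← h0, zero_mul, zero_mul, zero_add]
    positivity
  have hl : Real.log p ≤ 0 := Real.log_nonpos hp hp1
  rw [abs_of_nonpos hl]
  by_cases h : -Real.log p ≤ 2 * Real.log D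
  · have h1 : p * (1 + -Real.log p) ^ 4 ≤ p * (1 + 2 * Real.log D) ^ 4 := by
      refine mul_le_mul_of_nonneg_left ?_ hp
      exact pow_le_pow_left₀ (by linarith) (by linarith) 4
    have h2 : 0 ≤ 4096 / D := by positivity
    linarith
  · push Not at h
    set u := -Real.log p with hu
    have hu0 : 0 ≤ u := by linarith
    have hpe : p = Real.exp (-u) := by
      rw [hu, neg_neg, Real.exp_log h0]
    have h1 := t860_exp hu0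
    have h2 : p * (1 + u) ^ 4 ≤ 4096 * Real.exp (-(u / 2)) := by
      calc p * (1 + u) ^ 4 ≤ p * (4096 * Real.exp (u / 2)) := mul_le_mul_of_nonneg_left h1 hp
        _ = 4096 * Real.exp (-(u / 2)) := by
          rw [hpe, mul_left_comm, ← Real.exp_add]
          congr 2
          ring
    have h3 : Real.exp (-(u / 2)) ≤ D⁻¹ := by
      rw [← Real.exp_log hD0, ← Real.exp_neg]
      exact Real.exp_le_exp.2 (by linarith)
    have h4 : 0 ≤ p * (1 + 2 * Real.log D) ^ 4 := by positivity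
    rw [div_eq_mul_inv]
    linarith

theorem t860_mom4 {ι : Type*} [Fintype ι] {p : ι → ℝ} (hp : ∀ i, 0 ≤ p i) (hs : ∑ i, p i = 1)
    {D : ℝ} (hD : 1 ≤ D) (hcard : (Fintype.card ι : ℝ) ≤ D) :
    ∑ i, p i * (1 + |Real.log (p i)|) ^ 4 ≤ (9 * (1 + Real.log D)) ^ 4 := by
  have hD0 : 0 < D := by linarith
  have hlD : 0 ≤ Real.log D := Real.log_nonneg hD
  have hp1 : ∀ i, p i ≤ 1 := fun i => by
    rw [← hs]
    exact Finset.single_le_sum (fun j _ => hp j) (Finset.mem_univ i)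
  have h1 : ∑ i, p i * (1 + |Real.log (p i)|) ^ 4 ≤
      ∑ i, (p i * (1 + 2 * Real.log D) ^ 4 + 4096 / D) :=
    Finset.sum_le_sum fun i _ => t860_term (hp i) (hp1 i) hD
  rw [Finset.sum_add_distrib, ← Finset.sum_mul, hs, one_mul, Finset.sum_const, Finset.card_univ,
    nsmul_eq_mul] at h1
  have h2 : (Fintype.card ι : ℝ) * (4096 / D) ≤ 4096 := by
    calc (Fintype.card ι : ℝ) * (4096 / D) ≤ D * (4096 / D) :=
          mul_le_mul_of_nonneg_right hcard (by positivity)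
      _ = 4096 := by field_simp
  have h3 : (1 + 2 * Real.log D) ^ 4 ≤ (2 * (1 + Real.log D)) ^ 4 :=
    pow_le_pow_left₀ (by positivity) (by linarith) 4
  have h4 : (1 : ℝ) ≤ (1 + Real.log D) ^ 4 := one_le_pow₀ (by linarith)
  have h5 : (2 * (1 + Real.log D)) ^ 4 = 16 * (1 + Real.log D) ^ 4 := by rw [mul_pow]; norm_num
  have h6 : (9 * (1 + Real.log D)) ^ 4 = 6561 * (1 + Real.log D) ^ 4 := by rw [mul_pow]; norm_num
  rw [h5] at h3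
  rw [h6]
  linarith

/-! ## operator moments -/

section mom
variable {V : Type*} [Fintype V] [DecidableEq V] {q : ℕ}

/-- the constant `B` -/
noncomputable def Bq (q m : ℕ) : ℝ := 9 * (1 + m * Real.log q)

theorem Bq_pos (q m : ℕ) : 0 < Bq q m := by
  have h := Real.log_natCast_nonneg q
  unfold Bq
  positivity

theorem Bq_mono (q : ℕ) {m m' : ℕ} (h : m ≤ m') : Bq q m ≤ Bq q m' := by
  unfold Bq
  have h1 := Real.log_natCast_nonneg q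
  have h2 : (m : ℝ) ≤ m' := by exact_mod_cast h
  have h3 := mul_le_mul_of_nonneg_right h2 h1
  linarith

theorem t860_card (q : ℕ) (S : Finset V) :
    (Fintype.card ({x // x ∈ S} → Fin q) : ℝ) ≤ Real.exp (S.card * Real.log q) := by
  rw [Fintype.card_fun, Fintype.card_fin, Fintype.card_coe]
  rcases Nat.eq_zero_or_pos q with h | h
  · rw [h]
    rcases Nat.eq_zero_or_pos S.card with h2 | h2
    · rw [h2]; simp
    · rw [zero_pow h2.ne']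
      push_cast
      positivity
  · have h1 : (0 : ℝ) < q := by exact_mod_cast h
    rw [Real.exp_nat_mul, Real.exp_log h1]
    push_cast
    exact le_rfl

theorem t860_self {ψ : Conf V q → ℂ} (hψ : nsq ψ = 1) (S : Finset V) {f : ℝ → ℂ} {θ : ℝ}
    (hθ : 0 ≤ θ) (hf : ∀ p, 0 < p → p ≤ 1 → ‖f p‖ ≤ (θ * (1 + |Real.log p|)) ^ 2) :
    nsq (fr S ψ f *ᵥ ψ) ≤ (θ * Bq q S.card) ^ 4 := by
  set p : ({x // x ∈ S} → Fin q) → ℝ := fun i => eigp (ψ ∘ (cut S q).symm) i with hpd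
  have hp : ∀ i, 0 ≤ p i := fun i => eigp_nonneg _ i
  have hs : ∑ i, p i = 1 := by
    have h := cr_expect S ψ (fun _ => 1)
    rw [cr_one, Matrix.one_mulVec, ip_self, hψ] at h
    simp only [mul_one] at h
    have h2 : ((∑ i, p i : ℝ) : ℂ) = ((1 : ℝ) : ℂ) := by
      rw [h]
      push_cast
      rfl
    exact_mod_cast h2
  have hp1 : ∀ i, p i ≤ 1 := fun i => by
    rw [← hs]
    exact Finset.single_le_sum (fun j _ => hp j) (Finset.mem_univ i)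
  have hlog := Real.log_natCast_nonneg q
  have hD : 1 ≤ Real.exp (S.card * Real.log q) := Real.one_le_exp (by positivity)
  have h1 := t860_mom4 hp hs hD (t860_card q S)
  rw [Real.log_exp] at h1
  rw [fr, cr_nsq]
  calc ∑ i, eigp (ψ ∘ (cut S q).symm) i * ‖f (eigp (ψ ∘ (cut S q).symm) i)‖ ^ 2
      ≤ ∑ i, θ ^ 4 * (p i * (1 + |Real.log (p i)|) ^ 4) := by
        refine Finset.sum_le_sum fun i _ => ?_
        rcases (hp i).eq_or_lt with h0 | h0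
        · have e : eigp (ψ ∘ (cut S q).symm) i = 0 := h0.symm
          rw [e, ← h0]
          simp
        · have h2 := hf (p i) h0 (hp1 i)
          have h3 : ‖f (p i)‖ ^ 2 ≤ ((θ * (1 + |Real.log (p i)|)) ^ 2) ^ 2 :=
            pow_le_pow_left₀ (norm_nonneg _) h2 2
          calc p i * ‖f (p i)‖ ^ 2 ≤ p i * ((θ * (1 + |Real.log (p i)|)) ^ 2) ^ 2 :=
                mul_le_mul_of_nonneg_left h3 (hp i)
            _ = θ ^ 4 * (p i * (1 + |Real.log (p i)|) ^ 4) := by ring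
    _ = θ ^ 4 * ∑ i, p i * (1 + |Real.log (p i)|) ^ 4 := by rw [Finset.mul_sum]
    _ ≤ θ ^ 4 * (9 * (1 + S.card * Real.log q)) ^ 4 :=
        mul_le_mul_of_nonneg_left h1 (by positivity)
    _ = (θ * Bq q S.card) ^ 4 := by rw [Bq, ← mul_pow]

/-- fourth moment, through the smaller side -/
theorem t860_mom {ψ : Conf V q → ℂ} (hψ : nsq ψ = 1) {S : Finset V} {m : ℕ}
    (hm : S.card ≤ m ∨ Sᶜ.card ≤ m) {f : ℝ → ℂ} {θ : ℝ}
    (hθ : 0 ≤ θ) (hf : ∀ p, 0 < p → p ≤ 1 → ‖f p‖ ≤ (θ * (1 + |Real.log p|)) ^ 2) :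
    nrm (fr S ψ f *ᵥ ψ) ≤ (θ * Bq q m) ^ 2 := by
  have h4 : nsq (fr S ψ f *ᵥ ψ) ≤ (θ * Bq q m) ^ 4 := by
    rcases hm with h | h
    · exact (t860_self hψ S hθ hf).trans (pow_le_pow_left₀ (mul_nonneg hθ (Bq_pos _ _).le)
        (mul_le_mul_of_nonneg_left (Bq_mono q h) hθ) 4)
    · rw [fr_dual]
      exact (t860_self hψ Sᶜ hθ hf).trans (pow_le_pow_left₀ (mul_nonneg hθ (Bq_pos _ _).le)
        (mul_le_mul_of_nonneg_left (Bq_mono q h) hθ) 4)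
  rw [nrm]
  calc Real.sqrt (nsq (fr S ψ f *ᵥ ψ)) ≤ Real.sqrt ((θ * Bq q m) ^ 4) := Real.sqrt_le_sqrt h4
    _ = (θ * Bq q m) ^ 2 := by
      rw [show (θ * Bq q m) ^ 4 = ((θ * Bq q m) ^ 2) ^ 2 by ring, Real.sqrt_sq (by positivity)]

/-- a real function gives a Hermitian operator -/
theorem fr_herm (S : Finset V) (ψ : Conf V q → ℂ) (g : ℝ → ℝ) :
    (fr S ψ (fun p => (g p : ℂ)))ᴴ = fr S ψ (fun p => (g p : ℂ)) := by
  rw [fr_conj]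
  congr 1
  funext p
  simp

/-- the square of a real function -/
theorem fr_sq (S : Finset V) (ψ : Conf V q → ℂ) (g : ℝ → ℝ) :
    fr S ψ (fun p => (g p : ℂ)) * fr S ψ (fun p => (g p : ℂ)) =
      fr S ψ (fun p => ((g p ^ 2 : ℝ) : ℂ)) := by
  rw [fr_mul]
  congr 1
  funext p
  push_cast
  ring

theorem t860_sq_bound {g : ℝ → ℝ} {θ : ℝ} (hg : ∀ p, 0 < p → p ≤ 1 → |g p| ≤ θ * (1 + |Real.log p|)) :
    ∀ p, 0 < p → p ≤ 1 → ‖((g p ^ 2 : ℝ) : ℂ)‖ ≤ (θ * (1 + |Real.log p|)) ^ 2 := by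
  intro p h0 h1
  rw [Complex.norm_real, norm_pow, Real.norm_eq_abs]
  exact pow_le_pow_left₀ (abs_nonneg _) (hg p h0 h1) 2

/-- second moment -/
theorem t860_mom2 {ψ : Conf V q → ℂ} (hψ : nsq ψ = 1) {S : Finset V} {m : ℕ}
    (hm : S.card ≤ m ∨ Sᶜ.card ≤ m) {g : ℝ → ℝ} {θ : ℝ}
    (hθ : 0 ≤ θ) (hg : ∀ p, 0 < p → p ≤ 1 → |g p| ≤ θ * (1 + |Real.log p|)) :
    nrm (fr S ψ (fun p => (g p : ℂ)) *ᵥ ψ) ≤ θ * Bq q m := by
  have hB : 0 ≤ θ * Bq q m := mul_nonneg hθ (Bq_pos _ _).le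
  have h1 := t860_mom hψ hm hθ (t860_sq_bound hg)
  have h2 : nrm (fr S ψ (fun p => (g p : ℂ)) *ᵥ ψ) ^ 2 ≤ (θ * Bq q m) ^ 2 := by
    rw [nrm_sq, ← ip_self_re, ip_mulVec, fr_herm, mulVec_mulVec, fr_sq]
    refine (Complex.re_le_norm _).trans ((nrm_ip_le _ _).trans ?_)
    have h3 : nrm ψ = 1 := by rw [nrm, hψ, Real.sqrt_one]
    rw [h3, one_mul]
    exact h1
  exact (sq_le_sq₀ (nrm_nonneg _) hB).mp h2

/-- the cross moment of nested regions -/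
theorem t860_cross {ψ : Conf V q → ℂ} (hψ : nsq ψ = 1) {S T : Finset V} (hST : T ⊆ S) {m : ℕ}
    (hS : S.card ≤ m ∨ Sᶜ.card ≤ m) (hT : T.card ≤ m ∨ Tᶜ.card ≤ m) {g g' : ℝ → ℝ} {θ θ' : ℝ}
    (hθ : 0 ≤ θ) (hg : ∀ p, 0 < p → p ≤ 1 → |g p| ≤ θ * (1 + |Real.log p|))
    (hθ' : 0 ≤ θ') (hg' : ∀ p, 0 < p → p ≤ 1 → |g' p| ≤ θ' * (1 + |Real.log p|)) :
    nrm (fr T ψ (fun p => (g' p : ℂ)) *ᵥ (fr S ψ (fun p => (g p : ℂ)) *ᵥ ψ)) ≤
      (θ * Bq q m) * (θ' * Bq q m) := by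
  have hB : 0 ≤ θ * Bq q m := mul_nonneg hθ (Bq_pos _ _).le
  have hB' : 0 ≤ θ' * Bq q m := mul_nonneg hθ' (Bq_pos _ _).le
  have hdisj : Disjoint T Sᶜ := disjoint_compl_right.mono_left hST
  rw [fr_dual S]
  set A := fr T ψ (fun p => (g' p : ℂ)) with hA
  set A2 := fr T ψ (fun p => ((g' p ^ 2 : ℝ) : ℂ)) with hA2
  set C := fr Sᶜ ψ (fun p => (g p : ℂ)) with hC
  set C2 := fr Sᶜ ψ (fun p => ((g p ^ 2 : ℝ) : ℂ)) with hC2
  have e1 : Aᴴ = A := fr_herm T ψ g'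
  have e2 : Cᴴ = C := fr_herm Sᶜ ψ g
  have e3 : A * A = A2 := fr_sq T ψ g'
  have e4 : C * C = C2 := fr_sq Sᶜ ψ g
  have e5 : A2ᴴ = A2 := fr_herm T ψ (fun p => g' p ^ 2)
  have hc : Commute A2 C := ph_acts_comm hdisj (fr_acts T ψ _) (fr_acts Sᶜ ψ _)
  have h1 : nrm (A2 *ᵥ ψ) ≤ (θ' * Bq q m) ^ 2 := t860_mom hψ hT hθ' (t860_sq_bound hg')
  have h2 : nrm (C2 *ᵥ ψ) ≤ (θ * Bq q m) ^ 2 := by
    have hS' : (Sᶜ).card ≤ m ∨ (Sᶜᶜ).card ≤ m := by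
      rw [compl_compl]; exact hS.symm
    exact t860_mom hψ hS' hθ (t860_sq_bound hg)
  have h3 : star (A *ᵥ (C *ᵥ ψ)) ⬝ᵥ (A *ᵥ (C *ᵥ ψ)) = star (A2 *ᵥ ψ) ⬝ᵥ (C2 *ᵥ ψ) := by
    rw [ip_mulVec, ip_mulVec, ip_mulVec, e1, e2, e5, mulVec_mulVec, mulVec_mulVec, mulVec_mulVec,
      mulVec_mulVec]
    congr 2
    rw [Matrix.mul_assoc C A A, e3, ← hc.eq, Matrix.mul_assoc, e4]
  have h4 : nrm (A *ᵥ (C *ᵥ ψ)) ^ 2 ≤ ((θ * Bq q m) * (θ' * Bq q m)) ^ 2 := by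
    rw [nrm_sq, ← ip_self_re, h3]
    refine (Complex.re_le_norm _).trans ((nrm_ip_le _ _).trans ?_)
    calc nrm (A2 *ᵥ ψ) * nrm (C2 *ᵥ ψ) ≤ (θ' * Bq q m) ^ 2 * (θ * Bq q m) ^ 2 :=
          mul_le_mul h1 h2 (nrm_nonneg _) (by positivity)
      _ = _ := by ring
  exact (sq_le_sq₀ (nrm_nonneg _) (mul_nonneg hB hB')).mp h4

end mom

/-! ## double commutators -/

section dc
variable {N : Type*} [Fintype N] [DecidableEq N]

theorem dcomm_le {ψ : N → ℂ} (hψ : nsq ψ = 1) {G K : Matrix N N ℂ} (hG : Gᴴ = G) (hK : Kᴴ = K)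
    (X : Matrix N N ℂ) {a b : ℝ} (ha0 : 0 ≤ a) (ha : nrm (G *ᵥ ψ) ≤ a) (hb : nrm (K *ᵥ ψ) ≤ b)
    (hc : nrm (K *ᵥ (G *ᵥ ψ)) ≤ a * b) :
    ‖star ψ ⬝ᵥ (ad G (ad K X) *ᵥ ψ)‖ ≤ 4 * ‖X‖ * (a * b) := by
  have hb0 : 0 ≤ b := (nrm_nonneg _).trans hb
  have hX := norm_nonneg X
  have h1 : nrm ψ = 1 := by rw [nrm, hψ, Real.sqrt_one]
  have e1 : star ψ ⬝ᵥ ((G * (K * X)) *ᵥ ψ) = star (K *ᵥ (G *ᵥ ψ)) ⬝ᵥ (X *ᵥ ψ) := by
    rw [ip_mulVec, ip_mulVec, hG, hK, mulVec_mulVec, mulVec_mulVec, ← Matrix.mul_assoc]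
  have e2 : star ψ ⬝ᵥ ((G * (X * K)) *ᵥ ψ) = star (G *ᵥ ψ) ⬝ᵥ (X *ᵥ (K *ᵥ ψ)) := by
    rw [ip_mulVec, hG, mulVec_mulVec, mulVec_mulVec, ← Matrix.mul_assoc]
  have e3 : star ψ ⬝ᵥ ((K * X * G) *ᵥ ψ) = star (K *ᵥ ψ) ⬝ᵥ (X *ᵥ (G *ᵥ ψ)) := by
    rw [ip_mulVec, hK, mulVec_mulVec, mulVec_mulVec]
  have e4 : star ψ ⬝ᵥ ((X * K * G) *ᵥ ψ) = star ψ ⬝ᵥ (X *ᵥ (K *ᵥ (G *ᵥ ψ))) := by
    rw [mulVec_mulVec, mulVec_mulVec]
  have key : ∀ u v : N → ℂ, nrm u * nrm v ≤ a * b → ‖star u ⬝ᵥ (X *ᵥ v)‖ ≤ ‖X‖ * (a * b) := by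
    intro u v h
    calc ‖star u ⬝ᵥ (X *ᵥ v)‖ ≤ nrm u * nrm (X *ᵥ v) := nrm_ip_le u _
      _ ≤ nrm u * (‖X‖ * nrm v) := mul_le_mul_of_nonneg_left (nrm_mulVec_le X v) (nrm_nonneg u)
      _ = ‖X‖ * (nrm u * nrm v) := by ring
      _ ≤ ‖X‖ * (a * b) := mul_le_mul_of_nonneg_left h hX
  have k1 : ‖star (K *ᵥ (G *ᵥ ψ)) ⬝ᵥ (X *ᵥ ψ)‖ ≤ ‖X‖ * (a * b) := key _ _ (by rw [h1, mul_one]; exact hc)
  have k2 : ‖star (G *ᵥ ψ) ⬝ᵥ (X *ᵥ (K *ᵥ ψ))‖ ≤ ‖X‖ * (a * b) :=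
    key _ _ (mul_le_mul ha hb (nrm_nonneg _) ha0)
  have k3 : ‖star (K *ᵥ ψ) ⬝ᵥ (X *ᵥ (G *ᵥ ψ))‖ ≤ ‖X‖ * (a * b) :=
    key _ _ (by rw [mul_comm]; exact mul_le_mul ha hb (nrm_nonneg _) ha0)
  have k4 : ‖star ψ ⬝ᵥ (X *ᵥ (K *ᵥ (G *ᵥ ψ)))‖ ≤ ‖X‖ * (a * b) := key _ _ (by rw [h1, one_mul]; exact hc)
  have e : star ψ ⬝ᵥ (ad G (ad K X) *ᵥ ψ) =
      star (K *ᵥ (G *ᵥ ψ)) ⬝ᵥ (X *ᵥ ψ) - star (G *ᵥ ψ) ⬝ᵥ (X *ᵥ (K *ᵥ ψ)) -
      (star (K *ᵥ ψ) ⬝ᵥ (X *ᵥ (G *ᵥ ψ)) - star ψ ⬝ᵥ (X *ᵥ (K *ᵥ (G *ᵥ ψ)))) := by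
    rw [← e1, ← e2, ← e3, ← e4]
    simp only [ad, mul_sub, sub_mul, sub_mulVec, dotProduct_sub]
  rw [e]
  refine (norm_sub_le _ _).trans ?_
  refine (add_le_add (norm_sub_le _ _) (norm_sub_le _ _)).trans ?_
  linarith

theorem t860_square (a : ℕ → ℝ) (n : ℕ) :
    ∑ k ∈ range n, (∑ j ∈ range k, 4 * (a j * a k) + 2⁻¹ * (4 * (a k * a k))) =
      2 * (∑ k ∈ range n, a k) ^ 2 := by
  induction n with
  | zero => simp
  | succ n ih =>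
    rw [Finset.sum_range_succ, ih, Finset.sum_range_succ, ← Finset.mul_sum, ← Finset.sum_mul]
    ring

/-- the second order coefficient, abstract form -/
theorem c2_abs_le {ψ : N → ℂ} (hψ : nsq ψ = 1) {G : ℕ → Matrix N N ℂ} {n : ℕ}
    (hG : ∀ k < n, (G k).IsHermitian) {a : ℕ → ℝ} (ha : ∀ k < n, nrm (G k *ᵥ ψ) ≤ a k)
    (hc : ∀ j k, j ≤ k → k < n → nrm (G k *ᵥ (G j *ᵥ ψ)) ≤ a j * a k) (X : Matrix N N ℂ) :
    ∑ k ∈ range n, ‖star ψ ⬝ᵥ (ad (Sg G k) (ad (G k) X) *ᵥ ψ)‖ ≤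
      2 * ‖X‖ * (∑ k ∈ range n, a k) ^ 2 := by
  have ha0 : ∀ k < n, 0 ≤ a k := fun k hk => (nrm_nonneg _).trans (ha k hk)
  have h1 : ∀ k ∈ range n, ‖star ψ ⬝ᵥ (ad (Sg G k) (ad (G k) X) *ᵥ ψ)‖ ≤
      ‖X‖ * (∑ j ∈ range k, 4 * (a j * a k) + 2⁻¹ * (4 * (a k * a k))) := by
    intro k hk
    have hk' := mem_range.1 hk
    have e : star ψ ⬝ᵥ (ad (Sg G k) (ad (G k) X) *ᵥ ψ) =
        ∑ j ∈ range k, star ψ ⬝ᵥ (ad (G j) (ad (G k) X) *ᵥ ψ) +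
        (2:ℂ)⁻¹ * (star ψ ⬝ᵥ (ad (G k) (ad (G k) X) *ᵥ ψ)) := by
      have h : ∀ Y, star ψ ⬝ᵥ (Y *ᵥ ψ) = expL ψ Y := fun Y => rfl
      rw [Sg, ad_add_left, ad_sum, ad_smul_left]
      simp only [h]
      rw [map_add, map_sum, map_smul, smul_eq_mul]
    rw [e]
    refine (norm_add_le _ _).trans ?_
    rw [mul_add]
    refine add_le_add ?_ ?_
    · refine (norm_sum_le _ _).trans ?_
      rw [Finset.mul_sum]
      refine Finset.sum_le_sum fun j hj => ?_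
      have hj' : j < n := lt_trans (mem_range.1 hj) hk'
      have h2 := dcomm_le hψ (hG j hj').eq (hG k hk').eq X (ha0 j hj') (ha j hj') (ha k hk')
        (hc j k (mem_range.1 hj).le hk')
      linarith
    · rw [norm_mul]
      have h2 := dcomm_le hψ (hG k hk').eq (hG k hk').eq X (ha0 k hk') (ha k hk') (ha k hk')
        (hc k k le_rfl hk')
      have h3 : ‖(2:ℂ)⁻¹‖ = 2⁻¹ := by norm_num
      rw [h3]
      linarith
  refine (Finset.sum_le_sum h1).trans ?_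
  rw [← Finset.mul_sum, t860_square]
  linarith

end dc

/-! ## the final bounds -/

section fin
variable {V : Type*} [Fintype V] [DecidableEq V] {q : ℕ}

/-- **TAILC2.** The generators are functions of the reduced states of nested regions, the last one
is bounded by `Q`. -/
theorem tailc2 {ψ : Conf V q → ℂ} (hψ : nsq ψ = 1) {R : ℕ → Finset V} {n m : ℕ}
    (hR : ∀ j k, j ≤ k → k < n → R k ⊆ R j) (hm : ∀ k < n, (R k).card ≤ m ∨ (R k)ᶜ.card ≤ m)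
    {θ : ℕ → ℝ} (hθ : ∀ k < n, 0 ≤ θ k) {g : ℕ → ℝ → ℝ}
    (hg : ∀ k < n, ∀ p, 0 < p → p ≤ 1 → |g k p| ≤ θ k * (1 + |Real.log p|))
    {G : ℕ → Op V q} (hG : ∀ k < n, G k = fr (R k) ψ (fun p => (g k p : ℂ)))
    (hΓ : (G n).IsHermitian) {Q : ℝ} (hQ : ‖G n‖ ≤ Q) (X : Op V q) :
    ∑ k ∈ range (n + 1), ‖star ψ ⬝ᵥ (ad (Sg G k) (ad (G k) X) *ᵥ ψ)‖ ≤
      2 * ‖X‖ * (∑ k ∈ range n, θ k * Bq q m + Q) ^ 2 := by
  classical
  have hQ0 : 0 ≤ Q := (norm_nonneg _).trans hQ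
  have h1 : nrm ψ = 1 := by rw [nrm, hψ, Real.sqrt_one]
  have hherm : ∀ k < n + 1, (G k).IsHermitian := by
    intro k hk
    rcases Nat.lt_succ_iff_lt_or_eq.1 hk with h | h
    · rw [hG k h]
      exact fr_herm _ _ _
    · rw [h]; exact hΓ
  set a : ℕ → ℝ := fun k => if k < n then θ k * Bq q m else Q with ha
  have ha1 : ∀ k < n, a k = θ k * Bq q m := fun k hk => if_pos hk
  have ha2 : a n = Q := if_neg (lt_irrefl n)
  have hmom : ∀ k < n + 1, nrm (G k *ᵥ ψ) ≤ a k := by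
    intro k hk
    rcases Nat.lt_succ_iff_lt_or_eq.1 hk with h | h
    · rw [hG k h, ha1 k h]
      exact t860_mom2 hψ (hm k h) (hθ k h) (hg k h)
    · rw [h, ha2]
      refine (nrm_mulVec_le _ _).trans ?_
      rw [h1, mul_one]
      exact hQ
  have hcross : ∀ j k, j ≤ k → k < n + 1 → nrm (G k *ᵥ (G j *ᵥ ψ)) ≤ a j * a k := by
    intro j k hjk hk
    rcases Nat.lt_succ_iff_lt_or_eq.1 hk with h | h
    · have hj : j < n := lt_of_le_of_lt hjk h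
      rw [hG k h, hG j hj, ha1 k h, ha1 j hj]
      exact t860_cross hψ (hR j k hjk h) (hm j hj) (hm k h) (hθ j hj) (hg j hj) (hθ k h) (hg k h)
    · rw [h, ha2]
      refine (nrm_mulVec_le _ _).trans ?_
      rw [mul_comm]
      refine mul_le_mul (hmom j (lt_of_le_of_lt hjk hk)) hQ (norm_nonneg _) ?_
      exact (nrm_nonneg _).trans (hmom j (lt_of_le_of_lt hjk hk))
  have h := c2_abs_le hψ hherm hmom hcross X
  rw [Finset.sum_range_succ a, ha2, Finset.sum_congr rfl fun k hk => ha1 k (mem_range.1 hk)] at h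
  exact h

/-- the same for the second Taylor coefficient of the flow -/
theorem tailc2_c2 {ψ : Conf V q → ℂ} (hψ : nsq ψ = 1) {R : ℕ → Finset V} {n m : ℕ}
    (hR : ∀ j k, j ≤ k → k < n → R k ⊆ R j) (hm : ∀ k < n, (R k).card ≤ m ∨ (R k)ᶜ.card ≤ m)
    {θ : ℕ → ℝ} (hθ : ∀ k < n, 0 ≤ θ k) {g : ℕ → ℝ → ℝ}
    (hg : ∀ k < n, ∀ p, 0 < p → p ≤ 1 → |g k p| ≤ θ k * (1 + |Real.log p|))
    {G : ℕ → Op V q} (hG : ∀ k < n, G k = fr (R k) ψ (fun p => (g k p : ℂ)))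
    (hΓ : (G n).IsHermitian) {Q : ℝ} (hQ : ‖G n‖ ≤ Q) (X : Op V q) :
    ‖c2 (fE ψ G (n + 1) X)‖ ≤ 2 * ‖X‖ * (∑ k ∈ range n, θ k * Bq q m + Q) ^ 2 := by
  rw [c2_fE]
  exact (norm_sum_le _ _).trans (tailc2 hψ hR hm hθ hg hG hΓ hQ X)

end fin

end Vale.Agent.P356.GA
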