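import Vale.Agent.P356.SA.DecGeo

/-!
Sum over all sites of the power tails of the local terms, uniformly in the size of the lattice.
-/

set_option linter.all false

namespace Vale.Agent.P356.GA.TailSum932

open Matrix Finset Vale.Agent.P356 Vale.Agent.P356.SV Vale.Agent.P356.Path Vale.Agent.P356.NA
  Vale.Agent.P356.SA
open scoped BigOperators

variable {L : ℕ}

/-- number of sites within distance `r` of a region inside a box -/
theorem card_nb {B : Finset (Site L)} {x0 x1 y0 y1 l : ℕ} (hB : B ⊆ rect L x0 x1 y0 y1)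
    (hx : x1 ≤ x0 + l) (hy : y1 ≤ y0 + l) (r : ℕ) : (sa7_nb B r).card ≤ (l + 2 * r) ^ 2 := by
  refine (Finset.card_le_card (sa7_nb_rect hB r)).trans ?_
  refine (na_k_card_rect L _ _ _ _ (l + 2 * r) (by omega) (by omega)).trans (le_of_eq ?_)
  ring

/-- distance to a region (`L + L` if it is empty) -/
noncomputable def dst (B : Finset (Site L)) (z : Site L) : ℕ :=
  open Classical in
  if h : B.Nonempty then B.inf' h (fun x => dist1 x z) else L + L

theorem mem_nb_dst {B : Finset (Site L)} (h : B.Nonempty) (z : Site L) : z ∈ sa7_nb B (dst B z) := by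
  rw [sa7_mem_nb, dst, dif_pos h]
  obtain ⟨x, hx, hxz⟩ := B.exists_mem_eq_inf' h (fun x => dist1 x z)
  exact ⟨x, hx, hxz.ge⟩

theorem dst_le {B : Finset (Site L)} {x z : Site L} (hx : x ∈ B) : dst B z ≤ dist1 x z := by
  rw [dst, dif_pos ⟨x, hx⟩]
  exact Finset.inf'_le _ hx

/-- the radius: `max D (dist (z, B) - a)` -/
noncomputable def rad (B : Finset (Site L)) (D a : ℕ) (z : Site L) : ℕ := max D (dst B z - a)

theorem le_rad (B : Finset (Site L)) (D a : ℕ) (z : Site L) : D ≤ rad B D a z := le_max_left _ _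

theorem mem_nb_rad {B : Finset (Site L)} (h : B.Nonempty) (D a : ℕ) (z : Site L) :
    z ∈ sa7_nb B (rad B D a z + a) := by
  refine sa7_nb_mono B ?_ (mem_nb_dst h z)
  have := le_max_right D (dst B z - a)
  rw [rad]
  omega

/-- for a site with `dst > D + a` the ball of radius `rad + a - 1` does not meet the region -/
theorem rad_far {B : Finset (Site L)} {D a : ℕ} {z x : Site L} (h : D + a < dst B z)
    (hx : x ∈ B) : rad B D a z + a ≤ dist1 x z := by
  have h1 := dst_le (z := z) hx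
  rw [rad]
  omega

/-- sum over all sites of power tails, for a general radius function -/
theorem tail_sum {p : ℕ} (hp : 3 ≤ p) {B : Finset (Site L)} {x0 x1 y0 y1 l D a : ℕ}
    (hB : B ⊆ rect L x0 x1 y0 y1) (hx : x1 ≤ x0 + l) (hy : y1 ≤ y0 + l) (hD : 1 ≤ D)
    (s : Site L → ℕ) (hs : ∀ z, D ≤ s z) (hs' : ∀ z, z ∈ sa7_nb B (s z + a)) :
    ∑ z, 1 / (1 + (s z : ℝ)) ^ p ≤ 2 * ((l : ℝ) + 2 * a + 4 * D) ^ 2 / (D : ℝ) ^ p := by
  classical
  have hD0 : (0 : ℝ) < D := by exact_mod_cast hD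
  have hD1 : (1 : ℝ) ≤ D := by exact_mod_cast hD
  obtain ⟨K, hK⟩ : ∃ K : ℕ, K = (∑ z, s z) + 1 := ⟨_, rfl⟩
  have hsK : ∀ z, s z < K := fun z => by
    have := Finset.single_le_sum (f := s) (fun i _ => Nat.zero_le _) (Finset.mem_univ z)
    omega
  -- one site
  have key : ∀ z, 1 / (1 + (s z : ℝ)) ^ p ≤
      ∑ k ∈ range K, if s z < 2 ^ (k + 1) * D then 1 / ((2 : ℝ) ^ k * D) ^ p *
        (if 2 ^ k * D ≤ s z then 1 else 0) else 0 := by
    intro z
    obtain ⟨k, hk⟩ : ∃ k : ℕ, k = Nat.log 2 (s z / D) := ⟨_, rfl⟩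
    have h0 : s z / D ≠ 0 := by
      have := Nat.div_pos (hs z) (by omega)
      omega
    have h1 : 2 ^ k ≤ s z / D := by rw [hk]; exact Nat.pow_log_le_self 2 h0
    have h2 : s z / D < 2 ^ (k + 1) := by rw [hk]; exact Nat.lt_pow_succ_log_self (by norm_num) _
    have h3 : 2 ^ k * D ≤ s z := (Nat.le_div_iff_mul_le (by omega)).1 h1
    have h4 : s z < 2 ^ (k + 1) * D := (Nat.div_lt_iff_lt_mul (by omega)).1 h2
    have h5 : k < K := by
      have h6 : k ≤ s z / D := by rw [hk]; exact Nat.log_le_self 2 _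
      have h7 : s z / D ≤ s z := Nat.div_le_self _ _
      have := hsK z
      omega
    refine le_trans ?_ (Finset.single_le_sum (f := fun k => if s z < 2 ^ (k + 1) * D then
      1 / ((2 : ℝ) ^ k * D) ^ p * (if 2 ^ k * D ≤ s z then 1 else 0) else 0) ?_
      (Finset.mem_range.2 h5))
    · change _ ≤ if s z < 2 ^ (k + 1) * D then
        1 / ((2 : ℝ) ^ k * D) ^ p * (if 2 ^ k * D ≤ s z then 1 else 0) else 0
      rw [if_pos h4, if_pos h3, mul_one]
      refine one_div_le_one_div_of_le (by positivity) ?_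
      refine pow_le_pow_left₀ (by positivity) ?_ p
      have : ((2 ^ k * D : ℕ) : ℝ) ≤ (s z : ℝ) := by exact_mod_cast h3
      push_cast at this
      linarith
    · intro i _
      change 0 ≤ if s z < 2 ^ (i + 1) * D then
        1 / ((2 : ℝ) ^ i * D) ^ p * (if 2 ^ i * D ≤ s z then 1 else 0) else (0 : ℝ)
      split_ifs <;> positivity
  have key2 : ∀ z, 1 / (1 + (s z : ℝ)) ^ p ≤
      ∑ k ∈ range K, if s z < 2 ^ (k + 1) * D then 1 / ((2 : ℝ) ^ k * D) ^ p else 0 := by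
    intro z
    refine (key z).trans (Finset.sum_le_sum fun k _ => ?_)
    split_ifs with h1 h2
    · rw [mul_one]
    · rw [mul_zero]; positivity
    · exact le_rfl
  -- one dyadic shell
  have shell : ∀ k : ℕ, ∑ z, (if s z < 2 ^ (k + 1) * D then 1 / ((2 : ℝ) ^ k * D) ^ p else 0) ≤
      ((l : ℝ) + 2 * a + 4 * D) ^ 2 / (D : ℝ) ^ p * (1 / 2) ^ k := by
    intro k
    rw [← Finset.sum_filter, Finset.sum_const, nsmul_eq_mul]
    have h1 : ((Finset.univ.filter fun z : Site L => s z < 2 ^ (k + 1) * D).card : ℝ) ≤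
        (((l : ℝ) + 2 * a + 4 * D) * 2 ^ k) ^ 2 := by
      have h2 : (Finset.univ.filter fun z : Site L => s z < 2 ^ (k + 1) * D).card ≤
          (l + 2 * (2 ^ (k + 1) * D + a)) ^ 2 := by
        refine (Finset.card_le_card ?_).trans (card_nb hB hx hy (2 ^ (k + 1) * D + a))
        intro z hz
        rw [Finset.mem_filter] at hz
        exact sa7_nb_mono B (Nat.add_le_add_right hz.2.le a) (hs' z)
      have h3 : ((Finset.univ.filter fun z : Site L => s z < 2 ^ (k + 1) * D).card : ℝ) ≤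
          ((l : ℝ) + 2 * ((2 : ℝ) ^ (k + 1) * D + a)) ^ 2 := by exact_mod_cast h2
      refine h3.trans (pow_le_pow_left₀ (by positivity) ?_ 2)
      have h4 : (1 : ℝ) ≤ 2 ^ k := one_le_pow₀ (by norm_num)
      have h5 : (0 : ℝ) ≤ (l : ℝ) + 2 * a := by positivity
      rw [pow_succ]
      nlinarith [mul_le_mul_of_nonneg_left h4 h5]
    have hp2 : (2 : ℝ) ^ k * (2 ^ k) ^ 2 ≤ (2 ^ k) ^ p := by
      have e : (2 : ℝ) ^ k * (2 ^ k) ^ 2 = (2 ^ k) ^ 3 := by ring
      rw [e]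
      exact pow_le_pow_right₀ (one_le_pow₀ (by norm_num)) hp
    have h6 : (0 : ℝ) < 2 ^ k := by positivity
    calc ((Finset.univ.filter fun z : Site L => s z < 2 ^ (k + 1) * D).card : ℝ) *
          (1 / ((2 : ℝ) ^ k * D) ^ p) ≤
        (((l : ℝ) + 2 * a + 4 * D) * 2 ^ k) ^ 2 * (1 / ((2 : ℝ) ^ k * D) ^ p) :=
          mul_le_mul_of_nonneg_right h1 (by positivity)
      _ = ((l : ℝ) + 2 * a + 4 * D) ^ 2 / (D : ℝ) ^ p * ((2 ^ k) ^ 2 / (2 ^ k) ^ p) := by
          rw [mul_pow, mul_pow]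
          field_simp
      _ ≤ _ := by
          refine mul_le_mul_of_nonneg_left ?_ (by positivity)
          rw [one_div, inv_pow, div_le_iff₀ (by positivity), inv_mul_eq_div, le_div_iff₀ h6]
          linarith [hp2]
  calc ∑ z, 1 / (1 + (s z : ℝ)) ^ p ≤
      ∑ z, ∑ k ∈ range K, (if s z < 2 ^ (k + 1) * D then 1 / ((2 : ℝ) ^ k * D) ^ p else 0) :=
        Finset.sum_le_sum fun z _ => key2 z
    _ = ∑ k ∈ range K, ∑ z, (if s z < 2 ^ (k + 1) * D then 1 / ((2 : ℝ) ^ k * D) ^ p else 0) :=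
        Finset.sum_comm
    _ ≤ ∑ k ∈ range K, ((l : ℝ) + 2 * a + 4 * D) ^ 2 / (D : ℝ) ^ p * (1 / 2) ^ k :=
        Finset.sum_le_sum fun k _ => shell k
    _ = ((l : ℝ) + 2 * a + 4 * D) ^ 2 / (D : ℝ) ^ p * ∑ k ∈ range K, (1 / 2 : ℝ) ^ k := by
        rw [Finset.mul_sum]
    _ ≤ ((l : ℝ) + 2 * a + 4 * D) ^ 2 / (D : ℝ) ^ p * 2 := by
        refine mul_le_mul_of_nonneg_left ?_ (by positivity)
        have h1 := geom_sum_eq (by norm_num : (1 / 2 : ℝ) ≠ 1) K
        have h2 : (0 : ℝ) < (1 / 2) ^ K := by positivity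
        have h3 : ((1 / 2 : ℝ) ^ K - 1) / (1 / 2 - 1) = 2 * (1 - (1 / 2) ^ K) := by
          have : (1 / 2 - 1 : ℝ) = -(1 / 2) := by norm_num
          rw [this]
          field_simp
          ring
        rw [h1, h3]
        linarith
    _ = _ := by ring

/-- sum over all sites of power tails, with the canonical radius -/
theorem tail_sum_rad {p : ℕ} (hp : 3 ≤ p) {B : Finset (Site L)} (hne : B.Nonempty)
    {x0 x1 y0 y1 l D a : ℕ} (hB : B ⊆ rect L x0 x1 y0 y1) (hx : x1 ≤ x0 + l) (hy : y1 ≤ y0 + l)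
    (hD : 1 ≤ D) :
    ∑ z, 1 / (1 + (rad B D a z : ℝ)) ^ p ≤ 2 * ((l : ℝ) + 2 * a + 4 * D) ^ 2 / (D : ℝ) ^ p :=
  tail_sum hp hB hx hy hD _ (fun z => le_rad B D a z) fun z => mem_nb_rad hne D a z

/-- the same with a weight polynomial in the radius -/
theorem tail_sum_wt {p m : ℕ} (hp : 3 + m ≤ p) {B : Finset (Site L)}
    {x0 x1 y0 y1 l D a : ℕ} (hB : B ⊆ rect L x0 x1 y0 y1) (hx : x1 ≤ x0 + l) (hy : y1 ≤ y0 + l)
    (hD : 1 ≤ D) (s : Site L → ℕ) (hs : ∀ z, D ≤ s z) (hs' : ∀ z, z ∈ sa7_nb B (s z + a)) :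
    ∑ z, (1 + (s z : ℝ)) ^ m / (1 + (s z : ℝ)) ^ p ≤
      2 * ((l : ℝ) + 2 * a + 4 * D) ^ 2 / (D : ℝ) ^ (p - m) := by
  refine le_trans (le_of_eq ?_) (tail_sum (p := p - m) (by omega) hB hx hy hD s hs hs')
  refine Finset.sum_congr rfl fun z _ => ?_
  have h1 : (0 : ℝ) < 1 + (s z : ℝ) := by positivity
  have h2 : (1 + (s z : ℝ)) ^ p = (1 + (s z : ℝ)) ^ (p - m) * (1 + (s z : ℝ)) ^ m := by
    rw [← pow_add]
    congr 1
    omega
  rw [h2]
  field_simp

end Vale.Agent.P356.GA.TailSum932
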