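import Vale.Agent.P356.GA.Tc412c
import Vale.Agent.P356.GA.Tube107

/-!
# GA, block G2 (helper412): the complex tilt maximiser

* `tc_deriv` : derivative of the functional at a maximiser.
* `tc_max` : envelope bound.
* `tc_sg` : the tilts are the flows `sg` of block TUBE.
-/

set_option linter.all false

namespace Vale.Agent.P356.GA

open Matrix Finset Vale.Agent.P356 Vale.Agent.P356.SV Vale.Agent.P356.Path
open scoped BigOperators ComplexOrder Kronecker

section var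
variable {N : Type} [Fintype N] [DecidableEq N] {α β : ℕ → Type}
  [∀ k, Fintype (α k)] [∀ k, DecidableEq (α k)] [∀ k, Fintype (β k)] [∀ k, DecidableEq (β k)]

/-- derivative of the tilt in the (complex) time `s c` -/
theorem MD_YC (e : ∀ k, N ≃ α k × β k) (θ : ℕ → ℝ) {π : ∀ k, Par α k} {k : ℕ}
    (hπ : (π k).1 * (π k).1ᴴ = 1) (c : ℂ) (t : ℝ) :
    MD (fun s => YC e θ π ((s : ℂ) * c) k)
      (opL (e k) (cD (π k).1 (fun i => c * ((θ k * (π k).2 i : ℝ) : ℂ))) *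
        YC e θ π ((t : ℂ) * c) k) t := by
  rw [YC, ← opL_mul, cD_mul hπ]
  intro i j
  have h1 : (fun s : ℝ => YC e θ π ((s : ℂ) * c) k i j) = fun s : ℝ =>
      (∑ l, (π k).1 ((e k) i).1 l * Complex.exp (((s : ℂ) * c) * ((θ k * (π k).2 l : ℝ) : ℂ)) *
        star ((π k).1 ((e k) j).1 l)) * (if ((e k) i).2 = ((e k) j).2 then 1 else 0) := by
    funext s
    rw [YC, opL_apply, cD_apply]
  rw [h1, opL_apply, cD_apply]
  refine HasDerivAt.mul_const ?_ _
  refine HasDerivAt.fun_sum (fun l _ => ?_)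
  refine HasDerivAt.mul_const (HasDerivAt.const_mul _ ?_) _
  have h2 : HasDerivAt (fun z : ℂ => Complex.exp ((z * c) * ((θ k * (π k).2 l : ℝ) : ℂ)))
      (c * ((θ k * (π k).2 l : ℝ) : ℂ) *
        Complex.exp (((t : ℂ) * c) * ((θ k * (π k).2 l : ℝ) : ℂ))) ((t : ℝ) : ℂ) := by
    have h3 : HasDerivAt (fun z : ℂ => (z * c) * ((θ k * (π k).2 l : ℝ) : ℂ))
        ((1 * c) * ((θ k * (π k).2 l : ℝ) : ℂ)) ((t : ℝ) : ℂ) :=
      ((hasDerivAt_id _).mul_const _).mul_const _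
    have h4 := h3.cexp
    refine h4.congr_deriv ?_
    ring
  exact h2.comp_ofReal

/-- entrywise derivative of a vector valued function -/
def VD {N : Type*} (φ : ℝ → N → ℂ) (φ' : N → ℂ) (t : ℝ) : Prop :=
  ∀ i, HasDerivAt (fun s => φ s i) (φ' i) t

theorem VD_mulVec {N : Type*} [Fintype N] [DecidableEq N] {A : ℝ → Matrix N N ℂ} {A' : Matrix N N ℂ}
    {φ : ℝ → N → ℂ} {φ' : N → ℂ} {t : ℝ} (hA : MD A A' t) (hφ : VD φ φ' t) :
    VD (fun s => A s *ᵥ φ s) (A' *ᵥ φ t + A t *ᵥ φ') t := by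
  intro i
  have h1 : (fun s => (A s *ᵥ φ s) i) = fun s => ∑ j, A s i j * φ s j := rfl
  rw [h1]
  have h2 : HasDerivAt (fun s => ∑ j, A s i j * φ s j) (∑ j, (A' i j * φ t j + A t i j * φ' j)) t :=
    HasDerivAt.fun_sum (fun j _ => (hA i j).mul (hφ j))
  refine h2.congr_deriv ?_
  rw [Finset.sum_add_distrib]
  rfl

theorem VD_nsq {N : Type*} [Fintype N] [DecidableEq N] {v : ℝ → N → ℂ} {v' : N → ℂ} {t : ℝ}
    (hv : VD v v' t) : HasDerivAt (fun s => nsq (v s)) (2 * (star (v t) ⬝ᵥ v').re) t := by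
  have h3 : ∀ i, HasDerivAt (fun s => ‖v s i‖ ^ 2) (2 * (star (v t i) * v' i).re) t := by
    intro i
    have h4 := (hv i).norm_sq
    refine h4.congr_deriv ?_
    rw [Complex.inner, mul_comm (v' i)]
    rfl
  have h5 : HasDerivAt (fun s => ∑ i : N, ‖v s i‖ ^ 2)
      (∑ i : N, 2 * (star (v t i) * v' i).re) t :=
    HasDerivAt.fun_sum (fun i _ => h3 i)
  refine h5.congr_deriv ?_
  rw [dotProduct, Complex.re_sum, Finset.mul_sum]
  rfl

/-- trace of a function of the reduced state against the reduced state -/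
theorem trace_redA_cOp {α β : Type*} [Fintype α] [Fintype β] [DecidableEq α] [DecidableEq β]
    (x : α × β → ℂ) (f : α → ℂ) : (redA x * cOp x f).trace = ∑ i, (eigp x i : ℂ) * f i := by
  have h1 : redA x = cOp x (fun i => (eigp x i : ℂ)) := redA_spec x
  rw [h1, cOp_mul, cOp_eq_cD, cD_trace (eigU_mul x)]

/-- **Derivative of the functional at a maximiser** (or at any parameters of the same form). -/
theorem tc_deriv (e : ∀ k, N ≃ α k × β k)
    (hcomm : ∀ j k, j ≤ k → ∀ (Y : Matrix (α k) (α k) ℂ) (S : Matrix (β j) (β j) ℂ),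
      opL (e k) Y * opR (e j) S = opR (e j) S * opL (e k) Y)
    (θ κ a b : ℕ → ℝ) {c : ℂ} (hc : c.re = 1) {φ : ℝ → N → ℂ} {φ' : N → ℂ} (n : ℕ) {t : ℝ}
    (hφ : 0 < nsq (φ t)) (hφ' : VD φ φ' t) {π : ∀ k, Par α k} (hπ : π ∈ FeasC α a b)
    (hf : ∀ k < n, HasFormC e κ a b (nzv (vC e θ c φ n t π)) π k) :
    HasDerivAt (fun s => FC e θ κ c φ n s π)
      (2 * ∑ k ∈ range n, θ k * ∑ i, eigp (nzv (vC e θ c φ n t π) ∘ (e k).symm) i *
        clipC (κ k) (a k) (b k) (eigp (nzv (vC e θ c φ n t π) ∘ (e k).symm) i) +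
      2 * (star (vC e θ c φ n t π) ⬝ᵥ (prR (YC e θ π ((t : ℂ) * c)) n *ᵥ φ')).re /
        nsq (vC e θ c φ n t π) - penC θ κ n π) t := by
  have hv := vC_pos e θ c n hφ hπ
  set v := vC e θ c φ n t π with hvdef
  set ζ : ℂ := (t : ℂ) * c with hζ
  have h1 := MD_prR (fun s k => YC e θ π ((s : ℂ) * c) k) (fun k => YC e θ π (-ζ) k)
    (fun k => opL (e k) (cD (π k).1 (fun i => c * ((θ k * (π k).2 i : ℝ) : ℂ)))) t
    (fun k => MD_YC e θ (hπ k).1 c t) (fun k => YC_inv e θ (hπ k).1 ζ) n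
  have h2 := VD_nsq (VD_mulVec h1 hφ')
  have h3 : HasDerivAt (fun s => Real.log (nsq (vC e θ c φ n s π)))
      ((2 * (star v ⬝ᵥ (((∑ k ∈ range n, prR (YC e θ π ζ) k *
          opL (e k) (cD (π k).1 (fun i => c * ((θ k * (π k).2 i : ℝ) : ℂ))) *
          prL (YC e θ π (-ζ)) k) * prR (YC e θ π ζ) n) *ᵥ φ t +
          prR (YC e θ π ζ) n *ᵥ φ')).re) / nsq v) t := h2.log hv.ne'
  have h4 : HasDerivAt (fun s : ℝ => s * penC θ κ n π) (penC θ κ n π) t := by
    simpa using (hasDerivAt_id t).mul_const (penC θ κ n π)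
  have h5 := h3.sub h4
  refine h5.congr_deriv ?_
  refine congrArg₂ (· - ·) ?_ rfl
  rw [dotProduct_add, Complex.add_re, mul_add, add_div]
  refine congrArg₂ (· + ·) ?_ rfl
  rw [div_eq_iff hv.ne']
  have h6 : ((∑ k ∈ range n, prR (YC e θ π ζ) k *
      opL (e k) (cD (π k).1 (fun i => c * ((θ k * (π k).2 i : ℝ) : ℂ))) * prL (YC e θ π (-ζ)) k) *
      prR (YC e θ π ζ) n) *ᵥ φ t = ∑ k ∈ range n, prR (YC e θ π ζ) k *ᵥ
      (opL (e k) (cD (π k).1 (fun i => c * ((θ k * (π k).2 i : ℝ) : ℂ))) *ᵥ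
        (prL (YC e θ π (-ζ)) k *ᵥ v)) := by
    rw [← mulVec_mulVec, Matrix.sum_mulVec]
    refine Finset.sum_congr rfl fun k _ => ?_
    rw [← mulVec_mulVec, ← mulVec_mulVec]
    rfl
  rw [h6, dotProduct_sum, Complex.re_sum]
  have h7 : ∀ k ∈ range n, (star v ⬝ᵥ (prR (YC e θ π ζ) k *ᵥ
      (opL (e k) (cD (π k).1 (fun i => c * ((θ k * (π k).2 i : ℝ) : ℂ))) *ᵥ
        (prL (YC e θ π (-ζ)) k *ᵥ v)))).re =
      nsq v * (θ k * ∑ i, eigp (nzv v ∘ (e k).symm) i *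
        clipC (κ k) (a k) (b k) (eigp (nzv v ∘ (e k).symm) i)) := by
    intro k hk
    have hkn := Finset.mem_range.mp hk
    rw [tc_transport_v e hcomm θ κ a b ζ hv π k (fun j hj => hf j (hj.trans hkn))
      (opL (e k) (cD (π k).1 (fun i => c * ((θ k * (π k).2 i : ℝ) : ℂ))))
      (fun j hj S => hcomm j k hj.le _ S), Complex.re_ofReal_mul, expect_opL,
      hf k hkn (fun r => c * ((θ k * r : ℝ) : ℂ)), trace_redA_cOp]
    refine congrArg₂ (· * ·) rfl ?_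
    rw [Complex.re_sum, Finset.mul_sum]
    refine Finset.sum_congr rfl fun i _ => ?_
    rw [Complex.re_ofReal_mul, Complex.re_mul_ofReal, hc]
    ring
  rw [Finset.sum_congr rfl h7, ← Finset.mul_sum]
  ring

/-- start vectors of the form `O t Ω`, `O' = c Γ O`: the derivative of the start vector -/
theorem VD_start {N : Type*} [Fintype N] [DecidableEq N] {O : ℝ → Matrix N N ℂ}
    {Γ : Matrix N N ℂ} {c : ℂ} {t : ℝ} (hO : MD O (c • (Γ * O t)) t) (Ω : N → ℂ) :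
    VD (fun s => O s *ᵥ Ω) (c • (Γ *ᵥ (O t *ᵥ Ω))) t := by
  have h1 := VD_mulVec (φ := fun _ => Ω) (φ' := 0) hO (fun i => hasDerivAt_const t (Ω i))
  have h2 : (c • (Γ * O t)) *ᵥ Ω + O t *ᵥ 0 = c • (Γ *ᵥ (O t *ᵥ Ω)) := by
    rw [mulVec_zero, add_zero, smul_mulVec, mulVec_mulVec]
  rw [h2] at h1
  exact h1

/-- the exponential of a Hermitian matrix, through its eigenbasis -/
noncomputable def eG {N : Type*} [Fintype N] [DecidableEq N] (U : Matrix N N ℂ) (γ : N → ℝ) (ζ : ℂ) :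
    Matrix N N ℂ := cD U (fun i => Complex.exp (ζ * (γ i : ℂ)))

theorem MD_eG {N : Type*} [Fintype N] [DecidableEq N] {U : Matrix N N ℂ} (hU : U * Uᴴ = 1)
    (γ : N → ℝ) (c : ℂ) (t : ℝ) :
    MD (fun s => eG U γ ((s : ℂ) * c)) (c • (cD U (fun i => (γ i : ℂ)) * eG U γ ((t : ℂ) * c))) t := by
  intro i j
  have h1 : (fun s : ℝ => eG U γ ((s : ℂ) * c) i j) = fun s : ℝ =>
      (∑ l, U i l * Complex.exp (((s : ℂ) * c) * (γ l : ℂ)) * star (U j l)) := by
    funext s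
    rw [eG, cD_apply]
  rw [h1, eG, cD_mul hU, Matrix.smul_apply, cD_apply, smul_eq_mul, Finset.mul_sum]
  refine HasDerivAt.fun_sum (fun l _ => ?_)
  have h2 : HasDerivAt (fun z : ℂ => Complex.exp ((z * c) * (γ l : ℂ)))
      (c * (γ l : ℂ) * Complex.exp (((t : ℂ) * c) * (γ l : ℂ))) ((t : ℝ) : ℂ) := by
    have h3 : HasDerivAt (fun z : ℂ => (z * c) * (γ l : ℂ)) ((1 * c) * (γ l : ℂ)) ((t : ℝ) : ℂ) :=
      ((hasDerivAt_id _).mul_const _).mul_const _
    have h4 := h3.cexp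
    refine h4.congr_deriv ?_
    ring
  have h5 := ((h2.comp_ofReal.const_mul (U i l)).mul_const (star (U j l)))
  refine h5.congr_deriv ?_
  ring

theorem eG_pos {N : Type*} [Fintype N] [DecidableEq N] {U : Matrix N N ℂ} (hU : U * Uᴴ = 1)
    (γ : N → ℝ) (ζ : ℂ) {Ω : N → ℂ} (hΩ : 0 < nsq Ω) : 0 < nsq (eG U γ ζ *ᵥ Ω) := by
  rcases (nsq_nonneg' (eG U γ ζ *ᵥ Ω)).lt_or_eq with h | h
  · exact h
  · exfalso
    have h1 : eG U γ ζ *ᵥ Ω = 0 := by
      funext s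
      have h2 : ∀ s ∈ (Finset.univ : Finset N), ‖(eG U γ ζ *ᵥ Ω) s‖ ^ 2 = 0 :=
        (Finset.sum_eq_zero_iff_of_nonneg (fun i _ => sq_nonneg _)).mp h.symm
      have h3 := h2 s (Finset.mem_univ s)
      simpa using h3
    have h4 : eG U γ (-ζ) * eG U γ ζ = 1 := mul_eq_one_comm.mp (cD_exp_inv hU ζ γ)
    have h5 : eG U γ (-ζ) *ᵥ (eG U γ ζ *ᵥ Ω) = Ω := by
      rw [mulVec_mulVec, h4, one_mulVec]
    rw [h1, mulVec_zero] at h5
    rw [← h5] at hΩ
    simp [nsq] at hΩ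

/-- the derivative term of a start vector `O t Ω`: `2 Re (c ⟨ψ|Y Γ Y⁻¹|ψ⟩)` -/
theorem tc_start_term (e : ∀ k, N ≃ α k × β k) (θ : ℕ → ℝ) (c : ℂ) {φ : ℝ → N → ℂ} (n : ℕ) {t : ℝ}
    (hφ : 0 < nsq (φ t)) {a b : ℕ → ℝ} {π : ∀ k, Par α k} (hπ : π ∈ FeasC α a b)
    (Γ : Matrix N N ℂ) (d : ℂ) :
    (star (vC e θ c φ n t π) ⬝ᵥ (prR (YC e θ π ((t : ℂ) * c)) n *ᵥ (d • (Γ *ᵥ φ t)))) /
        ((nsq (vC e θ c φ n t π) : ℝ) : ℂ) =
      d * (star (nzv (vC e θ c φ n t π)) ⬝ᵥ ((prR (YC e θ π ((t : ℂ) * c)) n * Γ *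
        prL (YC e θ π (-((t : ℂ) * c))) n) *ᵥ nzv (vC e θ c φ n t π))) := by
  have hv := vC_pos e θ c n hφ hπ
  set v := vC e θ c φ n t π with hvdef
  set ζ : ℂ := (t : ℂ) * c with hζ
  have h1 : prL (YC e θ π (-ζ)) n *ᵥ v = φ t := by
    rw [hvdef, vC, mulVec_mulVec, prL_prR_YC e θ hπ, one_mulVec]
  have h2 : star v ⬝ᵥ (prR (YC e θ π ζ) n *ᵥ (d • (Γ *ᵥ φ t))) =
      d * (star v ⬝ᵥ ((prR (YC e θ π ζ) n * Γ * prL (YC e θ π (-ζ)) n) *ᵥ v)) := by
    rw [mulVec_smul, dotProduct_smul, smul_eq_mul, ← mulVec_mulVec, h1, ← mulVec_mulVec]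
  rw [h2, mul_div_assoc]
  congr 1
  rw [nzv, mulVec_smul, star_smul, smul_dotProduct, dotProduct_smul, smul_eq_mul, smul_eq_mul,
    ← mul_assoc, RCLike.star_def, Complex.conj_ofReal, ← Complex.ofReal_mul, ← mul_inv,
    Real.mul_self_sqrt hv.le, Complex.ofReal_inv]
  field_simp

/-- the tilts of a maximiser are the flows `sg` of block TUBE -/
theorem tc_sg (e : ∀ k, N ≃ α k × β k) (θ κ a b : ℕ → ℝ) (ζ : ℂ) (ψ : N → ℂ) (π : ∀ k, Par α k)
    (k : ℕ) (hf : HasFormC e κ a b ψ π k) :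
    YC e θ π ζ k = sg e ψ (fun k i => θ k * clipC (κ k) (a k) (b k) (eigp (ψ ∘ (e k).symm) i)) k ζ := by
  rw [YC, sg, hf (fun r => Complex.exp (ζ * ((θ k * r : ℝ) : ℂ)))]

/-- the tilted vector of a maximiser in terms of the flows of block TUBE -/
theorem tc_vC_sg (e : ∀ k, N ≃ α k × β k) (θ κ a b : ℕ → ℝ) (c : ℂ) (φ : ℝ → N → ℂ) (n : ℕ)
    (t : ℝ) (ψ : N → ℂ) (π : ∀ k, Par α k) (hf : ∀ k < n, HasFormC e κ a b ψ π k) :
    vC e θ c φ n t π = prR (fun k => sg e ψ (fun k i => θ k * clipC (κ k) (a k) (b k)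
      (eigp (ψ ∘ (e k).symm) i)) k ((t : ℂ) * c)) n *ᵥ φ t := by
  rw [vC]
  congr 1
  exact prR_congr fun j hj => tc_sg e θ κ a b _ ψ π j (hf j hj)

/-- expectation in the tilted state through the start vector, as the tube function `FT` -/
theorem tc_FT (e : ∀ k, N ≃ α k × β k) (θ κ a b : ℕ → ℝ) (c : ℂ) {φ : ℝ → N → ℂ} (n : ℕ)
    {t : ℝ} (hφ : 0 < nsq (φ t)) {π : ∀ k, Par α k} (hπ : π ∈ FeasC α a b)
    (hf : ∀ k < n, HasFormC e κ a b (nzv (vC e θ c φ n t π)) π k) (X : Matrix N N ℂ) :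
    FT e (nzv (vC e θ c φ n t π)) (fun k i => θ k * clipC (κ k) (a k) (b k)
      (eigp (nzv (vC e θ c φ n t π) ∘ (e k).symm) i)) n X (fun _ => (t : ℂ) * c) =
      (star (vC e θ c φ n t π) ⬝ᵥ (prR (YC e θ π ((t : ℂ) * c)) n *ᵥ (X *ᵥ φ t))) /
        ((nsq (vC e θ c φ n t π) : ℝ) : ℂ) := by
  have h := tc_start_term e θ c n hφ hπ X 1
  rw [one_smul, one_mul] at h
  rw [h, FT]
  have e1 : prR (fun k => sg e (nzv (vC e θ c φ n t π)) (fun k i => θ k * clipC (κ k) (a k) (b k)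
      (eigp (nzv (vC e θ c φ n t π) ∘ (e k).symm) i)) k ((t : ℂ) * c)) n =
      prR (YC e θ π ((t : ℂ) * c)) n :=
    prR_congr fun j hj => (tc_sg e θ κ a b _ _ π j (hf j hj)).symm
  have e2 : prL (fun k => sg e (nzv (vC e θ c φ n t π)) (fun k i => θ k * clipC (κ k) (a k) (b k)
      (eigp (nzv (vC e θ c φ n t π) ∘ (e k).symm) i)) k (-((t : ℂ) * c))) n =
      prL (YC e θ π (-((t : ℂ) * c))) n :=
    prL_congr fun j hj => (tc_sg e θ κ a b _ _ π j (hf j hj)).symm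
  rw [e1, e2]

/-- energy identity: if `X φ = E φ` for the start vector then the tube function of `X` is `E` -/
theorem tc_FT_eig (e : ∀ k, N ≃ α k × β k) (θ κ a b : ℕ → ℝ) (c : ℂ) {φ : ℝ → N → ℂ} (n : ℕ)
    {t : ℝ} (hφ : 0 < nsq (φ t)) {π : ∀ k, Par α k} (hπ : π ∈ FeasC α a b)
    (hf : ∀ k < n, HasFormC e κ a b (nzv (vC e θ c φ n t π)) π k) {X : Matrix N N ℂ} {E : ℂ}
    (hX : X *ᵥ φ t = E • φ t) :
    FT e (nzv (vC e θ c φ n t π)) (fun k i => θ k * clipC (κ k) (a k) (b k)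
      (eigp (nzv (vC e θ c φ n t π) ∘ (e k).symm) i)) n X (fun _ => (t : ℂ) * c) = E := by
  have hv := vC_pos e θ c n hφ hπ
  rw [tc_FT e θ κ a b c n hφ hπ hf X, hX, mulVec_smul, dotProduct_smul, smul_eq_mul]
  have h1 : star (vC e θ c φ n t π) ⬝ᵥ (prR (YC e θ π ((t : ℂ) * c)) n *ᵥ φ t) =
      ((nsq (vC e θ c φ n t π) : ℝ) : ℂ) := ip_self _
  rw [h1, mul_div_assoc, div_self (by exact_mod_cast hv.ne'), mul_one]

/-! ### compactness and the envelope -/

theorem isCompact_parC (k : ℕ) (a b : ℝ) :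
    IsCompact {p : Par α k | p.1 * p.1ᴴ = 1 ∧ ∀ i, a ≤ p.2 i ∧ p.2 i ≤ b} := by
  have hK : IsCompact ((Set.univ.pi (fun _ : α k => Set.univ.pi (fun _ : α k =>
      Metric.closedBall (0 : ℂ) 1)) : Set (α k → α k → ℂ)) ×ˢ
      (Set.univ.pi (fun _ : α k => Set.Icc a b) : Set (α k → ℝ))) := by
    refine IsCompact.prod ?_ ?_
    · exact isCompact_univ_pi (fun _ => isCompact_univ_pi (fun _ => isCompact_closedBall _ _))
    · exact isCompact_univ_pi (fun _ => isCompact_Icc)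
  refine IsCompact.of_isClosed_subset (s := ((Set.univ.pi (fun _ : α k =>
    Set.univ.pi (fun _ : α k => Metric.closedBall (0 : ℂ) 1)) : Set (α k → α k → ℂ)) ×ˢ
      (Set.univ.pi (fun _ : α k => Set.Icc a b) : Set (α k → ℝ)))) hK ?_ ?_
  · have h1 : IsClosed {p : Par α k | p.1 * p.1ᴴ = 1} := by
      refine isClosed_eq ?_ continuous_const
      exact Continuous.matrix_mul continuous_fst
        (Continuous.matrix_conjTranspose continuous_fst)
    have h2 : IsClosed {p : Par α k | ∀ i, a ≤ p.2 i ∧ p.2 i ≤ b} := by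
      have h3 : {p : Par α k | ∀ i, a ≤ p.2 i ∧ p.2 i ≤ b} =
          ⋂ i, ({p : Par α k | a ≤ p.2 i} ∩ {p : Par α k | p.2 i ≤ b}) := by
        ext p
        simp only [Set.mem_setOf_eq, Set.mem_iInter, Set.mem_inter_iff]
      rw [h3]
      refine isClosed_iInter (fun i => IsClosed.inter ?_ ?_)
      · exact isClosed_le continuous_const ((continuous_apply i).comp continuous_snd)
      · exact isClosed_le ((continuous_apply i).comp continuous_snd) continuous_const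
    exact h1.inter h2
  · intro p hp
    obtain ⟨hU, hg⟩ := hp
    set U : Matrix (α k) (α k) ℂ := p.1 with hUdef
    refine ⟨?_, ?_⟩
    · intro i _ j _
      rw [Metric.mem_closedBall, dist_zero_right]
      have h1 : ∑ l, ‖U i l‖ ^ 2 = 1 := by
        have h2 := congrFun (congrFun hU i) i
        rw [Matrix.mul_apply, Matrix.one_apply_eq] at h2
        have h3 : ∑ l, U i l * Uᴴ l i = ((∑ l, ‖U i l‖ ^ 2 : ℝ) : ℂ) := by
          push_cast
          refine Finset.sum_congr rfl fun l _ => ?_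
          rw [conjTranspose_apply, RCLike.star_def, Complex.mul_conj']
        rw [h3] at h2
        exact_mod_cast h2
      have h4 : ‖U i j‖ ^ 2 ≤ 1 := by
        rw [← h1]
        exact Finset.single_le_sum (f := fun l => ‖U i l‖ ^ 2) (fun l _ => sq_nonneg _)
          (Finset.mem_univ j)
      have h5 := norm_nonneg (U i j)
      nlinarith
    · intro i _
      exact hg i

theorem isCompact_feasC (a b : ℕ → ℝ) : IsCompact (FeasC α a b) := by
  have h : FeasC α a b = Set.univ.pi (fun k => {p : Par α k | p.1 * p.1ᴴ = 1 ∧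
      ∀ i, a k ≤ p.2 i ∧ p.2 i ≤ b k}) := by
    ext π
    simp only [FeasC, Set.mem_setOf_eq, Set.mem_pi, Set.mem_univ, true_implies]
  rw [h]
  exact isCompact_univ_pi (fun k => isCompact_parC k (a k) (b k))

theorem continuous_YC (e : ∀ k, N ≃ α k × β k) (θ : ℕ → ℝ) (c : ℂ) (k : ℕ) :
    Continuous (fun p : ℝ × (∀ k, Par α k) => YC e θ p.2 ((p.1 : ℂ) * c) k) := by
  refine continuous_matrix (fun i j => ?_)
  have h1 : (fun p : ℝ × (∀ k, Par α k) => YC e θ p.2 ((p.1 : ℂ) * c) k i j) = fun p =>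
      (∑ l, (p.2 k).1 ((e k) i).1 l *
        Complex.exp (((p.1 : ℂ) * c) * ((θ k * (p.2 k).2 l : ℝ) : ℂ)) *
        star ((p.2 k).1 ((e k) j).1 l)) * (if ((e k) i).2 = ((e k) j).2 then 1 else 0) := by
    funext p
    rw [YC, opL_apply, cD_apply]
  rw [h1]
  have hk : Continuous (fun p : ℝ × (∀ k, Par α k) => p.2 k) :=
    (continuous_apply k).comp continuous_snd
  have hU : ∀ i l, Continuous (fun p : ℝ × (∀ k, Par α k) => (p.2 k).1 i l) := fun i l =>
    Continuous.matrix_elem (continuous_fst.comp hk) i l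
  have hg : ∀ l, Continuous (fun p : ℝ × (∀ k, Par α k) => (p.2 k).2 l) := fun l =>
    (continuous_apply l).comp (continuous_snd.comp hk)
  refine Continuous.mul ?_ continuous_const
  refine continuous_finset_sum _ (fun l _ => ?_)
  refine Continuous.mul (Continuous.mul (hU _ l) ?_) (continuous_star.comp (hU _ l))
  refine Complex.continuous_exp.comp (Continuous.mul
    ((Complex.continuous_ofReal.comp continuous_fst).mul continuous_const) ?_)
  exact Complex.continuous_ofReal.comp (continuous_const.mul (hg l))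

theorem continuous_prRC (e : ∀ k, N ≃ α k × β k) (θ : ℕ → ℝ) (c : ℂ) (n : ℕ) :
    Continuous (fun p : ℝ × (∀ k, Par α k) => prR (YC e θ p.2 ((p.1 : ℂ) * c)) n) := by
  induction n with
  | zero => exact continuous_const
  | succ n ih => exact Continuous.matrix_mul ih (continuous_YC e θ c n)

theorem continuous_nsqC (e : ∀ k, N ≃ α k × β k) (θ : ℕ → ℝ) (c : ℂ) {φ : ℝ → N → ℂ}
    (hφ : Continuous φ) (n : ℕ) :
    Continuous (fun p : ℝ × (∀ k, Par α k) => nsq (vC e θ c φ n p.1 p.2)) := by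
  have h1 : Continuous (fun p : ℝ × (∀ k, Par α k) =>
      prR (YC e θ p.2 ((p.1 : ℂ) * c)) n *ᵥ φ p.1) :=
    Continuous.matrix_mulVec (continuous_prRC e θ c n) (hφ.comp continuous_fst)
  unfold nsq vC
  refine continuous_finset_sum _ (fun i _ => ?_)
  exact (continuous_norm.comp ((continuous_apply i).comp h1)).pow 2

theorem continuous_penC (θ κ : ℕ → ℝ) (n : ℕ) :
    Continuous (fun π : ∀ k, Par α k => penC θ κ n π) := by
  unfold penC
  refine continuous_finset_sum _ (fun k _ => Continuous.mul continuous_const ?_)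
  refine continuous_finset_sum _ (fun i _ => ?_)
  exact Real.continuous_exp.comp ((continuous_apply i).comp
    (continuous_snd.comp (continuous_apply k)))

theorem continuous_FC (e : ∀ k, N ≃ α k × β k) (θ κ : ℕ → ℝ) (c : ℂ) {φ : ℝ → N → ℂ}
    (hφ : Continuous φ) (hpos : ∀ t, 0 < nsq (φ t)) (n : ℕ) (a b : ℕ → ℝ) :
    Continuous (fun p : ℝ × (FeasC α a b) => FC e θ κ c φ n p.1 p.2.1) := by
  have hg : Continuous (fun p : ℝ × FeasC α a b => ((p.1, p.2.1) : ℝ × (∀ k, Par α k))) :=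
    continuous_fst.prodMk (continuous_subtype_val.comp continuous_snd)
  have h1 : Continuous (fun p : ℝ × FeasC α a b => nsq (vC e θ c φ n p.1 p.2.1)) := by
    have h0 := Continuous.comp (g := fun p : ℝ × (∀ k, Par α k) => nsq (vC e θ c φ n p.1 p.2))
      (f := fun p : ℝ × FeasC α a b => ((p.1, p.2.1) : ℝ × (∀ k, Par α k)))
      (continuous_nsqC e θ c hφ n) hg
    exact h0
  have h2 : Continuous (fun p : ℝ × FeasC α a b => Real.log (nsq (vC e θ c φ n p.1 p.2.1))) :=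
    Continuous.log h1 (fun p => (vC_pos e θ c n (hpos p.1) p.2.2).ne')
  have h3 : Continuous (fun p : ℝ × FeasC α a b => penC θ κ n p.2.1) :=
    (continuous_penC θ κ n).comp (continuous_subtype_val.comp continuous_snd)
  exact h2.sub (continuous_fst.mul h3)

theorem feasC_nonempty {a b : ℕ → ℝ} (hab : ∀ k, a k ≤ b k) : (FeasC α a b).Nonempty :=
  ⟨fun k => (1, fun _ => a k), fun k => ⟨by simp, fun i => ⟨le_rfl, hab k⟩⟩⟩

theorem exists_max_of_compact {P : Type*} [TopologicalSpace P] [CompactSpace P] [Nonempty P]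
    (f : ℝ → P → ℝ) (hf : Continuous (fun p : ℝ × P => f p.1 p.2)) (t : ℝ) :
    ∃ π, ∀ π', f t π' ≤ f t π := by
  have h1 : Continuous (f t) := hf.comp (continuous_const.prodMk continuous_id)
  obtain ⟨π, -, hπ⟩ := isCompact_univ.exists_isMaxOn Set.univ_nonempty h1.continuousOn
  exact ⟨π, fun π' => hπ (Set.mem_univ π')⟩

/-- **Existence of maximisers.** -/
theorem tc_exists_max (e : ∀ k, N ≃ α k × β k) (θ κ : ℕ → ℝ) {a b : ℕ → ℝ} (hab : ∀ k, a k ≤ b k)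
    (c : ℂ) {φ : ℝ → N → ℂ} (hφ : Continuous φ) (hpos : ∀ t, 0 < nsq (φ t)) (n : ℕ) (t : ℝ) :
    ∃ π ∈ FeasC α a b, ∀ π' ∈ FeasC α a b, FC e θ κ c φ n t π' ≤ FC e θ κ c φ n t π := by
  haveI : CompactSpace (FeasC α a b) := isCompact_iff_compactSpace.mp (isCompact_feasC a b)
  haveI : Nonempty (FeasC α a b) := (feasC_nonempty hab).to_subtype
  obtain ⟨π, hπ⟩ := exists_max_of_compact (P := FeasC α a b)
    (fun t π => FC e θ κ c φ n t π.1) (continuous_FC e θ κ c hφ hpos n a b) t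
  exact ⟨π.1, π.2, fun π' hπ' => hπ ⟨π', hπ'⟩⟩

/-- **Existence of maximisers**, with the stationarity property. -/
theorem tc_exists (e : ∀ k, N ≃ α k × β k)
    (hcomm : ∀ j k, j ≤ k → ∀ (Y : Matrix (α k) (α k) ℂ) (S : Matrix (β j) (β j) ℂ),
      opL (e k) Y * opR (e j) S = opR (e j) S * opL (e k) Y)
    {θ κ a b : ℕ → ℝ} (hθ : ∀ k, 0 < θ k) (hκ : ∀ k, 0 < κ k) (hab : ∀ k, a k ≤ b k)
    {c : ℂ} (hc : c.re = 1) {φ : ℝ → N → ℂ} (hφ : Continuous φ) (hpos : ∀ t, 0 < nsq (φ t))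
    (n : ℕ) {t : ℝ} (ht : 0 < t) :
    ∃ π ∈ FeasC α a b, (∀ π' ∈ FeasC α a b, FC e θ κ c φ n t π' ≤ FC e θ κ c φ n t π) ∧
      ∀ k < n, HasFormC e κ a b (nzv (vC e θ c φ n t π)) π k := by
  obtain ⟨π, hπ, hmax⟩ := tc_exists_max e θ κ hab c hφ hpos n t
  exact ⟨π, hπ, hmax, tc_form e hcomm hθ hκ hc n ht (hpos t) hπ hmax⟩

/-- **Envelope.** A bound for the derivative at the maximisers bounds the functional at `t = 1`. -/
theorem tc_max (e : ∀ k, N ≃ α k × β k)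
    (hcomm : ∀ j k, j ≤ k → ∀ (Y : Matrix (α k) (α k) ℂ) (S : Matrix (β j) (β j) ℂ),
      opL (e k) Y * opR (e j) S = opR (e j) S * opL (e k) Y)
    {θ κ a b : ℕ → ℝ} (hθ : ∀ k, 0 < θ k) (hκ : ∀ k, 0 < κ k) (hab : ∀ k, a k ≤ b k)
    {c : ℂ} (hc : c.re = 1) {φ : ℝ → N → ℂ} (hφ : Continuous φ) (hpos : ∀ t, 0 < nsq (φ t))
    (φ' : ℝ → N → ℂ) (hφ' : ∀ t, 0 < t → t ≤ 1 → VD φ (φ' t) t) (n : ℕ) (C : ℝ)
    (hD : ∀ t, 0 < t → t ≤ 1 → ∀ π ∈ FeasC α a b,
      (∀ π' ∈ FeasC α a b, FC e θ κ c φ n t π' ≤ FC e θ κ c φ n t π) →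
      (∀ k < n, HasFormC e κ a b (nzv (vC e θ c φ n t π)) π k) →
      2 * ∑ k ∈ range n, θ k * ∑ i, eigp (nzv (vC e θ c φ n t π) ∘ (e k).symm) i *
        clipC (κ k) (a k) (b k) (eigp (nzv (vC e θ c φ n t π) ∘ (e k).symm) i) +
      2 * (star (vC e θ c φ n t π) ⬝ᵥ (prR (YC e θ π ((t : ℂ) * c)) n *ᵥ φ' t)).re /
        nsq (vC e θ c φ n t π) - penC θ κ n π ≤ C) :
    ∀ π ∈ FeasC α a b, FC e θ κ c φ n 1 π ≤ Real.log (nsq (φ 0)) + C := by
  haveI : CompactSpace (FeasC α a b) := isCompact_iff_compactSpace.mp (isCompact_feasC a b)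
  haveI : Nonempty (FeasC α a b) := (feasC_nonempty hab).to_subtype
  have hzero : ∀ π ∈ FeasC α a b, FC e θ κ c φ n 0 π = Real.log (nsq (φ 0)) := by
    intro π hπ
    have h1 : ∀ j, YC e θ π (((0 : ℝ) : ℂ) * c) j = 1 := by
      intro j
      rw [YC]
      have : (fun i => Complex.exp ((((0 : ℝ) : ℂ) * c) * ((θ j * (π j).2 i : ℝ) : ℂ))) =
          fun _ => (1 : ℂ) := by
        funext i
        simp
      rw [this, cD_one (hπ j).1, opL_one]
    have h2 : ∀ n, prR (YC e θ π (((0 : ℝ) : ℂ) * c)) n = 1 := by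
      intro n
      induction n with
      | zero => rfl
      | succ n ih => rw [prR, ih, h1, Matrix.mul_one]
    rw [FC, vC, h2, one_mulVec, zero_mul, sub_zero]
  have hmb := max_bound (P := FeasC α a b)
    (fun t π => FC e θ κ c φ n t π.1 - Real.log (nsq (φ 0)))
    ((continuous_FC e θ κ c hφ hpos n a b).sub continuous_const) C
    (fun π => by rw [hzero π.1 π.2, sub_self]) ?_
  · intro π hπ
    have := hmb ⟨π, hπ⟩
    linarith
  · intro t ht0 ht1 π hmax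
    have hmax' : ∀ π' ∈ FeasC α a b, FC e θ κ c φ n t π' ≤ FC e θ κ c φ n t π.1 := by
      intro π' hπ'
      have := hmax ⟨π', hπ'⟩
      linarith
    have hform := tc_form e hcomm hθ hκ hc n ht0 (hpos t) π.2 hmax'
    exact ⟨_, (tc_deriv e hcomm θ κ a b hc n (hpos t) (hφ' t ht0 ht1) π.2 hform).sub_const _,
      hD t ht0 ht1 π.1 π.2 hmax' hform⟩

end var

end Vale.Agent.P356.GA
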