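import Vale.Agent.P356.GA.Tube107a
import Vale.Agent.P356.SV.Tilt5

/-!
# GA, block G2 (helper412), part a: functional calculus through eigenbases

* `cD U f = U diag(f) U^*`, intertwining of functions, rank one changes of one eigenvalue.
* `clipC κ a b q` : `log (q / κ)` clipped to `[a, b]`.
-/

set_option linter.all false

namespace Vale.Agent.P356.GA

open Matrix Finset Vale.Agent.P356 Vale.Agent.P356.SV Vale.Agent.P356.Path
open scoped BigOperators ComplexOrder Kronecker

section cd
variable {a : Type*} [Fintype a] [DecidableEq a]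

/-- operator given by its eigenbasis and its (complex) eigenvalues -/
noncomputable def cD (U : Matrix a a ℂ) (f : a → ℂ) : Matrix a a ℂ := U * diagonal f * Uᴴ

theorem cOp_eq_cD {α β : Type*} [Fintype α] [Fintype β] [DecidableEq α] [DecidableEq β]
    (x : α × β → ℂ) (f : α → ℂ) : cOp x f = cD (eigU x) f := rfl

theorem dOp_eq_cD (U : Matrix a a ℂ) (f : a → ℝ) : dOp U f = cD U (fun i => (f i : ℂ)) := rfl

theorem cD_mul {U : Matrix a a ℂ} (hU : U * Uᴴ = 1) (f g : a → ℂ) :
    cD U f * cD U g = cD U (fun i => f i * g i) := by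
  have h : Uᴴ * U = 1 := mul_eq_one_comm.mp hU
  rw [cD, cD, cD]
  calc U * diagonal f * Uᴴ * (U * diagonal g * Uᴴ) =
      U * diagonal f * (Uᴴ * U) * diagonal g * Uᴴ := by simp only [Matrix.mul_assoc]
    _ = U * (diagonal f * diagonal g) * Uᴴ := by rw [h, Matrix.mul_one, Matrix.mul_assoc U]
    _ = _ := by rw [diagonal_mul_diagonal]

theorem cD_one {U : Matrix a a ℂ} (hU : U * Uᴴ = 1) : cD U (fun _ => 1) = 1 := by
  rw [cD, diagonal_one, Matrix.mul_one]
  exact hU

theorem cD_conjTranspose (U : Matrix a a ℂ) (f : a → ℂ) : (cD U f)ᴴ = cD U (fun i => star (f i)) := by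
  rw [cD, cD, conjTranspose_mul, conjTranspose_mul, conjTranspose_conjTranspose,
    diagonal_conjTranspose, Matrix.mul_assoc]
  rfl

theorem cD_const {U : Matrix a a ℂ} (hU : U * Uᴴ = 1) (c : ℂ) : cD U (fun _ => c) = c • 1 := by
  rw [cD, ← hU]
  have : (diagonal (fun _ : a => c) : Matrix a a ℂ) = c • 1 := by
    ext i j
    by_cases h : i = j
    · subst h; simp
    · simp [h]
  rw [this, Matrix.mul_smul, Matrix.mul_one, Matrix.smul_mul]

theorem cD_zero (U : Matrix a a ℂ) : cD U (fun _ => 0) = 0 := by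
  rw [cD, diagonal_zero, Matrix.mul_zero, Matrix.zero_mul]

theorem cD_trace {U : Matrix a a ℂ} (hU : U * Uᴴ = 1) (f : a → ℂ) : (cD U f).trace = ∑ i, f i := by
  have h : Uᴴ * U = 1 := mul_eq_one_comm.mp hU
  rw [cD, Matrix.trace_mul_comm, ← Matrix.mul_assoc, h, Matrix.one_mul, Matrix.trace_diagonal]

theorem cD_apply (U : Matrix a a ℂ) (f : a → ℂ) (i j : a) :
    cD U f i j = ∑ k, U i k * f k * star (U j k) := by
  rw [cD, Matrix.mul_apply]
  refine Finset.sum_congr rfl fun k _ => ?_
  rw [mul_diagonal, conjTranspose_apply]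

theorem cD_inj {U : Matrix a a ℂ} (hU : U * Uᴴ = 1) {f : a → ℂ} (h : cD U f = 0) (i : a) :
    f i = 0 := by
  have h' : Uᴴ * U = 1 := mul_eq_one_comm.mp hU
  have h1 : Uᴴ * cD U f * U = diagonal f := by
    rw [cD]
    calc Uᴴ * (U * diagonal f * Uᴴ) * U = (Uᴴ * U) * diagonal f * (Uᴴ * U) := by
          simp only [Matrix.mul_assoc]
      _ = _ := by rw [h', Matrix.one_mul, Matrix.mul_one]
  rw [h, Matrix.mul_zero, Matrix.zero_mul] at h1
  have h2 := congrFun (congrFun h1 i) i
  rw [diagonal_apply_eq, Matrix.zero_apply] at h2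
  exact h2.symm

/-- **Intertwining.** A relation between two Hermitian operators passes to all functions. -/
theorem cD_intertwine {U U' : Matrix a a ℂ} (hU : U * Uᴴ = 1) (hU' : U' * U'ᴴ = 1)
    (g g' : a → ℝ) (X : Matrix a a ℂ)
    (h : cD U (fun i => (g i : ℂ)) * X = X * cD U' (fun i => (g' i : ℂ))) (F : ℝ → ℂ) :
    cD U (fun i => F (g i)) * X = X * cD U' (fun i => F (g' i)) := by
  have h1 : Uᴴ * U = 1 := mul_eq_one_comm.mp hU
  have h2 : U'ᴴ * U' = 1 := mul_eq_one_comm.mp hU'
  have key : ∀ f f' : a → ℂ, cD U f * X = X * cD U' f' ↔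
      diagonal f * (Uᴴ * X * U') = (Uᴴ * X * U') * diagonal f' := by
    intro f f'
    constructor
    · intro h3
      have h4 : Uᴴ * (cD U f * X) * U' = Uᴴ * (X * cD U' f') * U' := by rw [h3]
      have h5 : Uᴴ * (cD U f * X) * U' = diagonal f * (Uᴴ * X * U') := by
        rw [cD]
        calc Uᴴ * (U * diagonal f * Uᴴ * X) * U' = (Uᴴ * U) * diagonal f * (Uᴴ * X * U') := by
              simp only [Matrix.mul_assoc]
          _ = _ := by rw [h1, Matrix.one_mul]
      have h6 : Uᴴ * (X * cD U' f') * U' = (Uᴴ * X * U') * diagonal f' := by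
        rw [cD]
        calc Uᴴ * (X * (U' * diagonal f' * U'ᴴ)) * U' =
            (Uᴴ * X * U') * diagonal f' * (U'ᴴ * U') := by simp only [Matrix.mul_assoc]
          _ = _ := by rw [h2, Matrix.mul_one]
      rw [← h5, ← h6, h4]
    · intro h3
      have h4 : U * (diagonal f * (Uᴴ * X * U')) * U'ᴴ = U * ((Uᴴ * X * U') * diagonal f') * U'ᴴ := by
        rw [h3]
      have h5 : U * (diagonal f * (Uᴴ * X * U')) * U'ᴴ = cD U f * X := by
        rw [cD]
        calc U * (diagonal f * (Uᴴ * X * U')) * U'ᴴ = U * diagonal f * Uᴴ * X * (U' * U'ᴴ) := by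
              simp only [Matrix.mul_assoc]
          _ = _ := by rw [hU', Matrix.mul_one]
      have h6 : U * ((Uᴴ * X * U') * diagonal f') * U'ᴴ = X * cD U' f' := by
        rw [cD]
        calc U * ((Uᴴ * X * U') * diagonal f') * U'ᴴ = (U * Uᴴ) * X * (U' * diagonal f' * U'ᴴ) := by
              simp only [Matrix.mul_assoc]
          _ = _ := by rw [hU, Matrix.one_mul]
      rw [← h5, ← h6, h4]
  have h3 := (key _ _).mp h
  refine (key _ _).mpr ?_
  ext i j
  have h4 := congrFun (congrFun h3 i) j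
  rw [diagonal_mul, mul_diagonal] at h4 ⊢
  by_cases h5 : (Uᴴ * X * U') i j = 0
  · rw [h5, mul_zero, zero_mul]
  · have h6 : ((g i : ℂ) - g' j) * (Uᴴ * X * U') i j = 0 := by
      rw [sub_mul, h4]
      ring
    rcases mul_eq_zero.mp h6 with h7 | h7
    · have h8 : (g i : ℂ) = g' j := sub_eq_zero.mp h7
      have h9 : g i = g' j := by exact_mod_cast h8
      rw [h9, mul_comm]
    · exact absurd h7 h5

/-- uniqueness of the functional calculus -/
theorem cD_unique {U U' : Matrix a a ℂ} (hU : U * Uᴴ = 1) (hU' : U' * U'ᴴ = 1)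
    {g g' : a → ℝ} (h : cD U (fun i => (g i : ℂ)) = cD U' (fun i => (g' i : ℂ))) (F : ℝ → ℂ) :
    cD U (fun i => F (g i)) = cD U' (fun i => F (g' i)) := by
  have h1 := cD_intertwine hU hU' g g' 1 (by rw [Matrix.mul_one, Matrix.one_mul, h]) F
  rwa [Matrix.mul_one, Matrix.one_mul] at h1

/-- functions and an operator which is scaled by the Hermitian operator -/
theorem cD_scale {U : Matrix a a ℂ} (hU : U * Uᴴ = 1) (g : a → ℝ) (c : ℝ) (X : Matrix a a ℂ)
    (h : cD U (fun i => (g i : ℂ)) * X = (c : ℂ) • X) (F : ℝ → ℂ) :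
    cD U (fun i => F (g i)) * X = F c • X := by
  have h1 : (1 : Matrix a a ℂ) * (1 : Matrix a a ℂ)ᴴ = 1 := by simp
  have h2 := cD_intertwine hU h1 g (fun _ => c) X (by
    rw [cD_const h1, Matrix.mul_smul, Matrix.mul_one, h]) F
  rw [cD_const h1, Matrix.mul_smul, Matrix.mul_one] at h2
  exact h2

/-- spectral theorem -/
theorem exists_cD {G : Matrix a a ℂ} (hG : Gᴴ = G) :
    ∃ (U : Matrix a a ℂ) (g : a → ℝ), U * Uᴴ = 1 ∧ G = cD U (fun i => (g i : ℂ)) := by
  have hH : G.IsHermitian := hG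
  set U : Matrix a a ℂ := (hH.eigenvectorUnitary : Matrix a a ℂ) with hU
  have hU1 : U * Uᴴ = 1 := by
    have := hH.eigenvectorUnitary.2
    rw [Matrix.mem_unitaryGroup_iff] at this
    exact this
  have hd : Uᴴ * G * U = diagonal (fun i => (hH.eigenvalues i : ℂ)) := by
    have := hH.conjStarAlgAut_star_eigenvectorUnitary
    rw [Unitary.conjStarAlgAut_star_apply] at this
    exact this
  refine ⟨U, hH.eigenvalues, hU1, ?_⟩
  rw [cD, ← hd]
  calc G = (U * Uᴴ) * G * (U * Uᴴ) := by rw [hU1, Matrix.one_mul, Matrix.mul_one]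
    _ = _ := by simp only [Matrix.mul_assoc]

/-- change of one eigenvalue: `G + s P` for a projection `P` below an eigenspace of `G` -/
theorem exists_shift {U : Matrix a a ℂ} (hU : U * Uᴴ = 1) {g : a → ℝ} {lo hi c s : ℝ}
    (hg : ∀ i, lo ≤ g i ∧ g i ≤ hi) {P : Matrix a a ℂ} (hP : P * P = P) (hPh : Pᴴ = P)
    (hGP : cD U (fun i => (g i : ℂ)) * P = (c : ℂ) • P) (h1 : lo ≤ c) (h2 : c ≤ hi)
    (h3 : lo ≤ c + s) (h4 : c + s ≤ hi) :
    ∃ (U' : Matrix a a ℂ) (g' : a → ℝ), U' * U'ᴴ = 1 ∧ (∀ i, lo ≤ g' i ∧ g' i ≤ hi) ∧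
      ∀ F : ℝ → ℂ, cD U' (fun i => F (g' i)) =
        cD U (fun i => F (g i)) + (F (c + s) - F c) • P := by
  set G := cD U (fun i => (g i : ℂ)) with hG
  have hGh : Gᴴ = G := by
    rw [hG, cD_conjTranspose]
    congr 1
    funext i
    simp
  have hPG : P * G = (c : ℂ) • P := by
    have := congrArg conjTranspose hGP
    rw [conjTranspose_mul, hPh, hGh, conjTranspose_smul, hPh] at this
    rw [this]
    simp
  obtain ⟨U', g', hU', hG'⟩ := exists_cD (G := G + (s : ℂ) • P) (by
    rw [conjTranspose_add, conjTranspose_smul, hGh, hPh]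
    simp)
  have hform : ∀ F : ℝ → ℂ, cD U' (fun i => F (g' i)) =
      cD U (fun i => F (g i)) + (F (c + s) - F c) • P := by
    intro F
    have e1 : cD U' (fun i => F (g' i)) * P = F (c + s) • P := by
      refine cD_scale hU' g' (c + s) P ?_ F
      rw [← hG', Matrix.add_mul, Matrix.smul_mul, hP, hGP, ← add_smul]
      push_cast
      rfl
    have e2 : cD U (fun i => F (g i)) * P = F c • P := cD_scale hU g c P hGP F
    have e3 : cD U' (fun i => F (g' i)) * (1 - P) = (1 - P) * cD U (fun i => F (g i)) := by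
      refine cD_intertwine hU' hU g' g (1 - P) ?_ F
      rw [← hG', ← hG, Matrix.add_mul, Matrix.mul_sub, Matrix.mul_sub, Matrix.sub_mul,
        Matrix.smul_mul, Matrix.smul_mul, hP, hGP, hPG]
      simp
    have e4 : P * cD U (fun i => F (g i)) = F c • P := by
      have e5 : cD U (fun i => star (F (g i))) * P = star (F c) • P :=
        cD_scale hU g c P hGP (fun r => star (F r))
      have e6 := congrArg conjTranspose e5
      rw [conjTranspose_mul, hPh, cD_conjTranspose, conjTranspose_smul, hPh] at e6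
      simpa using e6
    calc cD U' (fun i => F (g' i)) = cD U' (fun i => F (g' i)) * P +
          cD U' (fun i => F (g' i)) * (1 - P) := by
          rw [Matrix.mul_sub, Matrix.mul_one]
          abel
      _ = _ := by
          rw [e1, e3, Matrix.sub_mul, Matrix.one_mul, e4, sub_smul]
          abel
  refine ⟨U', g', hU', ?_, hform⟩
  have hF := hform (fun r => if lo ≤ r ∧ r ≤ hi then 0 else 1)
  have z1 : (fun i => (if lo ≤ g i ∧ g i ≤ hi then 0 else 1 : ℂ)) = fun _ => 0 := by
    funext i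
    rw [if_pos (hg i)]
  beta_reduce at hF
  rw [z1, cD_zero, if_pos ⟨h3, h4⟩, if_pos ⟨h1, h2⟩, sub_zero, zero_smul, add_zero] at hF
  intro i
  have h5 := cD_inj hU' hF i
  by_contra h6
  rw [if_neg h6] at h5
  exact one_ne_zero h5

end cd

/-- clipped logarithm of `q / κ` -/
noncomputable def clipC (κ a b q : ℝ) : ℝ :=
  if q ≤ κ * Real.exp a then a else if κ * Real.exp b ≤ q then b else Real.log (q / κ)

theorem clipC_of {κ a b q g : ℝ} (hκ : 0 < κ) (ha : a ≤ g) (hb : g ≤ b)
    (h1 : g < b → q ≤ κ * Real.exp g) (h2 : a < g → κ * Real.exp g ≤ q) : clipC κ a b q = g := by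
  rw [clipC]
  split_ifs with h3 h4
  · rcases ha.lt_or_eq with h | h
    · have h5 := h2 h
      have h6 : Real.exp a < Real.exp g := Real.exp_lt_exp.mpr h
      nlinarith
    · exact h
  · rcases hb.lt_or_eq with h | h
    · have h5 := h1 h
      have h6 : Real.exp g < Real.exp b := Real.exp_lt_exp.mpr h
      nlinarith
    · exact h.symm
  · push Not at h3 h4
    have h7 : q = κ * Real.exp g := by
      refine le_antisymm ?_ ?_
      · rcases hb.lt_or_eq with h | h
        · exact h1 h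
        · subst h
          exact h4.le
      · rcases ha.lt_or_eq with h | h
        · exact h2 h
        · subst h
          exact h3.le
    rw [h7, mul_div_cancel_left₀ _ hκ.ne', Real.log_exp]

theorem clipC_mem {κ a b q : ℝ} (hκ : 0 < κ) (hab : a ≤ b) : a ≤ clipC κ a b q ∧ clipC κ a b q ≤ b := by
  rw [clipC]
  split_ifs with h3 h4
  · exact ⟨le_rfl, hab⟩
  · exact ⟨hab, le_rfl⟩
  · push Not at h3 h4
    have hq : 0 < q := lt_trans (by positivity) h3
    constructor
    · rw [Real.le_log_iff_exp_le (by positivity), le_div_iff₀ hκ]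
      linarith
    · rw [Real.log_le_iff_le_exp (by positivity), div_le_iff₀ hκ]
      linarith

/-- the clipped logarithm with window `[-M, 0]` -/
noncomputable def lgM (M q : ℝ) : ℝ := clipC 1 (-M) 0 q

theorem lgM_of_le {M q : ℝ} (h : q ≤ Real.exp (-M)) : lgM M q = -M := by
  rw [lgM, clipC, if_pos (by linarith)]

theorem lgM_of_gt {M q : ℝ} (h : Real.exp (-M) ≤ q) (h1 : q ≤ 1) : lgM M q = Real.log q := by
  rw [lgM, clipC, one_mul, one_mul, Real.exp_zero, div_one]
  split_ifs with h3 h4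
  · have : q = Real.exp (-M) := le_antisymm h3 h
    rw [this, Real.log_exp]
  · have : q = 1 := le_antisymm h1 h4
    rw [this, Real.log_one]
  · rfl

theorem le_exp_lgM {M q : ℝ} (h1 : q ≤ 1) : q ≤ Real.exp (lgM M q) := by
  rcases le_total q (Real.exp (-M)) with h | h
  · rw [lgM_of_le h]
    exact h
  · rw [lgM_of_gt h h1, Real.exp_log (lt_of_lt_of_le (Real.exp_pos _) h)]

theorem exp_lgM_le {M q : ℝ} (h0 : 0 ≤ q) (h1 : q ≤ 1) : Real.exp (lgM M q) ≤ q + Real.exp (-M) := by
  rcases le_total q (Real.exp (-M)) with h | h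
  · rw [lgM_of_le h]
    linarith
  · rw [lgM_of_gt h h1, Real.exp_log (lt_of_lt_of_le (Real.exp_pos _) h)]
    have := Real.exp_pos (-M)
    linarith

end Vale.Agent.P356.GA
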