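import Vale.Agent.P356.GA.Tc412a

/-!
# GA, block G2 (helper412), part b: the complex tilts, transport, first variation
-/

set_option linter.all false

namespace Vale.Agent.P356.GA

open Matrix Finset Vale.Agent.P356 Vale.Agent.P356.SV Vale.Agent.P356.Path
open scoped BigOperators ComplexOrder Kronecker

section la
variable {a : Type*} [Fintype a] [DecidableEq a]

theorem tc_quad_single (K : Matrix a a ℂ) (i j : a) (c : ℂ) :
    star (Pi.single i 1 + c • Pi.single j 1 : a → ℂ) ⬝ᵥ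
      (K *ᵥ (Pi.single i 1 + c • Pi.single j 1 : a → ℂ)) =
      K i i + c * K i j + star c * K j i + star c * c * K j j := by
  have h1 : ∀ k l : a, star (Pi.single k 1 : a → ℂ) ⬝ᵥ (K *ᵥ (Pi.single l 1 : a → ℂ)) = K k l := by
    intro k l
    have h2 : star (Pi.single k 1 : a → ℂ) = Pi.single k 1 := by
      funext m
      by_cases h : m = k
      · subst h; simp
      · simp [h]
    rw [h2, single_one_dotProduct, mulVec_single_one]
    rfl
  rw [mulVec_add, mulVec_smul, star_add, star_smul, add_dotProduct, dotProduct_add, dotProduct_add,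
    smul_dotProduct, smul_dotProduct, dotProduct_smul, dotProduct_smul, h1, h1, h1, h1]
  simp only [smul_eq_mul]
  ring

/-- a matrix with vanishing quadratic form is zero -/
theorem tc_quad_zero (K : Matrix a a ℂ) (h : ∀ v : a → ℂ, star v ⬝ᵥ (K *ᵥ v) = 0) : K = 0 := by
  have hd : ∀ i, K i i = 0 := by
    intro i
    have h1 := tc_quad_single K i i 0
    rw [h] at h1
    simpa using h1.symm
  ext i j
  have h1 := tc_quad_single K i j 1
  have h2 := tc_quad_single K i j Complex.I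
  rw [h, hd, hd] at h1 h2
  simp only [star_one, one_mul, mul_zero, add_zero, zero_add, RCLike.star_def, Complex.conj_I] at h1 h2
  have h3 : Complex.I * (K i j - K j i) = 0 := by
    rw [h2]
    ring
  have h4 : K i j = K j i := by
    rcases mul_eq_zero.mp h3 with h5 | h5
    · exact absurd h5 Complex.I_ne_zero
    · exact sub_eq_zero.mp h5
  rw [← h4] at h1
  rw [Matrix.zero_apply]
  have h5 : (2 : ℂ) * K i j = 0 := by rw [two_mul]; exact h1.symm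
  rcases mul_eq_zero.mp h5 with h6 | h6
  · norm_num at h6
  · exact h6

/-- a matrix with real quadratic form on unit vectors is Hermitian -/
theorem tc_herm_of_im (K : Matrix a a ℂ)
    (h : ∀ v : a → ℂ, nsq v = 1 → (star v ⬝ᵥ (K *ᵥ v)).im = 0) : Kᴴ = K := by
  have h1 : ∀ v : a → ℂ, (star v ⬝ᵥ (K *ᵥ v)).im = 0 := by
    intro v
    rcases (nsq_nonneg' v).lt_or_eq with h2 | h2
    · set r : ℝ := (Real.sqrt (nsq v))⁻¹ with hr
      have h3 : nsq ((r : ℂ) • v) = 1 := by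
        rw [nsq_smul, Complex.norm_real, Real.norm_eq_abs, sq_abs, hr, inv_pow, Real.sq_sqrt h2.le]
        exact inv_mul_cancel₀ h2.ne'
      have h4 := h _ h3
      rw [mulVec_smul, dotProduct_smul, star_smul, smul_dotProduct] at h4
      have h5 : ((r : ℂ) • (star (r : ℂ) • (star v ⬝ᵥ (K *ᵥ v)))) =
          ((r ^ 2 : ℝ) : ℂ) * (star v ⬝ᵥ (K *ᵥ v)) := by
        rw [smul_eq_mul, smul_eq_mul, RCLike.star_def, Complex.conj_ofReal]
        push_cast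
        ring
      rw [h5, Complex.im_ofReal_mul] at h4
      have h6 : r ^ 2 ≠ 0 := by
        have : 0 < r := by rw [hr]; exact inv_pos.mpr (Real.sqrt_pos.mpr h2)
        positivity
      exact (mul_eq_zero.mp h4).resolve_left h6
    · have h3 : v = 0 := by
        funext i
        have h4 := (Finset.sum_eq_zero_iff_of_nonneg (fun i _ => sq_nonneg ‖v i‖)).mp
          (show ∑ i, ‖v i‖ ^ 2 = 0 from h2.symm) i (Finset.mem_univ i)
        simpa using h4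
      rw [h3]
      simp
  have h2 : Kᴴ - K = 0 := by
    refine tc_quad_zero _ fun v => ?_
    rw [sub_mulVec, dotProduct_sub, ← ip_mulVec]
    have h3 : star (K *ᵥ v) ⬝ᵥ v = star (star v ⬝ᵥ (K *ᵥ v)) := by
      rw [star_dotProduct]
    rw [h3]
    have h4 := h1 v
    refine sub_eq_zero.mpr ?_
    rw [RCLike.star_def]
    exact Complex.conj_eq_iff_im.mpr h4
  exact sub_eq_zero.mp h2

/-- projection onto a vector -/
noncomputable def prV (v : a → ℂ) : Matrix a a ℂ := (((nsq v)⁻¹ : ℝ) : ℂ) • vecMulVec v (star v)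

theorem prV_herm (v : a → ℂ) : (prV v)ᴴ = prV v := by
  rw [prV, conjTranspose_smul, conjTranspose_vecMulVec, star_star, RCLike.star_def,
    Complex.conj_ofReal]

theorem mul_prV (A : Matrix a a ℂ) (v : a → ℂ) :
    A * prV v = (((nsq v)⁻¹ : ℝ) : ℂ) • vecMulVec (A *ᵥ v) (star v) := by
  rw [prV, Matrix.mul_smul, mul_vecMulVec]

theorem prV_sq {v : a → ℂ} (hv : 0 < nsq v) : prV v * prV v = prV v := by
  rw [prV, Matrix.smul_mul, Matrix.mul_smul, vecMulVec_mul_vecMulVec, ip_self, smul_smul]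
  rw [vecMulVec_smul, smul_smul]
  congr 1
  rw [← Complex.ofReal_mul, ← Complex.ofReal_mul]
  congr 1
  field_simp

theorem trace_mul_prV (A : Matrix a a ℂ) (v : a → ℂ) :
    (A * prV v).trace = (((nsq v)⁻¹ : ℝ) : ℂ) * (star v ⬝ᵥ (A *ᵥ v)) := by
  rw [mul_prV, Matrix.trace_smul, trace_vecMulVec, smul_eq_mul, dotProduct_comm]

theorem mul_prV_of_eig {A : Matrix a a ℂ} {v : a → ℂ} {c : ℂ} (h : A *ᵥ v = c • v) :
    A * prV v = c • prV v := by
  rw [mul_prV, h, smul_vecMulVec, prV, smul_comm]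

theorem trace_prV {v : a → ℂ} (hv : 0 < nsq v) : (prV v).trace = 1 := by
  have h := trace_mul_prV 1 v
  rw [Matrix.one_mul, one_mulVec, ip_self, ← Complex.ofReal_mul, inv_mul_cancel₀ hv.ne',
    Complex.ofReal_one] at h
  exact h

end la

/-- sign of a derivative at a one-sided maximum -/
theorem tc_deriv_nonpos {f : ℝ → ℝ} {f' : ℝ} (hf : HasDerivAt f f' 0) {δ : ℝ} (hδ : 0 < δ)
    (h : ∀ s, 0 ≤ s → s ≤ δ → f s ≤ f 0) : f' ≤ 0 := by
  have h1 := hasDerivAt_iff_tendsto_slope.mp hf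
  have h2 : Filter.Tendsto (slope f 0) (nhdsWithin 0 (Set.Ioi 0)) (nhds f') :=
    h1.mono_left (nhdsWithin_mono _ (fun x (hx : 0 < x) => hx.ne'))
  refine le_of_tendsto h2 ?_
  have h3 : ∀ᶠ s in nhdsWithin (0 : ℝ) (Set.Ioi 0), s < δ :=
    mem_nhdsWithin_of_mem_nhds (Iio_mem_nhds hδ)
  filter_upwards [h3, self_mem_nhdsWithin] with s hs hs0
  have hs0' : (0 : ℝ) < s := hs0
  rw [slope_def_field, sub_zero]
  exact div_nonpos_of_nonpos_of_nonneg (by linarith [h s hs0'.le hs.le]) hs0'.le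

theorem tc_deriv_nonneg {f : ℝ → ℝ} {f' : ℝ} (hf : HasDerivAt f f' 0) {δ : ℝ} (hδ : 0 < δ)
    (h : ∀ s, -δ ≤ s → s ≤ 0 → f s ≤ f 0) : 0 ≤ f' := by
  have h1 : HasDerivAt (fun s => f (-s)) (-f') 0 := by
    have h2 : HasDerivAt (fun s : ℝ => -s) (-1) 0 := (hasDerivAt_id (0 : ℝ)).neg
    have h3 : HasDerivAt f f' (-0) := by rw [neg_zero]; exact hf
    have h4 := h3.comp (0 : ℝ) h2
    rw [mul_neg, mul_one] at h4
    exact h4
  have h2 := tc_deriv_nonpos h1 hδ (fun s h0 hs => by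
    rw [neg_zero]
    exact h (-s) (by linarith) (by linarith))
  linarith

section var
variable {N : Type} [Fintype N] [DecidableEq N] {α β : ℕ → Type}
  [∀ k, Fintype (α k)] [∀ k, DecidableEq (α k)] [∀ k, Fintype (β k)] [∀ k, DecidableEq (β k)]

/-- the complex tilt at cut `k` -/
noncomputable def YC (e : ∀ k, N ≃ α k × β k) (θ : ℕ → ℝ) (π : ∀ k, Par α k) (ζ : ℂ) (k : ℕ) :
    Matrix N N ℂ :=
  opL (e k) (cD (π k).1 (fun i => Complex.exp (ζ * ((θ k * (π k).2 i : ℝ) : ℂ))))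

/-- feasible parameters: unitaries and eigenvalues in `[a k, b k]` -/
def FeasC (α : ℕ → Type) [∀ k, Fintype (α k)] [∀ k, DecidableEq (α k)] (a b : ℕ → ℝ) :
    Set (∀ k, Par α k) :=
  {π | ∀ k, (π k).1 * (π k).1ᴴ = 1 ∧ ∀ i, a k ≤ (π k).2 i ∧ (π k).2 i ≤ b k}

/-- the tilted vector, start vector `φ t`, complex time `t c` -/
noncomputable def vC (e : ∀ k, N ≃ α k × β k) (θ : ℕ → ℝ) (c : ℂ) (φ : ℝ → N → ℂ) (n : ℕ)
    (t : ℝ) (π : ∀ k, Par α k) : N → ℂ := prR (YC e θ π ((t : ℂ) * c)) n *ᵥ φ t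

/-- the penalty -/
noncomputable def penC (θ κ : ℕ → ℝ) (n : ℕ) (π : ∀ k, Par α k) : ℝ :=
  ∑ k ∈ range n, 2 * θ k * κ k * ∑ i, Real.exp ((π k).2 i)

/-- the functional -/
noncomputable def FC (e : ∀ k, N ≃ α k × β k) (θ κ : ℕ → ℝ) (c : ℂ) (φ : ℝ → N → ℂ) (n : ℕ)
    (t : ℝ) (π : ∀ k, Par α k) : ℝ :=
  Real.log (nsq (vC e θ c φ n t π)) - t * penC θ κ n π

/-- normalised vector -/
noncomputable def nzv {N : Type*} [Fintype N] (v : N → ℂ) : N → ℂ :=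
  (((Real.sqrt (nsq v))⁻¹ : ℝ) : ℂ) • v

theorem nsq_nzv {N : Type*} [Fintype N] {v : N → ℂ} (h : 0 < nsq v) : nsq (nzv v) = 1 := by
  rw [nzv, nsq_smul, Complex.norm_real, Real.norm_eq_abs, sq_abs, inv_pow, Real.sq_sqrt h.le]
  exact inv_mul_cancel₀ h.ne'

theorem nzv_eq {N : Type*} [Fintype N] {v : N → ℂ} (h : 0 < nsq v) :
    v = ((Real.sqrt (nsq v) : ℝ) : ℂ) • nzv v := by
  rw [nzv, smul_smul, ← Complex.ofReal_mul, mul_inv_cancel₀ (Real.sqrt_pos.mpr h).ne',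
    Complex.ofReal_one, one_smul]

theorem YC_conj (e : ∀ k, N ≃ α k × β k) (θ : ℕ → ℝ) (π : ∀ k, Par α k) (ζ : ℂ) (k : ℕ) :
    (YC e θ π ζ k)ᴴ = YC e θ π (star ζ) k := by
  rw [YC, YC, opL_conjTranspose, cD_conjTranspose]
  congr 2
  funext i
  rw [RCLike.star_def, ← Complex.exp_conj, map_mul, Complex.conj_ofReal]

theorem cD_exp_inv {a : Type*} [Fintype a] [DecidableEq a] {U : Matrix a a ℂ} (hU : U * Uᴴ = 1)
    (ζ : ℂ) (f : a → ℝ) :
    cD U (fun i => Complex.exp (ζ * (f i : ℂ))) * cD U (fun i => Complex.exp (-ζ * (f i : ℂ))) = 1 := by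
  rw [cD_mul hU]
  have : (fun i => Complex.exp (ζ * (f i : ℂ)) * Complex.exp (-ζ * (f i : ℂ))) =
      fun _ => (1 : ℂ) := by
    funext i
    rw [← Complex.exp_add]
    have : ζ * (f i : ℂ) + -ζ * (f i : ℂ) = 0 := by ring
    rw [this, Complex.exp_zero]
  rw [this, cD_one hU]

theorem YC_inv' (e : ∀ k, N ≃ α k × β k) (θ : ℕ → ℝ) {π : ∀ k, Par α k} {k : ℕ}
    (hπ : (π k).1 * (π k).1ᴴ = 1) (ζ : ℂ) : YC e θ π ζ k * YC e θ π (-ζ) k = 1 := by
  rw [YC, YC, ← opL_mul, cD_exp_inv hπ, opL_one]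

theorem YC_inv (e : ∀ k, N ≃ α k × β k) (θ : ℕ → ℝ) {π : ∀ k, Par α k} {k : ℕ}
    (hπ : (π k).1 * (π k).1ᴴ = 1) (ζ : ℂ) : YC e θ π (-ζ) k * YC e θ π ζ k = 1 :=
  mul_eq_one_comm.mp (YC_inv' e θ hπ ζ)

theorem prL_prR_YC (e : ∀ k, N ≃ α k × β k) (θ : ℕ → ℝ) {π : ∀ k, Par α k} {a b : ℕ → ℝ}
    (hπ : π ∈ FeasC α a b) (ζ : ℂ) (n : ℕ) : prL (YC e θ π (-ζ)) n * prR (YC e θ π ζ) n = 1 :=
  prL_mul_prR (fun j _ => YC_inv e θ (hπ j).1 ζ)

theorem vC_pos (e : ∀ k, N ≃ α k × β k) (θ : ℕ → ℝ) (c : ℂ) {φ : ℝ → N → ℂ} (n : ℕ)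
    {t : ℝ} (hφ : 0 < nsq (φ t)) {a b : ℕ → ℝ} {π : ∀ k, Par α k} (hπ : π ∈ FeasC α a b) :
    0 < nsq (vC e θ c φ n t π) := by
  rcases (nsq_nonneg' (vC e θ c φ n t π)).lt_or_eq with h | h
  · exact h
  · exfalso
    have h1 : vC e θ c φ n t π = 0 := by
      funext s
      have h2 : ∀ s ∈ (Finset.univ : Finset N), ‖vC e θ c φ n t π s‖ ^ 2 = 0 :=
        (Finset.sum_eq_zero_iff_of_nonneg (fun i _ => sq_nonneg _)).mp h.symm
      have h3 := h2 s (Finset.mem_univ s)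
      simpa using h3
    have h4 : prL (YC e θ π (-((t : ℂ) * c))) n *ᵥ (vC e θ c φ n t π) = φ t := by
      rw [vC, mulVec_mulVec, prL_prR_YC e θ hπ, one_mulVec]
    rw [h1, mulVec_zero] at h4
    rw [← h4] at hφ
    simp [nsq] at hφ

/-- the form of the tilt at cut `k` as a function of the reduced state -/
def HasFormC (e : ∀ k, N ≃ α k × β k) (κ a b : ℕ → ℝ) (ψ : N → ℂ) (π : ∀ k, Par α k)
    (k : ℕ) : Prop :=
  ∀ F : ℝ → ℂ, cD (π k).1 (fun i => F ((π k).2 i)) =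
    cOp (ψ ∘ (e k).symm) (fun i => F (clipC (κ k) (a k) (b k) (eigp (ψ ∘ (e k).symm) i)))

/-- transport data from the form -/
theorem transportC_of_form (e : ∀ k, N ≃ α k × β k) (θ κ a b : ℕ → ℝ) (ζ : ℂ) (ψ : N → ℂ)
    (π : ∀ k, Par α k) (j : ℕ) (hf : HasFormC e κ a b ψ π j) :
    ∃ A ∈ Set.range (opR (e j) : Matrix (β j) (β j) ℂ → Matrix N N ℂ),
      ∃ A' ∈ Set.range (opR (e j) : Matrix (β j) (β j) ℂ → Matrix N N ℂ),
      Aᴴ * A' = 1 ∧ A *ᵥ ψ = YC e θ π (star ζ) j *ᵥ ψ ∧ A' *ᵥ ψ = YC e θ π (-ζ) j *ᵥ ψ := by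
  set x := ψ ∘ (e j).symm with hx
  set g : α j → ℝ := fun i => θ j * clipC (κ j) (a j) (b j) (eigp x i) with hg
  refine ⟨opR (e j) (tOp x (fun i => Complex.exp (star ζ * (g i : ℂ)))), ⟨_, rfl⟩,
    opR (e j) (tOp x (fun i => Complex.exp (-ζ * (g i : ℂ)))), ⟨_, rfl⟩, ?_, ?_, ?_⟩
  · rw [opR_conjTranspose, ← opR_mul, tOp_conjTranspose, tOp_mul]
    have h1 : (fun i => star (Complex.exp (star ζ * (g i : ℂ))) * Complex.exp (-ζ * (g i : ℂ))) =
        fun _ => 1 := by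
      funext i
      rw [RCLike.star_def, ← Complex.exp_conj, ← Complex.exp_add, map_mul,
        Complex.conj_conj, Complex.conj_ofReal]
      have h3 : ζ * (g i : ℂ) + -ζ * (g i : ℂ) = 0 := by ring
      rw [h3, Complex.exp_zero]
    rw [h1, tOp_one, opR_one]
  · rw [hx, c_transport, ← hx, YC, hf (fun r => Complex.exp (star ζ * ((θ j * r : ℝ) : ℂ)))]
  · rw [hx, c_transport, ← hx, YC, hf (fun r => Complex.exp (-ζ * ((θ j * r : ℝ) : ℂ)))]

/-- **Transport identity** for complex tilts which are functions of the reduced states. -/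
theorem tc_transport (e : ∀ k, N ≃ α k × β k)
    (hcomm : ∀ j k, j ≤ k → ∀ (Y : Matrix (α k) (α k) ℂ) (S : Matrix (β j) (β j) ℂ),
      opL (e k) Y * opR (e j) S = opR (e j) S * opL (e k) Y)
    (θ κ a b : ℕ → ℝ) (ζ : ℂ) (ψ : N → ℂ) (π : ∀ k, Par α k) (k : ℕ)
    (hf : ∀ j < k, HasFormC e κ a b ψ π j) (X : Matrix N N ℂ)
    (hX : ∀ j < k, ∀ S : Matrix (β j) (β j) ℂ, X * opR (e j) S = opR (e j) S * X) :
    star ψ ⬝ᵥ (prR (YC e θ π ζ) k *ᵥ (X *ᵥ (prL (YC e θ π (-ζ)) k *ᵥ ψ))) =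
      star ψ ⬝ᵥ (X *ᵥ ψ) := by
  have h := SV.phi ψ (YC e θ π (star ζ)) (YC e θ π (-ζ))
    (fun j => Set.range (opR (e j) : Matrix (β j) (β j) ℂ → Matrix N N ℂ)) k
    (fun j hj => transportC_of_form e θ κ a b ζ ψ π j (hf j hj)) (by
      rintro j hj i hij A ⟨S, rfl⟩
      exact ⟨hcomm i j hij _ S, hcomm i j hij _ S⟩) X (by
      rintro j hj B ⟨S, rfl⟩
      exact hX j hj S)
  rw [← h, ip_mulVec]
  congr 2
  have h1 := prR_conjTranspose (YC e θ π ζ) k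
  simp only [YC_conj] at h1
  have h2 : (prL (YC e θ π (star ζ)) k)ᴴ = prR (YC e θ π ζ) k := by
    rw [← h1, conjTranspose_conjTranspose]
  rw [h2]

/-- transport for the unnormalised vector -/
theorem tc_transport_v (e : ∀ k, N ≃ α k × β k)
    (hcomm : ∀ j k, j ≤ k → ∀ (Y : Matrix (α k) (α k) ℂ) (S : Matrix (β j) (β j) ℂ),
      opL (e k) Y * opR (e j) S = opR (e j) S * opL (e k) Y)
    (θ κ a b : ℕ → ℝ) (ζ : ℂ) {v : N → ℂ} (hv : 0 < nsq v) (π : ∀ k, Par α k) (k : ℕ)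
    (hf : ∀ j < k, HasFormC e κ a b (nzv v) π j) (X : Matrix N N ℂ)
    (hX : ∀ j < k, ∀ S : Matrix (β j) (β j) ℂ, X * opR (e j) S = opR (e j) S * X) :
    star v ⬝ᵥ (prR (YC e θ π ζ) k *ᵥ (X *ᵥ (prL (YC e θ π (-ζ)) k *ᵥ v))) =
      ((nsq v : ℝ) : ℂ) * (star (nzv v) ⬝ᵥ (X *ᵥ nzv v)) := by
  have h := tc_transport e hcomm θ κ a b ζ (nzv v) π k hf X hX
  conv_lhs => rw [nzv_eq hv]
  rw [mulVec_smul, mulVec_smul, mulVec_smul, star_smul, smul_dotProduct, dotProduct_smul, h,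
    smul_eq_mul, smul_eq_mul, ← mul_assoc]
  congr 1
  rw [RCLike.star_def, Complex.conj_ofReal, ← Complex.ofReal_mul, Real.mul_self_sqrt hv.le]

/-- first variation of the norm in one of the tilts -/
theorem tc_dlog (e : ∀ k, N ≃ α k × β k)
    (hcomm : ∀ j k, j ≤ k → ∀ (Y : Matrix (α k) (α k) ℂ) (S : Matrix (β j) (β j) ℂ),
      opL (e k) Y * opR (e j) S = opR (e j) S * opL (e k) Y)
    (θ κ a b : ℕ → ℝ) (ζ : ℂ) {v : N → ℂ} (hv : 0 < nsq v) {π : ∀ k, Par α k}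
    (hπ : π ∈ FeasC α a b) (k : ℕ)
    (hf : ∀ j < k, HasFormC e κ a b (nzv v) π j) (w : N → ℂ)
    (hw : v = prR (YC e θ π ζ) k *ᵥ (YC e θ π ζ k *ᵥ w))
    (Z : ℝ → Matrix (α k) (α k) ℂ) (Z' : Matrix (α k) (α k) ℂ) (hZ : MD Z Z' 0)
    (hZ0 : opL (e k) (Z 0) = YC e θ π ζ k) :
    HasDerivAt (fun s => Real.log (nsq (prR (YC e θ π ζ) k *ᵥ (opL (e k) (Z s) *ᵥ w))))
      (2 * (redA (nzv v ∘ (e k).symm) *
        (Z' * cD (π k).1 (fun i => Complex.exp (-ζ * ((θ k * (π k).2 i : ℝ) : ℂ))))).trace.re) 0 := by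
  set L := prR (YC e θ π ζ) k with hL
  have hw2 : w = YC e θ π (-ζ) k *ᵥ (prL (YC e θ π (-ζ)) k *ᵥ v) := by
    rw [hw, mulVec_mulVec (M := prL (YC e θ π (-ζ)) k), prL_prR_YC e θ hπ, one_mulVec,
      mulVec_mulVec, YC_inv e θ (hπ k).1 ζ, one_mulVec]
  have hMD : MD (fun s => L * opL (e k) (Z s)) (L * opL (e k) Z') 0 := by
    have h1 : MD (fun s => opL (e k) (Z s)) (opL (e k) Z') 0 := by
      intro i j
      simp only [opL_apply]
      exact (hZ _ _).mul_const _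
    have h2 := MD_mul (MD_const L 0) h1
    simpa using h2
  have h1 := hasDerivAt_nsq hMD w
  have hv0 : (L * opL (e k) (Z 0)) *ᵥ w = v := by
    rw [hZ0, ← mulVec_mulVec, ← hw]
  have h2 := h1.log (by rw [hv0]; exact hv.ne')
  have h3 : (fun s => Real.log (nsq (L *ᵥ (opL (e k) (Z s) *ᵥ w)))) =
      fun s => Real.log (nsq ((L * opL (e k) (Z s)) *ᵥ w)) := by
    funext s
    rw [mulVec_mulVec]
  rw [h3]
  refine h2.congr_deriv ?_
  rw [hv0, div_eq_iff hv.ne']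
  have h4 := tc_transport_v e hcomm θ κ a b ζ hv π k hf
    (opL (e k) (Z' * cD (π k).1 (fun i => Complex.exp (-ζ * ((θ k * (π k).2 i : ℝ) : ℂ)))))
    (fun j hj S => hcomm j k hj.le _ S)
  rw [expect_opL, opL_mul, ← mulVec_mulVec] at h4
  have h5 : opL (e k) (cD (π k).1 (fun i => Complex.exp (-ζ * ((θ k * (π k).2 i : ℝ) : ℂ)))) =
      YC e θ π (-ζ) k := rfl
  rw [h5, ← hw2, ← hL, mulVec_mulVec] at h4
  rw [h4, Complex.re_ofReal_mul]
  ring

end var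

end Vale.Agent.P356.GA
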