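import Vale.Agent.P356.GA.Tc412b

/-!
# GA, block G2 (helper412), part c: stationarity of the maximisers
-/

set_option linter.all false

namespace Vale.Agent.P356.GA

open Matrix Finset Vale.Agent.P356 Vale.Agent.P356.SV Vale.Agent.P356.Path
open scoped BigOperators ComplexOrder Kronecker

section la
variable {a : Type*} [Fintype a] [DecidableEq a]

theorem cD_eq_of_entries {U V : Matrix a a ℂ} (hU : U * Uᴴ = 1) (hV : V * Vᴴ = 1)
    {f f' : a → ℂ} (h : ∀ i j, (Uᴴ * V) i j ≠ 0 → f i = f' j) : cD U f = cD V f' := by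
  have h1 : diagonal f * (Uᴴ * V) = (Uᴴ * V) * diagonal f' := by
    ext i j
    rw [diagonal_mul, mul_diagonal]
    by_cases h2 : (Uᴴ * V) i j = 0
    · rw [h2, mul_zero, zero_mul]
    · rw [h i j h2, mul_comm]
  calc cD U f = U * diagonal f * Uᴴ * (V * Vᴴ) := by rw [hV, Matrix.mul_one, cD]
    _ = U * (diagonal f * (Uᴴ * V)) * Vᴴ := by simp only [Matrix.mul_assoc]
    _ = (U * Uᴴ) * V * diagonal f' * Vᴴ := by rw [h1]; simp only [Matrix.mul_assoc]
    _ = _ := by rw [hU, Matrix.one_mul, cD]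

theorem cD_scale' {U : Matrix a a ℂ} (hU : U * Uᴴ = 1) (g : a → ℝ) (c : ℝ) {P : Matrix a a ℂ}
    (hP : Pᴴ = P) (h : cD U (fun i => (g i : ℂ)) * P = (c : ℂ) • P) (F : ℝ → ℂ) :
    P * cD U (fun i => F (g i)) = F c • P := by
  have e5 : cD U (fun i => star (F (g i))) * P = star (F c) • P :=
    cD_scale hU g c P h (fun r => star (F r))
  have e6 := congrArg conjTranspose e5
  rw [conjTranspose_mul, hP, cD_conjTranspose, conjTranspose_smul, hP] at e6
  simpa using e6

/-- the rotations generated by a projection -/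
noncomputable def rotP (P : Matrix a a ℂ) (s : ℝ) : Matrix a a ℂ :=
  1 + (Complex.exp ((s : ℂ) * Complex.I) - 1) • P

theorem rotP_zero (P : Matrix a a ℂ) : rotP P 0 = 1 := by
  rw [rotP]
  simp

theorem rotP_star {P : Matrix a a ℂ} (hPh : Pᴴ = P) (s : ℝ) : (rotP P s)ᴴ = rotP P (-s) := by
  rw [rotP, rotP, conjTranspose_add, conjTranspose_one, conjTranspose_smul, hPh, star_sub, star_one,
    RCLike.star_def, ← Complex.exp_conj, map_mul, Complex.conj_I, Complex.conj_ofReal]
  congr 4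
  push_cast
  ring

theorem rotP_unit {P : Matrix a a ℂ} (hP : P * P = P) (hPh : Pᴴ = P) (s : ℝ) :
    rotP P s * (rotP P s)ᴴ = 1 := by
  rw [rotP_star hPh, rotP, rotP, Matrix.add_mul, Matrix.one_mul, Matrix.smul_mul, Matrix.mul_add,
    Matrix.mul_one, Matrix.mul_smul, hP]
  have h1 : Complex.exp ((s : ℂ) * Complex.I) * Complex.exp (((-s : ℝ) : ℂ) * Complex.I) = 1 := by
    rw [← Complex.exp_add]
    have : (s : ℂ) * Complex.I + ((-s : ℝ) : ℂ) * Complex.I = 0 := by
      push_cast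
      ring
    rw [this, Complex.exp_zero]
  set z := Complex.exp ((s : ℂ) * Complex.I)
  set z' := Complex.exp (((-s : ℝ) : ℂ) * Complex.I)
  have h2 : (1 : Matrix a a ℂ) + (z' - 1) • P + (z - 1) • (P + (z' - 1) • P) =
      1 + (z * z' - 1) • P := by
    rw [smul_add, smul_smul, add_assoc, ← add_smul, ← add_smul]
    congr 2
    ring
  rw [h2, h1, sub_self, zero_smul, add_zero]

theorem MD_rotP (P : Matrix a a ℂ) : MD (fun s => rotP P s) (Complex.I • P) 0 := by
  intro i j
  have h1 : HasDerivAt (fun s : ℝ => Complex.exp ((s : ℂ) * Complex.I)) Complex.I 0 := by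
    have h2 : HasDerivAt (fun z : ℂ => Complex.exp (z * Complex.I)) Complex.I ((0 : ℝ) : ℂ) := by
      have h3 : HasDerivAt (fun z : ℂ => z * Complex.I) (1 * Complex.I) ((0 : ℝ) : ℂ) :=
        (hasDerivAt_id _).mul_const _
      have h4 := h3.cexp
      simpa using h4
    exact h2.comp_ofReal
  have h5 := ((h1.sub_const 1).mul_const (P i j)).const_add ((1 : Matrix a a ℂ) i j)
  exact h5

theorem MD_rotP_star {P : Matrix a a ℂ} (hPh : Pᴴ = P) :
    MD (fun s => (rotP P s)ᴴ) (-(Complex.I • P)) 0 := by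
  intro i j
  have h1 : HasDerivAt (fun s : ℝ => Complex.exp (((-s : ℝ) : ℂ) * Complex.I)) (-Complex.I) 0 := by
    have h2 : HasDerivAt (fun z : ℂ => Complex.exp (-z * Complex.I)) (-Complex.I) ((0 : ℝ) : ℂ) := by
      have h3 : HasDerivAt (fun z : ℂ => -z * Complex.I) (-1 * Complex.I) ((0 : ℝ) : ℂ) :=
        (hasDerivAt_id _).neg.mul_const _
      have h4 := h3.cexp
      simpa using h4
    have h5 := h2.comp_ofReal
    simpa using h5
  have h5 := ((h1.sub_const 1).mul_const (P i j)).const_add ((1 : Matrix a a ℂ) i j)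
  have h6 : (fun s => (rotP P s)ᴴ i j) = fun s => (1 : Matrix a a ℂ) i j +
      (Complex.exp (((-s : ℝ) : ℂ) * Complex.I) - 1) * P i j := by
    funext s
    rw [rotP_star hPh]
    rfl
  rw [h6]
  refine h5.congr_deriv ?_
  rw [Matrix.neg_apply, Matrix.smul_apply, smul_eq_mul, neg_mul]

theorem cD_rot (R U : Matrix a a ℂ) (f : a → ℂ) : cD (R * U) f = R * cD U f * Rᴴ := by
  rw [cD, cD, conjTranspose_mul]
  simp only [Matrix.mul_assoc]

end la

section var
variable {N : Type} [Fintype N] [DecidableEq N] {α β : ℕ → Type}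
  [∀ k, Fintype (α k)] [∀ k, DecidableEq (α k)] [∀ k, Fintype (β k)] [∀ k, DecidableEq (β k)]

/-- comparison of a maximiser with a change at one cut -/
theorem tc_compare (e : ∀ k, N ≃ α k × β k) (θ κ a b : ℕ → ℝ) (c : ℂ) (φ : ℝ → N → ℂ) (n : ℕ)
    (t : ℝ) {π : ∀ k, Par α k} (hπ : π ∈ FeasC α a b)
    (hmax : ∀ π' ∈ FeasC α a b, FC e θ κ c φ n t π' ≤ FC e θ κ c φ n t π) {k : ℕ} (hk : k < n) :
    ∃ w : N → ℂ, vC e θ c φ n t π = prR (YC e θ π ((t : ℂ) * c)) k *ᵥ
        (YC e θ π ((t : ℂ) * c) k *ᵥ w) ∧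
      ∀ (U' : Matrix (α k) (α k) ℂ) (g' : α k → ℝ), U' * U'ᴴ = 1 →
        (∀ i, a k ≤ g' i ∧ g' i ≤ b k) →
        Real.log (nsq (prR (YC e θ π ((t : ℂ) * c)) k *ᵥ (opL (e k) (cD U' (fun i =>
          Complex.exp (((t : ℂ) * c) * ((θ k * g' i : ℝ) : ℂ)))) *ᵥ w))) -
          t * (2 * θ k * κ k * ∑ i, Real.exp (g' i)) ≤
        Real.log (nsq (vC e θ c φ n t π)) - t * (2 * θ k * κ k * ∑ i, Real.exp ((π k).2 i)) := by
  set ζ : ℂ := (t : ℂ) * c with hζ
  obtain ⟨r, hr⟩ : ∃ r, n = k + 1 + r := ⟨n - (k + 1), by omega⟩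
  refine ⟨prS (YC e θ π ζ) (k + 1) r *ᵥ φ t, ?_, ?_⟩
  · rw [vC, hr, prR_split, prR, mulVec_mulVec, mulVec_mulVec, Matrix.mul_assoc]
  intro U' g' hU' hg'
  set π' : ∀ k, Par α k := Function.update π k (U', g') with hπ'
  have hfeas : π' ∈ FeasC α a b := by
    intro j
    by_cases hj : j = k
    · subst hj
      rw [hπ', Function.update_self]
      exact ⟨hU', hg'⟩
    · rw [hπ', Function.update_of_ne hj]
      exact hπ j
  have hne : ∀ j, j ≠ k → YC e θ π' ζ j = YC e θ π ζ j := by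
    intro j hj
    rw [YC, YC, hπ', Function.update_of_ne hj]
  have hmaxi := hmax π' hfeas
  have hpen : penC θ κ n π' = penC θ κ n π +
      (2 * θ k * κ k * ∑ i, Real.exp (g' i) - 2 * θ k * κ k * ∑ i, Real.exp ((π k).2 i)) := by
    rw [penC, penC, ← Finset.add_sum_erase (range n) _ (Finset.mem_range.mpr hk),
      ← Finset.add_sum_erase (range n) (fun k => 2 * θ k * κ k *
        ∑ i, Real.exp ((π k).2 i)) (Finset.mem_range.mpr hk)]
    have h1 : ∑ j ∈ (range n).erase k, 2 * θ j * κ j * ∑ i, Real.exp ((π' j).2 i) =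
        ∑ j ∈ (range n).erase k, 2 * θ j * κ j * ∑ i, Real.exp ((π j).2 i) := by
      refine Finset.sum_congr rfl fun j hj => ?_
      rw [hπ', Function.update_of_ne (Finset.ne_of_mem_erase hj)]
    rw [h1]
    have h2 : (π' k) = (U', g') := by rw [hπ', Function.update_self]
    rw [h2]
    ring
  have hv' : vC e θ c φ n t π' = prR (YC e θ π ζ) k *ᵥ (opL (e k) (cD U' (fun i =>
      Complex.exp (ζ * ((θ k * g' i : ℝ) : ℂ)))) *ᵥ (prS (YC e θ π ζ) (k + 1) r *ᵥ φ t)) := by
    have e4 : prR (YC e θ π' ζ) k = prR (YC e θ π ζ) k :=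
      prR_congr (fun j hj => hne j (Nat.ne_of_lt hj))
    have e5 : prS (YC e θ π' ζ) (k + 1) r = prS (YC e θ π ζ) (k + 1) r :=
      prS_congr (fun i hi => hne i (by omega))
    have e6 : YC e θ π' ζ k = opL (e k) (cD U' (fun i =>
        Complex.exp (ζ * ((θ k * g' i : ℝ) : ℂ)))) := by
      rw [YC, hπ', Function.update_self]
    rw [vC, ← hζ, hr, prR_split, prR, mulVec_mulVec, mulVec_mulVec, e4, e5, e6, Matrix.mul_assoc]
  rw [FC, FC, hpen, hv'] at hmaxi
  linarith

/-- **Maximisers are functions of the reduced states.** -/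
theorem tc_form (e : ∀ k, N ≃ α k × β k)
    (hcomm : ∀ j k, j ≤ k → ∀ (Y : Matrix (α k) (α k) ℂ) (S : Matrix (β j) (β j) ℂ),
      opL (e k) Y * opR (e j) S = opR (e j) S * opL (e k) Y)
    {θ κ a b : ℕ → ℝ} (hθ : ∀ k, 0 < θ k) (hκ : ∀ k, 0 < κ k) {c : ℂ} (hc : c.re = 1)
    {φ : ℝ → N → ℂ} (n : ℕ) {t : ℝ} (ht : 0 < t) (hφ : 0 < nsq (φ t))
    {π : ∀ k, Par α k} (hπ : π ∈ FeasC α a b)
    (hmax : ∀ π' ∈ FeasC α a b, FC e θ κ c φ n t π' ≤ FC e θ κ c φ n t π) :
    ∀ k < n, HasFormC e κ a b (nzv (vC e θ c φ n t π)) π k := by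
  intro k
  induction k using Nat.strong_induction_on with
  | _ k ih =>
  intro hk
  have hf : ∀ j < k, HasFormC e κ a b (nzv (vC e θ c φ n t π)) π j :=
    fun j hj => ih j hj (hj.trans hk)
  have hv := vC_pos e θ c n hφ hπ
  obtain ⟨w, hw, hcmp⟩ := tc_compare e θ κ a b c φ n t hπ hmax hk
  set v := vC e θ c φ n t π with hvdef
  set ζ : ℂ := (t : ℂ) * c with hζ
  have hζre : ζ.re = t := by rw [hζ, Complex.re_ofReal_mul, hc, mul_one]
  set U := (π k).1 with hUdef
  set g := (π k).2 with hgdef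
  have hU : U * Uᴴ = 1 := (hπ k).1
  have hg : ∀ i, a k ≤ g i ∧ g i ≤ b k := (hπ k).2
  set Y := cD U (fun i => Complex.exp (ζ * ((θ k * g i : ℝ) : ℂ))) with hY
  set Yi := cD U (fun i => Complex.exp (-ζ * ((θ k * g i : ℝ) : ℂ))) with hYi
  have hYYi : Y * Yi = 1 := cD_exp_inv hU ζ (fun i => θ k * g i)
  have hYiY : Yi * Y = 1 := mul_eq_one_comm.mp hYYi
  have hYC : YC e θ π ζ k = opL (e k) Y := rfl
  set x := nzv v ∘ (e k).symm with hx
  set ρ := redA x with hρ
  have hρh : ρᴴ = ρ := redA_isHermitian x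
  -- rotations
  have hrot : ∀ u : α k → ℂ, nsq u = 1 → (star u ⬝ᵥ ((Yi * ρ * Y) *ᵥ u)).im = 0 := by
    intro u hu
    have hu0 : 0 < nsq u := by rw [hu]; exact one_pos
    set P := prV u with hP
    have hPP : P * P = P := prV_sq hu0
    have hPh : Pᴴ = P := prV_herm u
    have hMD : MD (fun s => rotP P s * Y * (rotP P s)ᴴ) (Complex.I • (P * Y - Y * P)) 0 := by
      have h1 := MD_mul (MD_mul (MD_rotP P) (MD_const Y 0)) (MD_rotP_star hPh)
      have h2 : (Complex.I • P * Y + rotP P 0 * 0) * (rotP P 0)ᴴ +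
          rotP P 0 * Y * -(Complex.I • P) = Complex.I • (P * Y - Y * P) := by
        rw [rotP_zero, conjTranspose_one, Matrix.mul_zero, add_zero, Matrix.mul_one, Matrix.one_mul,
          Matrix.mul_neg, Matrix.smul_mul, Matrix.mul_smul, smul_sub, sub_eq_add_neg]
      rw [h2] at h1
      exact h1
    have hd := tc_dlog e hcomm θ κ a b ζ hv hπ k hf w hw (fun s => rotP P s * Y * (rotP P s)ᴴ) _
      hMD (by rw [rotP_zero, conjTranspose_one, Matrix.one_mul, Matrix.mul_one, hYC])
    have hloc : IsLocalMax (fun s => Real.log (nsq (prR (YC e θ π ζ) k *ᵥ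
        (opL (e k) (rotP P s * Y * (rotP P s)ᴴ) *ᵥ w)))) 0 := by
      refine Filter.Eventually.of_forall fun s => ?_
      have h1 := hcmp (rotP P s * U) g (by
        rw [conjTranspose_mul]
        calc rotP P s * U * (Uᴴ * (rotP P s)ᴴ) = rotP P s * (U * Uᴴ) * (rotP P s)ᴴ := by
              simp only [Matrix.mul_assoc]
          _ = 1 := by rw [hU, Matrix.mul_one, rotP_unit hPP hPh]) hg
      rw [cD_rot] at h1
      show Real.log (nsq (prR (YC e θ π ζ) k *ᵥ
        (opL (e k) (rotP P s * Y * (rotP P s)ᴴ) *ᵥ w))) ≤ Real.log (nsq (prR (YC e θ π ζ) k *ᵥ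
        (opL (e k) (rotP P 0 * Y * (rotP P 0)ᴴ) *ᵥ w)))
      rw [rotP_zero, conjTranspose_one, Matrix.one_mul, Matrix.mul_one, ← hYC, ← hw]
      linarith
    have h0 := hloc.hasDerivAt_eq_zero hd
    have h1 : (ρ * (Complex.I • (P * Y - Y * P) * Yi)).trace =
        Complex.I * ((star u ⬝ᵥ (ρ *ᵥ u)) - (star u ⬝ᵥ ((Yi * ρ * Y) *ᵥ u))) := by
      have h2 : ρ * (Complex.I • (P * Y - Y * P) * Yi) = Complex.I • (ρ * P - ρ * Y * P * Yi) := by
        rw [Matrix.smul_mul, Matrix.mul_smul, Matrix.sub_mul, Matrix.mul_sub]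
        congr 2
        · rw [Matrix.mul_assoc P, hYYi, Matrix.mul_one]
        · simp only [Matrix.mul_assoc]
      rw [h2, Matrix.trace_smul, Matrix.trace_sub, smul_eq_mul]
      congr 2
      · rw [hP, trace_mul_prV, hu, inv_one, Complex.ofReal_one, one_mul]
      · have h3 : (ρ * Y * P * Yi).trace = ((Yi * ρ * Y) * P).trace := by
          rw [Matrix.trace_mul_comm]
          simp only [Matrix.mul_assoc]
        rw [h3, hP, trace_mul_prV, hu, inv_one, Complex.ofReal_one, one_mul]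
    have h2 : (star u ⬝ᵥ (ρ *ᵥ u)).im = 0 := by
      have h3 : star (star u ⬝ᵥ (ρ *ᵥ u)) = star u ⬝ᵥ (ρ *ᵥ u) := by
        rw [← star_dotProduct, ip_mulVec, hρh]
      rw [RCLike.star_def] at h3
      exact Complex.conj_eq_iff_im.mp h3
    rw [h1] at h0
    simp only [Complex.mul_re, Complex.I_re, Complex.I_im, zero_mul, one_mul, zero_sub,
      Complex.sub_im, h2] at h0
    linarith
  have hherm := tc_herm_of_im _ hrot
  have hYY : Y * Yᴴ = cD U (fun i => ((Real.exp (2 * t * (θ k * g i)) : ℝ) : ℂ)) := by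
    rw [hY, cD_conjTranspose, cD_mul hU]
    congr 1
    funext i
    rw [RCLike.star_def, Complex.mul_conj, Complex.normSq_eq_norm_sq, Complex.norm_exp,
      Complex.re_mul_ofReal, hζre, ← Real.exp_nat_mul]
    congr 2
    push_cast
    ring
  have hcommρ : Y * Yᴴ * ρ = ρ * (Y * Yᴴ) := by
    rw [conjTranspose_mul, conjTranspose_mul, hρh] at hherm
    have h1 : Yiᴴ * Yᴴ = 1 := by rw [← conjTranspose_mul, hYYi, conjTranspose_one]
    calc Y * Yᴴ * ρ = Y * (Yᴴ * (ρ * Yiᴴ)) * Yᴴ := by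
          simp only [Matrix.mul_assoc]
          rw [h1, Matrix.mul_one]
      _ = Y * (Yi * ρ * Y) * Yᴴ := by rw [hherm]
      _ = (Y * Yi) * ρ * (Y * Yᴴ) := by simp only [Matrix.mul_assoc]
      _ = _ := by rw [hYYi, Matrix.one_mul]
  -- functions of the tilt commute with the reduced state
  have hcommF : ∀ F : ℝ → ℂ, cD U (fun i => F (Real.exp (2 * t * (θ k * g i)))) * ρ =
      ρ * cD U (fun i => F (Real.exp (2 * t * (θ k * g i)))) := by
    intro F
    exact cD_intertwine hU hU (fun i => Real.exp (2 * t * (θ k * g i)))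
      (fun i => Real.exp (2 * t * (θ k * g i))) ρ (by rw [← hYY, hcommρ]) F
  set V := eigU x with hV
  have hV1 : V * Vᴴ = 1 := eigU_mul x
  set p := eigp x with hp
  have hρV : ρ = cD V (fun i => (p i : ℂ)) := redA_spec x
  have htθ : 0 < t * θ k := mul_pos ht (hθ k)
  -- eigenvalues
  have hmain : ∀ i j, (Uᴴ * V) i j ≠ 0 → clipC (κ k) (a k) (b k) (p j) = g i := by
    intro i j hij
    set c0 := g i with hc0
    set Pi0 := cD U (fun l => if g l = c0 then 1 else 0) with hPi0
    have hPiρ : Pi0 * ρ = ρ * Pi0 := by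
      have h1 := hcommF (fun r => if r = Real.exp (2 * t * (θ k * c0)) then 1 else 0)
      have h2 : (fun l => if Real.exp (2 * t * (θ k * g l)) = Real.exp (2 * t * (θ k * c0))
          then (1 : ℂ) else 0) = fun l => if g l = c0 then 1 else 0 := by
        funext l
        have h3 : (Real.exp (2 * t * (θ k * g l)) = Real.exp (2 * t * (θ k * c0))) ↔ g l = c0 := by
          rw [Real.exp_eq_exp]
          constructor
          · intro h4
            have h5 : t * θ k * (g l - c0) = 0 := by linarith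
            rcases mul_eq_zero.mp h5 with h6 | h6
            · exact absurd h6 htθ.ne'
            · linarith
          · intro h4
            rw [h4]
        simp only [h3]
      rw [h2] at h1
      exact h1
    set y := Pi0 *ᵥ (fun m => V m j) with hy
    have hUU : Uᴴ * U = 1 := mul_eq_one_comm.mp hU
    have hyne : (Uᴴ *ᵥ y) i = (Uᴴ * V) i j := by
      rw [hy, mulVec_mulVec, hPi0, cD]
      have h1 : Uᴴ * (U * diagonal (fun l => if g l = c0 then (1 : ℂ) else 0) * Uᴴ) =
          diagonal (fun l => if g l = c0 then (1 : ℂ) else 0) * Uᴴ := by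
        calc Uᴴ * (U * diagonal (fun l => if g l = c0 then (1 : ℂ) else 0) * Uᴴ) =
            (Uᴴ * U) * diagonal (fun l => if g l = c0 then (1 : ℂ) else 0) * Uᴴ := by
              simp only [Matrix.mul_assoc]
          _ = _ := by rw [hUU, Matrix.one_mul]
      rw [h1, ← mulVec_mulVec, mulVec_diagonal, if_pos hc0.symm, one_mul]
      rfl
    have hy0 : 0 < nsq y := by
      rcases (nsq_nonneg' y).lt_or_eq with h | h
      · exact h
      · exfalso
        have h1 : y = 0 := by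
          funext s
          have h2 : ∀ s ∈ (Finset.univ : Finset (α k)), ‖y s‖ ^ 2 = 0 :=
            (Finset.sum_eq_zero_iff_of_nonneg (fun i _ => sq_nonneg _)).mp h.symm
          have h3 := h2 s (Finset.mem_univ s)
          simpa using h3
        rw [h1, mulVec_zero] at hyne
        exact hij hyne.symm
    have hVj : ρ *ᵥ (fun m => V m j) = (p j : ℂ) • (fun m => V m j) := by
      have h1 : ρ * V = V * diagonal (fun i => (p i : ℂ)) := by
        have h2 : Vᴴ * V = 1 := mul_eq_one_comm.mp hV1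
        rw [hρV, cD, Matrix.mul_assoc, h2, Matrix.mul_one]
      funext m
      have h2 := congrFun (congrFun h1 m) j
      rw [mul_diagonal] at h2
      rw [Pi.smul_apply, smul_eq_mul, mul_comm]
      exact h2
    have hρy : ρ *ᵥ y = (p j : ℂ) • y := by
      rw [hy, mulVec_mulVec, ← hPiρ, ← mulVec_mulVec, hVj, mulVec_smul]
    have hGy : cD U (fun i => (g i : ℂ)) *ᵥ y = (c0 : ℂ) • y := by
      rw [hy, mulVec_mulVec, hPi0, cD_mul hU]
      have h1 : (fun l => (g l : ℂ) * (if g l = c0 then (1 : ℂ) else 0)) =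
          fun l => (c0 : ℂ) * (if g l = c0 then (1 : ℂ) else 0) := by
        funext l
        by_cases h : g l = c0
        · rw [if_pos h, h]
        · rw [if_neg h, mul_zero, mul_zero]
      rw [h1]
      have h2 : cD U (fun l => (c0 : ℂ) * (if g l = c0 then (1 : ℂ) else 0)) =
          (c0 : ℂ) • cD U (fun l => if g l = c0 then (1 : ℂ) else 0) := by
        have h3 := cD_mul hU (fun _ => (c0 : ℂ)) (fun l => if g l = c0 then (1 : ℂ) else 0)
        rw [cD_const hU, Matrix.smul_mul, Matrix.one_mul] at h3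
        exact h3.symm
      rw [h2, smul_mulVec]
    set P := prV y with hP
    have hPP : P * P = P := prV_sq hy0
    have hPh : Pᴴ = P := prV_herm y
    have htr : P.trace = 1 := trace_prV hy0
    have hGP : cD U (fun i => (g i : ℂ)) * P = (c0 : ℂ) • P := mul_prV_of_eig hGy
    have hρP : ρ * P = (p j : ℂ) • P := mul_prV_of_eig hρy
    set E0 : ℂ := Complex.exp (ζ * ((θ k * c0 : ℝ) : ℂ)) with hE0
    have hMD : MD (fun s => Y + (Complex.exp (ζ * ((θ k * (c0 + s) : ℝ) : ℂ)) - E0) • P)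
        ((ζ * (θ k : ℂ) * E0) • P) 0 := by
      intro l m
      have h1 : HasDerivAt (fun s : ℝ => Complex.exp (ζ * ((θ k * (c0 + s) : ℝ) : ℂ)))
          (ζ * (θ k : ℂ) * E0) 0 := by
        have h2 : HasDerivAt (fun z : ℂ => Complex.exp (ζ * ((θ k : ℂ) * ((c0 : ℂ) + z))))
            (ζ * (θ k : ℂ) * E0) ((0 : ℝ) : ℂ) := by
          have h3 : HasDerivAt (fun z : ℂ => ζ * ((θ k : ℂ) * ((c0 : ℂ) + z)))
              (ζ * ((θ k : ℂ) * 1)) ((0 : ℝ) : ℂ) :=
            (((hasDerivAt_id _).const_add _).const_mul _).const_mul _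
          have h4 := h3.cexp
          refine h4.congr_deriv ?_
          rw [hE0]
          push_cast
          rw [add_zero]
          ring
        have h5 := h2.comp_ofReal
        have h6 : (fun s : ℝ => Complex.exp (ζ * ((θ k * (c0 + s) : ℝ) : ℂ))) =
            fun s : ℝ => Complex.exp (ζ * ((θ k : ℂ) * ((c0 : ℂ) + (s : ℂ)))) := by
          funext s
          push_cast
          rfl
        rw [h6]
        exact h5
      exact ((h1.sub_const E0).mul_const (P l m)).const_add (Y l m)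
    have hZ0 : opL (e k) (Y + (Complex.exp (ζ * ((θ k * (c0 + 0) : ℝ) : ℂ)) - E0) • P) =
        YC e θ π ζ k := by
      rw [add_zero, ← hE0, sub_self, zero_smul, add_zero, hYC]
    have hd := tc_dlog e hcomm θ κ a b ζ hv hπ k hf w hw
      (fun s => Y + (Complex.exp (ζ * ((θ k * (c0 + s) : ℝ) : ℂ)) - E0) • P) _ hMD hZ0
    have hPYi : P * Yi = Complex.exp (-ζ * ((θ k * c0 : ℝ) : ℂ)) • P :=
      cD_scale' hU g c0 hPh hGP (fun r => Complex.exp (-ζ * ((θ k * r : ℝ) : ℂ)))
    have htrace : (ρ * ((ζ * (θ k : ℂ) * E0) • P * Yi)).trace = ζ * ((θ k * p j : ℝ) : ℂ) := by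
      rw [Matrix.smul_mul, hPYi, smul_smul, Matrix.mul_smul, hρP, smul_smul, Matrix.trace_smul, htr,
        smul_eq_mul, mul_one]
      have h1 : E0 * Complex.exp (-ζ * ((θ k * c0 : ℝ) : ℂ)) = 1 := by
        rw [hE0, ← Complex.exp_add]
        have : ζ * ((θ k * c0 : ℝ) : ℂ) + -ζ * ((θ k * c0 : ℝ) : ℂ) = 0 := by ring
        rw [this, Complex.exp_zero]
      rw [mul_assoc (ζ * (θ k : ℂ)), h1]
      push_cast
      ring
    have hd2 : HasDerivAt (fun s : ℝ => Real.log (nsq (prR (YC e θ π ζ) k *ᵥ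
        (opL (e k) (Y + (Complex.exp (ζ * ((θ k * (c0 + s) : ℝ) : ℂ)) - E0) • P) *ᵥ w))) -
        t * (2 * θ k * κ k * (∑ i, Real.exp (g i) + (Real.exp (c0 + s) - Real.exp c0))))
        (2 * (t * θ k) * (p j - κ k * Real.exp c0)) 0 := by
      have h1 : HasDerivAt (fun s : ℝ => t * (2 * θ k * κ k * (∑ i, Real.exp (g i) +
          (Real.exp (c0 + s) - Real.exp c0)))) (t * (2 * θ k * κ k * Real.exp c0)) 0 := by
        have h2 : HasDerivAt (fun s : ℝ => Real.exp (c0 + s)) (Real.exp c0) 0 := by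
          have h3 : HasDerivAt (fun s : ℝ => c0 + s) 1 0 := (hasDerivAt_id _).const_add _
          have h4 := h3.exp
          simpa using h4
        exact (((h2.sub_const _).const_add _).const_mul _).const_mul _
      have h5 := hd.sub h1
      refine h5.congr_deriv ?_
      rw [htrace, Complex.re_mul_ofReal, hζre]
      ring
    have hval : ∀ s : ℝ, a k ≤ c0 + s → c0 + s ≤ b k →
        (fun s : ℝ => Real.log (nsq (prR (YC e θ π ζ) k *ᵥ
        (opL (e k) (Y + (Complex.exp (ζ * ((θ k * (c0 + s) : ℝ) : ℂ)) - E0) • P) *ᵥ w))) -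
        t * (2 * θ k * κ k * (∑ i, Real.exp (g i) + (Real.exp (c0 + s) - Real.exp c0)))) s ≤
        (fun s : ℝ => Real.log (nsq (prR (YC e θ π ζ) k *ᵥ
        (opL (e k) (Y + (Complex.exp (ζ * ((θ k * (c0 + s) : ℝ) : ℂ)) - E0) • P) *ᵥ w))) -
        t * (2 * θ k * κ k * (∑ i, Real.exp (g i) + (Real.exp (c0 + s) - Real.exp c0)))) 0 := by
      intro s hs1 hs2
      obtain ⟨U', g', hU', hg', hF⟩ := exists_shift hU hg hPP hPh hGP (hg i).1 (hg i).2 hs1 hs2
      have h1 := hcmp U' g' hU' hg'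
      rw [hF (fun r => Complex.exp (ζ * ((θ k * r : ℝ) : ℂ)))] at h1
      have h2 : ∑ i, Real.exp (g' i) = ∑ i, Real.exp (g i) + (Real.exp (c0 + s) - Real.exp c0) := by
        have h3 := congrArg Matrix.trace (hF (fun r => ((Real.exp r : ℝ) : ℂ)))
        rw [Matrix.trace_add, Matrix.trace_smul, cD_trace hU', cD_trace hU, htr, smul_eq_mul,
          mul_one] at h3
        exact_mod_cast h3
      rw [h2] at h1
      show Real.log (nsq (prR (YC e θ π ζ) k *ᵥ
        (opL (e k) (Y + (Complex.exp (ζ * ((θ k * (c0 + s) : ℝ) : ℂ)) - E0) • P) *ᵥ w))) -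
        t * (2 * θ k * κ k * (∑ i, Real.exp (g i) + (Real.exp (c0 + s) - Real.exp c0))) ≤
        Real.log (nsq (prR (YC e θ π ζ) k *ᵥ
        (opL (e k) (Y + (Complex.exp (ζ * ((θ k * (c0 + 0) : ℝ) : ℂ)) - E0) • P) *ᵥ w))) -
        t * (2 * θ k * κ k * (∑ i, Real.exp (g i) + (Real.exp (c0 + 0) - Real.exp c0)))
      rw [hZ0, ← hw, add_zero, sub_self, add_zero]
      exact h1
    refine clipC_of (hκ k) (hg i).1 (hg i).2 ?_ ?_
    · intro hlt
      have h1 := tc_deriv_nonpos hd2 (δ := b k - c0) (by linarith) (fun s hs0 hs1 =>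
        hval s (by linarith [(hg i).1]) (by linarith))
      have h2 : p j - κ k * Real.exp c0 ≤ 0 := by
        by_contra hcon
        push Not at hcon
        have := mul_pos (mul_pos two_pos htθ) hcon
        linarith
      linarith
    · intro hlt
      have h1 := tc_deriv_nonneg hd2 (δ := c0 - a k) (by linarith) (fun s hs0 hs1 =>
        hval s (by linarith) (by linarith [(hg i).2]))
      have h2 : 0 ≤ p j - κ k * Real.exp c0 := by
        by_contra hcon
        push Not at hcon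
        have := mul_neg_of_pos_of_neg (mul_pos two_pos htθ) hcon
        linarith
      linarith
  intro F
  rw [cOp_eq_cD]
  refine cD_eq_of_entries hU hV1 fun i j hij => ?_
  show F (g i) = F (clipC (κ k) (a k) (b k) (p j))
  rw [hmain i j hij]

end var

end Vale.Agent.P356.GA
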