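import Vale.Agent.P356.GA.CondExp677

/-!
# GA (helper677): martingale decomposition of an operator over the sites

For an injective numbering `e` of the sites, `Dx e x A = E_{≥ e x} A - E_{> e x} A`. The sum over
the sites is `A` minus a scalar, and `Dx e x A = 0` if `A` acts on a set which misses `x`.
-/

set_option linter.all false

namespace Vale.Agent.P356.GA.CE

open Matrix Finset Vale.Agent.P356 Vale.Agent.P356.SV Vale.Agent.P356.Path Vale.Agent.P356.PH
  Vale.Agent.P356.GA
open scoped BigOperators ComplexOrder Kronecker Matrix.Norms.L2Operator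

variable {V : Type*} [Fintype V] [DecidableEq V] {q : ℕ}

/-- the sites with number at least `n` -/
def upS (e : V → ℕ) (n : ℕ) : Finset V := Finset.univ.filter (fun x => n ≤ e x)

theorem mem_upS {e : V → ℕ} {n : ℕ} {x : V} : x ∈ upS e n ↔ n ≤ e x := by simp [upS]

theorem upS_zero (e : V → ℕ) : upS e 0 = Finset.univ := by
  ext x; simp [upS]

theorem upS_big {e : V → ℕ} {n : ℕ} (h : ∀ x, e x < n) : upS e n = ∅ := by
  ext x
  rw [mem_upS]
  have := h x
  simp
  omega

theorem upS_succ_of_not {e : V → ℕ} {n : ℕ} (h : ∀ x, e x ≠ n) : upS e (n + 1) = upS e n := by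
  ext x
  rw [mem_upS, mem_upS]
  have := h x
  omega

theorem upS_eq_insert {e : V → ℕ} (he : Function.Injective e) (x : V) :
    upS e (e x) = insert x (upS e (e x + 1)) := by
  ext y
  rw [mem_upS, Finset.mem_insert, mem_upS]
  constructor
  · intro h
    rcases h.eq_or_lt with h | h
    · exact Or.inl (he h.symm)
    · exact Or.inr h
  · rintro (rfl | h)
    · exact le_rfl
    · omega

/-- martingale difference at the site `x` -/
noncomputable def Dx (e : V → ℕ) (x : V) : Op V q →ₗ[ℂ] Op V q :=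
  tE (upS e (e x)) - tE (upS e (e x + 1))

theorem Dx_apply (e : V → ℕ) (x : V) (A : Op V q) :
    Dx e x A = tE (upS e (e x)) A - tE (upS e (e x + 1)) A := rfl

/-- the decomposition -/
theorem Dx_sum {e : V → ℕ} (he : Function.Injective e) (A : Op V q) :
    ∑ x, Dx e x A = A - tE ∅ A := by
  obtain ⟨N, hN⟩ : ∃ N, ∀ x, e x < N :=
    ⟨(Finset.univ.sup e) + 1, fun x => Nat.lt_succ_of_le (Finset.le_sup (f := e) (Finset.mem_univ x))⟩
  have h1 : ∑ n ∈ range N, (tE (upS e n) A - tE (upS e (n + 1)) A) = A - tE ∅ A := by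
    rw [Finset.sum_range_sub', upS_zero, tE_univ, upS_big hN]
  rw [← h1]
  have h2 : ∑ n ∈ range N, (tE (upS e n) A - tE (upS e (n + 1)) A) =
      ∑ n ∈ Finset.univ.image e, (tE (upS e n) A - tE (upS e (n + 1)) A) := by
    symm
    refine Finset.sum_subset ?_ ?_
    · intro n hn
      obtain ⟨x, _, rfl⟩ := Finset.mem_image.1 hn
      exact Finset.mem_range.2 (hN x)
    · intro n _ hn
      rw [upS_succ_of_not, sub_self]
      intro x hx
      exact hn (Finset.mem_image.2 ⟨x, Finset.mem_univ x, hx⟩)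
  rw [h2, Finset.sum_image fun x _ y _ h => he h]
  rfl

/-- the difference at `x` vanishes on operators which do not see `x` -/
theorem Dx_eq_zero {e : V → ℕ} (he : Function.Injective e) {x : V} {T : Finset V} {A : Op V q}
    (hA : ActsOn T A) (hx : x ∉ T) : Dx e x A = 0 := by
  rw [Dx_apply, upS_eq_insert he, tE_insert hA hx, sub_self]

theorem Dx_acts {e : V → ℕ} {x : V} {T : Finset V} {A : Op V q} (hA : ActsOn T A) :
    ActsOn T (Dx e x A) := by
  rw [Dx_apply]
  exact ph_acts_sub (ph_acts_mono Finset.inter_subset_right (tE_sub hA))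
    (ph_acts_mono Finset.inter_subset_right (tE_sub hA))

theorem Dx_norm (e : V → ℕ) (x : V) (A : Op V q) : ‖Dx e x A‖ ≤ 2 * ‖A‖ := by
  rw [Dx_apply]
  calc _ ≤ ‖tE (upS e (e x)) A‖ + ‖tE (upS e (e x + 1)) A‖ := norm_sub_le _ _
    _ ≤ ‖A‖ + ‖A‖ := add_le_add (tE_norm _ _) (tE_norm _ _)
    _ = 2 * ‖A‖ := by ring

theorem Dx_herm {e : V → ℕ} {x : V} {A : Op V q} (hA : A.IsHermitian) :
    (Dx e x A).IsHermitian := (tE_herm hA).sub (tE_herm hA)

theorem Dx_one {e : V → ℕ} (x : V) : Dx e x (1 : Op V q) = 0 := by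
  rw [Dx_apply, tE_one, tE_one, sub_self]

/-- the difference at `x` only sees how far `A` is from operators which miss `x` -/
theorem Dx_le {e : V → ℕ} (he : Function.Injective e) {x : V} {T : Finset V} {A B : Op V q}
    (hB : ActsOn T B) (hx : x ∉ T) : ‖Dx e x A‖ ≤ 2 * ‖A - B‖ := by
  have h : Dx e x A = Dx e x (A - B) := by
    rw [map_sub, Dx_eq_zero he hB hx, sub_zero]
  rw [h]
  exact Dx_norm e x _

/-- an injective numbering exists -/
theorem exists_num (V : Type*) [Fintype V] : ∃ e : V → ℕ, Function.Injective e := by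
  classical
  exact ⟨fun x => (Fintype.equivFin V x : ℕ), fun x y h =>
    (Fintype.equivFin V).injective (Fin.ext h)⟩

/-- **Exactly local decomposition.** Let `∑ M z = ∑ h X - E` where the `h X` act on `X`, and let
`MF z` be operators acting on `B z` (approximations of the `M z`). There are scalars such that
`T z = MF z + D_z (∑ (M - MF))` satisfies `∑ T z = ∑ h X - c`, `T z` is Hermitian and acts on
every set which contains `B z`, all `X ∋ z` and all `B z' ∋ z`. -/
theorem local_split {ι : Type*} [DecidableEq ι] {e : V → ℕ} (he : Function.Injective e)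
    (s : Finset ι) (X : ι → Finset V) (h : ι → Op V q) (hX : ∀ i ∈ s, ActsOn (X i) (h i))
    (hh : ∀ i ∈ s, (h i).IsHermitian) (M MF : V → Op V q) (B : V → Finset V) (E : ℝ)
    (hM : ∑ z, M z = ∑ i ∈ s, h i - (E : ℂ) • 1) (hMh : ∀ z, (M z).IsHermitian)
    (hF : ∀ z, ActsOn (B z) (MF z)) (hFh : ∀ z, (MF z).IsHermitian) :
    ∃ c : ℝ, ∑ z, (MF z + Dx e z (∑ z', (M z' - MF z'))) = ∑ i ∈ s, h i - (c : ℂ) • 1 ∧
      (∀ z, (MF z + Dx e z (∑ z', (M z' - MF z'))).IsHermitian) ∧
      ∀ z (A : Finset V), B z ⊆ A → (∀ i ∈ s, z ∈ X i → X i ⊆ A) → (∀ z', z ∈ B z' → B z' ⊆ A) →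
        ActsOn A (MF z + Dx e z (∑ z', (M z' - MF z'))) := by
  have hsumh : (∑ z', (M z' - MF z')).IsHermitian := by
    refine isSelfAdjoint_sum _ fun z _ => ?_
    exact (hMh z).sub (hFh z)
  obtain ⟨c, hc⟩ := tE_empty_real hsumh
  refine ⟨E + c, ?_, ?_, ?_⟩
  · rw [Finset.sum_add_distrib, Dx_sum he, hc, Finset.sum_sub_distrib, hM]
    push_cast
    rw [add_smul]
    abel
  · intro z
    exact (hFh z).add (Dx_herm hsumh)
  · intro z A hB h1 h2
    refine ph_acts_add (ph_acts_mono hB (hF z)) ?_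
    have e1 : ∑ z', (M z' - MF z') = ∑ i ∈ s, h i - (E : ℂ) • 1 - ∑ z', MF z' := by
      rw [Finset.sum_sub_distrib, hM]
    rw [e1, map_sub, map_sub, map_smul, Dx_one, smul_zero, sub_zero, map_sum, map_sum]
    refine ph_acts_sub (ph_acts_sum _ fun i hi => ?_) (ph_acts_sum _ fun z' _ => ?_)
    · by_cases hz : z ∈ X i
      · exact ph_acts_mono (h1 i hi hz) (Dx_acts (hX i hi))
      · rw [Dx_eq_zero he (hX i hi) hz]
        exact ph_acts_zero _
    · by_cases hz : z ∈ B z'
      · exact ph_acts_mono (h2 z' hz) (Dx_acts (hF z'))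
      · rw [Dx_eq_zero he (hF z') hz]
        exact ph_acts_zero _

/-- norm of the correction -/
theorem local_rem_le {e : V → ℕ} (he : Function.Injective e) (M MF : V → Op V q) (z : V)
    (b : V → ℝ) (hb : ∀ z', ‖M z' - MF z'‖ ≤ b z' ∨ ∃ (T : Finset V) (N : Op V q), ActsOn T N ∧
      z ∉ T ∧ ‖(M z' - MF z') - N‖ ≤ b z') :
    ‖Dx e z (∑ z', (M z' - MF z'))‖ ≤ ∑ z', 2 * b z' := by
  rw [map_sum]
  refine (norm_sum_le _ _).trans (Finset.sum_le_sum fun z' _ => ?_)
  rcases hb z' with h | ⟨T, N, hN, hz, h⟩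
  · exact (Dx_norm e z _).trans (by linarith)
  · exact (Dx_le he hN hz).trans (by linarith)

end Vale.Agent.P356.GA.CE
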