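import Vale.Agent.P356.GA.Crude621
import Vale.Agent.P356.GA.GdFacts103
import Vale.Agent.P356.PH.Act
import Vale.Agent.P356.GA.DblGap932

/-!
# GA, block E6 TERMS (helper412): energy of the tilted states from the local terms

* `terms_energy`: the energy identity where only the near terms (those with a non constant flow)
  enter the third order error; `QF_terms_le`, `terms_crude`: second order and crude bound.
* `Terms412.*`: the local terms of `cp1 H' + cp2 H'`, `H' = ∑ X, h X + Λ ∑ z ∈ Z, (1 - P z)`; the far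
  terms have constant flow, the norms of the near ones sum to at most
  `2 (NR R * J * |zone| + Λ |Z|)`; `e6_energy`, `e6_form`, `e6_crude`.
-/

set_option linter.all false

namespace Vale.Agent.P356.GA

open Matrix Finset Vale.Agent.P356 Vale.Agent.P356.SV Vale.Agent.P356.Path Vale.Agent.P356.SA
open scoped BigOperators ComplexOrder Kronecker Matrix.Norms.L2Operator

section tstate
variable {N : Type} [Fintype N] [DecidableEq N] {α β : ℕ → Type}
  [∀ k, Fintype (α k)] [∀ k, DecidableEq (α k)] [∀ k, Fintype (β k)] [∀ k, DecidableEq (β k)]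
  {ι : Type*} [Fintype ι]

/-- only the near terms count in the second order form -/
theorem QF_terms_near {ψ : N → ℂ} {e : ∀ k, N ≃ α k × β k} {g : ∀ k, α k → ℝ} {n : ℕ}
    {K : ι → Matrix N N ℂ} {c : (ℕ → ℝ) × (ι → ℝ)} {κ : Type*} [DecidableEq κ] {s near : Finset κ}
    (hns : near ⊆ s) {T : κ → Matrix N N ℂ}
    (hfar : ∀ i ∈ s, i ∉ near → ∀ z : ℂ,
      fQ ψ (Gen e ψ g n K) (n + 1) (T i) c z = star ψ ⬝ᵥ (T i *ᵥ ψ)) :
    QF ψ (Gen e ψ g n K) (n + 1) (∑ i ∈ s, T i) c =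
      ∑ i ∈ near, QF ψ (Gen e ψ g n K) (n + 1) (T i) c := by
  rw [QF_sum, ← Finset.sum_sdiff hns, Finset.sum_eq_zero, zero_add]
  intro i hi
  rw [Finset.mem_sdiff] at hi
  exact QF_const (hfar i hi.1 hi.2)

/-- **Energy identity**: only the near terms enter the error. -/
theorem terms_energy {e : ∀ k, N ≃ α k × β k} {θ : ℕ → ℝ} {M : ℝ} {Ω : N → ℂ}
    {n : ℕ} {t τ : ℝ} {ψ : N → ℂ} {K : ι → Matrix N N ℂ} (hK : ∀ b, (K b).IsHermitian)
    {γ : ι → ℝ} (h : TState e θ M (GamK K γ) Ω (1 + τ * Complex.I) n t ψ)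
    {κ : Type*} [DecidableEq κ] {s near : Finset κ} (hns : near ⊆ s) {T : κ → Matrix N N ℂ}
    (hT : ∀ i ∈ s, (T i).IsHermitian) {E : ℝ}
    (hE : (∑ i ∈ s, T i) *ᵥ Ω = (E : ℂ) • Ω)
    (hfar : ∀ i ∈ s, i ∉ near → ∀ z : ℂ,
      fQ ψ (Gen e ψ (gC e ψ M) n K) (n + 1) (T i) (θ, γ) z = star ψ ⬝ᵥ (T i *ᵥ ψ))
    {r : ℝ} {B : κ → ℝ} (hr : 0 < r)
    (hB : ∀ i ∈ near, ∀ z : ℂ, ‖z‖ ≤ r →
      ‖fQ ψ (Gen e ψ (gC e ψ M) n K) (n + 1) (T i) (θ, γ) z‖ ≤ B i)
    (hs : ‖(t : ℂ) * (1 + τ * Complex.I)‖ ≤ r / 2) :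
    |(star ψ ⬝ᵥ ((∑ i ∈ s, T i) *ᵥ ψ)).re - E -
        t ^ 2 * (1 + τ ^ 2) * QF ψ (Gen e ψ (gC e ψ M) n K) (n + 1) (∑ i ∈ s, T i) (θ, γ)| ≤
      (1 + |τ|) * (2 * (∑ i ∈ near, B i) * (‖(t : ℂ) * (1 + τ * Complex.I)‖ / r) ^ 3) := by
  classical
  set F := ∑ i ∈ s \ near, (star ψ ⬝ᵥ (T i *ᵥ ψ)).re with hF
  have hsub : ∀ i ∈ s \ near, i ∈ s ∧ i ∉ near := fun i hi => Finset.mem_sdiff.1 hi
  have hre : ∀ i ∈ s \ near, star ψ ⬝ᵥ (T i *ᵥ ψ) = (((star ψ ⬝ᵥ (T i *ᵥ ψ)).re : ℝ) : ℂ) := by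
    intro i hi
    apply Complex.ext
    · rw [Complex.ofReal_re]
    · rw [Complex.ofReal_im]
      exact expL_herm (hT i (hsub i hi).1) ψ
  have htot := h.fQ_eig hE
  rw [fQ_sum, ← Finset.sum_sdiff hns] at htot
  have hfs : ∀ z : ℂ, ∑ i ∈ s \ near,
      fQ ψ (Gen e ψ (gC e ψ M) n K) (n + 1) (T i) (θ, γ) z = (F : ℂ) := by
    intro z
    rw [hF, Complex.ofReal_sum]
    refine Finset.sum_congr rfl fun i hi => ?_
    rw [hfar i (hsub i hi).1 (hsub i hi).2, ← hre i hi]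
  rw [hfs] at htot
  have hnear : fQ ψ (Gen e ψ (gC e ψ M) n K) (n + 1) (∑ i ∈ near, T i) (θ, γ)
      ((t : ℂ) * (1 + τ * Complex.I)) = ((E - F : ℝ) : ℂ) := by
    rw [fQ_sum]
    push_cast
    linear_combination htot
  have h1 := energy_form' (fun k _ => Gen_herm e ψ _ n hK k _) near
    (fun i hi => hT i (hns hi)) hnear (R := fun _ => r) (M := B) (fun _ _ => hr) hB
    (fun _ _ => hs)
  have e1 : QF ψ (Gen e ψ (gC e ψ M) n K) (n + 1) (∑ i ∈ near, T i) (θ, γ) =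
      QF ψ (Gen e ψ (gC e ψ M) n K) (n + 1) (∑ i ∈ s, T i) (θ, γ) := by
    rw [QF_terms_near hns hfar, QF_sum]
  have e2 : (star ψ ⬝ᵥ ((∑ i ∈ s, T i) *ᵥ ψ)).re =
      F + (star ψ ⬝ᵥ ((∑ i ∈ near, T i) *ᵥ ψ)).re := by
    rw [← Finset.sum_sdiff hns, add_mulVec, dotProduct_add, Complex.add_re, hF, sum_mulVec,
      dotProduct_sum, Complex.re_sum]
  rw [e1] at h1
  have e3 : (star ψ ⬝ᵥ ((∑ i ∈ s, T i) *ᵥ ψ)).re - E -
        t ^ 2 * (1 + τ ^ 2) * QF ψ (Gen e ψ (gC e ψ M) n K) (n + 1) (∑ i ∈ s, T i) (θ, γ) =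
      (star ψ ⬝ᵥ ((∑ i ∈ near, T i) *ᵥ ψ)).re - (E - F) -
        t ^ 2 * (1 + τ ^ 2) * QF ψ (Gen e ψ (gC e ψ M) n K) (n + 1) (∑ i ∈ s, T i) (θ, γ) := by
    rw [e2]; ring
  rw [e3]
  refine h1.trans (le_of_eq ?_)
  congr 1
  rw [Finset.mul_sum, Finset.sum_mul]

/-- second order form, crude -/
theorem QF_terms_le {ψ : N → ℂ} {e : ∀ k, N ≃ α k × β k} {g : ∀ k, α k → ℝ} {n : ℕ}
    {K : ι → Matrix N N ℂ} {c : (ℕ → ℝ) × (ι → ℝ)} {κ : Type*} [DecidableEq κ] {s near : Finset κ}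
    (hns : near ⊆ s) {T : κ → Matrix N N ℂ}
    (hfar : ∀ i ∈ s, i ∉ near → ∀ z : ℂ,
      fQ ψ (Gen e ψ g n K) (n + 1) (T i) c z = star ψ ⬝ᵥ (T i *ᵥ ψ))
    {r : ℝ} {B : κ → ℝ} (hr : 0 < r)
    (hB : ∀ i ∈ near, ∀ z : ℂ, ‖z‖ ≤ r → ‖fQ ψ (Gen e ψ g n K) (n + 1) (T i) c z‖ ≤ B i) :
    |QF ψ (Gen e ψ g n K) (n + 1) (∑ i ∈ s, T i) c| ≤ (∑ i ∈ near, B i) / r ^ 2 := by
  rw [QF_terms_near hns hfar, Finset.sum_div]
  refine (Finset.abs_sum_le_sum_abs _ _).trans (Finset.sum_le_sum fun i hi => ?_)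
  exact QF_cauchy hr (hB i hi)

theorem norm_tc (t τ : ℝ) : ‖(t : ℂ) * (1 + τ * Complex.I)‖ ^ 2 = t ^ 2 * (1 + τ ^ 2) := by
  rw [← Complex.normSq_eq_norm_sq, Complex.normSq_apply]
  simp only [Complex.mul_re, Complex.mul_im, Complex.ofReal_re, Complex.ofReal_im, Complex.add_re,
    Complex.add_im, Complex.one_re, Complex.one_im, Complex.I_re, Complex.I_im]
  ring

/-- **Crude bound** of the energy of every tilted state. -/
theorem terms_crude {e : ∀ k, N ≃ α k × β k} {θ : ℕ → ℝ} {M : ℝ} {Ω : N → ℂ}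
    {n : ℕ} {t τ : ℝ} {ψ : N → ℂ} {K : ι → Matrix N N ℂ} (hK : ∀ b, (K b).IsHermitian)
    {γ : ι → ℝ} (h : TState e θ M (GamK K γ) Ω (1 + τ * Complex.I) n t ψ)
    {κ : Type*} [DecidableEq κ] {s near : Finset κ} (hns : near ⊆ s) {T : κ → Matrix N N ℂ}
    (hT : ∀ i ∈ s, (T i).IsHermitian) {E : ℝ}
    (hE : (∑ i ∈ s, T i) *ᵥ Ω = (E : ℂ) • Ω)
    (hfar : ∀ i ∈ s, i ∉ near → ∀ z : ℂ,
      fQ ψ (Gen e ψ (gC e ψ M) n K) (n + 1) (T i) (θ, γ) z = star ψ ⬝ᵥ (T i *ᵥ ψ))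
    {r : ℝ} {B : κ → ℝ} (hr : 0 < r)
    (hB : ∀ i ∈ near, ∀ z : ℂ, ‖z‖ ≤ r →
      ‖fQ ψ (Gen e ψ (gC e ψ M) n K) (n + 1) (T i) (θ, γ) z‖ ≤ B i)
    (hs : ‖(t : ℂ) * (1 + τ * Complex.I)‖ ≤ r / 2) :
    |(star ψ ⬝ᵥ ((∑ i ∈ s, T i) *ᵥ ψ)).re - E| ≤
      (2 + |τ|) * (t ^ 2 * (1 + τ ^ 2)) * ((∑ i ∈ near, B i) / r ^ 2) := by
  have h1 := terms_energy hK h hns hT hE hfar hr hB hs
  have h2 := QF_terms_le hns hfar hr hB
  have hB0 : 0 ≤ ∑ i ∈ near, B i := Finset.sum_nonneg fun i hi =>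
    (norm_nonneg _).trans (hB i hi 0 (by rw [norm_zero]; exact hr.le))
  have hn := norm_tc t τ
  set a := ‖(t : ℂ) * (1 + τ * Complex.I)‖ with ha
  set S := ∑ i ∈ near, B i with hS
  set Q := QF ψ (Gen e ψ (gC e ψ M) n K) (n + 1) (∑ i ∈ s, T i) (θ, γ) with hQ
  set X := (star ψ ⬝ᵥ ((∑ i ∈ s, T i) *ᵥ ψ)).re - E with hX
  have ha0 : 0 ≤ a := norm_nonneg _
  have h3 : 2 * S * (a / r) ^ 3 ≤ a ^ 2 * (S / r ^ 2) := by
    have e1 : 2 * S * (a / r) ^ 3 = a ^ 2 * (S / r ^ 2) * (2 * (a / r)) := by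
      field_simp
    have h4 : 2 * (a / r) ≤ 1 := by
      rw [← mul_div_assoc, div_le_one hr]
      linarith
    rw [e1]
    have : 0 ≤ a ^ 2 * (S / r ^ 2) := by positivity
    nlinarith
  have h5 : |X| ≤ |X - t ^ 2 * (1 + τ ^ 2) * Q| + |t ^ 2 * (1 + τ ^ 2) * Q| := by
    have := abs_add_le (X - t ^ 2 * (1 + τ ^ 2) * Q) (t ^ 2 * (1 + τ ^ 2) * Q)
    rwa [sub_add_cancel] at this
  have h6 : |t ^ 2 * (1 + τ ^ 2) * Q| ≤ t ^ 2 * (1 + τ ^ 2) * (S / r ^ 2) := by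
    rw [abs_mul, abs_of_nonneg (by positivity : (0:ℝ) ≤ t ^ 2 * (1 + τ ^ 2))]
    exact mul_le_mul_of_nonneg_left h2 (by positivity)
  have h7 : (1 + |τ|) * (2 * S * (a / r) ^ 3) ≤ (1 + |τ|) * (a ^ 2 * (S / r ^ 2)) :=
    mul_le_mul_of_nonneg_left h3 (by positivity)
  rw [hn] at h7
  calc |X| ≤ (1 + |τ|) * (t ^ 2 * (1 + τ ^ 2) * (S / r ^ 2)) +
        t ^ 2 * (1 + τ ^ 2) * (S / r ^ 2) := h5.trans (add_le_add (h1.trans h7) h6)
    _ = _ := by ring

end tstate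

namespace Terms412

/-! ## the far terms -/

section far
variable {V : Type} [Fintype V] [DecidableEq V] {q : ℕ} {W : Type*} [Fintype W]
  {R : ℕ → Finset V} {ψ : Conf V q → ℂ}

/-- an operator off the windows and not crossed by a line has constant flow -/
theorem fQ_far (hR : ∀ j k, j ≤ k → R k ⊆ R j) (M : ℝ) (n : ℕ) {K : W → Op V q}
    {B : W → Finset V} (hK : ∀ w, ActsOn (B w) (K w)) (c : (ℕ → ℝ) × (W → ℝ)) {Z : Finset V}
    {X : Op V q} (hX : ActsOn Z X) (h1 : ∀ w, Disjoint (B w) Z) (h2 : crs107 Z R n = ∅) (z : ℂ) :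
    fQ ψ (GenR R ψ M n K) (n + 1) X c z = star ψ ⬝ᵥ (X *ᵥ ψ) := by
  have hc : Commute (GamK K c.2) X := by
    refine Commute.sum_left _ _ _ fun w _ => ?_
    exact (PH.ph_acts_comm (h1 w) (hK w) hX).smul_left (c.2 w)
  have h3 : dr (GamK K c.2) X z = X := by
    have h4 := dr_add (Γ := 0) (Γ' := GamK K c.2) (X := X) (Commute.zero_left _) hc z
    rw [zero_add] at h4
    rw [h4, dr, smul_zero, smul_zero, NormedSpace.exp_zero, Matrix.mul_one, Matrix.one_mul]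
  rw [fQ_GenR, h3]
  exact FT_region_free hR ψ _ n hX h2 _

theorem fQ_zero_obs (ψ : Conf V q → ℂ) (G : ℕ → ((ℕ → ℝ) × (W → ℝ)) →ₗ[ℝ] Op V q) (n : ℕ)
    (c : (ℕ → ℝ) × (W → ℝ)) (z : ℂ) : fQ ψ G n 0 c z = 0 := by
  have h := fQ_sum ψ G n (∅ : Finset Unit) (fun _ => (0 : Op V q)) c z
  simpa using h

end far

/-! ## the local terms of the two-layer Hamiltonian -/

open scoped MatrixOrder in
theorem norm_le_one_psd {N : Type*} [Fintype N] [DecidableEq N] {Q : Matrix N N ℂ}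
    (h1 : Q.PosSemidef) (h2 : (1 - Q).PosSemidef) : ‖Q‖ ≤ 1 := by
  have h0 : 0 ≤ Q := Matrix.nonneg_iff_posSemidef.2 h1
  have h3 : Q ≤ 1 := Matrix.le_iff.2 h2
  exact (CStarAlgebra.norm_le_one_iff_of_nonneg Q h0).2 h3

section terms
variable {L q R : ℕ} {J Λ : ℝ}

/-- copy of an operator in the layer `b` -/
def cpb (b : Bool) (X : Op (Site L) q) : Op (Site L ⊕ Site L) q := cond b (cp2 X) (cp1 X)

/-- copy of a region in the layer `b` -/
def lay (b : Bool) (A : Finset (Site L)) : Finset (Site L ⊕ Site L) :=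
  cond b ((∅ : Finset (Site L)).disjSum A) (A.disjSum ∅)

/-- the local terms of one layer -/
noncomputable def t1 (h : Finset (Site L) → Op (Site L) q) (P : Site L → Op (Site L) q)
    (Z : Finset (Site L)) (Λ : ℝ) : Finset (Site L) ⊕ Site L → Op (Site L) q :=
  Sum.elim h (fun z => if z ∈ Z then (Λ : ℂ) • (1 - P z) else 0)

/-- their supports -/
def sp1 (rb : ℕ) : Finset (Site L) ⊕ Site L → Finset (Site L) :=
  Sum.elim id (fun z => ball z rb)

/-- the local terms of the two-layer Hamiltonian -/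
noncomputable def T6 (h : Finset (Site L) → Op (Site L) q) (P : Site L → Op (Site L) q)
    (Z : Finset (Site L)) (Λ : ℝ) (p : Bool × (Finset (Site L) ⊕ Site L)) :
    Op (Site L ⊕ Site L) q := cpb p.1 (t1 h P Z Λ p.2)

/-- the perturbed Hamiltonian -/
noncomputable def Hp (h : Finset (Site L) → Op (Site L) q) (P : Site L → Op (Site L) q)
    (Z : Finset (Site L)) (Λ : ℝ) : Op (Site L) q := ∑ X, h X + (Λ : ℂ) • ∑ z ∈ Z, (1 - P z)

theorem sum_t1 (h : Finset (Site L) → Op (Site L) q) (P : Site L → Op (Site L) q)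
    (Z : Finset (Site L)) (Λ : ℝ) : ∑ i, t1 h P Z Λ i = Hp h P Z Λ := by
  rw [Fintype.sum_sum_type, Hp]
  congr 1
  simp only [t1, Sum.elim_inr]
  rw [← Finset.sum_filter, Finset.smul_sum]
  congr 1
  ext z
  simp

theorem sum_T6 (h : Finset (Site L) → Op (Site L) q) (P : Site L → Op (Site L) q)
    (Z : Finset (Site L)) (Λ : ℝ) :
    ∑ p, T6 h P Z Λ p = cp1 (Hp h P Z Λ) + cp2 (Hp h P Z Λ) := by
  rw [Fintype.sum_prod_type, Fintype.sum_bool, add_comm]
  have h1 : ∑ i, T6 h P Z Λ (false, i) = cp1 (Hp h P Z Λ) := by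
    rw [← sum_t1, cp1_sum]; rfl
  have h2 : ∑ i, T6 h P Z Λ (true, i) = cp2 (Hp h P Z Λ) := by
    rw [← sum_t1, cp2_sum]; rfl
  rw [h1, h2]

theorem cpb_acts (b : Bool) {A : Finset (Site L)} {X : Op (Site L) q} (h : ActsOn A X) :
    ActsOn (lay b A) (cpb b X) := by
  cases b
  · exact cp1_acts h
  · exact cp2_acts h

theorem cpb_herm (b : Bool) {X : Op (Site L) q} (h : X.IsHermitian) :
    (cpb b X).IsHermitian := by
  cases b
  · show (cp1 X)ᴴ = cp1 X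
    rw [cp1_ct, h]
  · show (cp2 X)ᴴ = cp2 X
    rw [cp2_ct, h]

theorem cpb_norm (b : Bool) (X : Op (Site L) q) : ‖cpb b X‖ ≤ ‖X‖ := by
  cases b
  · exact dg_norm_one X
  · exact dg_norm_two X

theorem cpb_zero (b : Bool) : cpb b (0 : Op (Site L) q) = 0 := by
  cases b
  · exact cp1_zero
  · exact cp2_zero

/-- the sites near the lines and slabs -/
noncomputable def zone (g : Gd L) (D : ℝ) : Finset (Site L) :=
  open Classical in Finset.univ.filter (fun x => g.t0 - D ≤ g.T x ∧ g.T x ≤ g.t0 + g.N + D)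

theorem mem_zone {g : Gd L} {D : ℝ} {x : Site L} :
    x ∈ zone g D ↔ g.t0 - D ≤ g.T x ∧ g.T x ≤ g.t0 + g.N + D := by
  simp [zone]

/-- the near terms -/
noncomputable def near (h : Finset (Site L) → Op (Site L) q) (Z : Finset (Site L)) (g : Gd L)
    (R : ℕ) : Finset (Bool × (Finset (Site L) ⊕ Site L)) :=
  open Classical in Finset.univ.filter (fun p =>
    Sum.elim (fun X => h X ≠ 0 ∧ ¬ Disjoint X (zone g (2 * R))) (fun z => z ∈ Z) p.2)

theorem mem_near_inl {h : Finset (Site L) → Op (Site L) q} {Z : Finset (Site L)} {g : Gd L}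
    {b : Bool} {X : Finset (Site L)} :
    (b, Sum.inl X) ∈ near h Z g R ↔ h X ≠ 0 ∧ ¬ Disjoint X (zone g (2 * R)) := by
  simp [near]

theorem mem_near_inr {h : Finset (Site L) → Op (Site L) q} {Z : Finset (Site L)} {g : Gd L}
    {b : Bool} {z : Site L} :
    (b, (Sum.inr z : Finset (Site L) ⊕ Site L)) ∈ near h Z g R ↔ z ∈ Z := by
  simp [near]

/-- number of local terms which meet a region -/
theorem card_terms {h : Finset (Site L) → Op (Site L) q}
    (hd : ∀ X, h X ≠ 0 → X.Nonempty ∧ ∀ x ∈ X, ∀ y ∈ X, dist1 x y ≤ R) (G : Finset (Site L))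
    (F : Finset (Finset (Site L))) (hF : ∀ X ∈ F, h X ≠ 0 ∧ ¬ Disjoint X G) :
    F.card ≤ G.card * NR R := by
  classical
  have hsub : F ⊆ G.biUnion (fun x => (ball x R).powerset) := by
    intro X hX
    obtain ⟨hne, hG⟩ := hF X hX
    rw [Finset.not_disjoint_iff] at hG
    obtain ⟨x, hx, hxG⟩ := hG
    obtain ⟨-, hdX⟩ := hd X hne
    rw [Finset.mem_biUnion]
    refine ⟨x, hxG, ?_⟩
    rw [Finset.mem_powerset]
    intro z hz
    exact Finset.mem_filter.mpr ⟨Finset.mem_univ _, hdX z hz x hx⟩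
  refine (Finset.card_le_card hsub).trans (Finset.card_biUnion_le.trans ?_)
  refine (Finset.sum_le_card_nsmul _ _ (NR R) (fun p _ => card_local p R)).trans ?_
  rw [smul_eq_mul]

/-- bound of the sum of the norms of the near terms -/
noncomputable def Nn (R : ℕ) (J Λ : ℝ) (g : Gd L) (Z : Finset (Site L)) : ℝ :=
  2 * (NR R * J * (zone g (2 * R)).card + Λ * Z.card)

theorem sum_near {h : Finset (Site L) → Op (Site L) q} {P : Site L → Op (Site L) q}
    {Z : Finset (Site L)} (hh : PH.Terms L q R J h) (hJ : 0 ≤ J)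
    (hP : ∀ z, (P z).PosSemidef ∧ (1 - P z).PosSemidef) (hΛ : 0 ≤ Λ) (g : Gd L) :
    ∑ p ∈ near h Z g R, ‖T6 h P Z Λ p‖ ≤ Nn R J Λ g Z := by
  classical
  have hnP : ∀ z, ‖1 - P z‖ ≤ 1 := fun z => norm_le_one_psd (hP z).2 (by
    rw [sub_sub_cancel]; exact (hP z).1)
  have hlay : ∀ b : Bool, ∑ i ∈ (Finset.univ.filter fun i : Finset (Site L) ⊕ Site L =>
      (b, i) ∈ near h Z g R), ‖T6 h P Z Λ (b, i)‖ ≤
        NR R * J * (zone g (2 * R)).card + Λ * Z.card := by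
    intro b
    rw [Finset.sum_filter, Fintype.sum_sum_type]
    refine add_le_add ?_ ?_
    · rw [← Finset.sum_filter]
      have h1 : ∀ X ∈ Finset.univ.filter (fun X : Finset (Site L) =>
          (b, Sum.inl X) ∈ near h Z g R), ‖T6 h P Z Λ (b, Sum.inl X)‖ ≤ J := by
        intro X _
        exact (cpb_norm b _).trans ((PH.opNormLe_iff hJ).1 (hh.norm X))
      have h2 := card_terms hh.range (zone g (2 * R)) (Finset.univ.filter
        (fun X : Finset (Site L) => (b, Sum.inl X) ∈ near h Z g R))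
        (fun X hX => mem_near_inl.1 (Finset.mem_filter.1 hX).2)
      have h3 : ((Finset.univ.filter (fun X : Finset (Site L) =>
          (b, Sum.inl X) ∈ near h Z g R)).card : ℝ) ≤ (zone g (2 * R)).card * NR R := by
        exact_mod_cast h2
      refine (Finset.sum_le_card_nsmul _ _ _ h1).trans ?_
      rw [nsmul_eq_mul]
      refine (mul_le_mul_of_nonneg_right h3 hJ).trans (le_of_eq ?_)
      ring
    · have h1 : ∀ z : Site L, (if (b, (Sum.inr z : Finset (Site L) ⊕ Site L)) ∈ near h Z g R then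
          ‖T6 h P Z Λ (b, Sum.inr z)‖ else 0) ≤ if z ∈ Z then Λ else 0 := by
        intro z
        simp only [mem_near_inr]
        by_cases hz : z ∈ Z
        · rw [if_pos hz, if_pos hz]
          refine (cpb_norm b _).trans ?_
          show ‖(if z ∈ Z then (Λ : ℂ) • (1 - P z) else 0)‖ ≤ Λ
          rw [if_pos hz, norm_smul, Complex.norm_real, Real.norm_of_nonneg hΛ]
          exact mul_le_of_le_one_right hΛ (hnP z)
        · rw [if_neg hz, if_neg hz]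
      refine (Finset.sum_le_sum fun z _ => h1 z).trans ?_
      rw [← Finset.sum_filter, Finset.sum_const, nsmul_eq_mul]
      have : (Finset.univ.filter fun z => z ∈ Z) = Z := by ext z; simp
      rw [this, mul_comm]
  have h0 : ∑ p ∈ near h Z g R, ‖T6 h P Z Λ p‖ =
      ∑ b : Bool, ∑ i ∈ (Finset.univ.filter fun i : Finset (Site L) ⊕ Site L =>
        (b, i) ∈ near h Z g R), ‖T6 h P Z Λ (b, i)‖ := by
    have e1 : near h Z g R = Finset.univ.filter (fun p => p ∈ near h Z g R) := by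
      ext p; simp
    rw [e1, Finset.sum_filter, Fintype.sum_prod_type]
    refine Finset.sum_congr rfl fun b _ => ?_
    rw [Finset.sum_filter]
    refine Finset.sum_congr rfl fun i _ => ?_
    simp
  rw [h0, Fintype.sum_bool, Nn]
  linarith [hlay true, hlay false]

/-- `T` does not cross the levels on a local term off the zone -/
theorem off_zone {g : Gd L} (hT : ∀ x y, |g.T x - g.T y| ≤ 2 * dist1 x y)
    {X : Finset (Site L)} (hne : X.Nonempty) (hd : ∀ x ∈ X, ∀ y ∈ X, dist1 x y ≤ R)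
    (hdis : Disjoint X (zone g (2 * R))) :
    (∀ y ∈ X, g.T y < g.t0) ∨ (∀ y ∈ X, g.t0 + g.N < g.T y) := by
  obtain ⟨x, hx⟩ := hne
  have hx' : x ∉ zone g (2 * R) := fun h => (Finset.disjoint_left.1 hdis hx) h
  rw [mem_zone, not_and_or, not_le, not_le] at hx'
  have hb : ∀ y ∈ X, |g.T x - g.T y| ≤ 2 * R := by
    intro y hy
    refine (hT x y).trans ?_
    have : (dist1 x y : ℝ) ≤ R := by exact_mod_cast hd x hx y hy
    linarith
  rcases hx' with h | h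
  · left
    intro y hy
    have := (abs_le.1 (hb y hy)).1
    linarith
  · right
    intro y hy
    have := (abs_le.1 (hb y hy)).2
    linarith

theorem mem_lay {b : Bool} {A : Finset (Site L)} {v : Site L ⊕ Site L} (h : v ∈ lay b A) :
    Sum.elim id id v ∈ A := by
  cases b
  · rcases v with x | x
    · exact Finset.inl_mem_disjSum.1 h
    · exact absurd (Finset.inr_mem_disjSum.1 h) (Finset.notMem_empty _)
  · rcases v with x | x
    · exact absurd (Finset.inl_mem_disjSum.1 h) (Finset.notMem_empty _)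
    · exact Finset.inr_mem_disjSum.1 h

theorem crs_far {g : Gd L} (hn : g.n ≤ g.N) {b : Bool} {X : Finset (Site L)}
    (h : (∀ y ∈ X, g.T y < g.t0) ∨ (∀ y ∈ X, g.t0 + g.N < g.T y)) :
    crs107 (lay b X) g.R g.n = ∅ := by
  classical
  rw [crs107, Finset.filter_eq_empty_iff]
  intro k hk hc
  rw [Finset.mem_range] at hk
  have hkN : (k : ℝ) ≤ g.N := by exact_mod_cast (hk.le.trans hn)
  have hk0 : (0 : ℝ) ≤ k := Nat.cast_nonneg k
  obtain ⟨h1, h2⟩ := hc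
  cases b
  · rcases h with h | h
    · apply h2
      rw [Finset.disjoint_left]
      rintro (x | x) hx hx'
      · rw [g.inl_mem_R] at hx'
        have := h x (mem_lay hx)
        linarith
      · exact absurd (Finset.inr_mem_disjSum.1 hx) (Finset.notMem_empty _)
    · apply h1
      rintro (x | x) hx
      · rw [g.inl_mem_R]
        have := h x (mem_lay hx)
        linarith
      · exact absurd (Finset.inr_mem_disjSum.1 hx) (Finset.notMem_empty _)
  · rcases h with h | h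
    · apply h1
      rintro (x | x) hx
      · exact absurd (Finset.inl_mem_disjSum.1 hx) (Finset.notMem_empty _)
      · rw [g.inr_mem_R]
        have := h x (mem_lay hx)
        linarith
    · apply h2
      rw [Finset.disjoint_left]
      rintro (x | x) hx hx'
      · exact absurd (Finset.inl_mem_disjSum.1 hx) (Finset.notMem_empty _)
      · rw [g.inr_mem_R] at hx'
        have := h x (mem_lay hx)
        linarith

/-- the windows of the healing generator lie between the first and the last level -/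
def InZone {W : Type*} (g : Gd L) (B : W → Finset (Site L ⊕ Site L)) : Prop :=
  ∀ w, ∀ v ∈ B w, g.t0 < g.T (Sum.elim id id v) ∧ g.T (Sum.elim id id v) ≤ g.t0 + g.N

theorem win_far {W : Type*} {g : Gd L} {B : W → Finset (Site L ⊕ Site L)} (hB : InZone g B)
    {b : Bool} {X : Finset (Site L)}
    (h : (∀ y ∈ X, g.T y < g.t0) ∨ (∀ y ∈ X, g.t0 + g.N < g.T y)) (w : W) :
    Disjoint (B w) (lay b X) := by
  rw [Finset.disjoint_left]
  intro v hv hv'
  have h1 := hB w v hv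
  rcases h with h | h
  · have := h _ (mem_lay hv')
    linarith [h1.1]
  · have := h _ (mem_lay hv')
    linarith [h1.2]

end terms

/-! ## the energy of the tilted states -/

section final
variable {L q R : ℕ} {J Λ : ℝ} {W : Type*} [Fintype W]

/-- radius hypothesis: the flow of every operator of one layer in a ball of radius `rr` is bounded
by `8` times its norm for `|ζ| ≤ r` (621) -/
def Rad (g : Gd L) (ψ : Conf (Site L ⊕ Site L) q → ℂ) (M : ℝ)
    (K : W → Op (Site L ⊕ Site L) q) (c : (ℕ → ℝ) × (W → ℝ)) (rr : ℕ) (r : ℝ) : Prop :=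
  ∀ (b : Bool) (z : Site L) (X : Op (Site L) q), ActsOn (ball z rr) X → ∀ ζ : ℂ, ‖ζ‖ ≤ r →
    ‖fQ ψ (GenR g.R ψ M g.n K) (g.n + 1) (cpb b X) c ζ‖ ≤ 8 * ‖cpb b X‖

/-- the data of block E6 -/
structure E6D (g : Gd L) (R : ℕ) (J Λ : ℝ) (h : Finset (Site L) → Op (Site L) q)
    (P : Site L → Op (Site L) q) (Z : Finset (Site L)) (K : W → Op (Site L ⊕ Site L) q)
    (B : W → Finset (Site L ⊕ Site L)) (rb rr : ℕ) : Prop where
  terms : PH.Terms L q R J h
  hJ : 0 ≤ J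
  hΛ : 0 ≤ Λ
  hP : ∀ z, (P z).PosSemidef ∧ (1 - P z).PosSemidef
  hPa : ∀ z ∈ Z, ActsOn (ball z rb) (P z)
  hT : ∀ x y, |g.T x - g.T y| ≤ 2 * dist1 x y
  hn : g.n ≤ g.N
  herm : ∀ w, (K w).IsHermitian
  acts : ∀ w, ActsOn (B w) (K w)
  zone : InZone g B
  hR : R ≤ rr
  hrb : rb ≤ rr

variable {g : Gd L} {h : Finset (Site L) → Op (Site L) q} {P : Site L → Op (Site L) q}
  {Z : Finset (Site L)} {K : W → Op (Site L ⊕ Site L) q} {B : W → Finset (Site L ⊕ Site L)}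
  {rb rr : ℕ}

theorem T6_herm (hh : PH.Terms L q R J h) (hP : ∀ z, (P z).PosSemidef ∧ (1 - P z).PosSemidef)
    (p : Bool × (Finset (Site L) ⊕ Site L)) : (T6 h P Z Λ p).IsHermitian := by
  obtain ⟨b, X | z⟩ := p
  · exact cpb_herm b (hh.herm X)
  · refine cpb_herm b ?_
    show (if z ∈ Z then (Λ : ℂ) • (1 - P z) else 0).IsHermitian
    split_ifs with hz
    · exact Gd.herm_rsmul Λ (hP z).2.1
    · exact Matrix.isHermitian_zero

/-- far terms have constant flow -/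
theorem T6_far (D : E6D g R J Λ h P Z K B rb rr) (ψ : Conf (Site L ⊕ Site L) q → ℂ) (M : ℝ)
    (c : (ℕ → ℝ) × (W → ℝ)) {p : Bool × (Finset (Site L) ⊕ Site L)} (hp : p ∉ near h Z g R)
    (z : ℂ) : fQ ψ (GenR g.R ψ M g.n K) (g.n + 1) (T6 h P Z Λ p) c z =
      star ψ ⬝ᵥ (T6 h P Z Λ p *ᵥ ψ) := by
  have hz : ∀ X : Op (Site L ⊕ Site L) q, X = 0 →
      fQ ψ (GenR g.R ψ M g.n K) (g.n + 1) X c z = star ψ ⬝ᵥ (X *ᵥ ψ) := by
    rintro X rfl
    rw [fQ_zero_obs, Matrix.zero_mulVec, dotProduct_zero]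
  obtain ⟨b, X | y⟩ := p
  · rw [mem_near_inl, not_and_or, not_not, not_not] at hp
    by_cases h0 : h X = 0
    · refine hz _ ?_
      show cpb b (h X) = 0
      rw [h0, cpb_zero]
    · have hd : Disjoint X (zone g (2 * R)) := hp.resolve_left h0
      obtain ⟨hne, hdi⟩ := D.terms.range X h0
      have ho := off_zone D.hT hne hdi hd
      exact fQ_far (fun j k hjk => g.R_anti hjk) M g.n D.acts c
        (cpb_acts b (D.terms.loc X)) (win_far D.zone ho) (crs_far D.hn ho) z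
  · rw [mem_near_inr] at hp
    refine hz _ ?_
    show cpb b (if y ∈ Z then (Λ : ℂ) • (1 - P y) else 0) = 0
    rw [if_neg hp, cpb_zero]

/-- near terms: radius -/
theorem T6_near (D : E6D g R J Λ h P Z K B rb rr) {ψ : Conf (Site L ⊕ Site L) q → ℂ} {M : ℝ}
    {c : (ℕ → ℝ) × (W → ℝ)} {r : ℝ} (hrad : Rad g ψ M K c rr r)
    {p : Bool × (Finset (Site L) ⊕ Site L)} (hp : p ∈ near h Z g R) (z : ℂ) (hz : ‖z‖ ≤ r) :
    ‖fQ ψ (GenR g.R ψ M g.n K) (g.n + 1) (T6 h P Z Λ p) c z‖ ≤ 8 * ‖T6 h P Z Λ p‖ := by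
  obtain ⟨b, X | y⟩ := p
  · rw [mem_near_inl] at hp
    obtain ⟨⟨x, hx⟩, hdi⟩ := D.terms.range X hp.1
    refine hrad b x (h X) (PH.ph_acts_mono ?_ (D.terms.loc X)) z hz
    intro v hv
    exact Finset.mem_filter.mpr ⟨Finset.mem_univ _, (hdi v hv x hx).trans D.hR⟩
  · rw [mem_near_inr] at hp
    refine hrad b y _ ?_ z hz
    show ActsOn (ball y rr) (if y ∈ Z then (Λ : ℂ) • (1 - P y) else 0)
    rw [if_pos hp]
    refine PH.ph_acts_smul _ (PH.ph_acts_sub (PH.ph_acts_one _) ?_)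
    refine PH.ph_acts_mono ?_ (D.hPa y hp)
    exact PH.ball_mono y D.hrb

variable {θ : ℕ → ℝ} {γ : W → ℝ} {M t τ r E2 : ℝ} {ψ Ωd : Conf (Site L ⊕ Site L) q → ℂ}

/-- **E6b**: the energy of a tilted state is its second order form up to third order. -/
theorem e6_form (D : E6D g R J Λ h P Z K B rb rr)
    (hS : TState (fun k => cut (g.R k) q) θ M (GamK K γ) Ωd (1 + τ * Complex.I) g.n t ψ)
    (hE : (cp1 (Hp h P Z Λ) + cp2 (Hp h P Z Λ)) *ᵥ Ωd = (E2 : ℂ) • Ωd)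
    (hr : 0 < r) (hrad : Rad g ψ M K (θ, γ) rr r)
    (hs : ‖(t : ℂ) * (1 + τ * Complex.I)‖ ≤ r / 2) :
    |expv ψ (cp1 (Hp h P Z Λ) + cp2 (Hp h P Z Λ)) - E2 - t ^ 2 * (1 + τ ^ 2) *
        QF ψ (GenR g.R ψ M g.n K) (g.n + 1) (cp1 (Hp h P Z Λ) + cp2 (Hp h P Z Λ)) (θ, γ)| ≤
      (1 + |τ|) * (16 * Nn R J Λ g Z * (‖(t : ℂ) * (1 + τ * Complex.I)‖ / r) ^ 3) := by
  classical
  have h1 := terms_energy D.herm hS (s := Finset.univ) (near := near h Z g R)
    (Finset.subset_univ _) (T := T6 h P Z Λ) (fun p _ => T6_herm D.terms D.hP p)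
    (E := E2) (by rw [sum_T6]; exact hE) (fun p _ hp z => T6_far D ψ M (θ, γ) hp z) hr
    (fun p hp z hz => T6_near D hrad hp z hz) hs
  rw [sum_T6] at h1
  refine h1.trans (mul_le_mul_of_nonneg_left ?_ (by positivity))
  have h2 := sum_near (Z := Z) (Λ := Λ) D.terms D.hJ D.hP D.hΛ g
  have h3 : 0 ≤ (‖(t : ℂ) * (1 + τ * Complex.I)‖ / r) ^ 3 := by positivity
  rw [← Finset.mul_sum]
  calc 2 * (8 * ∑ p ∈ near h Z g R, ‖T6 h P Z Λ p‖) *
        (‖(t : ℂ) * (1 + τ * Complex.I)‖ / r) ^ 3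
      ≤ 2 * (8 * Nn R J Λ g Z) * (‖(t : ℂ) * (1 + τ * Complex.I)‖ / r) ^ 3 :=
        mul_le_mul_of_nonneg_right (by linarith) h3
    _ = _ := by ring

/-- **E6a**: crude bound of the energy of a tilted state. -/
theorem e6_crude (D : E6D g R J Λ h P Z K B rb rr)
    (hS : TState (fun k => cut (g.R k) q) θ M (GamK K γ) Ωd (1 + τ * Complex.I) g.n t ψ)
    (hE : (cp1 (Hp h P Z Λ) + cp2 (Hp h P Z Λ)) *ᵥ Ωd = (E2 : ℂ) • Ωd)
    (hr : 0 < r) (hrad : Rad g ψ M K (θ, γ) rr r)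
    (hs : ‖(t : ℂ) * (1 + τ * Complex.I)‖ ≤ r / 2) :
    |expv ψ (cp1 (Hp h P Z Λ) + cp2 (Hp h P Z Λ)) - E2| ≤
      (2 + |τ|) * (t ^ 2 * (1 + τ ^ 2)) * (8 * Nn R J Λ g Z / r ^ 2) := by
  classical
  have h1 := terms_crude D.herm hS (s := Finset.univ) (near := near h Z g R)
    (Finset.subset_univ _) (T := T6 h P Z Λ) (fun p _ => T6_herm D.terms D.hP p)
    (E := E2) (by rw [sum_T6]; exact hE) (fun p _ hp z => T6_far D ψ M (θ, γ) hp z) hr
    (fun p hp z hz => T6_near D hrad hp z hz) hs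
  rw [sum_T6] at h1
  refine h1.trans (mul_le_mul_of_nonneg_left ?_ (by positivity))
  have h2 := sum_near (Z := Z) (Λ := Λ) D.terms D.hJ D.hP D.hΛ g
  rw [← Finset.mul_sum]
  exact div_le_div_of_nonneg_right (by linarith) (by positivity)

/-- **E6a'**: crude bound of the second order form. -/
theorem e6_QF (D : E6D g R J Λ h P Z K B rb rr) (ψ : Conf (Site L ⊕ Site L) q → ℂ)
    {c : (ℕ → ℝ) × (W → ℝ)} (hr : 0 < r) (hrad : Rad g ψ M K c rr r) :
    |QF ψ (GenR g.R ψ M g.n K) (g.n + 1) (cp1 (Hp h P Z Λ) + cp2 (Hp h P Z Λ)) c| ≤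
      8 * Nn R J Λ g Z / r ^ 2 := by
  classical
  have h1 := QF_terms_le (ψ := ψ) (e := fun k => cut (g.R k) q)
    (g := gC (fun k => cut (g.R k) q) ψ M) (n := g.n) (K := K) (c := c) (s := Finset.univ)
    (near := near h Z g R)
    (Finset.subset_univ _) (T := T6 h P Z Λ) (fun p _ hp z => T6_far D ψ M c hp z) hr
    (fun p hp z hz => T6_near D hrad hp z hz)
  rw [sum_T6] at h1
  refine h1.trans ?_
  have h2 := sum_near (Z := Z) (Λ := Λ) D.terms D.hJ D.hP D.hΛ g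
  rw [← Finset.mul_sum]
  exact div_le_div_of_nonneg_right (by linarith) (by positivity)

end final

end Terms412

end Vale.Agent.P356.GA
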