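import Vale.Agent.P356.GA.Scales227
import Vale.Agent.P356.GA.SumZ778

/-!
# The eventual bound of the energy expression (helper227)

`UpF a p` lists the sizes of the parameters `p : ℕ → EP`; `UpF.tot`: `EP.tot = O(l^(-9 e0))`, hence
it is eventually at most `l^(-2 c)`.
-/

set_option linter.all false

namespace Vale.Agent.P356.GA.Par

open Filter Asymptotics

/-! ### rules which keep the exponent open -/

theorem Up.addm {f g : ℕ → ℝ} {e e' : ℝ} (hf : Up f e) (hg : Up g e') :
    Up (fun l => f l + g l) (max e e') := hf.add' hg

theorem Up.subm {f g : ℕ → ℝ} {e e' : ℝ} (hf : Up f e) (hg : Up g e') :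
    Up (fun l => f l - g l) (max e e') := by
  have := hf.add' hg.neg
  simpa [sub_eq_add_neg] using this

theorem Up.mulm {f g : ℕ → ℝ} {e e' : ℝ} (hf : Up f e) (hg : Up g e') :
    Up (fun l => f l * g l) (e + e') := hf.mul hg

theorem Up.divm {f g : ℕ → ℝ} {e e' : ℝ} (hf : Up f e) (hg : Up (fun l => (g l)⁻¹) e') :
    Up (fun l => f l / g l) (e + e') := by
  simpa [div_eq_mul_inv] using hf.mul hg

theorem Up.powm {f : ℕ → ℝ} {e : ℝ} (hf : Up f e) (n : ℕ) :
    Up (fun l => f l ^ n) ((n : ℝ) * e) := hf.pow n

theorem Up.invpow {f : ℕ → ℝ} {e : ℝ} (hf : Up (fun l => (f l)⁻¹) e) (n : ℕ) :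
    Up (fun l => (f l ^ n)⁻¹) ((n : ℝ) * e) := by
  simpa using hf.pow n

theorem Up.invmul {f g : ℕ → ℝ} {e e' : ℝ} (hf : Up (fun l => (f l)⁻¹) e)
    (hg : Up (fun l => (g l)⁻¹) e') : Up (fun l => (f l * g l)⁻¹) (e + e') := by
  have := hf.mul hg
  simpa [mul_inv, mul_comm] using this

theorem Up.invdiv {f g : ℕ → ℝ} {e e' : ℝ} (hf : Up (fun l => (f l)⁻¹) e)
    (hg : Up g e') : Up (fun l => (f l / g l)⁻¹) (e + e') := by
  have := hg.mul hf
  rw [add_comm e' e] at this
  simpa [inv_div, div_eq_mul_inv] using this

theorem Up.invinv {f : ℕ → ℝ} {e : ℝ} (hf : Up f e) : Up (fun l => ((f l)⁻¹)⁻¹) e := by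
  simpa using hf

theorem Up.sqrtm {f : ℕ → ℝ} {e : ℝ} (hf : Up f e) :
    Up (fun l => Real.sqrt (f l)) (e / 2) := hf.sqrt

/-! ### sizes of the parameters -/

/-- the sizes of the parameters of the energy theorem -/
structure UpF (a : ℝ) (p : ℕ → EP) : Prop where
  θ : Up (fun l => (p l).θ) (4 * e0 a - 1)
  k1 : Up (fun l => (p l).k1) (e0 a / 1000)
  k2 : Up (fun l => (p l).k2) (1 / 10 ^ 8)
  k3 : Up (fun l => (p l).k3) (3 / 10 ^ 8)
  C2 : Up (fun l => (p l).C2) (e0 a / 100)
  Th : Up (fun l => (p l).Th) (2 - 59 * e0 a)
  nx : Up (fun l => (p l).nx) (2 - 19 * e0 a)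
  ne : Up (fun l => (p l).ne) (2 - 29 / 10 ^ 9)
  nZ : Up (fun l => (p l).nZ) 2
  p₀ : Up (fun l => (p l).p₀) (-20)
  ε : Up (fun l => (p l).ε) (-50)
  m : Up (fun l => (p l).m) (6 / 10 ^ 8)
  lq : Up (fun l => (p l).lq) (e0 a / 1000)
  eM : Up (fun l => (p l).eM) (-20)
  Lc : Up (fun l => (p l).Lc) (e0 a / 100)
  h : Up (fun l => (p l).h) (-(12 * e0 a))
  h' : Up (fun l => ((p l).h)⁻¹) (12 * e0 a)
  ms : Up (fun l => (p l).ms) (6 / 10 ^ 8)
  Ls : Up (fun l => (p l).Ls) (e0 a / 100)
  hs : Up (fun l => (p l).hs) (-(1 / 8))
  hs' : Up (fun l => ((p l).hs)⁻¹) (1 / 8)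
  r' : Up (fun l => ((p l).r)⁻¹) (1 / 10 ^ 6)
  rθ' : Up (fun l => ((p l).rθ)⁻¹) (4 * e0 a - 1 + 1 / 10 ^ 6)
  Cm : Up (fun l => (p l).Cm) 0
  Λ : Up (fun l => (p l).Λ) (-(1 / 1000))
  Λ' : Up (fun l => ((p l).Λ)⁻¹) (1 / 1000)
  z : Up (fun l => (p l).z) 2
  Nn : Up (fun l => (p l).Nn) 2
  τ : Up (fun l => (p l).τ) (e0 a / 1000)
  de : Up (fun l => (p l).de) (-20)

namespace UpF

variable {a : ℝ} {p : ℕ → EP}

/-- crude bound of the energy -/
theorem upK (H : UpF a p) (ha : 0 < a) (ha1 : a ≤ 1) : Up (fun l => (p l).K) (1 / 10 ^ 5) := by
  have b0 := e0_pos ha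
  have b1 := e0_le ha1
  have h1 := H.τ
  have h2 := H.Nn
  have h3 := H.rθ'
  unfold EP.K
  apply Up.mono
  · repeat' (first
      | assumption
      | exact Up.const _
      | exact Up.pow_self _
      | exact Up.self
      | apply (config := {newGoals := .nonDependentOnly}) Up.subm
      | apply (config := {newGoals := .nonDependentOnly}) Up.addm
      | apply (config := {newGoals := .nonDependentOnly}) Up.divm
      | apply (config := {newGoals := .nonDependentOnly}) Up.mulm
      | apply (config := {newGoals := .nonDependentOnly}) Up.powm
      | apply (config := {newGoals := .nonDependentOnly}) Up.sqrtm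
      | apply (config := {newGoals := .nonDependentOnly}) Up.invpow
      | apply (config := {newGoals := .nonDependentOnly}) Up.invmul
      | apply (config := {newGoals := .nonDependentOnly}) Up.invdiv
      | apply (config := {newGoals := .nonDependentOnly}) Up.invinv)
  · norm_num [max_def] at *
    split_ifs <;> linarith

/-- the sum of the defects of the detectors -/
theorem upS (H : UpF a p) (ha : 0 < a) (ha1 : a ≤ 1) : Up (fun l => (p l).S) (1 / 500) := by
  have b0 := e0_pos ha
  have b1 := e0_le ha1
  have h1 := H.upK ha ha1
  have h2 := H.Λ'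
  have h3 := H.z
  have h4 := H.de
  unfold EP.S
  apply Up.mono
  · repeat' (first
      | assumption
      | exact Up.const _
      | exact Up.pow_self _
      | exact Up.self
      | apply (config := {newGoals := .nonDependentOnly}) Up.subm
      | apply (config := {newGoals := .nonDependentOnly}) Up.addm
      | apply (config := {newGoals := .nonDependentOnly}) Up.divm
      | apply (config := {newGoals := .nonDependentOnly}) Up.mulm
      | apply (config := {newGoals := .nonDependentOnly}) Up.powm
      | apply (config := {newGoals := .nonDependentOnly}) Up.sqrtm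
      | apply (config := {newGoals := .nonDependentOnly}) Up.invpow
      | apply (config := {newGoals := .nonDependentOnly}) Up.invmul
      | apply (config := {newGoals := .nonDependentOnly}) Up.invdiv
      | apply (config := {newGoals := .nonDependentOnly}) Up.invinv)
  · norm_num [max_def] at *

/-- the sum of the deviations of the windows -/
theorem upD (H : UpF a p) (ha : 0 < a) (ha1 : a ≤ 1) : Up (fun l => (p l).D) (101 / 100) := by
  have b0 := e0_pos ha
  have b1 := e0_le ha1
  have h1 := H.upS ha ha1
  have h2 := H.z
  unfold EP.D
  apply Up.mono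
  · repeat' (first
      | assumption
      | exact Up.const _
      | exact Up.pow_self _
      | exact Up.self
      | apply (config := {newGoals := .nonDependentOnly}) Up.subm
      | apply (config := {newGoals := .nonDependentOnly}) Up.addm
      | apply (config := {newGoals := .nonDependentOnly}) Up.divm
      | apply (config := {newGoals := .nonDependentOnly}) Up.mulm
      | apply (config := {newGoals := .nonDependentOnly}) Up.powm
      | apply (config := {newGoals := .nonDependentOnly}) Up.sqrtm
      | apply (config := {newGoals := .nonDependentOnly}) Up.invpow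
      | apply (config := {newGoals := .nonDependentOnly}) Up.invmul
      | apply (config := {newGoals := .nonDependentOnly}) Up.invdiv
      | apply (config := {newGoals := .nonDependentOnly}) Up.invinv)
  · norm_num [max_def] at *

theorem upQ (H : UpF a p) (ha : 0 < a) (ha1 : a ≤ 1) : Up (fun l => (p l).Q) (8 / 5) := by
  have b0 := e0_pos ha
  have b1 := e0_le ha1
  have h1 := H.upD ha ha1
  have h2 := H.nZ
  have h3 := H.p₀
  unfold EP.Q
  apply Up.mono
  · repeat' (first
      | assumption
      | exact Up.const _
      | exact Up.pow_self _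
      | exact Up.self
      | apply (config := {newGoals := .nonDependentOnly}) Up.subm
      | apply (config := {newGoals := .nonDependentOnly}) Up.addm
      | apply (config := {newGoals := .nonDependentOnly}) Up.divm
      | apply (config := {newGoals := .nonDependentOnly}) Up.mulm
      | apply (config := {newGoals := .nonDependentOnly}) Up.powm
      | apply (config := {newGoals := .nonDependentOnly}) Up.sqrtm
      | apply (config := {newGoals := .nonDependentOnly}) Up.invpow
      | apply (config := {newGoals := .nonDependentOnly}) Up.invmul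
      | apply (config := {newGoals := .nonDependentOnly}) Up.invdiv
      | apply (config := {newGoals := .nonDependentOnly}) Up.invinv)
  · norm_num [max_def] at *

theorem upA (H : UpF a p) (ha : 0 < a) (ha1 : a ≤ 1) :
    Up (fun l => (p l).A) (2 - 23 * e0 a) := by
  have b0 := e0_pos ha
  have b1 := e0_le ha1
  have h1 := H.upD ha ha1
  have h2 := H.nZ
  have h3 := H.p₀
  have h4 := H.h
  have h5 := H.h'
  have h6 := H.ε
  have h7 := H.m
  have h8 := H.lq
  have h9 := H.eM
  have h10 := H.Lc
  unfold EP.A
  apply Up.mono
  · repeat' (first
      | assumption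
      | exact Up.const _
      | exact Up.pow_self _
      | exact Up.self
      | apply (config := {newGoals := .nonDependentOnly}) Up.subm
      | apply (config := {newGoals := .nonDependentOnly}) Up.addm
      | apply (config := {newGoals := .nonDependentOnly}) Up.divm
      | apply (config := {newGoals := .nonDependentOnly}) Up.mulm
      | apply (config := {newGoals := .nonDependentOnly}) Up.powm
      | apply (config := {newGoals := .nonDependentOnly}) Up.sqrtm
      | apply (config := {newGoals := .nonDependentOnly}) Up.invpow
      | apply (config := {newGoals := .nonDependentOnly}) Up.invmul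
      | apply (config := {newGoals := .nonDependentOnly}) Up.invdiv
      | apply (config := {newGoals := .nonDependentOnly}) Up.invinv)
  · norm_num [max_def] at *
    split_ifs <;> linarith

theorem upT1 (H : UpF a p) (ha : 0 < a) (ha1 : a ≤ 1) : Up (fun l => (p l).T1) (9 / 5) := by
  have b0 := e0_pos ha
  have b1 := e0_le ha1
  have h1 := H.upD ha ha1
  have h2 := H.nZ
  have h3 := H.p₀
  have h4 := H.hs
  have h5 := H.hs'
  have h6 := H.ε
  have h7 := H.ms
  have h8 := H.Ls
  unfold EP.T1
  apply Up.mono
  · repeat' (first
      | assumption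
      | exact Up.const _
      | exact Up.pow_self _
      | exact Up.self
      | apply (config := {newGoals := .nonDependentOnly}) Up.subm
      | apply (config := {newGoals := .nonDependentOnly}) Up.addm
      | apply (config := {newGoals := .nonDependentOnly}) Up.divm
      | apply (config := {newGoals := .nonDependentOnly}) Up.mulm
      | apply (config := {newGoals := .nonDependentOnly}) Up.powm
      | apply (config := {newGoals := .nonDependentOnly}) Up.sqrtm
      | apply (config := {newGoals := .nonDependentOnly}) Up.invpow
      | apply (config := {newGoals := .nonDependentOnly}) Up.invmul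
      | apply (config := {newGoals := .nonDependentOnly}) Up.invdiv
      | apply (config := {newGoals := .nonDependentOnly}) Up.invinv)
  · norm_num [max_def] at *
    split_ifs <;> linarith

theorem upX1 (H : UpF a p) (ha : 0 < a) (ha1 : a ≤ 1) :
    Up (fun l => (p l).k1 * ((p l).k1 * (p l).A + cLine / (p l).h * (p l).Th +
      (p l).nx * ((p l).k1 * (4 * (p l).C2)) + (p l).k1 * (4 * (17 * (p l).Q / (p l).r ^ 2))))
      (2 - 18 * e0 a) := by
  have b0 := e0_pos ha
  have b1 := e0_le ha1
  have g1 := H.upA ha ha1
  have g3 := H.upQ ha ha1
  have h2 := H.k1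
  have h5 := H.C2
  have h6 := H.Th
  have h7 := H.nx
  have h9 := H.h'
  have h10 := H.r'
  apply Up.mono
  · repeat' (first
      | assumption
      | exact Up.const _
      | exact Up.pow_self _
      | exact Up.self
      | apply (config := {newGoals := .nonDependentOnly}) Up.subm
      | apply (config := {newGoals := .nonDependentOnly}) Up.addm
      | apply (config := {newGoals := .nonDependentOnly}) Up.divm
      | apply (config := {newGoals := .nonDependentOnly}) Up.mulm
      | apply (config := {newGoals := .nonDependentOnly}) Up.powm
      | apply (config := {newGoals := .nonDependentOnly}) Up.sqrtm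
      | apply (config := {newGoals := .nonDependentOnly}) Up.invpow
      | apply (config := {newGoals := .nonDependentOnly}) Up.invmul
      | apply (config := {newGoals := .nonDependentOnly}) Up.invdiv
      | apply (config := {newGoals := .nonDependentOnly}) Up.invinv)
  · rw [← le_sub_iff_add_le']
    refine max_le (max_le (max_le ?_ ?_) ?_) ?_ <;> norm_num at * <;> linarith

theorem upX2 (H : UpF a p) (ha : 0 < a) (ha1 : a ≤ 1) :
    Up (fun l => (p l).ne * (((p l).k1 ^ 2 + (p l).k2 ^ 2) * (p l).C2)) (2 - 18 * e0 a) := by
  have b0 := e0_pos ha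
  have b1 := e0_le ha1
  have h2 := H.k1
  have h3 := H.k2
  have h5 := H.C2
  have h8 := H.ne
  apply Up.mono
  · repeat' (first
      | assumption
      | exact Up.const _
      | exact Up.pow_self _
      | exact Up.self
      | apply (config := {newGoals := .nonDependentOnly}) Up.subm
      | apply (config := {newGoals := .nonDependentOnly}) Up.addm
      | apply (config := {newGoals := .nonDependentOnly}) Up.divm
      | apply (config := {newGoals := .nonDependentOnly}) Up.mulm
      | apply (config := {newGoals := .nonDependentOnly}) Up.powm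
      | apply (config := {newGoals := .nonDependentOnly}) Up.sqrtm
      | apply (config := {newGoals := .nonDependentOnly}) Up.invpow
      | apply (config := {newGoals := .nonDependentOnly}) Up.invmul
      | apply (config := {newGoals := .nonDependentOnly}) Up.invdiv
      | apply (config := {newGoals := .nonDependentOnly}) Up.invinv)
  · norm_num [max_def] at *
    split_ifs <;> linarith

theorem upX3 (H : UpF a p) (ha : 0 < a) (ha1 : a ≤ 1) :
    Up (fun l => (p l).k3 ^ 2 * (p l).T1) (2 - 18 * e0 a) := by
  have b0 := e0_pos ha
  have b1 := e0_le ha1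
  have h2 := H.k3
  have h3 := H.upT1 ha ha1
  apply Up.mono
  · repeat' (first
      | assumption
      | exact Up.const _
      | exact Up.pow_self _
      | exact Up.self
      | apply (config := {newGoals := .nonDependentOnly}) Up.subm
      | apply (config := {newGoals := .nonDependentOnly}) Up.addm
      | apply (config := {newGoals := .nonDependentOnly}) Up.divm
      | apply (config := {newGoals := .nonDependentOnly}) Up.mulm
      | apply (config := {newGoals := .nonDependentOnly}) Up.powm
      | apply (config := {newGoals := .nonDependentOnly}) Up.sqrtm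
      | apply (config := {newGoals := .nonDependentOnly}) Up.invpow
      | apply (config := {newGoals := .nonDependentOnly}) Up.invmul
      | apply (config := {newGoals := .nonDependentOnly}) Up.invdiv
      | apply (config := {newGoals := .nonDependentOnly}) Up.invinv)
  · norm_num at *
    linarith

theorem upX4 (H : UpF a p) (ha : 0 < a) (ha1 : a ≤ 1) :
    Up (fun l => ((p l).k1 ^ 2 + 2 * (p l).k3 ^ 2 + 5) * (17 * (p l).Q / (p l).r ^ 2))
      (2 - 18 * e0 a) := by
  have b0 := e0_pos ha
  have b1 := e0_le ha1
  have h2 := H.k1
  have h3 := H.k3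
  have h5 := H.upQ ha ha1
  have h10 := H.r'
  apply Up.mono
  · repeat' (first
      | assumption
      | exact Up.const _
      | exact Up.pow_self _
      | exact Up.self
      | apply (config := {newGoals := .nonDependentOnly}) Up.subm
      | apply (config := {newGoals := .nonDependentOnly}) Up.addm
      | apply (config := {newGoals := .nonDependentOnly}) Up.divm
      | apply (config := {newGoals := .nonDependentOnly}) Up.mulm
      | apply (config := {newGoals := .nonDependentOnly}) Up.powm
      | apply (config := {newGoals := .nonDependentOnly}) Up.sqrtm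
      | apply (config := {newGoals := .nonDependentOnly}) Up.invpow
      | apply (config := {newGoals := .nonDependentOnly}) Up.invmul
      | apply (config := {newGoals := .nonDependentOnly}) Up.invdiv
      | apply (config := {newGoals := .nonDependentOnly}) Up.invinv)
  · norm_num [max_def] at *
    split_ifs <;> linarith

theorem upS1 (H : UpF a p) (ha : 0 < a) (ha1 : a ≤ 1) :
    Up (fun l => (p l).S1) (-(10 * e0 a)) := by
  have b0 := e0_pos ha
  have b1 := e0_le ha1
  have h1 := (H.θ.pow 2).cmul 5
  have h2 := (((H.upX1 ha ha1).add (H.upX2 ha ha1)).add (H.upX3 ha ha1)).add (H.upX4 ha ha1)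
  have h3 := h1.mul h2
  unfold EP.S1
  refine h3.mono ?_
  norm_num
  linarith

theorem upTot (H : UpF a p) (ha : 0 < a) (ha1 : a ≤ 1) :
    Up (fun l => (p l).tot) (-(9 * e0 a)) := by
  have b0 := e0_pos ha
  have b1 := e0_le ha1
  have g1 := H.upS1 ha ha1
  have g3 := H.upQ ha ha1
  have h1 := H.τ
  have h2 := H.Cm
  have h3 := H.rθ'
  have h4 := H.Λ
  have h5 := H.z
  have h6 := H.Nn
  unfold EP.tot
  apply Up.mono
  · repeat' (first
      | assumption
      | exact Up.const _
      | exact Up.pow_self _
      | exact Up.self
      | apply (config := {newGoals := .nonDependentOnly}) Up.subm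
      | apply (config := {newGoals := .nonDependentOnly}) Up.addm
      | apply (config := {newGoals := .nonDependentOnly}) Up.divm
      | apply (config := {newGoals := .nonDependentOnly}) Up.mulm
      | apply (config := {newGoals := .nonDependentOnly}) Up.powm
      | apply (config := {newGoals := .nonDependentOnly}) Up.sqrtm
      | apply (config := {newGoals := .nonDependentOnly}) Up.invpow
      | apply (config := {newGoals := .nonDependentOnly}) Up.invmul
      | apply (config := {newGoals := .nonDependentOnly}) Up.invdiv
      | apply (config := {newGoals := .nonDependentOnly}) Up.invinv)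
  · norm_num [max_def] at *
    split_ifs <;> linarith

/-- **The bound of the energy is eventually smaller than `l^(-2 c)`**, with every constant in
front. -/
theorem ev_tot (H : UpF a p) (ha : 0 < a) (ha1 : a ≤ 1) {c : ℝ} (hc : 0 < c) :
    ∀ᶠ l : ℕ in atTop, (p l).tot ≤ c * (l : ℝ) ^ (-(2 * xc a)) := by
  have b0 := e0_pos ha
  filter_upwards [(H.upTot ha ha1).le (e' := -(2 * xc a)) (c := c)
    (by unfold xc; linarith) hc] with l hl
  exact (le_abs_self _).trans hl

end UpF

end Vale.Agent.P356.GA.Par
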