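import Vale.Agent.P356.GA.Pair749
import Vale.Agent.P356.GA.FD749
import Vale.Agent.P356.GA.Flow909
import Vale.Agent.P356.GA.Tube107

/-!
The second order coefficients of two states which agree on a window and are Markov at the window.
-/

set_option linter.all false

namespace Vale.Agent.P356.GA

open Matrix Finset Vale.Agent.P356 Vale.Agent.P356.SV Vale.Agent.P356.Path Vale.Agent.P356.PH
open scoped BigOperators ComplexOrder Kronecker Matrix.Norms.L2Operator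

section window
variable {V : Type*} [Fintype V] [DecidableEq V] {q : ℕ}

/-- the two states agree on the region `S` up to `δ` -/
def WClose (S : Finset V) (ψ Ω : Conf V q → ℂ) (δ : ℝ) : Prop :=
  ∀ X : Op V q, ActsOn S X → ‖X‖ ≤ 1 → ‖ex ψ X - ex Ω X‖ ≤ δ

theorem WClose.mono {S S' : Finset V} {ψ Ω : Conf V q → ℂ} {δ : ℝ} (h : WClose S ψ Ω δ)
    (hS : S' ⊆ S) : WClose S' ψ Ω δ := fun X hX hX1 => h X (ph_acts_mono hS hX) hX1

theorem WClose.nonneg {S : Finset V} {ψ Ω : Conf V q → ℂ} {δ : ℝ} (h : WClose S ψ Ω δ) : 0 ≤ δ := by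
  have h1 := h 0 (ph_acts_zero S) (by simp)
  have h2 : ‖ex ψ (0 : Op V q) - ex Ω 0‖ = 0 := by
    rw [ex, ex, Matrix.zero_mulVec, Matrix.zero_mulVec, dotProduct_zero, dotProduct_zero, sub_zero,
      norm_zero]
  linarith

theorem ex_smul (φ : Conf V q → ℂ) (c : ℂ) (X : Op V q) : ex φ (c • X) = c * ex φ X := by
  rw [ex, ex, Matrix.smul_mulVec, dotProduct_smul, smul_eq_mul]

theorem WClose.bound {S : Finset V} {ψ Ω : Conf V q → ℂ} {δ : ℝ} (h : WClose S ψ Ω δ)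
    {X : Op V q} (hX : ActsOn S X) : ‖ex ψ X - ex Ω X‖ ≤ δ * ‖X‖ := by
  by_cases h0 : ‖X‖ = 0
  · have hX0 : X = 0 := norm_eq_zero.1 h0
    rw [hX0, norm_zero, mul_zero]
    have h2 : ‖ex ψ (0 : Op V q) - ex Ω 0‖ = 0 := by
      rw [ex, ex, Matrix.zero_mulVec, Matrix.zero_mulVec, dotProduct_zero, dotProduct_zero, sub_zero,
        norm_zero]
    exact h2.le
  · have hpos : 0 < ‖X‖ := lt_of_le_of_ne (norm_nonneg _) (Ne.symm h0)
    have h1 := h (((‖X‖⁻¹ : ℝ) : ℂ) • X) (ph_acts_smul _ hX) (by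
      rw [norm_smul, Complex.norm_real, Real.norm_of_nonneg (inv_nonneg.2 hpos.le),
        inv_mul_cancel₀ h0])
    rw [ex_smul, ex_smul, ← mul_sub, norm_mul, Complex.norm_real,
      Real.norm_of_nonneg (inv_nonneg.2 hpos.le), inv_mul_le_iff₀ hpos] at h1
    linarith

/-- flows of the reduced states of two states which agree on `N` -/
theorem window_flow {N : Finset V} {ψ Ω : Conf V q → ℂ} (hψ : nsq ψ = 1) {δ : ℝ}
    (h : WClose N ψ Ω δ) (t : ℝ) :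
    nrm (UU N ψ t *ᵥ ψ - UU N Ω t *ᵥ ψ) ≤ Real.sqrt (2 * Flow.cT t * δ) := by
  set e := cut N q with he
  obtain ⟨O, h1, h2, h3⟩ := Flow.ps_split e ψ Ω
  have hO : ‖O‖ ≤ 1 := by
    have h4 : ‖O‖ * ‖O‖ ≤ 1 := by
      have h5 : ‖star O * O‖ = ‖O‖ * ‖O‖ := CStarRing.norm_star_mul_self
      rw [show star O = O from h1, h2] at h5
      rw [← h5]
      exact norm_one_le
    nlinarith [norm_nonneg O]
  have hX : ‖(opOn N O : Op V q)‖ ≤ 1 := (opOn_norm_le N O).trans hO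
  have h6 := h (opOn N O) (ph_acts_opOn N O) hX
  have h7 : (star ψ ⬝ᵥ (opL e O *ᵥ ψ)).re - (star Ω ⬝ᵥ (opL e O *ᵥ Ω)).re ≤ δ := by
    have h8 := (Complex.re_le_norm _).trans h6
    rw [Complex.sub_re] at h8
    exact h8
  have h9 := h3.trans h7
  have h10 := Flow.flow_close_vec e hψ (Ω ∘ e.symm)
    (f := fun i => Real.log (eigp (ψ ∘ e.symm) i)) (g := fun i => Real.log (eigp (Ω ∘ e.symm) i))
    (fun i j _ _ => le_rfl) t
  unfold nrm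
  refine Real.sqrt_le_sqrt (le_trans ?_ (mul_le_mul_of_nonneg_left h9
    (mul_nonneg zero_le_two (Flow.cT_pos t).le)))
  exact h10

theorem ex_unit_conj {U : Op V q} (φ : Conf V q → ℂ) (X : Op V q) :
    ex (U *ᵥ φ) X = ex φ (Uᴴ * X * U) := ex_conj φ U X

/-- the windowed two-flow expectation of two states which agree on the window -/
theorem window_pair {NA NB Z : Finset V} (hd : Disjoint NA NB) {ψ Ω : Conf V q → ℂ}
    (hψ : nsq ψ = 1) (hΩ : nsq Ω = 1) {δ : ℝ} (h : WClose (NA ∪ NB ∪ Z) ψ Ω δ) {T : Op V q}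
    (hT : ActsOn Z T) (s t : ℝ) :
    ‖ex (UU NA ψ (-t) *ᵥ (UU NB ψ (-s) *ᵥ ψ)) T - ex (UU NA Ω (-t) *ᵥ (UU NB Ω (-s) *ᵥ Ω)) T‖ ≤
      ‖T‖ * (2 * (Real.sqrt (2 * Flow.cT t * δ) + Real.sqrt (2 * Flow.cT s * δ)) + δ) := by
  have hA : WClose NA ψ Ω δ :=
    h.mono (Finset.subset_union_left.trans Finset.subset_union_left)
  have hB : WClose NB ψ Ω δ :=
    h.mono (Finset.subset_union_right.trans Finset.subset_union_left)
  have fA := window_flow hψ hA (-t)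
  have fB := window_flow hψ hB (-s)
  have hcT : ∀ r : ℝ, Flow.cT (-r) = Flow.cT r := fun r => by
    unfold Flow.cT
    rw [neg_sq]
  rw [hcT] at fA fB
  have c1 : UU NA ψ (-t) * UU NB Ω (-s) = UU NB Ω (-s) * UU NA ψ (-t) :=
    ph_acts_comm hd (UU_acts _ _ _) (UU_acts _ _ _)
  have c2 : UU NA Ω (-t) * UU NB Ω (-s) = UU NB Ω (-s) * UU NA Ω (-t) :=
    ph_acts_comm hd (UU_acts _ _ _) (UU_acts _ _ _)
  have hdist : nrm (UU NA ψ (-t) *ᵥ (UU NB ψ (-s) *ᵥ ψ) -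
      UU NA Ω (-t) *ᵥ (UU NB Ω (-s) *ᵥ ψ)) ≤
      Real.sqrt (2 * Flow.cT t * δ) + Real.sqrt (2 * Flow.cT s * δ) := by
    have e : UU NA ψ (-t) *ᵥ (UU NB ψ (-s) *ᵥ ψ) - UU NA Ω (-t) *ᵥ (UU NB Ω (-s) *ᵥ ψ) =
        UU NA ψ (-t) *ᵥ (UU NB ψ (-s) *ᵥ ψ - UU NB Ω (-s) *ᵥ ψ) +
        UU NB Ω (-s) *ᵥ (UU NA ψ (-t) *ᵥ ψ - UU NA Ω (-t) *ᵥ ψ) := by
      simp only [Matrix.mulVec_sub, Matrix.mulVec_mulVec]
      rw [c1, c2]
      abel
    rw [e]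
    refine (nrm_add_le _ _).trans ?_
    rw [nrm_of_unit (UU_unit _ _ _), nrm_of_unit (UU_unit _ _ _)]
    linarith
  have h1 : ‖ex (UU NA ψ (-t) *ᵥ (UU NB ψ (-s) *ᵥ ψ)) T -
      ex (UU NA Ω (-t) *ᵥ (UU NB Ω (-s) *ᵥ ψ)) T‖ ≤ 2 * ‖T‖ *
        (Real.sqrt (2 * Flow.cT t * δ) + Real.sqrt (2 * Flow.cT s * δ)) := by
    refine (ex_close ?_ ?_ T).trans (mul_le_mul_of_nonneg_left hdist (by positivity))
    · rw [nrm_of_unit (UU_unit _ _ _), nrm_of_unit (UU_unit _ _ _), nrm_one hψ]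
    · rw [nrm_of_unit (UU_unit _ _ _), nrm_of_unit (UU_unit _ _ _), nrm_one hψ]
  -- the fixed observable
  set U := UU NA Ω (-t) * UU NB Ω (-s) with hU
  have hUu : Uᴴ * U = 1 := by
    rw [hU, conjTranspose_mul]
    calc (UU NB Ω (-s))ᴴ * (UU NA Ω (-t))ᴴ * (UU NA Ω (-t) * UU NB Ω (-s)) =
        (UU NB Ω (-s))ᴴ * ((UU NA Ω (-t))ᴴ * UU NA Ω (-t)) * UU NB Ω (-s) := by
          simp only [Matrix.mul_assoc]
      _ = 1 := by rw [UU_unit, Matrix.mul_one, UU_unit]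
  have hUn : ‖U‖ ≤ 1 := norm_le_of_iso hUu
  have hUa : ActsOn (NA ∪ NB ∪ Z) U := by
    refine ph_acts_mul (ph_acts_mono ?_ (UU_acts NA Ω (-t))) (ph_acts_mono ?_ (UU_acts NB Ω (-s)))
    · exact Finset.subset_union_left.trans Finset.subset_union_left
    · exact Finset.subset_union_right.trans Finset.subset_union_left
  have hXa : ActsOn (NA ∪ NB ∪ Z) (Uᴴ * T * U) :=
    ph_acts_mul (ph_acts_mul (ph_acts_star hUa) (ph_acts_mono Finset.subset_union_right hT)) hUa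
  have hXn : ‖Uᴴ * T * U‖ ≤ ‖T‖ := by
    have h1 : ‖Uᴴ‖ ≤ 1 := by rw [norm_conjT]; exact hUn
    calc ‖Uᴴ * T * U‖ ≤ ‖Uᴴ * T‖ * ‖U‖ := norm_mul_le _ _
      _ ≤ (‖Uᴴ‖ * ‖T‖) * ‖U‖ := mul_le_mul_of_nonneg_right (norm_mul_le _ _) (norm_nonneg _)
      _ ≤ (1 * ‖T‖) * 1 := by gcongr
      _ = ‖T‖ := by ring
  have h2 := h.bound hXa
  have h3 : ∀ φ : Conf V q → ℂ, ex (UU NA Ω (-t) *ᵥ (UU NB Ω (-s) *ᵥ φ)) T = ex φ (Uᴴ * T * U) := by
    intro φ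
    rw [Matrix.mulVec_mulVec, ← hU, ex_conj]
  rw [h3] at h1
  rw [h3 Ω]
  have h4 : ‖ex (UU NA ψ (-t) *ᵥ (UU NB ψ (-s) *ᵥ ψ)) T - ex Ω (Uᴴ * T * U)‖ ≤
      ‖ex (UU NA ψ (-t) *ᵥ (UU NB ψ (-s) *ᵥ ψ)) T - ex ψ (Uᴴ * T * U)‖ +
        ‖ex ψ (Uᴴ * T * U) - ex Ω (Uᴴ * T * U)‖ := by
    refine le_trans (le_of_eq ?_) (norm_add_le _ _)
    congr 1
    ring
  have h5 : δ * ‖Uᴴ * T * U‖ ≤ δ * ‖T‖ := mul_le_mul_of_nonneg_left hXn h.nonneg
  refine h4.trans ?_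
  linarith

end window

section coeff
variable {V : Type*} [Fintype V] [DecidableEq V] {q : ℕ}

/-- the commutator -/
def cm (A B : Op V q) : Op V q := A * B - B * A

/-- `⟨ e^{z G_out} e^{w G_A} T e^{-w G_A} e^{-z G_out} ⟩` with `out` the complement of `B` -/
noncomputable def fP (A B : Finset V) (g : ℝ → ℝ) (T : Op V q) (ψ : Conf V q → ℂ) (z w : ℂ) : ℂ :=
  ex ψ (EE Bᶜ ψ g z * (EE A ψ g w * T * EE A ψ g (-w)) * EE Bᶜ ψ g (-z))

theorem fP_im (A B : Finset V) (g : ℝ → ℝ) (T : Op V q) (ψ : Conf V q → ℂ) (s t : ℝ) :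
    fP A B g T ψ ((s : ℂ) * Complex.I) ((t : ℂ) * Complex.I) =
      ex (EE A ψ g (((-t : ℝ) : ℂ) * Complex.I) *ᵥ
        (EE Bᶜ ψ g (((-s : ℝ) : ℂ) * Complex.I) *ᵥ ψ)) T := by
  have h1 : ∀ r : ℝ, star (((-r : ℝ) : ℂ) * Complex.I) = (r : ℂ) * Complex.I := fun r => by
    rw [Complex.star_def, map_mul, Complex.conj_ofReal, Complex.conj_I]
    push_cast; ring
  have h2 : ∀ r : ℝ, ((-r : ℝ) : ℂ) * Complex.I = -((r : ℂ) * Complex.I) := fun r => by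
    push_cast; ring
  rw [Matrix.mulVec_mulVec, ex_conj, conjTranspose_mul, EE_star, EE_star, h1, h1, h2, h2, fP]
  congr 1
  simp only [Matrix.mul_assoc]

theorem fP_hasDerivAt_left (A B : Finset V) (g : ℝ → ℝ) (T : Op V q) (ψ : Conf V q → ℂ) (z w : ℂ) :
    HasDerivAt (fun z => fP A B g T ψ z w)
      (ex ψ (EE Bᶜ ψ g z * cm (GG Bᶜ ψ g) (EE A ψ g w * T * EE A ψ g (-w)) * EE Bᶜ ψ g (-z))) z :=
  ex_hasDerivAt ψ (conj_hasDerivAt Bᶜ ψ g _ z)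

theorem fP_hasDerivAt_right (A B : Finset V) (g : ℝ → ℝ) (T : Op V q) (ψ : Conf V q → ℂ)
    (z w : ℂ) :
    HasDerivAt (fP A B g T ψ z)
      (ex ψ (EE Bᶜ ψ g z * (EE A ψ g w * cm (GG A ψ g) T * EE A ψ g (-w)) * EE Bᶜ ψ g (-z))) w := by
  have h := conj_hasDerivAt A ψ g T w
  exact ex_hasDerivAt ψ ((h.const_mul (EE Bᶜ ψ g z)).mul_const (EE Bᶜ ψ g (-z)))

theorem fP_deriv_right (A B : Finset V) (g : ℝ → ℝ) (T : Op V q) (ψ : Conf V q → ℂ) (z : ℂ) :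
    deriv (fP A B g T ψ z) 0 = fP A B g (cm (GG A ψ g) T) ψ z 0 :=
  (fP_hasDerivAt_right A B g T ψ z 0).deriv

theorem fP_zero_right (A B : Finset V) (g : ℝ → ℝ) (T : Op V q) (ψ : Conf V q → ℂ) (z : ℂ) :
    fP A B g T ψ z 0 = ex ψ (EE Bᶜ ψ g z * T * EE Bᶜ ψ g (-z)) := by
  rw [fP, neg_zero, EE_zero, Matrix.one_mul, Matrix.mul_one]

theorem fP_mixed (A B : Finset V) (g : ℝ → ℝ) (T : Op V q) (ψ : Conf V q → ℂ) :
    deriv (fun z => deriv (fP A B g T ψ z) 0) 0 =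
      ex ψ (cm (GG Bᶜ ψ g) (cm (GG A ψ g) T)) := by
  simp only [fP_deriv_right]
  rw [(fP_hasDerivAt_left A B g (cm (GG A ψ g) T) ψ 0 0).deriv, neg_zero, EE_zero, EE_zero,
    Matrix.one_mul, Matrix.mul_one, Matrix.one_mul, Matrix.mul_one]

/-- **Transfer of the mixed coefficient.** -/
theorem pair_transfer {NA MA NB MB Z : Finset V} (hd : Disjoint (NA ∪ MA) (NB ∪ MB))
    (hA : Disjoint Z MA) (hB : Disjoint Z MB) {T : Op V q} (hT : ActsOn Z T)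
    {ψ Ω : Conf V q → ℂ} (hψ : nsq ψ = 1) (hΩ : nsq Ω = 1) (g : ℝ → ℝ) {δ ε K y : ℝ}
    (hδ : WClose (NA ∪ NB ∪ Z) ψ Ω δ) (hy : 0 < y) (hy1 : y ≤ 1 / 8)
    (hKψ : ∀ z w : ℂ, |z.re| ≤ 1 / 4 → |w.re| ≤ 1 / 4 →
      ‖fP (NA ∪ MA) (NB ∪ MB) g T ψ z w‖ ≤ K)
    (hKΩ : ∀ z w : ℂ, |z.re| ≤ 1 / 4 → |w.re| ≤ 1 / 4 →
      ‖fP (NA ∪ MA) (NB ∪ MB) g T Ω z w‖ ≤ K)
    (hε : ∀ φ : Conf V q → ℂ, φ = ψ ∨ φ = Ω → ∀ s : ℝ, s = y ∨ s = -y →
      eW NA MA φ s + eC (NA ∪ MA) φ g s ≤ ε ∧ eW NB MB φ s + eC (NB ∪ MB) φ g s ≤ ε) :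
    ‖ex ψ (cm (GG (NB ∪ MB)ᶜ ψ g) (cm (GG (NA ∪ MA) ψ g) T)) -
      ex Ω (cm (GG (NB ∪ MB)ᶜ Ω g) (cm (GG (NA ∪ MA) Ω g) T))‖ ≤
      4096 * K * y ^ 2 + ‖T‖ * (8 * ε + 16 * Real.sqrt δ + δ) / y ^ 2 := by
  set A := NA ∪ MA with hAdef
  set B := NB ∪ MB with hBdef
  -- the values on the imaginary axis
  have hval : ∀ s t : ℝ, (s = y ∨ s = -y) → (t = y ∨ t = -y) →
      ‖fP A B g T ψ ((s : ℂ) * Complex.I) ((t : ℂ) * Complex.I) -
        fP A B g T Ω ((s : ℂ) * Complex.I) ((t : ℂ) * Complex.I)‖ ≤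
        ‖T‖ * (8 * ε + 16 * Real.sqrt δ + δ) := by
    intro s t hs ht
    rw [fP_im, fP_im]
    have p1 := pair_window hd hA hB hT hψ g s t
    have p2 := pair_window hd hA hB hT hΩ g s t
    rw [← hAdef, ← hBdef] at p1 p2
    have p3 := window_pair (hd.mono Finset.subset_union_left Finset.subset_union_left) hψ hΩ hδ hT
      s t
    have q1 := hε ψ (Or.inl rfl)
    have q2 := hε Ω (Or.inr rfl)
    have r1 := (q1 t ht).1
    have r2 := (q1 s hs).2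
    have r3 := (q2 t ht).1
    have r4 := (q2 s hs).2
    have hcT : ∀ r : ℝ, (r = y ∨ r = -y) → Real.sqrt (2 * Flow.cT r * δ) ≤ 4 * Real.sqrt δ := by
      intro r hr
      have hr2 : r ^ 2 ≤ 1 / 64 := by
        rcases hr with rfl | rfl
        · nlinarith
        · rw [neg_sq]; nlinarith
      have he : Real.exp 1 ^ 2 ≤ 9 := by
        have := Real.exp_one_lt_d9
        have h0 := Real.exp_pos 1
        nlinarith
      have hc : Flow.cT r ≤ 8 := by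
        unfold Flow.cT
        refine max_le (by norm_num) ?_
        have : 0 ≤ Real.exp 1 ^ 2 := by positivity
        nlinarith [sq_nonneg r]
      rw [Real.sqrt_mul (by have := (Flow.cT_pos r).le; positivity)]
      refine mul_le_mul_of_nonneg_right ?_ (Real.sqrt_nonneg _)
      rw [show (4 : ℝ) = Real.sqrt 16 by
        rw [show (16 : ℝ) = 4 ^ 2 by norm_num, Real.sqrt_sq (by norm_num)]]
      exact Real.sqrt_le_sqrt (by linarith)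
    have c1 := hcT s hs
    have c2 := hcT t ht
    set a := ex (EE A ψ g (((-t : ℝ) : ℂ) * Complex.I) *ᵥ
        (EE Bᶜ ψ g (((-s : ℝ) : ℂ) * Complex.I) *ᵥ ψ)) T with ha
    set a' := ex (EE A Ω g (((-t : ℝ) : ℂ) * Complex.I) *ᵥ
        (EE Bᶜ Ω g (((-s : ℝ) : ℂ) * Complex.I) *ᵥ Ω)) T with ha'
    set b := ex (UU NA ψ (-t) *ᵥ (UU NB ψ (-s) *ᵥ ψ)) T with hb
    set b' := ex (UU NA Ω (-t) *ᵥ (UU NB Ω (-s) *ᵥ Ω)) T with hb'
    have tri : ‖a - a'‖ ≤ ‖a - b‖ + ‖a' - b'‖ + ‖b - b'‖ := by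
      have : a - a' = (a - b) - (a' - b') + (b - b') := by ring
      rw [this]
      exact (norm_add_le _ _).trans (by have := norm_sub_le (a - b) (a' - b'); linarith)
    have hT0 := norm_nonneg T
    have u1 : ‖a - b‖ ≤ 2 * ‖T‖ * (2 * ε) :=
      p1.trans (mul_le_mul_of_nonneg_left (by linarith) (by positivity))
    have u2 : ‖a' - b'‖ ≤ 2 * ‖T‖ * (2 * ε) :=
      p2.trans (mul_le_mul_of_nonneg_left (by linarith) (by positivity))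
    have u3 : ‖b - b'‖ ≤ ‖T‖ * (2 * (4 * Real.sqrt δ + 4 * Real.sqrt δ) + δ) :=
      p3.trans (mul_le_mul_of_nonneg_left (by linarith) hT0)
    have := tri.trans (add_le_add (add_le_add u1 u2) u3)
    refine this.trans (le_of_eq ?_)
    ring
  have m1 := fd_mixed (f := fP A B g T ψ)
    (fun w z => (fP_hasDerivAt_left A B g T ψ z w).differentiableAt)
    (fun z w => (fP_hasDerivAt_right A B g T ψ z w).differentiableAt)
    (by
      simp only [fP_deriv_right]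
      exact fun z => (fP_hasDerivAt_left A B g _ ψ z 0).differentiableAt) hKψ hy hy1
  have m2 := fd_mixed (f := fP A B g T Ω)
    (fun w z => (fP_hasDerivAt_left A B g T Ω z w).differentiableAt)
    (fun z w => (fP_hasDerivAt_right A B g T Ω z w).differentiableAt)
    (by
      simp only [fP_deriv_right]
      exact fun z => (fP_hasDerivAt_left A B g _ Ω z 0).differentiableAt) hKΩ hy hy1
  rw [fP_mixed] at m1 m2
  set E := ‖T‖ * (8 * ε + 16 * Real.sqrt δ + δ) with hE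
  set ζ : ℂ := (y : ℂ) * Complex.I with hζ
  set ζ' : ℂ := ((-y : ℝ) : ℂ) * Complex.I with hζ'
  have v1 := hval y y (Or.inl rfl) (Or.inl rfl)
  have v2 := hval y (-y) (Or.inl rfl) (Or.inr rfl)
  have v3 := hval (-y) y (Or.inr rfl) (Or.inl rfl)
  have v4 := hval (-y) (-y) (Or.inr rfl) (Or.inr rfl)
  rw [← hζ] at v1 v2 v3
  rw [← hζ'] at v2 v3 v4
  have hζn : ‖(2 * ζ) ^ 2‖ = 4 * y ^ 2 := by
    rw [norm_pow, norm_mul, hζ, norm_mul, Complex.norm_I, mul_one, Complex.norm_real,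
      Real.norm_of_nonneg hy.le]
    simp
    ring
  have hdq : ‖((fP A B g T ψ ζ ζ - fP A B g T ψ ζ ζ') - (fP A B g T ψ ζ' ζ - fP A B g T ψ ζ' ζ')) /
      (2 * ζ) ^ 2 - ((fP A B g T Ω ζ ζ - fP A B g T Ω ζ ζ') -
        (fP A B g T Ω ζ' ζ - fP A B g T Ω ζ' ζ')) / (2 * ζ) ^ 2‖ ≤ E / y ^ 2 := by
    rw [← sub_div, norm_div, hζn, div_le_div_iff₀ (by positivity) (by positivity)]
    have : ‖((fP A B g T ψ ζ ζ - fP A B g T ψ ζ ζ') - (fP A B g T ψ ζ' ζ - fP A B g T ψ ζ' ζ')) -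
        ((fP A B g T Ω ζ ζ - fP A B g T Ω ζ ζ') -
          (fP A B g T Ω ζ' ζ - fP A B g T Ω ζ' ζ'))‖ ≤ 4 * E := by
      have e : ((fP A B g T ψ ζ ζ - fP A B g T ψ ζ ζ') -
          (fP A B g T ψ ζ' ζ - fP A B g T ψ ζ' ζ')) -
        ((fP A B g T Ω ζ ζ - fP A B g T Ω ζ ζ') -
          (fP A B g T Ω ζ' ζ - fP A B g T Ω ζ' ζ')) =
        ((fP A B g T ψ ζ ζ - fP A B g T Ω ζ ζ) - (fP A B g T ψ ζ ζ' - fP A B g T Ω ζ ζ')) -
        ((fP A B g T ψ ζ' ζ - fP A B g T Ω ζ' ζ) -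
          (fP A B g T ψ ζ' ζ' - fP A B g T Ω ζ' ζ')) := by ring
      rw [e]
      refine (norm_sub_le _ _).trans ?_
      have w1 := norm_sub_le (fP A B g T ψ ζ ζ - fP A B g T Ω ζ ζ)
        (fP A B g T ψ ζ ζ' - fP A B g T Ω ζ ζ')
      have w2 := norm_sub_le (fP A B g T ψ ζ' ζ - fP A B g T Ω ζ' ζ)
        (fP A B g T ψ ζ' ζ' - fP A B g T Ω ζ' ζ')
      linarith
    have hy2 : 0 ≤ y ^ 2 := by positivity
    nlinarith [mul_le_mul_of_nonneg_right this hy2]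
  set D1 := ((fP A B g T ψ ζ ζ - fP A B g T ψ ζ ζ') - (fP A B g T ψ ζ' ζ - fP A B g T ψ ζ' ζ')) /
      (2 * ζ) ^ 2 with hD1
  set D2 := ((fP A B g T Ω ζ ζ - fP A B g T Ω ζ ζ') -
        (fP A B g T Ω ζ' ζ - fP A B g T Ω ζ' ζ')) / (2 * ζ) ^ 2 with hD2
  set C1 := ex ψ (cm (GG Bᶜ ψ g) (cm (GG A ψ g) T)) with hC1
  set C2 := ex Ω (cm (GG Bᶜ Ω g) (cm (GG A Ω g) T)) with hC2
  have tri : ‖C1 - C2‖ ≤ ‖C1 - D1‖ + ‖C2 - D2‖ + ‖D1 - D2‖ := by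
    have : C1 - C2 = (C1 - D1) - (C2 - D2) + (D1 - D2) := by ring
    rw [this]
    exact (norm_add_le _ _).trans (by have := norm_sub_le (C1 - D1) (C2 - D2); linarith)
  refine tri.trans ?_
  linarith

end coeff

end Vale.Agent.P356.GA
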