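import Vale.Agent.P356.GA.Scales227

/-!
# Uniform power bounds (helper960)

More rules for `Up`, and `UpD F e`: `F l i = O(l^e)` uniformly over data `i : ι l` depending on the
scale `l`.
-/

set_option linter.all false

namespace Vale.Agent.P356.GA.Par

open Filter Asymptotics

theorem Up.inv_mul {f g : ℕ → ℝ} {e e' : ℝ} (hf : Up (fun l => (f l)⁻¹) e)
    (hg : Up (fun l => (g l)⁻¹) e') : Up (fun l => (f l * g l)⁻¹) (e + e') := by
  refine (hf.mul hg).congr' (Eventually.of_forall fun l => ?_)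
  rw [mul_inv]

theorem Up.inv_pow {f : ℕ → ℝ} {e : ℝ} (hf : Up (fun l => (f l)⁻¹) e) (n : ℕ) :
    Up (fun l => (f l ^ n)⁻¹) (n * e) := by
  refine (hf.pow n).congr' (Eventually.of_forall fun l => ?_)
  rw [_root_.inv_pow]

theorem Up.inv_inv {f : ℕ → ℝ} {e : ℝ} (hf : Up f e) : Up (fun l => ((f l)⁻¹)⁻¹) e := by
  simpa using hf

theorem Up.div {f g : ℕ → ℝ} {e e' : ℝ} (hf : Up f e) (hg : Up (fun l => (g l)⁻¹) e') :
    Up (fun l => f l / g l) (e + e') := by
  refine (hf.mul hg).congr' (Eventually.of_forall fun l => ?_)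
  rw [div_eq_mul_inv]

theorem Up.inv_div {f g : ℕ → ℝ} {e e' : ℝ} (hf : Up (fun l => (f l)⁻¹) e) (hg : Up g e') :
    Up (fun l => (f l / g l)⁻¹) (e + e') := by
  refine (hf.mul hg).congr' (Eventually.of_forall fun l => ?_)
  rw [_root_.inv_div, div_eq_mul_inv, mul_comm]

theorem Up.inv_pow_self (e : ℝ) : Up (fun l => ((l : ℝ) ^ e)⁻¹) (-e) :=
  Up.inv one_pos (Eventually.of_forall fun l => by rw [one_mul])

theorem Up.inv_self : Up (fun l => ((l : ℝ))⁻¹) (-1) :=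
  Up.inv one_pos (Eventually.of_forall fun l => by rw [one_mul, Real.rpow_one])

theorem Up.pow_self_nat (n : ℕ) : Up (fun l => (l : ℝ) ^ n) n := by
  simpa using Up.self.pow n

theorem Up.abs {f : ℕ → ℝ} {e : ℝ} (hf : Up f e) : Up (fun l => |f l|) e :=
  hf.of_le (Eventually.of_forall fun l => by rw [abs_abs])

theorem Up.sub' {f g : ℕ → ℝ} {e e' : ℝ} (hf : Up f e) (hg : Up g e') :
    Up (fun l => f l - g l) (Max.max e e') :=
  (hf.mono (le_max_left _ _)).sub (hg.mono (le_max_right _ _))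

theorem Up.max {f g : ℕ → ℝ} {e e' : ℝ} (hf : Up f e) (hg : Up g e') :
    Up (fun l => Max.max (f l) (g l)) (Max.max e e') := by
  refine (hf.abs.add' hg.abs).of_le (Eventually.of_forall fun l => ?_)
  have h1 : |Max.max (f l) (g l)| ≤ |f l| + |g l| := by
    rcases max_choice (f l) (g l) with h | h <;> rw [h]
    · linarith [abs_nonneg (g l)]
    · linarith [abs_nonneg (f l)]
  exact h1.trans (le_abs_self _)

/-- logarithms -/
theorem up_log_xd {a : ℝ} (ha : 0 < a) : Up (fun l => Real.log l) (xd a) :=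
  Up.log (by have := e0_pos ha; unfold xd; positivity)

theorem up_logE_xd {a : ℝ} (ha : 0 < a) {Q : ℝ} (hQ : 0 < Q) :
    Up (fun l => Real.log (Q / cE l)) (xd a) :=
  up_logE Q hQ (by have := e0_pos ha; unfold xd; positivity)

theorem up_cE_inv : Up (fun l => (cE l)⁻¹) 50 := by
  have h := Up.inv (f := cE) (e := -50) (c := 1) one_pos
    (Eventually.of_forall fun l => by rw [one_mul]; rfl)
  simpa using h

/-- the use of a power bound -/
theorem Up.ev {F : ℕ → ℝ} {e E c : ℝ} (hc : 0 < c) (h1 : Up F e) (h2 : e < E) :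
    ∀ᶠ l : ℕ in atTop, F l ≤ c * (l : ℝ) ^ E := by
  filter_upwards [h1.le h2 hc] with l hl
  exact (le_abs_self _).trans hl

theorem Up.ev_one {F : ℕ → ℝ} {e E : ℝ} (h1 : Up F e) (h2 : e < E) :
    ∀ᶠ l : ℕ in atTop, F l ≤ (l : ℝ) ^ E := by
  filter_upwards [Up.ev one_pos h1 h2] with l hl
  rwa [one_mul] at hl

theorem Up.ev_const {F : ℕ → ℝ} {e c : ℝ} (hc : 0 < c) (h1 : Up F e) (h2 : e < 0) :
    ∀ᶠ l : ℕ in atTop, F l ≤ c := by
  filter_upwards [Up.ev hc h1 h2] with l hl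
  simpa using hl

/-! ### uniform bounds over data depending on the scale -/

/-- `F` is `O(l^e)` uniformly over the data `i : ι l` -/
def UpD {ι : ℕ → Type*} (F : ∀ l, ι l → ℝ) (e : ℝ) : Prop :=
  ∃ C : ℝ, 0 < C ∧ ∀ᶠ l : ℕ in atTop, ∀ i : ι l, |F l i| ≤ C * (l : ℝ) ^ e

section
variable {ι : ℕ → Type*} {F G : ∀ l, ι l → ℝ} {e e' : ℝ}

theorem UpD.of {f : ℕ → ℝ} (h : Up f e) : UpD (ι := ι) (fun l _ => f l) e := by
  obtain ⟨C, hC, h1⟩ := h.bound
  exact ⟨C, hC, h1.mono fun l hl _ => hl⟩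

theorem UpD.const (c : ℝ) : UpD (ι := ι) (fun _ _ => c) 0 := UpD.of (Up.const c)

theorem UpD.intro {C : ℝ} (h : ∀ᶠ l : ℕ in atTop, ∀ i : ι l, |F l i| ≤ C * (l : ℝ) ^ e) :
    UpD F e := by
  refine ⟨|C| + 1, by positivity, h.mono fun l hl i => (hl i).trans ?_⟩
  refine mul_le_mul_of_nonneg_right ?_ (Real.rpow_nonneg (Nat.cast_nonneg l) e)
  linarith [le_abs_self C]

theorem UpD.mono (h : UpD F e) (he : e ≤ e') : UpD F e' := by
  obtain ⟨C, hC, h1⟩ := h
  refine ⟨C, hC, ?_⟩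
  filter_upwards [h1, ev_one] with l hl hl1 i
  refine (hl i).trans (mul_le_mul_of_nonneg_left ?_ hC.le)
  exact Real.rpow_le_rpow_of_exponent_le (by exact_mod_cast hl1) he

theorem UpD.of_le (hG : UpD G e) (h : ∀ᶠ l : ℕ in atTop, ∀ i : ι l, |F l i| ≤ |G l i|) :
    UpD F e := by
  obtain ⟨C, hC, h1⟩ := hG
  refine ⟨C, hC, ?_⟩
  filter_upwards [h1, h] with l hl hl' i
  exact (hl' i).trans (hl i)

theorem UpD.of_le' (hG : UpD G e) (h : ∀ᶠ l : ℕ in atTop, ∀ i : ι l, 0 ≤ F l i ∧ F l i ≤ G l i) :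
    UpD F e := by
  refine hG.of_le (h.mono fun l hl i => ?_)
  rw [abs_of_nonneg (hl i).1]
  exact (hl i).2.trans (le_abs_self _)

theorem UpD.congr' (hG : UpD G e) (h : ∀ l, ∀ i : ι l, F l i = G l i) : UpD F e :=
  hG.of_le (Eventually.of_forall fun l i => by rw [h])

theorem UpD.add' (hF : UpD F e) (hG : UpD G e') : UpD (fun l i => F l i + G l i) (Max.max e e') := by
  obtain ⟨C, hC, h1⟩ := hF.mono (le_max_left e e')
  obtain ⟨C', hC', h2⟩ := hG.mono (le_max_right e e')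
  refine ⟨C + C', by positivity, ?_⟩
  filter_upwards [h1, h2] with l hl hl' i
  rw [add_mul]
  exact (abs_add_le _ _).trans (add_le_add (hl i) (hl' i))

theorem UpD.neg (hF : UpD F e) : UpD (fun l i => - F l i) e :=
  hF.of_le (Eventually.of_forall fun l i => by rw [abs_neg])

theorem UpD.sub' (hF : UpD F e) (hG : UpD G e') :
    UpD (fun l i => F l i - G l i) (Max.max e e') := by
  simpa [sub_eq_add_neg] using hF.add' hG.neg

theorem UpD.mul (hF : UpD F e) (hG : UpD G e') : UpD (fun l i => F l i * G l i) (e + e') := by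
  obtain ⟨C, hC, h1⟩ := hF
  obtain ⟨C', hC', h2⟩ := hG
  refine ⟨C * C', by positivity, ?_⟩
  filter_upwards [h1, h2, ev_one] with l hl hl' hl1 i
  have hl0 : (0 : ℝ) < l := by exact_mod_cast hl1
  rw [abs_mul, Real.rpow_add hl0]
  calc |F l i| * |G l i| ≤ (C * (l : ℝ) ^ e) * (C' * (l : ℝ) ^ e') :=
        mul_le_mul (hl i) (hl' i) (abs_nonneg _) (by positivity)
    _ = C * C' * ((l : ℝ) ^ e * (l : ℝ) ^ e') := by ring

theorem UpD.pow (hF : UpD F e) (n : ℕ) : UpD (fun l i => F l i ^ n) (n * e) := by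
  induction n with
  | zero => simpa using UpD.const (ι := ι) 1
  | succ n ih =>
    have := ih.mul hF
    refine (this.congr' (fun l i => pow_succ _ _)).mono (le_of_eq ?_)
    push_cast; ring

theorem UpD.abs (hF : UpD F e) : UpD (fun l i => |F l i|) e :=
  hF.of_le (Eventually.of_forall fun l i => by rw [abs_abs])

theorem UpD.max (hF : UpD F e) (hG : UpD G e') :
    UpD (fun l i => Max.max (F l i) (G l i)) (Max.max e e') := by
  refine (hF.abs.add' hG.abs).of_le (Eventually.of_forall fun l i => ?_)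
  have h1 : |Max.max (F l i) (G l i)| ≤ |F l i| + |G l i| := by
    rcases max_choice (F l i) (G l i) with h | h <;> rw [h]
    · linarith [abs_nonneg (G l i)]
    · linarith [abs_nonneg (F l i)]
  exact h1.trans (le_abs_self _)

theorem UpD.sqrt (hF : UpD F e) : UpD (fun l i => Real.sqrt (F l i)) (e / 2) := by
  obtain ⟨C, hC, h1⟩ := hF
  refine UpD.intro (C := Real.sqrt C) ?_
  filter_upwards [h1, ev_one] with l hl hl1 i
  have hl' : (0 : ℝ) ≤ l := Nat.cast_nonneg l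
  rw [abs_of_nonneg (Real.sqrt_nonneg _), div_eq_mul_inv, ← one_div, Real.rpow_mul hl',
    ← Real.sqrt_eq_rpow, ← Real.sqrt_mul hC.le]
  exact Real.sqrt_le_sqrt ((le_abs_self _).trans (hl i))

/-- the inverse of something `≥ c l^e` -/
theorem UpD.inv {c : ℝ} (hc : 0 < c)
    (h : ∀ᶠ l : ℕ in atTop, ∀ i : ι l, c * (l : ℝ) ^ e ≤ F l i) :
    UpD (fun l i => (F l i)⁻¹) (-e) := by
  refine UpD.intro (C := c⁻¹) ?_
  filter_upwards [h, ev_one] with l hl hl1 i
  have hl0 : (0 : ℝ) < l := by exact_mod_cast hl1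
  have h0 : (0 : ℝ) < (l : ℝ) ^ e := Real.rpow_pos_of_pos hl0 e
  have h1 : 0 < c * (l : ℝ) ^ e := by positivity
  rw [abs_of_nonneg (inv_nonneg.2 (h1.trans_le (hl i)).le), Real.rpow_neg hl0.le, ← mul_inv]
  exact inv_anti₀ h1 (hl i)

theorem UpD.inv_mul (hF : UpD (fun l i => (F l i)⁻¹) e) (hG : UpD (fun l i => (G l i)⁻¹) e') :
    UpD (fun l i => (F l i * G l i)⁻¹) (e + e') :=
  (hF.mul hG).congr' fun l i => by rw [mul_inv]

theorem UpD.inv_pow (hF : UpD (fun l i => (F l i)⁻¹) e) (n : ℕ) :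
    UpD (fun l i => (F l i ^ n)⁻¹) (n * e) :=
  (hF.pow n).congr' fun l i => by rw [_root_.inv_pow]

theorem UpD.inv_inv (hF : UpD F e) : UpD (fun l i => ((F l i)⁻¹)⁻¹) e :=
  hF.congr' fun l i => by rw [_root_.inv_inv]

theorem UpD.div (hF : UpD F e) (hG : UpD (fun l i => (G l i)⁻¹) e') :
    UpD (fun l i => F l i / G l i) (e + e') :=
  (hF.mul hG).congr' fun l i => by rw [div_eq_mul_inv]

theorem UpD.inv_div (hF : UpD (fun l i => (F l i)⁻¹) e) (hG : UpD G e') :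
    UpD (fun l i => (F l i / G l i)⁻¹) (e + e') :=
  (hF.mul hG).congr' fun l i => by rw [_root_.inv_div, div_eq_mul_inv, mul_comm]

/-- the use of a uniform power bound -/
theorem UpD.ev {E c : ℝ} (hc : 0 < c) (h1 : UpD F e) (h2 : e < E) :
    ∀ᶠ l : ℕ in atTop, ∀ i : ι l, |F l i| ≤ c * (l : ℝ) ^ E := by
  obtain ⟨C, hC, h⟩ := h1
  have h3 : Up (fun l : ℕ => C * (l : ℝ) ^ e) e := (Up.pow_self e).cmul C
  filter_upwards [h, h3.le h2 hc] with l hl hl' i
  exact (hl i).trans ((le_abs_self _).trans hl')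

theorem UpD.ev_le {E c : ℝ} (hc : 0 < c) (h1 : UpD F e) (h2 : e < E) :
    ∀ᶠ l : ℕ in atTop, ∀ i : ι l, F l i ≤ c * (l : ℝ) ^ E := by
  filter_upwards [UpD.ev hc h1 h2] with l hl i
  exact (le_abs_self _).trans (hl i)

theorem UpD.ev_one {E : ℝ} (h1 : UpD F e) (h2 : e < E) :
    ∀ᶠ l : ℕ in atTop, ∀ i : ι l, F l i ≤ (l : ℝ) ^ E := by
  filter_upwards [UpD.ev_le one_pos h1 h2] with l hl i
  have := hl i
  rwa [one_mul] at this

theorem UpD.ev_const {c : ℝ} (hc : 0 < c) (h1 : UpD F e) (h2 : e < 0) :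
    ∀ᶠ l : ℕ in atTop, ∀ i : ι l, F l i ≤ c := by
  filter_upwards [UpD.ev_le hc h1 h2] with l hl i
  simpa using hl i

end

end Vale.Agent.P356.GA.Par
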