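import Vale.Agent.P356.GA.UpFin551
import Vale.Agent.P356.NA.Layer

/-!
# GA, block ENTROPY for two copies: a vector close to the product ground state has not much less
entropy, for all admissible gapped Hamiltonians
-/

set_option linter.all false

namespace Vale.Agent.P356.GA

open Matrix Finset Vale.Agent.P356 Vale.Agent.P356.SV Vale.Agent.P356.Path Vale.Agent.P356.NA
  Vale.Agent.P356.SA
open scoped BigOperators ComplexOrder Kronecker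

/-- two copies: closeness of the product vectors -/
theorem nrm_dbl_sub {V W : Type} [Fintype V] [DecidableEq V] [Fintype W] [DecidableEq W] {q : ℕ}
    {Ω Φ : Conf V q → ℂ} {Ω' Φ' : Conf W q → ℂ} (hΩ : nsq Ω = 1) (hΦ' : nsq Φ' = 1) :
    nrm (dbl Φ Φ' - dbl Ω Ω') ≤ nrm (Φ - Ω) + nrm (Φ' - Ω') := by
  have e : dbl Φ Φ' - dbl Ω Ω' = dbl (Φ - Ω) Φ' + dbl Ω (Φ' - Ω') := by
    funext s
    simp only [dbl, Pi.sub_apply, Pi.add_apply]
    ring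
  rw [e]
  refine (nrm_add_le _ _).trans (le_of_eq ?_)
  rw [nrm, nrm, nsq_dbl, nsq_dbl, hΦ', hΩ, mul_one, one_mul]
  rfl

/-- small energy for the doubled Hamiltonian: close to a multiple of `Ω ⊗ Ω` -/
theorem close_of_energy_two {V : Type} [Fintype V] [DecidableEq V] {q : ℕ}
    {H1 : Op V q} {Δ E η ε : ℝ} {Ω1 Ω : Conf V q → ℂ} {ψ : Conf (V ⊕ V) q → ℂ}
    (hg : GappedGround (cp1 H1 + cp2 H1 : Op (V ⊕ V) q) Δ E (dbl Ω1 Ω1)) (hΔ : 0 < Δ)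
    (hΩ1 : nsq Ω1 = 1) (hΩ : nsq Ω = 1) (hψ : nsq ψ = 1)
    (he : (star ψ ⬝ᵥ ((cp1 H1 + cp2 H1 : Op (V ⊕ V) q) *ᵥ ψ)).re ≤ E + η)
    (hε : nrm (Ω1 - Ω) ≤ ε) :
    ∃ c : ℂ, ‖c‖ ≤ 1 ∧ nrm (ψ - c • dbl Ω Ω) ≤ Real.sqrt (η / Δ) + 2 * ε := by
  refine close_of_energy hg hΔ hψ he ?_
  refine (nrm_dbl_sub hΩ hΩ1).trans ?_
  linarith

section two
variable {L q R : ℕ}

/-- the two copy region `A ⊔ B`, all gapped Hamiltonians -/
theorem entropy_low_two (hq : 1 ≤ q) {J Δ E : ℝ} (hJ : 0 < J) (hΔ : 0 < Δ)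
    {H : Op (Site L) q} {Ω : Conf (Site L) q → ℂ} (hA : Admissible L q R J H)
    (hg : GappedGround H Δ E Ω) (A B : Finset (Site L)) {b : ℝ} (hbA : (bdry A : ℝ) ≤ b)
    (hbB : (bdry B : ℝ) ≤ b)
    (ψ : Conf (Site L ⊕ Site L) q → ℂ) (hψ : nsq ψ = 1) (c : ℂ) (hc : ‖c‖ ≤ 1) {δ s : ℝ}
    (hδ : 0 ≤ δ) (hs : 0 ≤ s) (hd : nrm (ψ - c • dbl Ω Ω) ≤ δ) :
    entropyOf A Ω + entropyOf B Ω ≤ entropyOf (A.disjSum B) ψ +
      ((4 * Real.exp (-s) + 2 * δ ^ 2) * (entropyOf A Ω + entropyOf B Ω) +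
        ((24 + 12 * Real.sqrt (spread_const q R * (J / Δ) * b)) * (2 + s) + s)) := by
  have hΩ : nsq Ω = 1 := hg.1
  have hsc : 0 ≤ spread_const q R * (J / Δ) := by
    rw [spread_const]
    positivity
  have hb0 : 0 ≤ b := le_trans (Nat.cast_nonneg _) hbA
  have hK0 : 0 ≤ spread_const q R * (J / Δ) * b := mul_nonneg hsc hb0
  have tA := na_k_tail_mono (mul_le_mul_of_nonneg_left hbA hsc) (spread_law hJ hΔ hq hA hg A).2.1
  have tB := na_k_tail_mono (mul_le_mul_of_nonneg_left hbB hsc) (spread_law hJ hΔ hq hA hg B).2.1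
  have ht := tail_dbl A B hΩ hΩ hK0 tA tB
  have hdb : nsq (dbl Ω Ω) = 1 := by rw [nsq_dbl, hΩ, one_mul]
  have h := entropy_low_clean (A.disjSum B) ψ (dbl Ω Ω) hψ hdb c hc hδ hs hd ht
  rw [entropy_dbl A B hΩ hΩ] at h
  rw [Real.sqrt_sq (by positivity)] at h
  have e : (4 + 2 * (10 + 6 * Real.sqrt (spread_const q R * (J / Δ) * b))) * (2 + s) + s =
      (24 + 12 * Real.sqrt (spread_const q R * (J / Δ) * b)) * (2 + s) + s := by ring
  rw [e] at h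
  exact h

/-- weighted sum over the cuts -/
theorem entropy_low_sum (hq : 1 ≤ q) {J Δ E : ℝ} (hJ : 0 < J) (hΔ : 0 < Δ)
    {H : Op (Site L) q} {Ω : Conf (Site L) q → ℂ} (hA : Admissible L q R J H)
    (hg : GappedGround H Δ E Ω) (n : ℕ) (θ : ℕ → ℝ) (hθ : ∀ k, k < n → 0 ≤ θ k)
    (A B : ℕ → Finset (Site L)) {b : ℝ} (hbA : ∀ k, k < n → (bdry (A k) : ℝ) ≤ b)
    (hbB : ∀ k, k < n → (bdry (B k) : ℝ) ≤ b)
    (ψ : Conf (Site L ⊕ Site L) q → ℂ) (hψ : nsq ψ = 1) (c : ℂ) (hc : ‖c‖ ≤ 1) {δ s : ℝ}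
    (hδ : 0 ≤ δ) (hs : 0 ≤ s) (hd : nrm (ψ - c • dbl Ω Ω) ≤ δ) :
    -(∑ k ∈ range n, θ k * entropyOf ((A k).disjSum (B k)) ψ) ≤
      -(1 - (4 * Real.exp (-s) + 2 * δ ^ 2)) *
        (∑ k ∈ range n, θ k * (entropyOf (A k) Ω + entropyOf (B k) Ω)) +
      (∑ k ∈ range n, θ k) *
        ((24 + 12 * Real.sqrt (spread_const q R * (J / Δ) * b)) * (2 + s) + s) := by
  have key : ∀ k ∈ range n, (1 - (4 * Real.exp (-s) + 2 * δ ^ 2)) *
      (θ k * (entropyOf (A k) Ω + entropyOf (B k) Ω)) ≤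
      θ k * entropyOf ((A k).disjSum (B k)) ψ + θ k *
        ((24 + 12 * Real.sqrt (spread_const q R * (J / Δ) * b)) * (2 + s) + s) := by
    intro k hk
    rw [Finset.mem_range] at hk
    have h := entropy_low_two hq hJ hΔ hA hg (A k) (B k) (hbA k hk) (hbB k hk) ψ hψ c hc hδ hs hd
    have h2 := mul_le_mul_of_nonneg_left h (hθ k hk)
    linarith
  have h := Finset.sum_le_sum key
  rw [← Finset.mul_sum, Finset.sum_add_distrib, ← Finset.sum_mul] at h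
  linarith

end two

end Vale.Agent.P356.GA
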