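import Vale.Agent.P356.GA.Rec103
import Vale.Agent.P356.SA.Grid679
import Vale.Agent.P356.SA.DecGeo

/-!
Regions that live in a thin ring: the entropy of a region is bounded by its boundary times the
bound for boxes of a fixed scale `s`, plus the entropies of the grid boxes that it meets.
-/

set_option linter.all false

namespace Vale.Agent.P356.GA

open Matrix Finset Vale.Agent.P356 Vale.Agent.P356.SV Vale.Agent.P356.NA Vale.Agent.P356.SA
open scoped BigOperators

section box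
variable {L : ℕ} {S : Finset (Site L) → ℝ} {B : Finset (Site L)}

/-- the recursion over boxes of side `≤ 2 ^ K` with a linear bound `W l` for the rectangles -/
theorem rec_win {W κ : ℝ} (hW0 : 0 ≤ W) (hκ : 0 ≤ κ)
    (hsub : ∀ A B, Disjoint A B → S (A ∪ B) ≤ S A + S B)
    (hc : ∀ A, S Aᶜ = S A) (hcard : ∀ B, S B ≤ κ * B.card)
    {K : ℕ} (hrect : ∀ l x0 x1 y0 y1 : ℕ, 1 ≤ l → l ≤ 2 ^ K → x1 ≤ x0 + l → y1 ≤ y0 + l →
        S (rect L x0 x1 y0 y1) ≤ W * l) (k : ℕ) (hk : k ≤ K) :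
    ∀ x0 x1 y0 y1 : ℕ, x1 ≤ L → y1 ≤ L → x0 + 2 ^ k ≤ x1 → x1 ≤ x0 + 2 ^ (k + 1) →
      y0 + 2 ^ k ≤ y1 → y1 ≤ y0 + 2 ^ (k + 1) →
      na_m_val S B (na_m_mj B (rect L x0 x1 y0 y1)) (rect L x0 x1 y0 y1) ≤
        (b9_bin B (rect L x0 x1 y0 y1)).card * (4 * κ + 8 * W * k) := by
  have hS0 : S ∅ ≤ 0 := by
    have := hcard ∅
    simpa using this
  set T : ℝ := 8 * W with hT
  have hT0 : 0 ≤ T := by positivity
  induction k with
  | zero =>
    intro x0 x1 y0 y1 hx hy h1 h2 h3 h4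
    rw [pow_zero] at h1 h3
    rw [zero_add, pow_one] at h2 h4
    set P := rect L x0 x1 y0 y1 with hP
    set b := (b9_bin B P).card with hb
    have hPc : P.card ≤ 4 := by
      rw [hP, na_m_card hx hy]
      calc (x1 - x0) * (y1 - y0) ≤ 2 * 2 := Nat.mul_le_mul (by omega) (by omega)
        _ = 4 := by norm_num
    have hPc1 : 1 ≤ P.card := by
      rw [hP, na_m_card hx hy]
      exact Nat.mul_pos (by omega) (by omega)
    have hsP : (P \ B).card + (B ∩ P).card = P.card := by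
      have := Finset.card_sdiff_add_card_inter P B
      rw [Finset.inter_comm P B] at this
      exact this
    have hb0 : (0 : ℝ) ≤ b := Nat.cast_nonneg _
    have hkey : ∀ D : Finset (Site L), D.card ≤ 4 → (D.card ≠ 0 → 1 ≤ b) →
        S D ≤ b * (4 * κ + T * ((0 : ℕ) : ℝ)) := by
      intro D hD hDb
      by_cases hD0 : D.card = 0
      · rw [Finset.card_eq_zero] at hD0
        rw [hD0]
        have : 0 ≤ (b : ℝ) * (4 * κ + T * ((0 : ℕ) : ℝ)) := by positivity
        linarith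
      · have hb1 : (1 : ℝ) ≤ b := by exact_mod_cast hDb hD0
        have hD4 : (D.card : ℝ) ≤ 4 := by exact_mod_cast hD
        have h5 := hcard D
        have h6 : κ * D.card ≤ κ * 4 := mul_le_mul_of_nonneg_left hD4 hκ
        rw [Nat.cast_zero, mul_zero, add_zero]
        nlinarith [mul_nonneg hκ (sub_nonneg.2 hb1)]
    have hiso := na_m_iso (B := B) (x0 := x0) (y0 := y0) hx hy
    rw [← hP, ← hb] at hiso
    unfold na_m_val na_m_mj
    by_cases hm : P.card < 2 * (B ∩ P).card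
    · rw [decide_eq_true hm]
      simp only [if_true]
      apply hkey
      · omega
      · intro h0
        by_contra hcon
        have hb00 : b = 0 := by omega
        rw [hb00] at hiso
        omega
    · rw [decide_eq_false hm]
      simp only [Bool.false_eq_true, if_false]
      apply hkey
      · omega
      · intro h0
        by_contra hcon
        have hb00 : b = 0 := by omega
        rw [hb00] at hiso
        omega
  | succ k ih =>
    intro x0 x1 y0 y1 hx hy h1 h2 h3 h4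
    have e2 : 2 ^ (k + 1) = 2 * 2 ^ k := by rw [pow_succ]; ring
    have e3 : 2 ^ (k + 1 + 1) = 4 * 2 ^ k := by rw [pow_succ, pow_succ]; ring
    have hkK : 2 ^ (k + 1) ≤ 2 ^ K := Nat.pow_le_pow_right (by norm_num) hk
    specialize ih (by omega)
    set xm := x0 + (x1 - x0) / 2 with hxm
    set ym := y0 + (y1 - y0) / 2 with hym
    set P := rect L x0 x1 y0 y1 with hP
    set Q1 := rect L x0 xm y0 ym with hQ1
    set Q2 := rect L x0 xm ym y1 with hQ2
    set Q3 := rect L xm x1 y0 ym with hQ3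
    set Q4 := rect L xm x1 ym y1 with hQ4
    set m := na_m_mj B P with hm
    have hxm1 : x0 + 2 ^ k ≤ xm := by omega
    have hxm2 : xm ≤ x0 + 2 ^ (k + 1) := by omega
    have hxm3 : xm + 2 ^ k ≤ x1 := by omega
    have hxm4 : x1 ≤ xm + 2 ^ (k + 1) := by omega
    have hym1 : y0 + 2 ^ k ≤ ym := by omega
    have hym2 : ym ≤ y0 + 2 ^ (k + 1) := by omega
    have hym3 : ym + 2 ^ k ≤ y1 := by omega
    have hym4 : y1 ≤ ym + 2 ^ (k + 1) := by omega
    have d12 : Disjoint Q1 Q2 := by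
      rw [Finset.disjoint_left]; intro p hp hq; rw [hQ1, b8_mem] at hp; rw [hQ2, b8_mem] at hq; omega
    have d34 : Disjoint Q3 Q4 := by
      rw [Finset.disjoint_left]; intro p hp hq; rw [hQ3, b8_mem] at hp; rw [hQ4, b8_mem] at hq; omega
    have d1234 : Disjoint (Q1 ∪ Q2) (Q3 ∪ Q4) := by
      rw [Finset.disjoint_left]; intro p hp hq
      rw [Finset.mem_union, hQ1, hQ2, b8_mem, b8_mem] at hp
      rw [Finset.mem_union, hQ3, hQ4, b8_mem, b8_mem] at hq
      omega
    have eP : P = (Q1 ∪ Q2) ∪ (Q3 ∪ Q4) := by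
      ext p
      rw [Finset.mem_union, Finset.mem_union, Finset.mem_union, hP, hQ1, hQ2, hQ3, hQ4, b8_mem,
        b8_mem, b8_mem, b8_mem, b8_mem]
      omega
    have s1 : Q1 ⊆ P := by rw [eP]; intro p hp; simp only [Finset.mem_union]; tauto
    have s2 : Q2 ⊆ P := by rw [eP]; intro p hp; simp only [Finset.mem_union]; tauto
    have s3 : Q3 ⊆ P := by rw [eP]; intro p hp; simp only [Finset.mem_union]; tauto
    have s4 : Q4 ⊆ P := by rw [eP]; intro p hp; simp only [Finset.mem_union]; tauto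
    have i1 := ih x0 xm y0 ym (by omega) (by omega) hxm1 hxm2 hym1 hym2
    have i2 := ih x0 xm ym y1 (by omega) hy hxm1 hxm2 hym3 hym4
    have i3 := ih xm x1 y0 ym hx (by omega) hxm3 hxm4 hym1 hym2
    have i4 := ih xm x1 ym y1 hx hy hxm3 hxm4 hym3 hym4
    rw [← hQ1] at i1
    rw [← hQ2] at i2
    rw [← hQ3] at i3
    rw [← hQ4] at i4
    -- boundary
    have hbsum : (b9_bin B Q1).card + (b9_bin B Q2).card + (b9_bin B Q3).card +
        (b9_bin B Q4).card ≤ (b9_bin B P).card := by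
      have a1 := na_m_bin_union (B := B) d12
      have a2 := na_m_bin_union (B := B) d34
      have a3 := na_m_bin_union (B := B) d1234
      rw [← eP] at a3
      omega
    have hbsumR : ((b9_bin B Q1).card : ℝ) + (b9_bin B Q2).card + (b9_bin B Q3).card +
        (b9_bin B Q4).card ≤ (b9_bin B P).card := by exact_mod_cast hbsum
    -- values
    have v0 : na_m_val S B m P ≤ na_m_val S B m Q1 + na_m_val S B m Q2 + na_m_val S B m Q3 +
        na_m_val S B m Q4 := by
      have a1 := na_m_union (B := B) hsub m d12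
      have a2 := na_m_union (B := B) hsub m d34
      have a3 := na_m_union (B := B) hsub m d1234
      rw [← eP] at a3
      linarith
    -- the cost of one child
    have hchild : ∀ u0 u1 v0 v1 : ℕ, u1 ≤ L → v1 ≤ L → u0 + 2 ^ k ≤ u1 → u1 ≤ u0 + 2 ^ (k + 1) →
        v0 + 2 ^ k ≤ v1 → v1 ≤ v0 + 2 ^ (k + 1) → rect L u0 u1 v0 v1 ⊆ P →
        na_m_val S B m (rect L u0 u1 v0 v1) ≤
          na_m_val S B (na_m_mj B (rect L u0 u1 v0 v1)) (rect L u0 u1 v0 v1) +
            (b9_bin B P).card * (T / 4) := by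
      intro u0 u1 v0 v1 g1 g2 g3 g4 g5 g6 g7
      set Q := rect L u0 u1 v0 v1 with hQ
      by_cases hmm : m = na_m_mj B Q
      · rw [← hmm]
        have : 0 ≤ ((b9_bin B P).card : ℝ) * (T / 4) := by positivity
        linarith
      · have hsw := na_m_switch (B := B) hsub hc Q m (na_m_mj B Q) hmm
        have hQc : 4 ^ k ≤ Q.card := by
          rw [hQ, na_m_card g1 g2]
          calc 4 ^ k = 2 ^ k * 2 ^ k := by rw [← mul_pow]; norm_num
            _ ≤ (u1 - u0) * (v1 - v0) := Nat.mul_le_mul (by omega) (by omega)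
        have hmis := na_m_mismatch (B := B) hx hy h1 h3 g7 hQc hmm
        rw [← hP] at hmis
        have hQS := hrect (2 ^ (k + 1)) u0 u1 v0 v1 (Nat.one_le_two_pow) hkK g4 g6
        rw [← hQ] at hQS
        have hpk : ((2 ^ (k + 1) : ℕ) : ℝ) ≤ 2 * (b9_bin B P).card := by
          have h9 : 2 ^ (k + 1) ≤ 2 * (b9_bin B P).card := by omega
          exact_mod_cast h9
        have hfin : S Q ≤ (b9_bin B P).card * (T / 4) := by
          have h10 := mul_le_mul_of_nonneg_left hpk hW0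
          rw [hT]
          linarith
        linarith
    have c1 := hchild x0 xm y0 ym (by omega) (by omega) hxm1 hxm2 hym1 hym2 s1
    have c2 := hchild x0 xm ym y1 (by omega) hy hxm1 hxm2 hym3 hym4 s2
    have c3 := hchild xm x1 y0 ym hx (by omega) hxm3 hxm4 hym1 hym2 s3
    have c4 := hchild xm x1 ym y1 hx hy hxm3 hxm4 hym3 hym4 s4
    rw [← hQ1] at c1
    rw [← hQ2] at c2
    rw [← hQ3] at c3
    rw [← hQ4] at c4
    have hW : 0 ≤ 4 * κ + T * (k : ℝ) := by positivity
    have hsumW : ((b9_bin B Q1).card : ℝ) * (4 * κ + T * (k : ℝ)) +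
        (b9_bin B Q2).card * (4 * κ + T * (k : ℝ)) +
        (b9_bin B Q3).card * (4 * κ + T * (k : ℝ)) +
        (b9_bin B Q4).card * (4 * κ + T * (k : ℝ)) ≤
        (b9_bin B P).card * (4 * κ + T * (k : ℝ)) := by
      have := mul_le_mul_of_nonneg_right hbsumR hW
      linarith
    have e5 : ((b9_bin B P).card : ℝ) * (4 * κ + T * ((k + 1 : ℕ) : ℝ)) =
        (b9_bin B P).card * (4 * κ + T * (k : ℝ)) +
          4 * ((b9_bin B P).card * (T / 4)) := by push_cast; ring
    rw [e5]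
    linarith

/-- The part of `B` in a rectangle with sides between `2 ^ k` and `2 ^ (k + 1)`. -/
theorem part_win {W κ : ℝ} (hW0 : 0 ≤ W) (hκ : 0 ≤ κ)
    (hsub : ∀ A B, Disjoint A B → S (A ∪ B) ≤ S A + S B)
    (hc : ∀ A, S Aᶜ = S A) (hcard : ∀ B, S B ≤ κ * B.card)
    (k : ℕ) (hrect : ∀ l x0 x1 y0 y1 : ℕ, 1 ≤ l → l ≤ 2 ^ (k + 1) → x1 ≤ x0 + l → y1 ≤ y0 + l →
        S (rect L x0 x1 y0 y1) ≤ W * l) {x0 x1 y0 y1 : ℕ} (hx : x1 ≤ L) (hy : y1 ≤ L)
    (h1 : x0 + 2 ^ k ≤ x1) (h2 : x1 ≤ x0 + 2 ^ (k + 1))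
    (h3 : y0 + 2 ^ k ≤ y1) (h4 : y1 ≤ y0 + 2 ^ (k + 1)) :
    S (B ∩ rect L x0 x1 y0 y1) ≤
      (b9_bin B (rect L x0 x1 y0 y1)).card * (4 * κ + 8 * W * k) + W * 2 ^ (k + 1) := by
  have h := rec_win (S := S) (B := B) hW0 hκ hsub hc hcard
    (K := k + 1) hrect k (by omega) x0 x1 y0 y1 hx hy h1 h2 h3 h4
  have hP := hrect (2 ^ (k + 1)) x0 x1 y0 y1 Nat.one_le_two_pow le_rfl h2 h4
  push_cast at hP
  have hW2 : 0 ≤ W * 2 ^ (k + 1) := by positivity
  by_cases hm : na_m_mj B (rect L x0 x1 y0 y1) = false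
  · rw [hm] at h
    have e : na_m_val S B false (rect L x0 x1 y0 y1) = S (B ∩ rect L x0 x1 y0 y1) := by
      unfold na_m_val
      simp
    rw [e] at h
    linarith
  · have hm' : false ≠ na_m_mj B (rect L x0 x1 y0 y1) := fun h' => hm h'.symm
    have hsw := na_m_switch (S := S) (B := B) hsub hc (rect L x0 x1 y0 y1) false _ hm'
    have e : na_m_val S B false (rect L x0 x1 y0 y1) = S (B ∩ rect L x0 x1 y0 y1) := by
      unfold na_m_val
      simp
    rw [e] at hsw
    linarith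

/-- subadditivity over a family of disjoint pieces -/
theorem sum_pieces (hsub : ∀ A B, Disjoint A B → S (A ∪ B) ≤ S A + S B) (h0 : S ∅ ≤ 0)
    {ι : Type*} [DecidableEq ι] (T : Finset ι) (P : ι → Finset (Site L))
    (hd : ∀ i ∈ T, ∀ j ∈ T, i ≠ j → Disjoint (P i) (P j)) :
    S (T.biUnion P) ≤ ∑ i ∈ T, S (P i) := by
  induction T using Finset.induction with
  | empty => simpa using h0
  | insert a T ha ih =>
    rw [Finset.biUnion_insert, Finset.sum_insert ha]
    have hda : Disjoint (P a) (T.biUnion P) := by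
      rw [Finset.disjoint_biUnion_right]
      intro j hj
      exact hd a (Finset.mem_insert_self _ _) j (Finset.mem_insert_of_mem hj)
        (fun h => ha (h ▸ hj))
    have h1 := hsub _ _ hda
    have h2 := ih (fun i hi j hj => hd i (Finset.mem_insert_of_mem hi) j
      (Finset.mem_insert_of_mem hj))
    linarith

theorem sum_bin {ι : Type*} [DecidableEq ι] (T : Finset ι) (P : ι → Finset (Site L))
    (hd : ∀ i ∈ T, ∀ j ∈ T, i ≠ j → Disjoint (P i) (P j)) :
    ∑ i ∈ T, (b9_bin B (P i)).card ≤ (b9_bin B (T.biUnion P)).card := by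
  induction T using Finset.induction with
  | empty => simp
  | insert a T ha ih =>
    rw [Finset.biUnion_insert, Finset.sum_insert ha]
    have hda : Disjoint (P a) (T.biUnion P) := by
      rw [Finset.disjoint_biUnion_right]
      intro j hj
      exact hd a (Finset.mem_insert_self _ _) j (Finset.mem_insert_of_mem hj)
        (fun h => ha (h ▸ hj))
    have h1 := na_m_bin_union (B := B) hda
    have h2 := ih (fun i hi j hj => hd i (Finset.mem_insert_of_mem hi) j
      (Finset.mem_insert_of_mem hj))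
    omega

/-- Every region: boundary times the constant of the scale `2 ^ k`, plus the grid boxes met. -/
theorem region_win {W κ : ℝ} (hW0 : 0 ≤ W) (hκ : 0 ≤ κ)
    (hsub : ∀ A B, Disjoint A B → S (A ∪ B) ≤ S A + S B)
    (hc : ∀ A, S Aᶜ = S A) (hcard : ∀ B, S B ≤ κ * B.card)
    (k : ℕ) (hkL : 2 ^ k ≤ L)
    (hrect : ∀ l x0 x1 y0 y1 : ℕ, 1 ≤ l → l ≤ 2 ^ (k + 1) → x1 ≤ x0 + l → y1 ≤ y0 + l →
        S (rect L x0 x1 y0 y1) ≤ W * l) (B : Finset (Site L)) (m : ℕ)
    (hm : ((gT L (2 ^ k)).filter (fun z => (B ∩ gBox L (2 ^ k) z).Nonempty)).card ≤ m) :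
    S B ≤ bdry B * (4 * κ + 8 * W * k) + m * (W * 2 ^ (k + 1)) := by
  have hs : 1 ≤ 2 ^ k := Nat.one_le_two_pow
  have hS0 : S ∅ ≤ 0 := by
    have := hcard ∅
    simpa using this
  set T := (gT L (2 ^ k)).filter (fun z => (B ∩ gBox L (2 ^ k) z).Nonempty) with hT
  have hTm : ∀ z ∈ T, z ∈ gT L (2 ^ k) := fun z hz => (Finset.mem_filter.1 hz).1
  have hdisj : ∀ i ∈ T, ∀ j ∈ T, i ≠ j → Disjoint (gBox L (2 ^ k) i) (gBox L (2 ^ k) j) :=
    fun i hi j hj hij => gBox_disj hs hkL (hTm i hi) hij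
  have hBe : B = T.biUnion (fun z => B ∩ gBox L (2 ^ k) z) := by
    ext p
    rw [Finset.mem_biUnion]
    constructor
    · intro hp
      have h1 : gIx L (2 ^ k) p ∈ gT L (2 ^ k) := gIx_mem hs hkL p
      have h2 : p ∈ gBox L (2 ^ k) (gIx L (2 ^ k) p) := (gBox_mem hs hkL h1 p).2 rfl
      have h3 : p ∈ B ∩ gBox L (2 ^ k) (gIx L (2 ^ k) p) := Finset.mem_inter.2 ⟨hp, h2⟩
      exact ⟨_, Finset.mem_filter.2 ⟨h1, ⟨p, h3⟩⟩, h3⟩
    · rintro ⟨z, _, hz⟩
      exact (Finset.mem_inter.1 hz).1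
  have h1 : S B ≤ ∑ z ∈ T, S (B ∩ gBox L (2 ^ k) z) := by
    conv_lhs => rw [hBe]
    exact sum_pieces hsub hS0 T _ (fun i hi j hj hij =>
      (hdisj i hi j hj hij).mono Finset.inter_subset_right Finset.inter_subset_right)
  have h2 : ∀ z ∈ T, S (B ∩ gBox L (2 ^ k) z) ≤
      (b9_bin B (gBox L (2 ^ k) z)).card * (4 * κ + 8 * W * k) + W * 2 ^ (k + 1) := by
    intro z hz
    have hz' := gT_mem.1 (hTm z hz)
    have a1 := gE_side hs hz'.1
    have a2 := gE_side hs hz'.2
    exact part_win hW0 hκ hsub hc hcard k hrect (gE_le _) (gE_le _) a1.1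
      (by rw [pow_succ]; omega) a2.1 (by rw [pow_succ]; omega)
  have h3 : ∑ z ∈ T, S (B ∩ gBox L (2 ^ k) z) ≤
      ∑ z ∈ T, ((b9_bin B (gBox L (2 ^ k) z)).card * (4 * κ + 8 * W * k) + W * 2 ^ (k + 1)) :=
    Finset.sum_le_sum h2
  rw [Finset.sum_add_distrib, ← Finset.sum_mul, Finset.sum_const, nsmul_eq_mul] at h3
  have h4 : ∑ z ∈ T, (b9_bin B (gBox L (2 ^ k) z)).card ≤ bdry B :=
    (sum_bin T _ hdisj).trans (na_m_bin_le _)
  have h4' : (∑ z ∈ T, ((b9_bin B (gBox L (2 ^ k) z)).card : ℝ)) ≤ bdry B := by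
    exact_mod_cast h4
  have hmR : (T.card : ℝ) ≤ m := by exact_mod_cast hm
  have h5 := mul_le_mul_of_nonneg_right h4' (show 0 ≤ 4 * κ + 8 * W * k by positivity)
  have h6 := mul_le_mul_of_nonneg_right hmR (show 0 ≤ W * 2 ^ (k + 1) by positivity)
  linarith

end box

end Vale.Agent.P356.GA
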